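import Mathlib

/-!
# R312 / B7Euler : Euler products over the ideals of a number field, uniform prime sums
-/

set_option autoImplicit false

noncomputable section

open scoped Classical NumberField
open Filter Topology Finset

namespace Crest.Agent.R312

variable {K : Type} [Field K] [NumberField K]

variable (K) in
/-- the non-zero prime ideals -/
abbrev PI : Type := IsDedekindDomain.HeightOneSpectrum (𝓞 K)

/-- completely multiplicative functions on ideals -/
structure CMul (a : Ideal (𝓞 K) → ℂ) : Prop where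
  one : a 1 = 1
  zero : a 0 = 0
  mul : ∀ I J, a (I * J) = a I * a J

theorem b7_exists_dvd {I : Ideal (𝓞 K)} (h0 : I ≠ 0) (h1 : I ≠ 1) : ∃ P : PI K, P.asIdeal ∣ I := by
  obtain ⟨M, hM, hIM⟩ := Ideal.exists_le_maximal I (by simpa using h1)
  refine ⟨⟨M, hM.isPrime, ?_⟩, Ideal.dvd_iff_le.2 hIM⟩
  rintro rfl
  exact h0 (le_bot_iff.1 hIM)

theorem b7_dvd_iff {P Q : PI K} : Q.asIdeal ∣ P.asIdeal ↔ Q = P := by
  refine ⟨fun h => ?_, fun h => h ▸ dvd_rfl⟩
  exact IsDedekindDomain.HeightOneSpectrum.ext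
    (P.isMaximal.eq_of_le Q.isPrime.ne_top (Ideal.dvd_iff_le.1 h)).symm

theorem b7_two_le (P : PI K) : 2 ≤ Ideal.absNorm P.asIdeal :=
  NumberField.HeightOneSpectrum.one_lt_absNorm P

theorem b7_trunc {a : Ideal (𝓞 K) → ℂ} (ha : CMul a) (h : ∀ P : PI K, ‖a P.asIdeal‖ ≤ 1 / 2)
    (T : Finset (Ideal (𝓞 K))) (hT0 : ∀ I ∈ T, I ≠ 0) (hT : ∀ I J, I * J ∈ T → J ∈ T)
    (S : Finset (PI K)) :
    ∑ I ∈ T.filter (fun I => ∀ P : PI K, P.asIdeal ∣ I → P ∈ S), ‖a I‖ ≤
      Real.exp (2 * ∑ P ∈ S, ‖a P.asIdeal‖) := by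
  induction S using Finset.induction_on with
  | empty =>
    rw [sum_empty, mul_zero, Real.exp_zero]
    refine (sum_le_sum_of_subset_of_nonneg (t := {1}) ?_ fun _ _ _ => norm_nonneg _).trans ?_
    · intro I hI
      rw [mem_filter] at hI
      by_contra h1
      obtain ⟨P, hP⟩ := b7_exists_dvd (hT0 I hI.1) (by simpa using h1)
      simpa using hI.2 P hP
    · rw [sum_singleton, ha.one, norm_one]
  | insert P S hP ih =>
    set T' := T.filter (fun I => ∀ Q : PI K, Q.asIdeal ∣ I → Q ∈ insert P S) with hT'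
    have h1 : ∑ I ∈ T'.filter (fun I => ¬ P.asIdeal ∣ I), ‖a I‖ ≤
        Real.exp (2 * ∑ P ∈ S, ‖a P.asIdeal‖) := by
      refine le_trans (sum_le_sum_of_subset_of_nonneg ?_ fun _ _ _ => norm_nonneg _) ih
      intro I hI
      simp only [hT', mem_filter, mem_insert] at hI ⊢
      refine ⟨hI.1.1, fun Q hQ => (hI.1.2 Q hQ).resolve_left ?_⟩
      rintro rfl
      exact hI.2 hQ
    have h2 : ∑ I ∈ T'.filter (fun I => P.asIdeal ∣ I), ‖a I‖ ≤
        ‖a P.asIdeal‖ * ∑ I ∈ T', ‖a I‖ := by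
      refine le_trans (sum_le_sum_of_subset_of_nonneg (t := T'.image (P.asIdeal * ·)) ?_
        fun _ _ _ => norm_nonneg _) ?_
      · intro I hI
        obtain ⟨hI1, J, rfl⟩ := mem_filter.1 hI
        refine mem_image.2 ⟨J, ?_, rfl⟩
        simp only [hT', mem_filter] at hI1 ⊢
        exact ⟨hT _ _ hI1.1, fun Q hQ => hI1.2 Q (hQ.mul_left _)⟩
      · rw [sum_image fun I _ J _ hIJ => mul_left_cancel₀ P.ne_bot hIJ, mul_sum]
        exact sum_le_sum fun I _ => by rw [ha.mul, norm_mul]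
    have h3 := sum_filter_add_sum_filter_not T' (fun I => P.asIdeal ∣ I) fun I => ‖a I‖
    rw [sum_insert hP, mul_add, Real.exp_add]
    set x := ‖a P.asIdeal‖
    set t := ∑ I ∈ T', ‖a I‖
    set E := Real.exp (2 * ∑ P ∈ S, ‖a P.asIdeal‖)
    have hx0 : 0 ≤ x := norm_nonneg _
    have hx : x ≤ 1 / 2 := h P
    have ht : 0 ≤ t := sum_nonneg fun _ _ => norm_nonneg _
    have hE : 0 < E := Real.exp_pos _
    have h4 : (1 - x) * t ≤ E := by linarith
    have h5 : 2 * x + 1 ≤ Real.exp (2 * x) := Real.add_one_le_exp _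
    calc t ≤ (2 * x + 1) * ((1 - x) * t) := by
          have : 0 ≤ x * (1 - 2 * x) * t := mul_nonneg (mul_nonneg hx0 (by linarith)) ht
          nlinarith
      _ ≤ Real.exp (2 * x) * E := mul_le_mul h5 h4 (mul_nonneg (by linarith) ht) (by linarith)

theorem b7_sum_le {a : Ideal (𝓞 K) → ℂ} (ha : CMul a) (h : ∀ P : PI K, ‖a P.asIdeal‖ ≤ 1 / 2)
    (hs : Summable fun P : PI K => ‖a P.asIdeal‖) (u : Finset (Ideal (𝓞 K))) :
    ∑ I ∈ u, ‖a I‖ ≤ Real.exp (2 * ∑' P : PI K, ‖a P.asIdeal‖) := by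
  set X := u.sup Ideal.absNorm
  set T := (Ideal.finite_setOfPred_absNorm_le (S := 𝓞 K) X).toFinset.erase 0 with hT
  have hm : ∀ I, I ∈ T ↔ I ≠ 0 ∧ Ideal.absNorm I ≤ X := fun I => by simp [hT]
  have hfin : {P : PI K | P.asIdeal ∈ T}.Finite :=
    Set.Finite.preimage (f := fun P : PI K => P.asIdeal)
      (fun P _ Q _ h => IsDedekindDomain.HeightOneSpectrum.ext h) T.finite_toSet
  have hdiv : ∀ I J, I * J ∈ T → J ∈ T := by
    intro I J hIJ
    rw [hm] at hIJ ⊢
    refine ⟨right_ne_zero_of_mul hIJ.1, le_trans ?_ hIJ.2⟩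
    refine Nat.le_of_dvd (Nat.pos_of_ne_zero ?_) (map_dvd _ (dvd_mul_left _ _))
    rw [Ne, Ideal.absNorm_eq_zero_iff]
    exact hIJ.1
  have h1 := b7_trunc ha h T (fun I hI => ((hm I).1 hI).1) hdiv hfin.toFinset
  rw [filter_true_of_mem] at h1
  · calc ∑ I ∈ u, ‖a I‖ = ∑ I ∈ u.erase 0, ‖a I‖ := (sum_erase u (by rw [ha.zero, norm_zero])).symm
      _ ≤ ∑ I ∈ T, ‖a I‖ := by
        refine sum_le_sum_of_subset_of_nonneg (fun I hI => ?_) fun _ _ _ => norm_nonneg _
        rw [mem_erase] at hI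
        exact (hm I).2 ⟨hI.1, le_sup (f := Ideal.absNorm) hI.2⟩
      _ ≤ _ := by
        refine h1.trans (Real.exp_le_exp.2 ?_)
        have := hs.sum_le_tsum hfin.toFinset fun _ _ => norm_nonneg _
        linarith
  · rintro I hI P ⟨J, rfl⟩
    rw [mul_comm] at hI
    simpa using hdiv _ _ hI

/-- absolute convergence over ideals from absolute convergence over primes -/
theorem euler_summable {a : Ideal (𝓞 K) → ℂ} (ha : CMul a)
    (h : ∀ P : PI K, ‖a P.asIdeal‖ ≤ 1 / 2) (hs : Summable fun P : PI K => ‖a P.asIdeal‖) :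
    Summable fun I => ‖a I‖ :=
  summable_of_sum_le (fun _ => norm_nonneg _) (b7_sum_le ha h hs)

theorem euler_tsum_norm_le {a : Ideal (𝓞 K) → ℂ} (ha : CMul a)
    (h : ∀ P : PI K, ‖a P.asIdeal‖ ≤ 1 / 2) (hs : Summable fun P : PI K => ‖a P.asIdeal‖) :
    ∑' I, ‖a I‖ ≤ Real.exp (2 * ∑' P : PI K, ‖a P.asIdeal‖) :=
  (euler_summable ha h hs).tsum_le_of_sum_le (b7_sum_le ha h hs)

/-- removing finitely many Euler factors -/
theorem euler_sieve {a : Ideal (𝓞 K) → ℂ} (ha : CMul a) (hs : Summable fun I => ‖a I‖)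
    (S : Finset (PI K)) :
    (∏ P ∈ S, (1 - a P.asIdeal)) * ∑' I, a I =
      ∑' I, if ∀ P ∈ S, ¬ P.asIdeal ∣ I then a I else 0 := by
  have hsum : ∀ (p : Ideal (𝓞 K) → Prop) [DecidablePred p],
      Summable fun I => if p I then a I else 0 := fun p _ =>
    Summable.of_norm_bounded hs fun I => by split_ifs <;> simp
  induction S using Finset.induction_on with
  | empty => simp
  | insert P S hP ih =>
    rw [prod_insert hP, mul_assoc, ih, sub_mul, one_mul, sub_eq_iff_eq_add]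
    have h1 : a P.asIdeal * ∑' I, (if ∀ Q ∈ S, ¬ Q.asIdeal ∣ I then a I else 0) =
        ∑' I, if (∀ Q ∈ S, ¬ Q.asIdeal ∣ I) ∧ P.asIdeal ∣ I then a I else 0 := by
      rw [← tsum_mul_left]
      symm
      rw [← Function.Injective.tsum_eq (g := fun J => P.asIdeal * J)
        (fun I J hIJ => mul_left_cancel₀ P.ne_bot hIJ)]
      · refine tsum_congr fun J => ?_
        have : (∀ Q ∈ S, ¬ Q.asIdeal ∣ P.asIdeal * J) ↔ ∀ Q ∈ S, ¬ Q.asIdeal ∣ J := by
          refine forall₂_congr fun Q hQ => not_congr ?_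
          rw [Q.prime.dvd_mul, b7_dvd_iff]
          exact or_iff_right fun h => hP (h ▸ hQ)
        simp only [this, dvd_mul_right, and_true, ha.mul]
        split_ifs <;> simp
      · intro I hI
        rw [Function.mem_support] at hI
        by_contra hc
        exact hI (if_neg fun h => hc (h.2.imp fun J hJ => hJ.symm))
    rw [h1, ← (hsum _).tsum_add (hsum _)]
    refine tsum_congr fun I => ?_
    simp only [forall_mem_insert]
    by_cases h1 : ∀ Q ∈ S, ¬ Q.asIdeal ∣ I <;> by_cases h2 : P.asIdeal ∣ I <;> simp [h1, h2]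

theorem b7_norm_log {z : ℂ} (hz : ‖z‖ ≤ 1 / 2) : ‖Complex.log (1 - z)‖ ≤ 3 / 2 * ‖z‖ := by
  have := Complex.norm_log_one_add_half_le_self (z := -z) (by rwa [norm_neg])
  rwa [norm_neg, ← sub_eq_add_neg] at this

theorem b7_slit {z : ℂ} (hz : ‖z‖ ≤ 1 / 2) : 1 - z ∈ Complex.slitPlane := by
  rw [sub_eq_add_neg]
  exact Complex.mem_slitPlane_of_norm_lt_one (by rw [norm_neg]; linarith)

/-- **Euler product** in exponential form -/
theorem euler_exp {a : Ideal (𝓞 K) → ℂ} (ha : CMul a)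
    (h : ∀ P : PI K, ‖a P.asIdeal‖ ≤ 1 / 2) (hs : Summable fun P : PI K => ‖a P.asIdeal‖) :
    Complex.exp (∑' P : PI K, Complex.log (1 - a P.asIdeal)) * ∑' I, a I = 1 := by
  have hI := euler_summable ha h hs
  have hl : Summable fun P : PI K => Complex.log (1 - a P.asIdeal) :=
    Summable.of_norm_bounded (hs.mul_left (3 / 2)) fun P => b7_norm_log (h P)
  have h1 : Tendsto (fun S : Finset (PI K) => (∏ P ∈ S, (1 - a P.asIdeal)) * ∑' I, a I) atTop
      (𝓝 (Complex.exp (∑' P : PI K, Complex.log (1 - a P.asIdeal)) * ∑' I, a I)) := by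
    refine Tendsto.mul_const _ ?_
    refine ((Complex.continuous_exp.tendsto _).comp hl.hasSum).congr fun S => ?_
    rw [Function.comp_apply, Complex.exp_sum]
    exact prod_congr rfl fun P _ => Complex.exp_log (Complex.slitPlane_ne_zero (b7_slit (h P)))
  have h2 : Tendsto (fun S : Finset (PI K) =>
      ∑' I, if ∀ P ∈ S, ¬ P.asIdeal ∣ I then a I else 0) atTop
      (𝓝 (∑' I : Ideal (𝓞 K), if I = 1 then (1 : ℂ) else 0)) := by
    refine tendsto_tsum_of_dominated_convergence hI (fun I => ?_)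
      (Eventually.of_forall fun S I => by split_ifs <;> simp)
    by_cases h1 : I = 1
    · subst h1
      refine tendsto_const_nhds.congr fun S => ?_
      rw [if_pos rfl, if_pos, ha.one]
      exact fun P _ hP => P.prime.not_isUnit (isUnit_of_dvd_one hP)
    rw [if_neg h1]
    by_cases h0 : I = 0
    · subst h0
      refine tendsto_const_nhds.congr fun S => ?_
      rw [ha.zero, ite_self]
    obtain ⟨P, hP⟩ := b7_exists_dvd h0 h1
    refine tendsto_const_nhds.congr' ?_
    filter_upwards [eventually_ge_atTop {P}] with S hS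
    rw [if_neg fun h => h P (hS (mem_singleton_self P)) hP]
  rw [tsum_ite_eq] at h2
  simp only [euler_sieve ha hI] at h1
  exact tendsto_nhds_unique h1 h2

/-! ## Sums over primes, uniformly in the field -/

/-- the rational prime below `P` -/
def lp (P : PI K) : ℕ := (Ideal.absNorm P.asIdeal).minFac

theorem lp_spec (P : PI K) : (lp P).Prime ∧ ((lp P : ℕ) : 𝓞 K) ∈ P.asIdeal ∧
    ∃ i, 0 < i ∧ Ideal.absNorm P.asIdeal = lp P ^ i := by
  have := P.isMaximal
  obtain ⟨p, i, hi, h1, hp, h2⟩ := Ideal.exists_prime_and_absNorm_eq_pow P.asIdeal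
  have : lp P = p := by rw [lp, h2, hp.pow_minFac hi.ne']
  rw [this]
  exact ⟨hp, h1, i, hi, h2⟩

theorem lp_le (P : PI K) : lp P ≤ Ideal.absNorm P.asIdeal :=
  Nat.minFac_le (by have := b7_two_le P; omega)

theorem lp_sq_le {P : PI K} (h : ¬ (Ideal.absNorm P.asIdeal).Prime) :
    lp P ^ 2 ≤ Ideal.absNorm P.asIdeal :=
  Nat.minFac_sq_le_self (by have := b7_two_le P; omega) h

set_option linter.deprecated false in
theorem card_lp_le (l : ℕ) (u : Finset (PI K)) :
    (u.filter fun P => lp P = l).card ≤ Module.finrank ℚ K := by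
  by_cases hl : l.Prime
  swap
  · rw [filter_false_of_mem, card_empty]
    · exact Nat.zero_le _
    · intro P _ h
      exact hl (h ▸ (lp_spec P).1)
  have hp : Prime (l : ℤ) := Nat.prime_iff_prime_int.1 hl
  have hne : Ideal.span {(l : ℤ)} ≠ ⊥ := by simpa using hl.ne_zero
  have : (Ideal.span {(l : ℤ)}).IsMaximal :=
    ((Ideal.span_singleton_prime hp.ne_zero).2 hp).isMaximal hne
  refine le_trans ?_ (Ideal.card_primesOverFinset_le_finrank (𝓞 K) ℚ K hne)
  refine card_le_card_of_injOn (fun P => P.asIdeal) (fun P hP => ?_)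
    fun P _ Q _ h => IsDedekindDomain.HeightOneSpectrum.ext h
  have hP' : lp P = l := (mem_filter.1 (mem_coe.1 hP)).2
  rw [mem_coe, IsDedekindDomain.mem_primesOverFinset_iff hne]
  refine ⟨P.isPrime, (Ideal.liesOver_span_iff P.isPrime.ne_top hp).2 ?_⟩
  simpa [hP'] using (lp_spec P).2.1

theorem b7_sum_lp_le {F : ℕ → ℝ} (h0 : ∀ m, 0 ≤ F m) (hF : Summable F) (u : Finset (PI K)) :
    ∑ P ∈ u, F (lp P) ≤ Module.finrank ℚ K * ∑' m, F m := by
  rw [← sum_fiberwise_of_maps_to (g := lp) (t := u.image lp) fun P hP => mem_image_of_mem _ hP]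
  calc ∑ l ∈ u.image lp, ∑ P ∈ u with lp P = l, F (lp P)
      ≤ ∑ l ∈ u.image lp, Module.finrank ℚ K * F l := by
        refine sum_le_sum fun l _ => ?_
        rw [sum_congr rfl (g := fun _ => F l) fun P hP => by rw [(mem_filter.1 hP).2],
          sum_const, nsmul_eq_mul]
        exact mul_le_mul_of_nonneg_right (by exact_mod_cast card_lp_le l u) (h0 l)
    _ ≤ _ := by
        rw [← mul_sum]
        exact mul_le_mul_of_nonneg_left (hF.sum_le_tsum _ fun _ _ => h0 _) (Nat.cast_nonneg _)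

theorem summable_lp {F : ℕ → ℝ} (h0 : ∀ m, 0 ≤ F m) (hF : Summable F) :
    Summable fun P : PI K => F (lp P) :=
  summable_of_sum_le (fun _ => h0 _) (b7_sum_lp_le h0 hF)

theorem tsum_lp_le {F : ℕ → ℝ} (h0 : ∀ m, 0 ≤ F m) (hF : Summable F) :
    ∑' P : PI K, F (lp P) ≤ Module.finrank ℚ K * ∑' m, F m :=
  (summable_lp h0 hF).tsum_le_of_sum_le (b7_sum_lp_le h0 hF)

end Crest.Agent.R312
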