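import Mathlib

/-!
# R312 / B7Cx : complex analysis for the least prime: logarithmic derivatives, three circles
-/

set_option autoImplicit false

noncomputable section

open Complex Metric Set

namespace Crest.Agent.R312

/-- Cauchy estimate for the derivative from a bound on a bigger ball. -/
theorem norm_deriv_le_of_ball {f : ℂ → ℂ} {c z : ℂ} {R r δ B : ℝ} (hf : DifferentiableOn ℂ f (ball c R))
    (hδ : 0 < δ) (hr : r + δ < R) (hz : ‖z - c‖ ≤ r) (hB : ∀ w, ‖w - c‖ ≤ r + δ → ‖f w‖ ≤ B) :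
    ‖deriv f z‖ ≤ B / δ := by
  have hw : ∀ w ∈ closedBall z δ, ‖w - c‖ ≤ r + δ := fun w hw => by
    have h1 : ‖w - z‖ ≤ δ := by simpa [dist_eq_norm] using hw
    have := norm_add_le (w - z) (z - c)
    rw [sub_add_sub_cancel] at this
    linarith
  refine norm_deriv_le_of_forall_mem_sphere_norm_le hδ (hf.diffContOnCl_ball fun w h => ?_)
    fun w h => hB w (hw w (sphere_subset_closedBall h))
  rw [mem_ball, dist_eq_norm]
  exact (hw w h).trans_lt hr

theorem differentiableOn_logDeriv {f : ℂ → ℂ} {U : Set ℂ} (hU : IsOpen U)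
    (hf : DifferentiableOn ℂ f U) (h0 : ∀ z ∈ U, f z ≠ 0) : DifferentiableOn ℂ (logDeriv f) U :=
  (hf.deriv hU).div hf h0

/-- **Logarithmic derivative in a zero-free disc** (Borel–Carathéodory + Cauchy). -/
theorem norm_logDeriv_le {f : ℂ → ℂ} {c z : ℂ} {R r M : ℝ} (hf : DifferentiableOn ℂ f (ball c R))
    (h0 : ∀ z ∈ ball c R, f z ≠ 0) (hM : 0 < M)
    (hb : ∀ z ∈ ball c R, ‖f z‖ ≤ ‖f c‖ * Real.exp M) (hr : r < R) (hz : ‖z - c‖ ≤ r) :
    ‖logDeriv f z‖ ≤ 8 * R / (R - r) ^ 2 * M := by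
  have hr0 : 0 ≤ r := (norm_nonneg _).trans hz
  have hR : 0 < R := hr0.trans_lt hr
  obtain ⟨h, hc, hh⟩ :=
    ((differentiableOn_logDeriv isOpen_ball hf h0).isExactOn_ball).with_val_at c 0
  have hd : DifferentiableOn ℂ h (ball c R) := fun w hw =>
    (hh w hw).differentiableAt.differentiableWithinAt
  have hconst : ∀ w ∈ ball c R, f w * exp (-h w) = f c := by
    intro w hw
    have hder : ∀ w ∈ ball c R, HasDerivAt (fun w => f w * exp (-h w)) 0 w := by
      intro w hw
      have h1 := ((hf w hw).differentiableAt (isOpen_ball.mem_nhds hw)).hasDerivAt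
      have h2 := h1.mul (hh w hw).neg.cexp
      refine h2.congr_deriv ?_
      rw [logDeriv_apply]
      field_simp [h0 w hw]
      simp
    have := isOpen_ball.is_const_of_deriv_eq_zero (convex_ball c R).isPreconnected
      (fun w hw => (hder w hw).differentiableAt.differentiableWithinAt)
      (fun w hw => (hder w hw).deriv) hw (mem_ball_self hR)
    simpa [hc] using this
  have hre : ∀ w ∈ ball c R, (h w).re ≤ M := by
    intro w hw
    have h1 : ‖f w‖ * Real.exp (-(h w).re) = ‖f c‖ := by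
      rw [← hconst w hw, norm_mul, norm_exp, neg_re]
    have h2 : 0 < ‖f c‖ := norm_pos_iff.2 (h0 c (mem_ball_self hR))
    have h3 : ‖f c‖ * 1 ≤ ‖f c‖ * Real.exp (M - (h w).re) := by
      rw [mul_one, sub_eq_add_neg, Real.exp_add, ← mul_assoc]
      conv_lhs => rw [← h1]
      exact mul_le_mul_of_nonneg_right (hb w hw) (Real.exp_pos _).le
    have := Real.one_le_exp_iff.1 (le_of_mul_le_mul_left h3 h2)
    linarith
  have hmem : ∀ u ∈ ball (0 : ℂ) R, c + u ∈ ball c R := fun u hu => by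
    simpa [dist_eq_norm] using hu
  set δ := (R - r) / 2 with hδ
  have hδ0 : 0 < δ := by rw [hδ]; linarith
  have hbd : ∀ w, ‖w - c‖ ≤ r + δ → ‖h w‖ ≤ 2 * M * R / δ := by
    intro w hw
    have hwR : ‖w - c‖ < R := by rw [hδ] at hw; linarith
    have := borelCaratheodory_zero (f := fun u => h (c + u)) (z := w - c) hM
      (hd.comp (by fun_prop) hmem) (fun u hu => hre _ (hmem u hu)) hR
      (by simpa using hwR) (by simpa using hc)
    simp only [add_sub_cancel] at this
    refine this.trans (div_le_div₀ (by positivity) ?_ hδ0 (by rw [hδ] at hw ⊢; linarith))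
    exact mul_le_mul_of_nonneg_left hwR.le (by positivity)
  have h1 := norm_deriv_le_of_ball hd hδ0 (by rw [hδ]; linarith) hz hbd
  rw [(hh z (by rw [mem_ball, dist_eq_norm]; exact hz.trans_lt hr)).deriv] at h1
  refine h1.trans (le_of_eq ?_)
  have : R - r ≠ 0 := by linarith
  rw [hδ]; field_simp; ring

/-- A three-circles inequality. -/
theorem three_circ {W : ℂ → ℂ} {a b : ℝ} (hW : DifferentiableOn ℂ W (ball 2 (13 / 12)))
    (ha : ∀ z, ‖z - 2‖ = 1 / 4 → ‖W z‖ ≤ a) (hb : ∀ z, ‖z - 2‖ = 25 / 24 → ‖W z‖ ≤ b)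
    (h1 : 1 ≤ ‖W 1‖) (hb1 : 1 ≤ b) : 1 ≤ 4 * a * b ^ 34 := by
  have hex : ∃ k : ℕ, b < (25 / 24 : ℝ) ^ k := pow_unbounded_of_one_lt b (by norm_num)
  classical
  obtain ⟨k, hk⟩ : ∃ k, Nat.find hex = k + 1 := by
    refine Nat.exists_eq_succ_of_ne_zero fun h => ?_
    have := Nat.find_spec hex
    rw [h, pow_zero] at this
    linarith
  have hk1 : b < (25 / 24 : ℝ) ^ (k + 1) := hk ▸ Nat.find_spec hex
  have hk2 : (25 / 24 : ℝ) ^ k ≤ b := not_lt.1 (Nat.find_min hex (by omega))
  set U : Set ℂ := {z | 1 / 4 < ‖z - 2‖ ∧ ‖z - 2‖ < 25 / 24} with hU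
  have hcn : Continuous fun z : ℂ => ‖z - 2‖ := by fun_prop
  have hUo : IsOpen U := (isOpen_lt continuous_const hcn).inter (isOpen_lt hcn continuous_const)
  have hcl : closure U ⊆ {z | 1 / 4 ≤ ‖z - 2‖ ∧ ‖z - 2‖ ≤ 25 / 24} :=
    closure_minimal (fun z hz => ⟨hz.1.le, hz.2.le⟩)
      ((isClosed_le continuous_const hcn).inter (isClosed_le hcn continuous_const))
  have hd : DifferentiableOn ℂ (fun z => W z / (z - 2) ^ (k + 1)) (closure U) := by
    refine (hW.mono fun z hz => ?_).div (by fun_prop) fun z hz => pow_ne_zero _ ?_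
    · rw [mem_ball, dist_eq_norm]; linarith [(hcl hz).2]
    · rw [← norm_pos_iff]; linarith [(hcl hz).1]
  have hmax := norm_le_of_forall_mem_frontier_norm_le (U := U)
    (f := fun z => W z / (z - 2) ^ (k + 1))
    ((isBounded_ball (x := (2 : ℂ)) (r := 25 / 24)).subset fun z hz => by
      rw [mem_ball, dist_eq_norm]; exact hz.2)
    hd.diffContOnCl (C := max (a * 4 ^ (k + 1)) (b / (25 / 24) ^ (k + 1))) (z := 1) ?_
    (subset_closure (by rw [hU]; norm_num))
  · have h2 : 1 ≤ ‖W 1 / (1 - 2) ^ (k + 1)‖ := by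
      rw [norm_div, norm_pow]; norm_num; exact h1
    have h3 : b / (25 / 24) ^ (k + 1) < 1 := (div_lt_one (by positivity)).2 hk1
    have h4 : 1 ≤ a * 4 ^ (k + 1) := by
      rcases le_max_iff.1 (h2.trans hmax) with h | h
      · exact h
      · linarith
    have ha0 : 0 ≤ a := by
      by_contra h
      have : a * 4 ^ (k + 1) < 0 := mul_neg_of_neg_of_pos (not_le.1 h) (by positivity)
      linarith
    have h5 : (4 : ℝ) ^ k ≤ b ^ 34 := by
      calc (4 : ℝ) ^ k ≤ ((25 / 24) ^ 34) ^ k := pow_le_pow_left₀ (by norm_num) (by norm_num) k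
        _ = ((25 / 24) ^ k) ^ 34 := by rw [← pow_mul, ← pow_mul, mul_comm]
        _ ≤ b ^ 34 := pow_le_pow_left₀ (by positivity) hk2 34
    calc 1 ≤ a * 4 ^ (k + 1) := h4
      _ = 4 * a * 4 ^ k := by ring
      _ ≤ _ := mul_le_mul_of_nonneg_left h5 (by positivity)
  · intro z hz
    rw [hUo.frontier_eq] at hz
    have h2 := hcl hz.1
    have h3 : ‖z - 2‖ = 1 / 4 ∨ ‖z - 2‖ = 25 / 24 := by
      by_contra hc
      push Not at hc
      exact hz.2 ⟨lt_of_le_of_ne h2.1 (Ne.symm hc.1), lt_of_le_of_ne h2.2 hc.2⟩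
    rw [norm_div, norm_pow]
    rcases h3 with h | h <;> rw [h]
    · refine le_max_of_le_left ?_
      rw [div_pow, one_pow, div_div_eq_mul_div, div_one]
      exact mul_le_mul_of_nonneg_right (ha z h) (by positivity)
    · exact le_max_of_le_right (div_le_div_of_nonneg_right (hb z h) (by positivity))

end Crest.Agent.R312
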