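import Crest.Agent.R312.B1Hex

/-!
# R312 / B1Gauss : `dt` is the additive cubic residue symbol (Gauss' lemma)
-/

set_option autoImplicit false

noncomputable section

open scoped Classical

namespace Crest.Agent.R312.B1

variable {k : Type} [CommRing k] [Cu k] {A P : Type} [CommRing A] [Algebra k A]
  [CommRing P] [Algebra k P]

theorem dt_unit {a : P} (ha : IsUnit a) (b : P) : dt k a b = 0 := by
  refine Dt_eq_zero fun x => mem_N1.2 ha.dvd

theorem dt_congr_one {a b : P} (h : a ∣ b - 1) : dt k a b = 0 := by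
  refine Dt_eq_zero fun x => mem_N1.2 ?_
  change a ∣ b * x - x
  rw [← sub_one_mul]
  exact h.mul_right x

omit [Cu k] in
theorem bg_hu {a b : P} (hb : IsCoprime a b) (x : P) :
    Algebra.lmul k P b x ∈ N1 k a ↔ x ∈ N1 k a := by
  rw [mem_N1, mem_N1]
  exact ⟨fun e => hb.dvd_of_dvd_mul_left e, fun e => e.mul_left b⟩

/-- `Dt_mul` -/
theorem dt_mul_right {a b b' : P} [Finite (P ⧸ N1 k a)] (hb : IsCoprime a b) (hb' : IsCoprime a b') :
    dt k a (b * b') = dt k a b + dt k a b' := by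
  rw [dt, map_mul]
  exact Dt_mul (bg_hu hb) (bg_hu hb')

/-- `dt (a a') b = T b (a a') + dt b (a a')` (`T_cop`), `T_mul_right`, `dt_mul_right`
(`Pres.finite`, `N2_zero`) -/
theorem dt_mul_left {π : P →ₐ[k] A} (hπ : Pres π 0) {a a' b : P} (ha : IsUnit (π a))
    (ha' : IsUnit (π a')) (hb : IsUnit (π b)) (h : IsCoprime a b) (h' : IsCoprime a' b) :
    dt k (a * a') b = dt k a b + dt k a' b := by
  have fb : Finite (P ⧸ N1 k b) := N2_zero (k := k) b ▸ hπ.finite hb
  have haa : IsUnit (π (a * a')) := by rw [map_mul]; exact ha.mul ha'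
  have e1 := T_cop hπ hb haa (IsCoprime.mul_left h h').symm
  have e2 := T_cop hπ hb ha h.symm
  have e3 := T_cop hπ hb ha' h'.symm
  rw [map_mul, T_mul_right hb ha ha', dt_mul_right h.symm h'.symm, e2, e3] at e1
  linear_combination -e1

theorem bg_pow_add {F : Type} [Monoid F] {w : F} (hw : w ^ 3 = 1) (i j : ZMod 3) :
    w ^ (i + j).val = w ^ i.val * w ^ j.val := by
  rw [ZMod.val_add, ← pow_add, ← pow_eq_pow_mod _ hw]

theorem bg_pow_sum {F ι : Type} [CommMonoid F] {w : F} (hw : w ^ 3 = 1) (S : Finset ι)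
    (f : ι → ZMod 3) : w ^ (∑ i ∈ S, f i).val = ∏ i ∈ S, w ^ (f i).val := by
  induction S using Finset.induction_on with
  | empty => simp
  | insert a S ha ih => rw [Finset.sum_insert ha, Finset.prod_insert ha, bg_pow_add hw, ih]

theorem bg_abs {F : Type} [CommRing F] [IsDomain F] [Fintype F] {w : F} (hw : w ^ 3 = 1)
    {γ : F → ZMod 3} (hγ : ∀ q, q ≠ 0 → γ (w * q) = γ q + 1) {b : F} (hb : b ≠ 0) :
    b ^ ((Nat.card F - 1) / 3) =
      w ^ (∑ q ∈ Finset.univ.filter (fun q => q ≠ 0 ∧ γ q = 0), γ (b * q)).val := by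
  have hw0 : w ≠ 0 := by
    rintro rfl
    simp at hw
  have h1 : ∀ (n : ℕ) q, q ≠ 0 → γ (w ^ n * q) = γ q + n := by
    intro n q hq
    induction n with
    | zero => simp
    | succ n ih =>
      rw [pow_succ', mul_assoc, hγ _ (mul_ne_zero (pow_ne_zero _ hw0) hq), ih]
      push_cast
      ring
  have h2 : ∀ (j : ZMod 3) q, q ≠ 0 → γ (w ^ j.val * q) = γ q + j := fun j q hq => by
    rw [h1 _ _ hq, ZMod.natCast_zmod_val]
  have h3 : ∀ j : ZMod 3, w ^ j.val * w ^ (-j).val = 1 := fun j => by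
    rw [← bg_pow_add hw, add_neg_cancel, ZMod.val_zero, pow_zero]
  set S := Finset.univ.filter (fun q => q ≠ 0 ∧ γ q = 0) with hS
  have mS : ∀ q, q ∈ S ↔ q ≠ 0 ∧ γ q = 0 := fun q => by simp [hS]
  have h4 : ∀ x, x ≠ 0 → w ^ (-γ x).val * x ∈ S := fun x hx =>
    (mS _).2 ⟨mul_ne_zero (pow_ne_zero _ hw0) hx, by rw [h2 _ _ hx, add_neg_cancel]⟩
  have hcard : (S ×ˢ (Finset.univ : Finset (ZMod 3))).card = (Finset.univ.erase (0 : F)).card := by
    refine Finset.card_nbij' (fun x => w ^ x.2.val * x.1) (fun x => (w ^ (-γ x).val * x, γ x))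
      ?_ ?_ ?_ ?_
    · rintro ⟨q, j⟩ hx
      have := (mS q).1 (Finset.mem_product.1 (Finset.mem_coe.1 hx)).1
      exact Finset.mem_coe.2 (Finset.mem_erase.2
        ⟨mul_ne_zero (pow_ne_zero _ hw0) this.1, Finset.mem_univ _⟩)
    · intro x hx
      exact Finset.mem_coe.2 (Finset.mem_product.2
        ⟨h4 x (Finset.mem_erase.1 (Finset.mem_coe.1 hx)).1, Finset.mem_univ _⟩)
    · rintro ⟨q, j⟩ hx
      have := (mS q).1 (Finset.mem_product.1 (Finset.mem_coe.1 hx)).1
      simp only [h2 _ _ this.1, this.2, zero_add]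
      rw [← mul_assoc, mul_comm (w ^ (-j).val), h3, one_mul]
    · intro x _
      simp only
      rw [← mul_assoc, h3, one_mul]
  rw [Finset.card_product, Finset.card_univ, ZMod.card, Finset.card_erase_of_mem (Finset.mem_univ _),
    Finset.card_univ, ← Nat.card_eq_fintype_card] at hcard
  rw [← hcard, Nat.mul_div_cancel _ (by norm_num), bg_pow_sum hw]
  have hinj : Set.InjOn (fun q => w ^ (-γ (b * q)).val * (b * q)) S := by
    intro q hq q' hq' e
    have a1 := (mS q).1 hq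
    have a2 := (mS q').1 hq'
    have e1 : w ^ (-γ (b * q)).val * q = w ^ (-γ (b * q')).val * q' :=
      mul_left_cancel₀ hb (by simp only at e; linear_combination e)
    have e2 := congrArg γ e1
    rw [h2 _ _ a1.1, h2 _ _ a2.1, a1.2, a2.2, zero_add, zero_add] at e2
    rw [e2] at e1
    exact mul_left_cancel₀ (pow_ne_zero _ hw0) e1
  have himg : S.image (fun q => w ^ (-γ (b * q)).val * (b * q)) = S := by
    refine Finset.eq_of_subset_of_card_le (fun x hx => ?_) (Finset.card_image_of_injOn hinj).ge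
    obtain ⟨q, hq, rfl⟩ := Finset.mem_image.1 hx
    exact h4 _ (mul_ne_zero hb ((mS q).1 hq).1)
  have h5 : ∏ q ∈ S, w ^ (-γ (b * q)).val * (b * q) = ∏ q ∈ S, q := by
    conv_rhs => rw [← himg]
    rw [Finset.prod_image hinj]
  have h6 : ∏ q ∈ S, q ≠ 0 := Finset.prod_ne_zero_iff.2 fun q hq => ((mS q).1 hq).1
  refine mul_right_cancel₀ h6 ?_
  conv_rhs => rw [← h5]
  rw [← Finset.prod_mul_distrib, ← Finset.prod_const, ← Finset.prod_mul_distrib]
  refine Finset.prod_congr rfl fun q _ => ?_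
  rw [← mul_assoc, h3, one_mul]

/-- **Gauss' lemma.**  Let `γ` be the gauge modulo `p`, `S = {q ≠ 0 : γ q = 0}`; `#S = (#(P/p) - 1)/3`
(`(q, j) ↦ ω^j q` is a bijection `S × {0,1,2} → P/p ∖ 0`).  `ρ q = ω^{-γ(bq)} b q` is a permutation of
`S`, so `∏_S b q = ω^{∑ γ(b q)} ∏_S q` in the finite domain `P/p`; `Ig_eq_sum` identifies the exponent. -/
theorem dt_gauss {p b : P} (hp : Prime p) [Finite (P ⧸ Ideal.span {p})] (hb : ¬ p ∣ b) :
    p ∣ b ^ ((Nat.card (P ⧸ Ideal.span {p}) - 1) / 3) - algebraMap k P Cu.om ^ (dt k p b).val := by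
  have hpr : (Ideal.span {p}).IsPrime := (Ideal.span_singleton_prime hp.ne_zero).2 hp
  have hd : IsDomain (P ⧸ Ideal.span {p}) := Ideal.Quotient.isDomain _
  have hF : Fintype (P ⧸ Ideal.span {p}) := Fintype.ofFinite _
  letI hF' : Fintype (P ⧸ N1 k p) := hF
  have hγ := gauge_spec (N1 k p)
  have hu : ∀ x, Algebra.lmul k P b x ∈ N1 k p ↔ x ∈ N1 k p := fun x => by
    rw [mem_N1, mem_N1]
    exact ⟨fun e => (hp.dvd_or_dvd e).resolve_left hb, fun e => e.mul_left b⟩
  have h0 : ∀ x : P, Ideal.Quotient.mk (Ideal.span {p}) x = 0 ↔ p ∣ x := fun x => by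
    rw [Ideal.Quotient.eq_zero_iff_mem, Ideal.mem_span_singleton]
  let γ : (P ⧸ Ideal.span {p}) → ZMod 3 := fun q => gauge (N1 k p) q.out
  have h1 : ∀ x, γ (Ideal.Quotient.mk _ x) = gauge (N1 k p) x := fun x => hγ.prd.out x
  have h2 : ∀ q : P ⧸ Ideal.span {p}, q.out ∈ N1 k p ↔ q = 0 := fun q => by
    rw [mem_N1, ← h0, Ideal.Quotient.mk_out]
  have h3 : ∀ (c : P) q, γ (Ideal.Quotient.mk _ c * q) = gauge (N1 k p) (c * q.out) := fun c q => by
    rw [← h1, map_mul, Ideal.Quotient.mk_out]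
  have key := bg_abs (w := Ideal.Quotient.mk (Ideal.span {p}) (algebraMap k P Cu.om))
    (by rw [← map_pow, ← map_pow, om_cube, map_one, map_one]) (γ := γ)
    (fun q hq => by
      rw [h3, ← Algebra.smul_def]
      exact hγ.om _ fun e => hq ((h2 q).1 e))
    (b := Ideal.Quotient.mk _ b) (fun e => hb ((h0 b).1 e))
  have e : dt k p b = ∑ q ∈ Finset.univ.filter (fun q => q ≠ 0 ∧ γ q = 0),
      γ (Ideal.Quotient.mk _ b * q) := by
    rw [dt, Dt, Ig_eq_sum (b2_adm (hγ.comp hu) hγ) hγ, Finset.sum_filter, Finset.sum_filter]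
    refine Finset.sum_congr rfl fun (q : P ⧸ Ideal.span {p}) _ => ?_
    rw [h3]
    change (if γ q = 0 then (1 - ind (N1 k p) q.out) * (gauge (N1 k p) (b * q.out) - γ q) else 0) = _
    by_cases a1 : γ q = 0
    · by_cases a2 : q = 0
      · rw [if_pos a1, if_neg (fun h => h.1 a2), ind, if_pos ((h2 q).2 a2), sub_self, zero_mul]
      · rw [if_pos a1, if_pos ⟨a2, a1⟩, ind, if_neg (fun h => a2 ((h2 q).1 h)), a1, sub_zero, sub_zero,
          one_mul]
    · rw [if_neg a1, if_neg (fun h => a1 h.2)]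
  rw [← h0, map_sub, map_pow, map_pow, key, e, sub_self]

/-- Abstract form of "the Jacobi symbol is `ω ^ dt`": a symbol `s a b` that is multiplicative in `a` and
given by Euler's criterion at primes.  Induction on the factorisation of `a`. -/
theorem symbol_eq [IsDomain P] [IsPrincipalIdealRing P] {π : P →ₐ[k] A} (hπ : Pres π 0)
    (hu : ∀ a, a ≠ 0 → IsUnit (π a)) (hfin : ∀ a : P, a ≠ 0 → Finite (P ⧸ Ideal.span {a}))
    (s : P → P → ℂ) (w : ℂ) (hw : w ^ 3 = 1) (s1 : ∀ u b, IsUnit u → s u b = 1)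
    (smul : ∀ a a' b, a ≠ 0 → a' ≠ 0 → s (a * a') b = s a b * s a' b)
    (sp : ∀ (p b : P) (j : ℕ), Prime p →
      p ∣ b ^ ((Nat.card (P ⧸ Ideal.span {p}) - 1) / 3) - algebraMap k P Cu.om ^ j → s p b = w ^ j)
    {a b : P} (ha : a ≠ 0) (hb : b ≠ 0) (hab : IsCoprime a b) : s a b = w ^ (dt k a b).val := by
  induction a using UniqueFactorizationMonoid.induction_on_prime with
  | h₁ => exact absurd rfl ha
  | h₂ u h => rw [s1 u b h, dt_unit h, ZMod.val_zero, pow_zero]
  | h₃ a p ha0 hp ih =>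
    have := hfin p hp.ne_zero
    have h1 : IsCoprime p b := hab.of_mul_left_left
    have h2 : IsCoprime a b := hab.of_mul_left_right
    rw [smul p a b hp.ne_zero ha0, ih ha0 h2,
      dt_mul_left hπ (hu p hp.ne_zero) (hu a ha0) (hu b hb) h1 h2, bg_pow_add hw,
      sp p b _ hp (dt_gauss (k := k) hp fun h => hp.not_unit (h1.isUnit_of_dvd h))]

end Crest.Agent.R312.B1
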