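import Crest.Agent.R312.B1Top
import Crest.Agent.R312.B1Gauss
import Crest.Agent.R17.RecKub

/-!
# R312 / B1Sym : `T_F` is locally constant (cubic reciprocity over `ℤ[ω]` with supplements)
-/

set_option autoImplicit false

noncomputable section

open scoped Classical NumberField Topology
open Filter
open Crest.Agent.R17 (O omC)

namespace Crest.Agent.R312.B1

variable {K : Type} [Field K] [NumberField K] [Fld K] [Loc K]

/-- `io` with values in `F` -/
def ioF (K : Type) [Field K] [NumberField K] [Fld K] [Loc K] (a : O) : FF K := ((io K a : kk K) : FF K)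

theorem b1sym_ne {a : O} (ha : a ≠ 0) : ioF K a ≠ 0 := fun h =>
  ha (io_injective (K := K) (by rw [map_zero]; exact Subtype.ext h))

theorem b1sym_unit {a : O} (ha : a ≠ 0) : IsUnit (ioF K a) := (b1sym_ne ha).isUnit

theorem b1sym_mul (a b : O) : ioF K (a * b) = ioF K a * ioF K b := by simp [ioF]

theorem b1sym_one : ioF K 1 = 1 := by simp [ioF]

theorem b1sym_cop {a b : O} (ha : a ≠ 0) (hb : b ≠ 0) (h : IsCoprime a b) :
    T (kk K) (ioF K a) (ioF K b) = dt (kk K) (io K b) (io K a) - dt (kk K) (io K a) (io K b) := by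
  have e : ∀ x : O, Algebra.ofId (kk K) (FF K) (io K x) = ioF K x := fun _ => rfl
  have := T_cop (k := kk K) (π := Algebra.ofId (kk K) (FF K)) (g := io K a) (h := io K b) pres_ofId
    (by rw [e]; exact b1sym_unit ha) (by rw [e]; exact b1sym_unit hb) (h.map (io K))
  rwa [e, e] at this

omit [NumberField K] [Fld K] in
theorem b1sym_three : (3 : O) ∣ ((Loc.Q K : ℕ) : O) := by
  have h : (3 : ℕ) ∣ Loc.Q K := Dvd.dvd.trans (by norm_num) Loc.six_dvd
  exact_mod_cast Nat.cast_dvd_cast (α := O) h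

omit [NumberField K] [Fld K] in
theorem b1sym_Q_ne : ((Loc.Q K : ℕ) : O) ≠ 0 := Nat.cast_ne_zero.2 Loc.Q_ne

omit [NumberField K] [Fld K] in
theorem b1sym_prim {a : O} (ha : ((Loc.Q K : ℕ) : O) ^ 2 ∣ a - 1) : R17.Prim a :=
  (b1sym_three.trans (dvd_pow_self _ two_ne_zero)).trans ha

omit [NumberField K] [Fld K] in
theorem b1sym_copQ {a : O} (ha : ((Loc.Q K : ℕ) : O) ^ 2 ∣ a - 1) :
    IsCoprime a ((Loc.Q K : ℕ) : O) := by
  obtain ⟨c, hc⟩ := ha
  exact ⟨1, -(((Loc.Q K : ℕ) : O) * c), by linear_combination hc⟩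

theorem omC_pow_inj {x y : ZMod 3} (h : omC ^ x.val = omC ^ y.val) : x = y := by
  have h3 : IsPrimitiveRoot omC 3 := by
    refine (IsPrimitiveRoot.iff_def _ _).2 ⟨R17.rkub_omC_cube, fun l hl => ?_⟩
    by_contra hd
    have h1 : omC ≠ 1 := fun e => by
      have := congrArg Complex.re e
      norm_num [omC] at this
    have h2 : omC ^ (l % 3) = 1 := by
      rw [← Nat.div_add_mod l 3, pow_add, pow_mul, R17.rkub_omC_cube, one_pow, one_mul] at hl
      exact hl
    have h4 : l % 3 = 1 ∨ l % 3 = 2 := by omega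
    rcases h4 with h4 | h4
    · rw [h4, pow_one] at h2
      exact h1 h2
    · rw [h4] at h2
      apply h1
      have := R17.rkub_omC_cube
      rw [pow_succ, h2, one_mul] at this
      exact this
  exact ZMod.val_injective 3 (h3.pow_inj (ZMod.val_lt x) (ZMod.val_lt y) h)

/-- `R17.Prim.induction` on `a`; at a prime `dt_gauss`, `io_quot`, `io_dvd_iff`, `R17.symP_eq`;
`dt_mul_left` with `pres_ofId` -/
theorem cub_eq_dt {a y : O} (ha : R17.Prim a) (hQ : IsCoprime a ((Loc.Q K : ℕ) : O)) (hy : y ≠ 0)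
    (h : IsCoprime a y) : R17.cub a y = omC ^ (dt (kk K) (io K a) (io K y)).val := by
  revert hQ h
  refine R17.Prim.induction (P := fun a => IsCoprime a ((Loc.Q K : ℕ) : O) → IsCoprime a y →
    R17.cub a y = omC ^ (dt (kk K) (io K a) (io K y)).val) ?_ ?_ ha
  · intro _ _
    rw [map_one, dt_unit isUnit_one, ZMod.val_zero, pow_zero]
    exact R17.sym_one 3 y
  · intro p a hp hp' ha ih hQ h
    have hpQ : IsCoprime p ((Loc.Q K : ℕ) : O) := hQ.of_mul_left_left
    have hpy : IsCoprime p y := h.of_mul_left_left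
    have hay : IsCoprime a y := h.of_mul_left_right
    obtain ⟨e⟩ := io_quot (K := K) hpQ
    have hc : Nat.card (kk K ⧸ Ideal.span {io K p}) = R17.nm p := by
      rw [← Nat.card_congr e.toEquiv, R17.s1_card_quot]
    have : Finite (kk K ⧸ Ideal.span {io K p}) :=
      Nat.finite_of_card_ne_zero (by rw [hc]; exact (R17.nm_pos hp.ne_zero).ne')
    have hg := dt_gauss (k := kk K) (io_prime hp hpQ) (b := io K y) fun m =>
      hp.coprime_iff_not_dvd.1 hpy ((io_dvd_iff hpQ).1 m)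
    rw [hc, Algebra.algebraMap_self, RingHom.id_apply, ← io_om, ← map_pow, ← map_pow, ← map_sub,
      io_dvd_iff hpQ] at hg
    have h3 : ∀ j : ℕ, (R17.om ^ j) ^ 3 = 1 := fun j => by
      rw [← pow_mul, mul_comm, pow_mul, R17.om_cube, one_pow]
    have hp3 : ¬ p ∣ ((3 : ℕ) : O) := by
      simpa using hp.coprime_iff_not_dvd.1 hp'.isCoprime_three
    have h1 : R17.cub p y = omC ^ (dt (kk K) (io K p) (io K y)).val := by
      unfold R17.cub
      rw [R17.sym_prime 3 hp, R17.symP_eq (Or.inr (Or.inl rfl)) hp hp3 (h3 _) hg, map_pow,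
        R17.rcub_toC_om]
    have h2 : R17.cub (p * a) y = R17.cub p y * R17.cub a y :=
      R17.sym_mul_left 3 hp.ne_zero ha.ne_zero y
    rw [h2, h1, ih hQ.of_mul_left_right hay, map_mul,
      dt_mul_left (π := Algebra.ofId (kk K) (FF K)) pres_ofId (b1sym_unit hp.ne_zero)
        (b1sym_unit ha.ne_zero) (b1sym_unit hy) (hpy.map (io K)) (hay.map (io K)),
      bg_pow_add R17.rkub_omC_cube]

/-- for primes `p ≠ p'`: `T_cop`, `cub_eq_dt`, `R17.cub_rec`; `T_self`; bimultiplicativity -/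
theorem T_prim {a b : O} (ha : R17.Prim a) (hb : R17.Prim b) (haQ : IsCoprime a ((Loc.Q K : ℕ) : O))
    (hbQ : IsCoprime b ((Loc.Q K : ℕ) : O)) : T (kk K) (ioF K a) (ioF K b) = 0 := by
  revert haQ
  refine R17.Prim.induction (P := fun a => IsCoprime a ((Loc.Q K : ℕ) : O) →
    T (kk K) (ioF K a) (ioF K b) = 0) ?_ ?_ ha
  · intro _
    rw [b1sym_one, T_one_left (b1sym_unit hb.ne_zero)]
  intro p a hp hp' ha ih hQ
  have hpQ : IsCoprime p ((Loc.Q K : ℕ) : O) := hQ.of_mul_left_left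
  rw [b1sym_mul, T_mul_left (b1sym_unit hp.ne_zero) (b1sym_unit ha.ne_zero) (b1sym_unit hb.ne_zero),
    ih hQ.of_mul_left_right, add_zero]
  clear ih
  revert hbQ
  refine R17.Prim.induction (P := fun b => IsCoprime b ((Loc.Q K : ℕ) : O) →
    T (kk K) (ioF K p) (ioF K b) = 0) ?_ ?_ hb
  · intro _
    rw [b1sym_one, T_one_right (b1sym_unit hp.ne_zero)]
  intro r b hr hr' hb ih hQ'
  have hrQ : IsCoprime r ((Loc.Q K : ℕ) : O) := hQ'.of_mul_left_left
  rw [b1sym_mul, T_mul_right (b1sym_unit hp.ne_zero) (b1sym_unit hr.ne_zero) (b1sym_unit hb.ne_zero),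
    ih hQ'.of_mul_left_right, add_zero]
  by_cases hpr : p = r
  · rw [hpr, T_self]
  have hc : IsCoprime p r :=
    hp.coprime_iff_not_dvd.2 fun hd => hpr (hp'.eq_of_associated hr' (hp.associated_of_dvd hr hd))
  rw [b1sym_cop hp.ne_zero hr.ne_zero hc, sub_eq_zero]
  apply omC_pow_inj
  rw [← cub_eq_dt hr' hrQ hp.ne_zero hc.symm, ← cub_eq_dt hp' hpQ hr.ne_zero hc, R17.cub_rec hp' hr']

/-- `y ∣ Q^j` is a unit of `k`, so `T = - dt a y`, and `R17.cub_congr` gives `cub a y = cub 1 y = 1` -/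
theorem T_unit {a y : O} (ha : ((Loc.Q K : ℕ) : O) ^ 2 ∣ a - 1) {j : ℕ}
    (hy : y ∣ ((Loc.Q K : ℕ) : O) ^ j) : T (kk K) (ioF K a) (ioF K y) = 0 := by
  have hp := b1sym_prim ha
  have hQ := b1sym_copQ ha
  have hy0 : y ≠ 0 := ne_zero_of_dvd_ne_zero (pow_ne_zero j b1sym_Q_ne) hy
  have hay : IsCoprime a y := hQ.pow_right.of_isCoprime_of_dvd_right hy
  have hu : IsUnit (io K y) := by
    refine isUnit_of_dvd_unit (map_dvd (io K) hy) ?_
    rw [map_pow, map_natCast]
    exact kk_isUnit_Q.pow j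
  have h9 : (9 : O) ∣ a - 1 := by
    refine Dvd.dvd.trans ?_ ha
    have := pow_dvd_pow_of_dvd (b1sym_three (K := K)) 2
    norm_num at this
    exact this
  have h1 : R17.cub a y = R17.cub 1 y := R17.cub_congr hp R17.Prim.one hy0 h9 fun p hp' hd =>
    ((hp'.dvd_of_dvd_pow (hd.trans hy)).trans (dvd_pow_self _ two_ne_zero)).trans ha
  rw [b1sym_cop hp.ne_zero hy0 hay, dt_unit hu, zero_sub, neg_eq_zero]
  apply omC_pow_inj
  rw [← cub_eq_dt hp hQ hy0 hay, h1, ZMod.val_zero, pow_zero]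
  exact R17.sym_one 3 y

/-- factor `y`: units and primes dividing `Q` (`T_unit`), other primes are unit times primary -/
theorem T_io {a y : O} (ha : ((Loc.Q K : ℕ) : O) ^ 2 ∣ a - 1) (hy : y ≠ 0) :
    T (kk K) (ioF K a) (ioF K y) = 0 := by
  have hp := b1sym_prim ha
  induction y using UniqueFactorizationMonoid.induction_on_prime with
  | h₁ => exact absurd rfl hy
  | h₂ u hu => exact T_unit ha (j := 0) hu.dvd
  | h₃ y p hy0 hp' ih =>
    rw [b1sym_mul, T_mul_right (b1sym_unit hp.ne_zero) (b1sym_unit hp'.ne_zero) (b1sym_unit hy0),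
      ih hy0, add_zero]
    by_cases hd : p ∣ ((Loc.Q K : ℕ) : O)
    · exact T_unit ha (j := 1) (by rwa [pow_one])
    have hc : IsCoprime p ((Loc.Q K : ℕ) : O) := hp'.coprime_iff_not_dvd.2 hd
    obtain ⟨u, hu, hup⟩ := R17.exists_unit_mul_prim (hc.of_isCoprime_of_dvd_right b1sym_three)
    have h1 := T_prim (K := K) hp hup (b1sym_copQ ha)
      (((isCoprime_one_left (x := ((Loc.Q K : ℕ) : O))).of_isCoprime_of_dvd_left hu.dvd).mul_left hc)
    rwa [b1sym_mul, T_mul_right (b1sym_unit hp.ne_zero) (b1sym_unit hu.ne_zero)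
      (b1sym_unit hp'.ne_zero), T_unit ha (j := 0) hu.dvd, zero_add] at h1

/-- `exists_io_div`, `exists_io_F` -/
theorem T_inU {u y : FF K} (hu : InU 2 (u : K)) (hy : y ≠ 0) : T (kk K) u y = 0 := by
  obtain ⟨a, b, ha, hb, hb0, rfl⟩ := exists_io_div (by norm_num) hu
  obtain ⟨n, c, hn, hc⟩ := exists_io_F y
  have hn' : ((n : ℕ) : O) ≠ 0 := Nat.cast_ne_zero.2 hn
  have en : ioF K (n : O) = (n : FF K) := by simp [ioF]
  have hnF : (n : FF K) ≠ 0 := Nat.cast_ne_zero.2 hn
  have hc0 : c ≠ 0 := by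
    rintro rfl
    rw [map_zero] at hc
    exact mul_ne_zero hnF hy hc.symm
  have ey : y = ioF K c / ioF K (n : O) := by
    rw [en, eq_div_iff hnF, mul_comm]
    exact hc.symm
  have ha0 := (b1sym_prim ha).ne_zero
  have H : ∀ d : O, ((Loc.Q K : ℕ) : O) ^ 2 ∣ d - 1 → T (kk K) (ioF K d) y = 0 := fun d hd => by
    rw [ey, T_div_right (b1sym_ne (b1sym_prim hd).ne_zero) (b1sym_ne hc0) (b1sym_ne hn'),
      T_io hd hc0, T_io hd hn', sub_zero]
  change T (kk K) (ioF K a / ioF K b) y = 0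
  rw [T_div_left (b1sym_ne ha0) (b1sym_ne hb0) hy, H a ha, H b hb, sub_zero]

/-- `x' = x u`, `y' = y v` with `u, v ∈ U_2` (`eventually_inU`) -/
theorem T_F_eventually (x y : FF K) (hx : x ≠ 0) (hy : y ≠ 0) :
    ∀ᶠ p : FF K × FF K in 𝓝 (x, y), T (kk K) p.1 p.2 = T (kk K) x y := by
  have H : ∀ z : FF K, z ≠ 0 → ∀ᶠ w : FF K in 𝓝 z, InU 2 ((w / z : FF K) : K) := fun z hz => by
    have hz' : (z : K) ≠ 0 := fun h => hz (Subtype.ext h)
    exact (continuous_subtype_val.tendsto z).eventually (eventually_inU hz' 2)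
  filter_upwards [(continuous_fst.tendsto (x, y)).eventually (H x hx),
    (continuous_snd.tendsto (x, y)).eventually (H y hy)] with p h1 h2
  have hu : p.1 / x ≠ 0 := fun h => h1.ne_zero (by norm_num) (by rw [h]; rfl)
  have hv : p.2 / y ≠ 0 := fun h => h2.ne_zero (by norm_num) (by rw [h]; rfl)
  have e1 : p.1 = x * (p.1 / x) := by field_simp
  have e2 : p.2 = y * (p.2 / y) := by field_simp
  rw [e1, e2, T_mul_left hx.isUnit hu.isUnit (mul_ne_zero hy hv).isUnit, T_inU h1 (mul_ne_zero hy hv),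
    add_zero, T_mul_right hx.isUnit hy.isUnit hv.isUnit, T_swap (p.2 / y) x, T_inU h2 hx, neg_zero,
    add_zero]

end Crest.Agent.R312.B1
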