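import Crest.Agent.R312.B1J
import Crest.Agent.R312.B1Sym

/-!
# R312 / B1Main : cubic reciprocity over `K` (head module of part B1; overview in `B1Int`)
-/

set_option autoImplicit false

noncomputable section

open scoped Classical ComplexConjugate NumberField
open MeasureTheory

namespace Crest.Agent.R312

variable {K : Type} [Field K] [NumberField K] [Fld K] [Loc K]

namespace B1

/-- `T_eventually` at `(θ, 1)` and `exists_inU_of_eventually` -/
theorem T_gen (pb : PowerBasis (FF K) K) (h0 : pb.gen ≠ 0) :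
    ∃ n : ℕ, 1 ≤ n ∧ ∀ u v : K, InU n u → InU n v → T (kk K) (pb.gen * u) v = 0 := by
  have h := T_eventually (k := kk K) continuous_linear T_F_eventually pb h0 one_ne_zero
  obtain ⟨n, hn, H⟩ := exists_inU_of_eventually h
  refine ⟨n, hn, fun u v hu hv => ?_⟩
  have := H u v hu hv
  simp only [one_mul] at this
  rw [this, T_one_right (Ne.isUnit h0)]

theorem b1m_ex (y : K) (hy : y ≠ 0) :
    ∃ n : ℕ, 1 ≤ n ∧ ∀ v : K, InU n v → T (kk K) y v = 0 := by
  obtain ⟨pb, pb', h0, h0', e⟩ := exists_primitive_div (F := FF K) hy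
  obtain ⟨n, hn, H⟩ := T_gen pb h0
  obtain ⟨n', hn', H'⟩ := T_gen pb' h0'
  refine ⟨max n n', hn.trans (le_max_left _ _), fun v hv => ?_⟩
  have h1 := H 1 v (InU.one _) (hv.mono (le_max_left _ _))
  have h2 := H' 1 v (InU.one _) (hv.mono (le_max_right _ _))
  rw [mul_one] at h1 h2
  rw [e, T_div_left h0 h0' (hv.ne_zero (hn.trans (le_max_left _ _))), h1, h2, sub_zero]

/-- `T(U_n, U_n) = 0` for one `n`; every `y` is killed by some `U_m` (`exists_primitive_div`);
`finite_GG`, `clN_eq_iff` make `m` uniform -/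
theorem T_K_inU : ∃ n : ℕ, 1 ≤ n ∧ ∀ u y : K, InU n u → y ≠ 0 → T (kk K) y u = 0 := by
  obtain ⟨pb, -, h0, -, -⟩ := exists_primitive_div (F := FF K) (one_ne_zero (α := K))
  obtain ⟨n, hn, H⟩ := T_gen pb h0
  have hU : ∀ u v : K, InU n u → InU n v → T (kk K) u v = 0 := by
    intro u v hu hv
    have h1 := H u v hu hv
    have h2 := H 1 v (InU.one _) hv
    rw [mul_one] at h2
    rwa [T_mul_left (Ne.isUnit h0) (Ne.isUnit (hu.ne_zero hn)) (Ne.isUnit (hv.ne_zero hn)), h2,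
      zero_add] at h1
  have : Finite (GG K n) := finite_GG hn
  choose r hr0 hr using fun g : GG K n => clN_surj g
  choose m hm1 hm using fun g : GG K n => b1m_ex (r g) (hr0 g)
  obtain ⟨B, hB⟩ := (Set.finite_range m).bddAbove
  have hB' : ∀ g, m g ≤ B := fun g => hB ⟨g, rfl⟩
  refine ⟨max n B, hn.trans (le_max_left _ _), fun v y hv hy => ?_⟩
  have hv0 : v ≠ 0 := hv.ne_zero (hn.trans (le_max_left _ _))
  obtain ⟨u, z, hu, hz, e⟩ := (clN_eq_iff hn hy (hr0 (clN n y))).1 (hr _).symm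
  have hu0 := hu.ne_zero hn
  have e6 : z ^ 6 = (z ^ 2) ^ 3 := by ring
  rw [e, T_mul_left (Ne.isUnit (mul_ne_zero (hr0 _) hu0)) (Ne.isUnit (pow_ne_zero _ hz)) (Ne.isUnit hv0),
    T_mul_left (Ne.isUnit (hr0 _)) (Ne.isUnit hu0) (Ne.isUnit hv0), e6,
    T_cube_left (Ne.isUnit (pow_ne_zero _ hz)) (Ne.isUnit hv0),
    hm _ v (hv.mono ((hB' _).trans (le_max_right _ _))), hU u v hu (hv.mono (le_max_left _ _))]
  simp

theorem b1m_unit (a : R K) (ha : a ≠ 0) : IsUnit (jR K a) :=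
  Ne.isUnit (fun h => ha (Subtype.ext h))

/-- `symbol_eq` -/
theorem cub_eq_dt_K {a b : R K} (ha : a ≠ 0) (hb : b ≠ 0) (h : IsCoprime a b) :
    cub a b = R17.omC ^ (dt (kk K) a b).val := by
  refine symbol_eq (k := kk K) pres_jR b1m_unit (fun a ha => finite_quot ha) cub R17.omC
    R17.rkub_omC_cube (fun u b hu => sym_unit 3 hu b) (fun a a' b ha ha' => sym_mul_left 3 ha ha' b)
    ?_ ha hb h
  intro p b j hp hd
  rw [algebraMap_om] at hd
  have h3 : (omR K ^ j) ^ 3 = 1 := by rw [← pow_mul, mul_comm, pow_mul, R312.om_cube, one_pow]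
  unfold cub
  rw [sym_prime 3 hp, symP_eq (Or.inr (Or.inl rfl)) hp h3 hd, map_pow, toC_om]

end B1

/-- **Cubic reciprocity** for `a ≡ 1 mod Q^n`. -/
theorem exists_rec3 : ∃ n : ℕ, 1 ≤ n ∧ Rec3 (K := K) n := by
  obtain ⟨n, hn, H⟩ := B1.T_K_inU (K := K)
  refine ⟨n, hn, fun a b ha hb => ?_⟩
  have ha0 : a ≠ 0 := fun h => ha.ne_zero hn (by rw [h]; rfl)
  by_cases hab : IsCoprime a b
  · have h1 := H a b ha (fun h => hb (Subtype.ext h))
    have h2 := B1.T_cop (k := B1.kk K) B1.pres_jR (B1.b1m_unit b hb) (B1.b1m_unit a ha0) hab.symm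
    rw [B1.jR_apply, B1.jR_apply, h1] at h2
    rw [B1.cub_eq_dt_K ha0 hb hab, B1.cub_eq_dt_K hb ha0 hab.symm, sub_eq_zero.1 h2.symm]
  · rw [((cub_isChar ha0).zero_iff b).2 (fun h => hab h.symm), ((cub_isChar hb).zero_iff a).2 hab]

end Crest.Agent.R312
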