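import Crest.Agent.R312.B3LSc

/-!
# R312 / B3LS : Landsberg–Schaar: the quadratic Gauss sum is a class function (head module, part B3)

`eT = ee · eS`.  For `m ∈ 𝓞 K` the mean of `eT(y²/4m)` over `𝓞 K` is positive (`LS.pos_mean`) and is the
product of the mean of `ee(y²/4m)` (a positive multiple of `gam (4m)`) and the mean of `eS(y²/4m)`, which
does not change when `m` is multiplied by an element of `U_3` (Hensel).
-/

set_option autoImplicit false

noncomputable section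

open scoped Classical ComplexConjugate NumberField
open MeasureTheory

namespace Crest.Agent.R312

variable {K : Type} [Field K] [NumberField K] [Fld K] [Loc K]

namespace LS

/-- the `S`-part of `eT` -/
def eS (x : K) : ℂ := eT x * conj (ee x)

theorem eS_add (x y : K) : eS (x + y) = eS x * eS y := by
  unfold eS
  rw [eT_add, ee_add, map_mul]
  ring

theorem eS_S {x : K} (h : x ∈ SR K) : eS x = 1 := by
  rw [eS, ← ee_S h, norm_ee]

theorem eT_split (x : K) : eT x = ee x * eS x := by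
  rw [eS, mul_left_comm, norm_ee, mul_one]

omit [NumberField K] [Fld K] in
theorem hensel {x : SR K} (hx : (Loc.Q K : SR K) ^ 3 ∣ x - 1) (k : ℕ) :
    ∃ u : SR K, (Loc.Q K : SR K) ∣ 1 - u ∧ (Loc.Q K : SR K) ^ (k + 3) ∣ x - u ^ 2 := by
  obtain ⟨c, hc⟩ := Loc.six_dvd (K := K)
  have hQ : (Loc.Q K : SR K) = 2 * (3 * c) := by rw [hc]; push_cast; ring
  induction k with
  | zero => exact ⟨1, by simp, by simpa using hx⟩
  | succ k ih =>
    obtain ⟨u, ⟨a, ha⟩, s, hs⟩ := ih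
    obtain ⟨q, hq⟩ : ∃ q, q = (Loc.Q K : SR K) := ⟨_, rfl⟩
    rw [← hq] at ha hs hQ ⊢
    refine ⟨u + q ^ (k + 2) * (3 * c) * s, ⟨a - q ^ (k + 1) * (3 * c) * s, by linear_combination ha⟩,
      s * a - q ^ k * (3 * c) ^ 2 * s ^ 2, ?_⟩
    linear_combination hs + q ^ (k + 3) * s * ha + u * q ^ (k + 2) * s * hQ

theorem eS_per {c : K} {P : ℕ} (hc : (Loc.Q K : K) ^ P * c ∈ SR K) (x : SR K) {a : SR K}
    (ha : (Loc.Q K : SR K) ^ P ∣ a) : eS (c * ((x + a : SR K) : K) ^ 2) = eS (c * (x : K) ^ 2) := by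
  obtain ⟨b, rfl⟩ := ha
  rw [← mul_one (eS (c * (x : K) ^ 2)),
    ← eS_S ((SR K).mul_mem hc (2 * x * b + (Loc.Q K : SR K) ^ P * b ^ 2 : SR K).2), ← eS_add]
  congr 1
  push_cast
  rw [show ((2 : SR K) : K) = 2 from rfl]
  ring

omit [Fld K] in
theorem exists_P (c : K) : ∃ P : ℕ, (Loc.Q K : K) ^ P * c ∈ SR K := by
  obtain ⟨b, P, hb, h⟩ := den c
  exact ⟨P, b, hb, by rwa [← mul_assoc]⟩

theorem eS_iff (c : K) {μ : ℂ} :
    HM (fun y : 𝓞 K => eS (c * (y : K) ^ 2)) μ ↔ HM (fun y : SR K => eS (c * (y : K) ^ 2)) μ := by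
  obtain ⟨P, hP⟩ := exists_P c
  refine HM.comp_iff (toS K).toAddMonoidHom (f := fun y : SR K => eS (c * (y : K) ^ 2)) fun g => ?_
  obtain ⟨y, hy⟩ := approxS P g
  refine ⟨y, fun x => ?_⟩
  rw [← eS_per hP (x + (toS K).toAddMonoidHom y) hy]
  simp

theorem eS_cls {c x : K} (hx : InU 3 x) {μ : ℂ} (h : HM (fun y : 𝓞 K => eS (c * (y : K) ^ 2)) μ) :
    HM (fun y : 𝓞 K => eS (c * x * (y : K) ^ 2)) μ := by
  obtain ⟨P, hP⟩ := exists_P c
  obtain ⟨s, hs, rfl⟩ := hx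
  obtain ⟨u, h1, h2⟩ := hensel (x := 1 + (Loc.Q K : SR K) ^ 3 * ⟨s, hs⟩) (by simp) P
  obtain ⟨v, hv⟩ := (pow_dvd_pow _ (Nat.le_add_right P 3)).trans h2
  have hv' : 1 + (Loc.Q K : K) ^ 3 * s = (u : K) ^ 2 + (Loc.Q K : K) ^ P * v := by
    have := congrArg Subtype.val hv
    push_cast at this
    linear_combination this
  rw [eS_iff] at h ⊢
  rw [← HM.comp_iff (AddMonoidHom.mulLeft u) fun g => ⟨g * ∑ i ∈ Finset.range P, (1 - u) ^ i, fun y => by
    rw [← eS_per hP (y + AddMonoidHom.mulLeft u _) (a := g * (1 - u) ^ P)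
      ((pow_dvd_pow_of_dvd h1 P).mul_left g)]
    congr 4
    rw [AddMonoidHom.coe_mulLeft]
    linear_combination g * geom_sum_mul (1 - u) P⟩] at h
  convert h using 2 with y
  rw [hv', ← mul_one (eS (c * ((AddMonoidHom.mulLeft u y : SR K) : K) ^ 2)),
    ← eS_S ((SR K).mul_mem hP (v * y ^ 2 : SR K).2), ← eS_add]
  congr 1
  simp only [AddMonoidHom.coe_mulLeft]
  push_cast
  ring

theorem eS_mean (c : K) : ∃ μ, HM (fun y : 𝓞 K => eS (c * (y : K) ^ 2)) μ := by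
  obtain ⟨P, hP⟩ := exists_P c
  have := finite_quot (d := (Loc.Q K : 𝓞 K) ^ P) (pow_ne_zero _ (Nat.cast_ne_zero.2 Loc.Q_ne))
  have := Fintype.ofFinite (𝓞 K ⧸ Ideal.span {(Loc.Q K : 𝓞 K) ^ P})
  refine ⟨_, HM.quot (Ideal.span {(Loc.Q K : 𝓞 K) ^ P}) fun x a ha => ?_⟩
  simpa using eS_per hP (toS K x) (a := toS K a)
    (by simpa using map_dvd (toS K) (Ideal.mem_span_singleton.1 ha))

theorem main {n : R K} {m : 𝓞 K} (hm : m ≠ 0) (h : (n : K) = 4 * (m : K)) {μ : ℂ}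
    (hμ : HM (fun y : 𝓞 K => eS ((n : K)⁻¹ * (y : K) ^ 2)) μ) : ∃ t : ℝ, 0 < t ∧ gam n * μ = t := by
  have hn : n ≠ 0 := fun h0 => by
    rw [h0] at h
    exact mul_ne_zero (by norm_num : (4 : K) ≠ 0) (by exact_mod_cast hm) h.symm
  obtain ⟨t, ht, h1⟩ := pos_mean hm
  obtain ⟨s, hs, h2⟩ := gam_mean hn
  rw [← HM.comp_iff (toR K).toAddMonoidHom fun g => by
    obtain ⟨y, hy⟩ := approxR hn g
    refine ⟨y, fun x => ?_⟩
    rw [← ee_per hn (x + (toR K).toAddMonoidHom y) _ (Ideal.mem_span_singleton.2 hy)]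
    simp] at h2
  obtain ⟨b, hb, hb'⟩ := dvd_nat hn
  obtain ⟨P, hP⟩ := exists_P (n : K)⁻¹
  obtain ⟨α, β, e⟩ := bezout (A := 𝓞 K) hb P
  have h3 := h2.mul hμ fun g => ⟨g * α * b, g * β * (Loc.Q K : 𝓞 K) ^ P, by linear_combination (-g) * e,
    fun x => by
      simpa using ee_per hn (toR K x) (toR K (g * α * b))
        (Ideal.mem_span_singleton.2 (by simpa using hb'.mul_left _)),
    fun x => by
      simpa using eS_per hP (toS K x) (a := toS K (g * β * (Loc.Q K : 𝓞 K) ^ P)) (by simp)⟩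
  have h4 := HM.unique h1 (by
    convert h3 using 2 with y
    rw [eT_split, ← h, div_eq_inv_mul]
    simp [div_eq_inv_mul])
  refine ⟨t / s, div_pos ht hs, ?_⟩
  have : (s : ℂ) ≠ 0 := Complex.ofReal_ne_zero.2 hs.ne'
  push_cast
  rw [h4]
  field_simp

end LS

theorem exists_gamCls : ∃ n : ℕ, 1 ≤ n ∧ GamCls (K := K) n := by
  refine ⟨3, by norm_num, fun a b x z ha hb hx h => ?_⟩
  have ha' : (a : K) ≠ 0 := by simpa using ha
  have hb' : (b : K) ≠ 0 := by simpa using hb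
  have hQ : (Loc.Q K : K) ≠ 0 := Nat.cast_ne_zero.2 Loc.Q_ne
  have hx0 : x ≠ 0 := hx.ne_zero (by norm_num)
  have hz : z ≠ 0 := by
    rintro rfl
    exact ha' (by rw [h]; ring)
  obtain ⟨d, hd, hdz⟩ := exists_integral_multiples ℤ ℚ {z, (a : K), (b : K)}
  have hd' : (d : K) ≠ 0 := Int.cast_ne_zero.2 hd
  simp only [Finset.mem_insert, Finset.mem_singleton, forall_eq_or_imp, forall_eq, zsmul_eq_mul] at hdz
  obtain ⟨h1, h2, h3⟩ := hdz
  let z' : R K := ⟨_, LS.R_of_int h1⟩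
  have e2 : ((2 : R K) : K) = 2 := rfl
  have hA : (2 * d ^ 2 : R K) ≠ 0 := fun h0 => by
    have := congrArg Subtype.val h0
    push_cast at this
    exact mul_ne_zero (e2 ▸ two_ne_zero) (pow_ne_zero 2 hd') this
  have hB : (2 * d * z' : R K) ≠ 0 := fun h0 => by
    have := congrArg Subtype.val h0
    push_cast at this
    exact mul_ne_zero (mul_ne_zero (e2 ▸ two_ne_zero) hd') (mul_ne_zero hd' hz) this
  rw [← LS.gam_sq ha hA, ← LS.gam_sq hb hB]
  obtain ⟨μ, hμ⟩ := LS.eS_mean ((a * (2 * d ^ 2) ^ 2 : R K) : K)⁻¹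
  obtain ⟨s, hs, e⟩ := LS.main (m := ⟨_, LS.int_mul (d ^ 3) h2⟩) (fun h0 => by
    have := congrArg Subtype.val h0
    push_cast at this
    exact mul_ne_zero (pow_ne_zero 3 hd') (mul_ne_zero hd' ha') this) (by
      change _ = 4 * (((d ^ 3 : ℤ) : K) * (d * a))
      push_cast
      rw [e2]
      ring) hμ
  obtain ⟨t, ht, e'⟩ := LS.main (n := b * (2 * (d : R K) * z') ^ 2) (m := ⟨_, LS.int_mul d (h3.mul (h1.pow 2))⟩)
    (fun h0 => by
      have := congrArg Subtype.val h0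
      exact mul_ne_zero hd' (mul_ne_zero (mul_ne_zero hd' hb') (pow_ne_zero 2 (mul_ne_zero hd' hz))) this) (by
      change _ = 4 * ((d : K) * ((d : K) * (b : K) * ((d : K) * z) ^ 2))
      push_cast
      rw [e2]
      ring) (μ := μ) (by
      convert LS.eS_cls hx hμ using 4
      push_cast
      rw [e2, h, show (z' : K) = d * z from rfl]
      field_simp)
  refine LS.phase ht hs (LS.norm_gam (mul_ne_zero ha (pow_ne_zero 2 hA)))
    (LS.norm_gam (mul_ne_zero hb (pow_ne_zero 2 hB))) ?_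
  rw [← e, ← e']
  ring

end Crest.Agent.R312
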