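import Crest.Agent.R312.B0Ring
import Crest.Agent.R312.B1Main
import Crest.Agent.R312.B3LS

/-!
# R312 / B0Setup : existence of `Fld`, `Loc`, `Setup` (head module, part B0)
-/

set_option autoImplicit false

noncomputable section

open scoped Classical ComplexConjugate NumberField
open MeasureTheory

namespace Crest.Agent.R312

theorem bs_prod (s : Multiset ℂ) (h : ∀ z ∈ s, ‖z‖ ≤ 2) : ‖s.prod‖ ≤ 2 ^ s.card := by
  induction s using Multiset.induction_on with
  | empty => simp
  | cons a s ih =>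
    rw [Multiset.prod_cons, Multiset.card_cons, norm_mul, pow_succ']
    exact mul_le_mul (h a (Multiset.mem_cons_self a s))
      (ih fun z hz => h z (Multiset.mem_cons_of_mem hz)) (norm_nonneg _) (by norm_num)

open Polynomial in
theorem exists_fld (m : ℕ) [NeZero m] (h3 : 3 ∣ m) (K : Type) [Field K] [NumberField K]
    [IsCyclotomicExtension {m} ℚ K] :
    ∃ _ : Fld K, ∀ v : Pl K, dl v ≤ 2 ^ Module.finrank ℚ K := by
  have hm : 0 < m := NeZero.pos m
  have hζ := IsCyclotomicExtension.zeta_spec m ℚ K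
  set ζ := IsCyclotomicExtension.zeta m ℚ K with hζdef
  have hint : IsIntegral ℤ ζ := hζ.isIntegral hm
  have hcl := IsCyclotomicExtension.Rat.isIntegralClosure_adjoin_singleton hζ
  have hmem : ∀ x : K, x ∈ Algebra.adjoin ℤ {ζ} ↔ IsIntegral ℤ x := fun x =>
    ⟨fun h => hcl.isIntegral_iff.2 ⟨⟨x, h⟩, rfl⟩, fun h => by
      obtain ⟨y, rfl⟩ := hcl.isIntegral_iff.1 h
      exact y.2⟩
  obtain ⟨k, hk⟩ := h3
  have hω : IsPrimitiveRoot (ζ ^ k) 3 := hζ.pow hm (by rw [hk, mul_comm])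
  set δ : K := aeval ζ (derivative (cyclotomic m ℤ)) with hδ
  have hδ' : δ = aeval ζ (derivative (minpoly ℚ ζ)) := by
    rw [← cyclotomic_eq_minpoly_rat hζ hm, ← map_cyclotomic_int m ℚ, derivative_map, hδ,
      ← algebraMap_int_eq, aeval_map_algebraMap]
  have hδi : IsIntegral ℤ δ := (hmem δ).1 (aeval_mem_adjoin_singleton ℤ ζ)
  have hδ0 : δ ≠ 0 := by
    rw [hδ']
    exact (Algebra.IsSeparable.isSeparable ℚ ζ).aeval_derivative_ne_zero (minpoly.aeval ℚ ζ)
  have hdual := traceForm_dualSubmodule_adjoin ℤ ℚ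
    (IsCyclotomicExtension.adjoin_primitive_root_eq_top (A := ℚ) hζ) hint
  rw [← hδ'] at hdual
  refine ⟨⟨⟨ζ ^ k, hint.pow k⟩, ?_, ⟨δ, hδi⟩, ?_, fun x => ?_⟩, fun v => ?_⟩
  · apply Subtype.ext
    have := hω.geom_sum_eq_zero (by norm_num)
    simp only [Finset.sum_range_succ, Finset.sum_range_zero, zero_add, pow_zero, pow_one] at this
    change (ζ ^ k) ^ 2 + ζ ^ k + 1 = (0 : K)
    linear_combination this
  · exact fun h => hδ0 (congrArg Subtype.val h)
  · change (∀ y : 𝓞 K, ∃ n : ℤ, Algebra.trace ℚ K (x * y / δ) = n) ↔ _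
    have h1 : (∀ y : 𝓞 K, ∃ n : ℤ, Algebra.trace ℚ K (x * y / δ) = n) ↔
        δ⁻¹ * x ∈ (Algebra.traceForm ℚ K).dualSubmodule
          (Subalgebra.toSubmodule (Algebra.adjoin ℤ {ζ})) := by
      rw [LinearMap.BilinForm.mem_dualSubmodule]
      constructor
      · intro h y hy
        obtain ⟨n, hn⟩ := h ⟨y, (hmem y).1 hy⟩
        rw [Submodule.mem_one]
        refine ⟨n, ?_⟩
        rw [Algebra.traceForm_apply, eq_intCast, ← hn]
        congr 1
        change x * y / δ = _
        ring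
      · intro h y
        obtain ⟨n, hn⟩ := Submodule.mem_one.1 (h y ((hmem y).2 y.isIntegral_coe))
        refine ⟨n, ?_⟩
        rw [Algebra.traceForm_apply, eq_intCast] at hn
        rw [hn]
        congr 1
        ring
    rw [h1, hdual, ← hmem, ← smul_eq_mul, Submodule.mem_smul_pointwise_iff_exists]
    constructor
    · rintro ⟨b, hb, e⟩
      have : b = x := mul_left_cancel₀ (inv_ne_zero hδ0) e
      exact this ▸ hb
    · exact fun h => ⟨x, h, rfl⟩
  · obtain ⟨φ, hφ⟩ := v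
    change ‖φ δ‖ ≤ _
    have hz : IsPrimitiveRoot (φ ζ) m := hζ.map_of_injective φ.injective
    have e1 : φ δ = eval (φ ζ) (derivative (cyclotomic m ℂ)) := by
      rw [hδ, ← map_cyclotomic_int m ℂ, derivative_map, eval_map, aeval_def, hom_eval₂]
      congr 1
      exact RingHom.ext_int _ _
    have hr : φ ζ ∈ (cyclotomic m ℂ).roots :=
      (mem_roots (cyclotomic_ne_zero m ℂ)).2 (hz.isRoot_cyclotomic hm)
    rw [e1, (IsAlgClosed.splits _).eval_root_derivative (cyclotomic.monic m ℂ) hr,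
      IsCyclotomicExtension.finrank K (cyclotomic.irreducible_rat hm)]
    refine (bs_prod _ fun z hz' => ?_).trans ?_
    · obtain ⟨w, hw, rfl⟩ := Multiset.mem_map.1 hz'
      have hw' : IsPrimitiveRoot w m := (isRoot_cyclotomic_iff_charZero hm).1
        ((mem_roots (cyclotomic_ne_zero m ℂ)).1 (Multiset.mem_of_mem_erase hw))
      refine (norm_sub_le _ _).trans ?_
      rw [hz.norm'_eq_one hm.ne', hw'.norm'_eq_one hm.ne']
      norm_num
    · refine pow_le_pow_right₀ one_le_two ?_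
      rw [Multiset.card_map, ← natDegree_cyclotomic m ℂ]
      exact (Multiset.card_le_card (Multiset.erase_le _ _)).trans (card_roots' _)

theorem two_mul_dd (K : Type) [Field K] [NumberField K] [Fld K] : 2 * dd K = Module.finrank ℚ K :=
  two_mul_dd'

theorem one_le_prod_dl (K : Type) [Field K] [NumberField K] [Fld K] : 1 ≤ ∏ v : Pl K, dl v :=
  one_le_prod_dl'

theorem exists_loc (K : Type) [Field K] [NumberField K] {f : ℕ} (hf : f ≠ 0) :
    ∃ _ : Loc K, f ∣ Loc.Q K := by
  choose rep hrep using ClassGroup.mk0_surjective (R := 𝓞 K)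
  set Q : ℕ := 6 * f * ∏ C, Ideal.absNorm (rep C : Ideal (𝓞 K)) with hQ
  have hQ0 : Q ≠ 0 := by
    refine mul_ne_zero (mul_ne_zero (by norm_num) hf) (Finset.prod_ne_zero_iff.2 fun C _ => ?_)
    exact Ideal.absNorm_ne_zero_of_nonZeroDivisors _
  have hQm : ∀ C, ((Q : ℕ) : 𝓞 K) ∈ (rep C : Ideal (𝓞 K)) := by
    intro C
    obtain ⟨c, hc⟩ : Ideal.absNorm (rep C : Ideal (𝓞 K)) ∣ Q :=
      Dvd.dvd.mul_left (Finset.dvd_prod_of_mem _ (Finset.mem_univ C)) _
    rw [hc, Nat.cast_mul]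
    exact Ideal.mul_mem_right _ _ (Ideal.absNorm_mem _)
  refine ⟨⟨Q, hQ0, Dvd.dvd.mul_right (dvd_mul_right 6 f) _, ⟨fun J => ?_⟩⟩,
    Dvd.dvd.mul_right (dvd_mul_left f 6) _⟩
  let ι : 𝓞 K →+* RR K Q :=
    (algebraMap (𝓞 K) K).codRestrict (RR K Q) fun x => ⟨0, by simpa using x.isIntegral_coe⟩
  have hQK : (Q : K) ≠ 0 := Nat.cast_ne_zero.2 hQ0
  let qi : RR K Q := ⟨(Q : K)⁻¹, 1, by rw [pow_one, mul_inv_cancel₀ hQK]; exact isIntegral_one⟩
  have hcl : ∀ x : RR K Q, ∃ (n : ℕ) (y : 𝓞 K), ι y = (Q : RR K Q) ^ n * x ∧ x = qi ^ n * ι y := by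
    rintro ⟨x, n, hn⟩
    refine ⟨n, ⟨_, hn⟩, Subtype.ext ?_, Subtype.ext ?_⟩
    · change (Q : K) ^ n * x = (((Q : RR K Q) ^ n * ⟨x, n, hn⟩ : RR K Q) : K)
      push_cast
      rfl
    · change x = ((qi ^ n : RR K Q) : K) * ((Q : K) ^ n * x)
      rw [SubmonoidClass.coe_pow, ← mul_assoc, ← mul_pow, inv_mul_cancel₀ hQK, one_pow, one_mul]
  by_cases hI : J.comap ι = ⊥
  · refine ⟨⟨0, ?_⟩⟩
    rw [Submodule.span_zero_singleton, eq_bot_iff]
    intro x hx
    obtain ⟨n, y, h1, h2⟩ := hcl x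
    have : y ∈ J.comap ι := by
      rw [Ideal.mem_comap, h1]
      exact J.mul_mem_left _ hx
    rw [hI, Ideal.mem_bot] at this
    rw [h2, this, map_zero, mul_zero]
    exact Submodule.zero_mem _
  · let I : nonZeroDivisors (Ideal (𝓞 K)) := ⟨J.comap ι, mem_nonZeroDivisors_of_ne_zero hI⟩
    obtain ⟨y, -, hy⟩ := (ClassGroup.mk0_eq_mk0_inv_iff (I := I)
      (J := rep (ClassGroup.mk0 I)⁻¹)).1 (by rw [hrep, inv_inv])
    refine ⟨⟨ι y, le_antisymm (fun x hx => ?_) ?_⟩⟩
    · obtain ⟨n, z, h1, h2⟩ := hcl x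
      have hz : z ∈ J.comap ι := by
        rw [Ideal.mem_comap, h1]
        exact J.mul_mem_left _ hx
      have h3 : z * (Q : 𝓞 K) ∈ Ideal.span {y} := by
        rw [← hy]
        exact Ideal.mul_mem_mul hz (hQm _)
      obtain ⟨t, ht⟩ := Ideal.mem_span_singleton'.1 h3
      have h4 : qi * (Q : RR K Q) = 1 := Subtype.ext (by simp [qi, hQK])
      refine Ideal.mem_span_singleton'.2 ⟨qi ^ n * qi * ι t, ?_⟩
      rw [mul_assoc, ← map_mul, ht, map_mul, map_natCast, h2]
      linear_combination qi ^ n * ι z * h4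
    · rw [Submodule.span_singleton_le_iff_mem]
      have h1 : y ∈ J.comap ι * (rep (ClassGroup.mk0 I)⁻¹ : Ideal (𝓞 K)) := by
        have h0 := Ideal.mem_span_singleton_self y
        rw [← hy] at h0
        exact h0
      have h2 : J.comap ι * (rep (ClassGroup.mk0 I)⁻¹ : Ideal (𝓞 K)) ≤ J.comap ι :=
        Ideal.mul_le_left
      exact Ideal.mem_comap.1 (h2 h1)

/-- a subgroup of an abelian group of exponent `6` has a complement -/
theorem bs_compl {H : Type} [CommGroup H] (h6 : ∀ g : H, g ^ 6 = 1) (A : Subgroup H) :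
    ∃ D : Subgroup H, (∀ g, g ∈ A → g ∈ D → g = 1) ∧ ∀ g, ∃ a ∈ A, ∃ d ∈ D, g = a * d := by
  let _ : Module (ZMod 6) (Additive H) := AddCommGroup.zmodModule fun x => h6 x.toMul
  have : IsReduced (ZMod 6) := isReduced_zmod.2 (Or.inl (by decide +kernel))
  have : IsSemisimpleRing (ZMod 6) := IsArtinianRing.isSemisimpleRing_of_isReduced _
  obtain ⟨D, hD⟩ := exists_isCompl (AddSubgroup.toZModSubmodule 6 (Subgroup.toAddSubgroup A))
  refine ⟨AddSubgroup.toSubgroup' D.toAddSubgroup, fun g hA hg => ?_, fun g => ?_⟩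
  · exact Submodule.disjoint_def.1 hD.disjoint (Additive.ofMul g) hA hg
  · obtain ⟨a, ha, d, hd, e⟩ := Submodule.mem_sup.1
      (hD.sup_eq_top ▸ Submodule.mem_top (x := Additive.ofMul g))
    exact ⟨a.toMul, ha, d.toMul, hd, (congrArg Additive.toMul e).symm⟩

theorem exists_setup (K : Type) [Field K] [NumberField K] [Fld K] [Loc K] : Nonempty (Setup K) := by
  obtain ⟨n1, h1, r1⟩ := exists_rec3 (K := K)
  obtain ⟨n2, h2, r2⟩ := exists_gamCls (K := K)
  set n := max n1 n2 with hn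
  have ne0 : ∀ {a : R K}, a ≠ 0 → (a : K) ≠ 0 := fun ha h => ha (Subtype.ext h)
  have cmul : ∀ {a b : R K}, a ≠ 0 → b ≠ 0 →
      clN n ((a * b : R K) : K) = clN n (a : K) * clN n (b : K) := fun ha hb => by
    rw [Subring.coe_mul, clN_mul n (ne0 ha) (ne0 hb)]
  let cu : (R K)ˣ →* GG K n :=
    { toFun := fun u => clN n ((u : R K) : K)
      map_one' := clN_one n
      map_mul' := fun u v => cmul u.ne_zero v.ne_zero }
  obtain ⟨D, hD1, hD2⟩ := bs_compl (fun g : GG K n => GG_pow_six g) cu.range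
  have hex : ∀ p : R K, p ≠ 0 → ∃ q : R K, Associates.mk q = Associates.mk p ∧ clN n (q : K) ∈ D := by
    intro p hp
    obtain ⟨_, ⟨u, rfl⟩, d, hd, e⟩ := hD2 (clN n (p : K))
    refine ⟨p * (u⁻¹ : (R K)ˣ), Associates.mk_eq_mk_iff_associated.2
      (associated_mul_unit_left _ _ (Units.isUnit _)), ?_⟩
    have : clN n (((u⁻¹ : (R K)ˣ) : R K) : K) = (cu u)⁻¹ := map_inv cu u
    rw [cmul hp (Units.ne_zero _), this, e]
    have h3 : cu u * d * (cu u)⁻¹ = d := mul_inv_cancel_comm (G := GG K n) _ _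
    exact h3.symm ▸ hd
  let ι : Associates (R K) → R K := fun P =>
    if h : ∃ q : R K, Associates.mk q = P ∧ clN n (q : K) ∈ D then h.choose else 1
  have hι : ∀ p : R K, p ≠ 0 → Associated (ι (Associates.mk p)) p ∧
      clN n (ι (Associates.mk p) : K) ∈ D := by
    intro p hp
    have h := hex p hp
    simp only [ι, dif_pos h]
    exact ⟨Associates.mk_eq_mk_iff_associated.1 h.choose_spec.1, h.choose_spec.2⟩
  let nrm : R K → R K := fun a =>
    (((UniqueFactorizationMonoid.factors a).map Associates.mk).map ι).prod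
  have hrel : ∀ {s t : Multiset (R K)}, Multiset.Rel Associated s t →
      s.map Associates.mk = t.map Associates.mk := fun h =>
    Associates.rel_associated_iff_map_eq_map.1 h
  have nmul : ∀ {a b : R K}, a ≠ 0 → b ≠ 0 → nrm (a * b) = nrm a * nrm b := by
    intro a b ha hb
    simp only [nrm]
    rw [hrel (UniqueFactorizationMonoid.factors_mul ha hb), Multiset.map_add, Multiset.map_add,
      Multiset.prod_add]
  have nass : ∀ {a b : R K}, Associated a b → nrm a = nrm b := by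
    intro a b h
    simp only [nrm]
    rw [hrel (UniqueFactorizationMonoid.factors_rel_of_associated h)]
  have key : ∀ s : Multiset (R K), (∀ p ∈ s, p ≠ 0) →
      Associated ((s.map Associates.mk).map ι).prod s.prod ∧ s.prod ≠ 0 ∧
        clN n ((((s.map Associates.mk).map ι).prod : R K) : K) ∈ D := by
    intro s
    induction s using Multiset.induction_on with
    | empty =>
      intro _
      simp only [Multiset.map_zero, Multiset.prod_zero]
      refine ⟨Associated.refl _, one_ne_zero, ?_⟩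
      have : clN n ((1 : R K) : K) = 1 := clN_one n
      rw [this]
      exact D.one_mem
    | cons p s ih =>
      intro h
      have hp := h p (Multiset.mem_cons_self p s)
      obtain ⟨i1, i2, i3⟩ := ih fun q hq => h q (Multiset.mem_cons_of_mem hq)
      obtain ⟨j1, j2⟩ := hι p hp
      simp only [Multiset.map_cons, Multiset.prod_cons]
      refine ⟨j1.mul_mul i1, mul_ne_zero hp i2, ?_⟩
      rw [cmul (j1.ne_zero_iff.2 hp) (i1.ne_zero_iff.2 i2)]
      exact D.mul_mem j2 i3
  have nspec : ∀ {a : R K}, a ≠ 0 → Associated (nrm a) a ∧ clN n (nrm a : K) ∈ D := by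
    intro a ha
    obtain ⟨k1, -, k3⟩ := key (UniqueFactorizationMonoid.factors a) fun p hp =>
      (UniqueFactorizationMonoid.prime_of_factor p hp).ne_zero
    exact ⟨k1.trans (UniqueFactorizationMonoid.factors_prod ha), k3⟩
  refine ⟨{
    lev := n
    lev_pos := le_max_of_le_left h1
    rec3 := fun a b ha hb => r1 a b (ha.mono (le_max_left _ _)) hb
    gam_cls := fun a b x z ha hb hx e => r2 a b x z ha hb (hx.mono (le_max_right _ _)) e
    prim := fun a => a ≠ 0 ∧ nrm a = a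
    prim_one := ⟨one_ne_zero, by simp [nrm]⟩
    prim_mul := fun a b ha hb => ⟨mul_ne_zero ha.1 hb.1, by rw [nmul ha.1 hb.1, ha.2, hb.2]⟩
    prim_ne := fun a ha => ha.1
    prim_ex := fun a ha => ?_
    prim_uniq := fun a b ha hb h => by rw [← ha.2, ← hb.2, nass h]
    prim_cl := fun a u ha e => ?_ }⟩
  · obtain ⟨u, hu⟩ := (nspec ha).1.symm
    refine ⟨u, mul_ne_zero u.ne_zero ha, ?_⟩
    rw [mul_comm, hu]
    exact nass (nspec ha).1
  · refine hD1 _ ⟨u, rfl⟩ ?_
    have := (nspec ha.1).2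
    rw [ha.2, e] at this
    exact this

end Crest.Agent.R312
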