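import Crest.Agent.R312.B3L_Fin

/-!
# R312 / B3L : Hecke L-functions: continuation, pole, growth (head module, part B3)
-/

set_option autoImplicit false

noncomputable section

open scoped Classical ComplexConjugate NumberField
open MeasureTheory

namespace Crest.Agent.R312

variable {K : Type} [Field K] [NumberField K] [Fld K]

theorem Ef_differentiable {f : ℕ} {ξ : Pl K → ℝ} {ψ : Ideal (𝓞 K) → ℂ} (h : HChar f ξ ψ) :
    Differentiable ℂ (Ef ψ) :=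
  ((BL.Ef_main (K := K)).choose_spec.2 f ξ ψ h).1

theorem Ef_eq {f : ℕ} {ξ : Pl K → ℝ} {ψ : Ideal (𝓞 K) → ℂ} (h : HChar f ξ ψ) {s : ℂ}
    (hs : 1 < s.re) : Ef ψ s = (s - 1) * Lser ψ s :=
  ((BL.Ef_main (K := K)).choose_spec.2 f ξ ψ h).2.1 s hs

theorem one0_hChar {f : ℕ} (hf : 2 ≤ f) : HChar (K := K) f 0 (one0 f) :=
  BL.one0_hChar' hf

theorem Ef_one_eq_zero {f : ℕ} {ξ : Pl K → ℝ} {ψ : Ideal (𝓞 K) → ℂ} (h : HChar f ξ ψ)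
    (hne : ψ ≠ one0 f) : Ef ψ 1 = 0 :=
  BL.Ef_one_eq_zero' h hne

theorem Ef_one_one0 {f : ℕ} (hf : 2 ≤ f) :
    ∃ ρ : ℝ, 0 < ρ ∧ Ef (one0 (K := K) f) 1 = ρ :=
  BL.Ef_one_one0' hf

/-- polynomial growth in vertical strips, uniform in everything -/
theorem Ef_growth (σ1 σ2 : ℝ) : ∃ C : ℕ, ∀ (K : Type) [Field K] [NumberField K] [Fld K]
    (f : ℕ) (ξ : Pl K → ℝ) (ψ : Ideal (𝓞 K) → ℂ), HChar f ξ ψ → ∀ s : ℂ, σ1 ≤ s.re → s.re ≤ σ2 →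
      ‖Ef ψ s‖ ≤ (C * f * (1 + |s.im| + ‖ξ‖)) ^ (C * dd K) * (∏ v : Pl K, dl v) ^ C :=
  BL.Ef_growth' σ1 σ2

end Crest.Agent.R312
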