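import Crest.Agent.R312.B4aDefs

/-!
# R312 / B4aAbs : abstract inequalities, small API

Definitions and the dictionary R17 → R312 are in `B4aDefs.lean`.  Prefix helper lemmas with `b4aabs_`.
Copy from `R17/FMoment_Abs`, `R17/TLS` (namespace `TL`), `R17/FMoment_BackS` (`exists_A0`).
-/

set_option autoImplicit false

noncomputable section

open scoped Classical ComplexConjugate NumberField
open MeasureTheory

namespace Crest.Agent.R312.FM

variable {K : Type} [Field K] [NumberField K] [Fld K] [Loc K] [Setup K]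

theorem sum_integral_le {ι : Type*} (T : Finset ι) {f : ι → ℝ → ℝ} {g : ℝ → ℝ}
    (hf : ∀ i ∈ T, ∀ τ, 0 ≤ f i τ) (hg : Integrable g) (h : ∀ τ, ∑ i ∈ T, f i τ ≤ g τ) :
    ∑ i ∈ T, ∫ τ, f i τ ≤ ∫ τ, g τ := by
  have e : ∑ i ∈ T.filter (fun i => Integrable (f i)), ∫ τ, f i τ = ∑ i ∈ T, ∫ τ, f i τ :=
    Finset.sum_filter_of_ne fun i _ hi => by_contra fun h0 => hi (integral_undef h0)
  have hi : ∀ i ∈ T.filter (fun i => Integrable (f i)), Integrable (f i) := fun i hi =>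
    (Finset.mem_filter.1 hi).2
  rw [← e, ← integral_finsetSum _ hi]
  exact integral_mono (integrable_finsetSum _ hi) hg fun τ =>
    (Finset.sum_le_sum_of_subset_of_nonneg (Finset.filter_subset _ _)
      fun i hi _ => hf i hi τ).trans (h τ)

theorem sum_tsum_le {ι κ : Type*} (T : Finset ι) {f : ι → κ → ℝ} (hf : ∀ i ∈ T, ∀ x, 0 ≤ f i x)
    {B : ℝ} (h : ∀ P : Finset κ, ∑ i ∈ T, ∑ x ∈ P, f i x ≤ B) :
    ∑ i ∈ T, ∑' x, f i x ≤ B := by
  have e : ∑ i ∈ T.filter (fun i => Summable (f i)), ∑' x, f i x = ∑ i ∈ T, ∑' x, f i x :=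
    Finset.sum_filter_of_ne fun i _ hi => by_contra fun h0 => hi (tsum_eq_zero_of_not_summable h0)
  rw [← e]
  refine hasSum_le_of_sum_le (hasSum_sum fun i hi => (Finset.mem_filter.1 hi).2.hasSum) fun P => ?_
  rw [Finset.sum_comm]
  exact (Finset.sum_le_sum_of_subset_of_nonneg (Finset.filter_subset _ _)
    fun i hi _ => Finset.sum_nonneg fun x _ => hf i hi x).trans (h P)

theorem norm_sum_sq_le {ι : Type*} (s : Finset ι) (f : ι → ℂ) :
    ‖∑ i ∈ s, f i‖ ^ 2 ≤ s.card * ∑ i ∈ s, ‖f i‖ ^ 2 := by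
  exact (pow_le_pow_left₀ (norm_nonneg _) (norm_sum_le s f) 2).trans sq_sum_le_card_mul_sum_sq

theorem minkowski_fin {ι κ : Type*} (T : Finset ι) (P : Finset κ) {ω : ι → ℝ}
    (hω : ∀ i ∈ T, 0 ≤ ω i) (v : ι → κ → ℂ) {e : κ → ℝ} (he : ∀ c ∈ P, 0 ≤ e c) {E : ℝ} (hE : 0 ≤ E)
    (h : ∀ c ∈ P, ∑ i ∈ T, ω i * ‖v i c‖ ^ 2 ≤ E * e c ^ 2) :
    ∑ i ∈ T, ω i * ‖∑ c ∈ P, v i c‖ ^ 2 ≤ E * (∑ c ∈ P, e c) ^ 2 := by
  have h1 : ∀ i ∈ T, ω i * ‖∑ c ∈ P, v i c‖ ^ 2 ≤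
      (∑ c ∈ P, e c) * ∑ c ∈ P, ω i * ‖v i c‖ ^ 2 / e c := fun i hi => by
    refine le_trans ?_ (Finset.sum_sq_le_sum_mul_sum_of_sq_eq_mul P
      (r := fun c => √(ω i) * ‖v i c‖) he
      (fun c hc => div_nonneg (mul_nonneg (hω i hi) (sq_nonneg _)) (he c hc)) fun c hc => ?_)
    · rw [← Finset.mul_sum, mul_pow, Real.sq_sqrt (hω i hi)]
      exact mul_le_mul_of_nonneg_left (pow_le_pow_left₀ (norm_nonneg _) (norm_sum_le _ _) 2)
        (hω i hi)
    · rw [mul_pow, Real.sq_sqrt (hω i hi)]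
      by_cases h0 : e c = 0
      · have h2 := (Finset.single_le_sum (f := fun i => ω i * ‖v i c‖ ^ 2)
          (fun j hj => mul_nonneg (hω j hj) (sq_nonneg _)) hi).trans (h c hc)
        rw [h0, zero_mul]
        rw [h0, zero_pow two_ne_zero, mul_zero] at h2
        exact le_antisymm h2 (mul_nonneg (hω i hi) (sq_nonneg _))
      · rw [mul_div_cancel₀ _ h0]
  refine (Finset.sum_le_sum h1).trans ?_
  rw [← Finset.mul_sum, Finset.sum_comm, sq, mul_left_comm, Finset.mul_sum P e E]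
  refine mul_le_mul_of_nonneg_left (Finset.sum_le_sum fun c hc => ?_) (Finset.sum_nonneg he)
  rw [← Finset.sum_div]
  refine (div_le_div_of_nonneg_right (h c hc) (he c hc)).trans_eq ?_
  rw [mul_div_assoc, sq, mul_self_div_self]

theorem minkowski {ι κ : Type*} (T : Finset ι) {ω : ι → ℝ} (hω : ∀ i ∈ T, 0 ≤ ω i) {u : ι → ℂ}
    {v : ι → κ → ℂ} (huv : ∀ i ∈ T, HasSum (v i) (u i)) {e : κ → ℝ} (he : ∀ c, 0 ≤ e c)
    {E C : ℝ} (hE : 0 ≤ E) (hC : ∀ P : Finset κ, ∑ c ∈ P, e c ≤ C)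
    (h : ∀ c, ∑ i ∈ T, ω i * ‖v i c‖ ^ 2 ≤ E * e c ^ 2) :
    ∑ i ∈ T, ω i * ‖u i‖ ^ 2 ≤ E * C ^ 2 := by
  have ht : Filter.Tendsto (fun P : Finset κ => ∑ i ∈ T, ω i * ‖∑ c ∈ P, v i c‖ ^ 2) Filter.atTop
      (nhds (∑ i ∈ T, ω i * ‖u i‖ ^ 2)) :=
    tendsto_finsetSum T fun i hi =>
      ((Filter.Tendsto.norm (huv i hi)).pow 2).const_mul (ω i)
  refine le_of_tendsto' ht fun P =>
    (minkowski_fin T P hω v (fun c _ => he c) hE fun c _ => h c).trans ?_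
  exact mul_le_mul_of_nonneg_left
    (pow_le_pow_left₀ (Finset.sum_nonneg fun c _ => he c) (hC P) 2) hE

theorem normSq_tsum {ι : Type*} {u : ι → ℂ} (hu : Summable (fun n => ‖u n‖)) :
    ((‖∑' n, u n‖ ^ 2 : ℝ) : ℂ) = ∑' p : ι × ι, u p.1 * conj (u p.2) := by
  have h2 : Summable (fun n => ‖conj (u n)‖) := by simpa using hu
  rw [← tsum_mul_tsum_of_summable_norm hu h2, ← Complex.conj_tsum, Complex.mul_conj,
    Complex.normSq_eq_norm_sq]

theorem fub {ι κ : Type*} {w : κ → ℂ} (hw : Summable (fun d => ‖w d‖)) {F : ι → κ → ℂ} {b : ι → ℝ}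
    (hb : Summable b) (hF : ∀ i d, ‖F i d‖ ≤ b i) :
    ∑' d, w d * ∑' i, F i d = ∑' i, ∑' d, w d * F i d := by
  rcases isEmpty_or_nonempty κ with hκ | ⟨⟨k0⟩⟩
  · simp
  have hb0 : ∀ i, 0 ≤ b i := fun i => le_trans (norm_nonneg _) (hF i k0)
  have hs : Summable (Function.uncurry fun (i : ι) (d : κ) => w d * F i d) := by
    refine Summable.of_norm_bounded (g := fun p : ι × κ => b p.1 * ‖w p.2‖)
      (hb.mul_of_nonneg hw hb0 (fun _ => norm_nonneg _)) ?_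
    rintro ⟨i, d⟩
    simp only [Function.uncurry_apply_pair, norm_mul]
    rw [mul_comm]
    exact mul_le_mul_of_nonneg_right (hF i d) (norm_nonneg _)
  simp_rw [← tsum_mul_left]
  exact hs.tsum_comm

theorem exists_A0 {δ : ℝ} (hδ : 0 < δ) (hδ1 : δ ≤ 1 / 8) : ∃ A0 : ℕ, 2 ≤ A0 ∧ ∀ X E : ℝ, 0 < X →
    1 ≤ E → X ^ δ ≤ E → E * (E ^ A0)⁻¹ * X ^ 5 ≤ X ^ δ := by
  refine ⟨⌈5 / δ⌉₊ + 2, by omega, fun X E hX hE hXE => ?_⟩
  have hE0 : 0 < E := by linarith
  have e1 : E * (E ^ (⌈5 / δ⌉₊ + 2))⁻¹ = (E ^ (⌈5 / δ⌉₊ + 1))⁻¹ := by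
    rw [pow_succ E (⌈5 / δ⌉₊ + 1)]
    field_simp
  rw [e1, ← div_eq_inv_mul, div_le_iff₀ (by positivity)]
  have e2 : 1 ≤ E ^ (⌈5 / δ⌉₊ + 1) := one_le_pow₀ hE
  have e3 : 0 ≤ X ^ δ := Real.rpow_nonneg hX.le _
  rcases le_total X 1 with h | h
  · refine le_trans ?_ (le_mul_of_one_le_right e3 e2)
    rw [← Real.rpow_natCast]
    refine Real.rpow_le_rpow_of_exponent_ge hX h ?_
    push_cast
    linarith
  · refine le_trans ?_ (le_mul_of_one_le_left (by positivity) (Real.one_le_rpow h hδ.le))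
    have e4 : X ^ 5 = (X ^ δ) ^ (5 / δ) := by
      rw [← Real.rpow_mul hX.le, ← Real.rpow_natCast]
      congr 1
      field_simp
      norm_num
    rw [e4, ← Real.rpow_natCast]
    refine (Real.rpow_le_rpow e3 hXE (by positivity)).trans
      (Real.rpow_le_rpow_of_exponent_le hE ?_)
    push_cast
    linarith [Nat.le_ceil (5 / δ)]

theorem sum_N_rpow_le {θ : ℝ} (hθ : 0 < θ) : ∃ C, 0 ≤ C ∧ ∀ T : Finset (R K), (∀ r ∈ T, Prim r) →
    ∑ r ∈ T, N r ^ (-1 - θ) ≤ C := by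
  have h0 : ∀ n : R K, 0 ≤ (if Prim n then N n ^ (-(1 + θ)) else 0) := fun n => by
    split_ifs
    · exact Real.rpow_nonneg (N_nonneg n) _
    · exact le_rfl
  refine ⟨∑' n : R K, (if Prim n then N n ^ (-(1 + θ)) else 0), tsum_nonneg h0, fun T hT => ?_⟩
  rw [← neg_add']
  refine le_trans (le_of_eq ?_) ((summable_N_rpow (by linarith)).sum_le_tsum T fun n _ => h0 n)
  exact Finset.sum_congr rfl fun r hr => (if_pos (hT r hr)).symm

theorem nd_nonneg (n : R K) : 0 ≤ nd n := Nat.cast_nonneg _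

theorem nd_le_N (n : R K) : nd n ≤ N n := by
  by_cases hn : n = 0
  · subst hn
    have h : pdiv (0 : R K) = ∅ := by
      unfold pdiv
      rw [ball_eq_empty (by simp), Finset.filter_empty]
    simp [nd, h]
  · exact card_pdiv_le_N hn

theorem nd_le {θ : ℝ} (hθ : 0 < θ) : ∃ C, 1 ≤ C ∧ ∀ n : R K, n ≠ 0 → nd n ≤ C * N n ^ θ := by
  obtain ⟨C, hC⟩ := card_pdiv_le (K := K) hθ
  exact ⟨max 1 C, le_max_left _ _, fun n hn => (hC n hn).trans
    (mul_le_mul_of_nonneg_right (le_max_right _ _) (Real.rpow_nonneg (N_nonneg n) _))⟩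

theorem one_le_hc : 1 ≤ hc K := by
  exact Nat.one_le_cast.2 (Finset.card_pos.2 ⟨1, one_mem_hchars⟩)

theorem norm_lamG_le (X : ℝ) (c : R K) : ‖lamG X c‖ ≤ nd c := by
  refine (norm_sum_le _ _).trans ((Finset.sum_le_card_nsmul _ _ 1 fun e _ => norm_mu_le e).trans ?_)
  rw [nsmul_eq_mul, mul_one]
  exact Nat.cast_le.2 (Finset.card_filter_le _ _)

theorem norm_chi_le {n : R K} (hn : n ≠ 0) (d : R K) : ‖chi n d‖ ≤ 1 := by
  exact norm_sym_le (k := 6) (by simp) hn d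

theorem chi_mul {a b : R K} (ha : a ≠ 0) (hb : b ≠ 0) (d : R K) :
    chi (a * b) d = chi a d * chi b d := by
  exact sym_mul_left 6 ha hb d

theorem chi_zero {n : R K} (hn : Prim n) (h1 : n ≠ 1) : chi n 0 = 0 := by
  exact ((chi_isChar hn.ne_zero).zero_iff 0).2 fun h =>
    h1 (hn.eq_one_of_isUnit (isCoprime_zero_left.1 h))

theorem mul_conj_of_norm {z : ℂ} (h : ‖z‖ = 1) : z * conj z = 1 := by
  rw [Complex.mul_conj, Complex.normSq_eq_norm_sq, h]
  simp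

theorem norm_N_cpow_le {m : R K} (hm : m ≠ 0) {s : ℂ} (hs : s.re ≤ 1) : ‖(N m : ℂ) ^ s‖ ≤ N m := by
  rw [Complex.norm_cpow_eq_rpow_re_of_pos (N_pos hm)]
  simpa using Real.rpow_le_rpow_of_exponent_le (one_le_N hm) hs

theorem N_mul_cpow (a b : R K) (s : ℂ) : (N (a * b) : ℂ) ^ s = (N a : ℂ) ^ s * (N b : ℂ) ^ s := by
  rw [N_mul, Complex.ofReal_mul, Complex.mul_cpow_ofReal_nonneg (N_nonneg a) (N_nonneg b)]

theorem supp_zero {α : R K → ℂ} (h : SuppSq α) : α 0 = 0 := by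
  exact by_contra fun h0 => (h 0 h0).1.ne_zero rfl

theorem supp_dil {α : R K → ℂ} (h : SuppSq α) {g : R K} (hg : Prim g) :
    SuppSq (fun m => α (g * m)) := by
  intro m hm
  obtain ⟨h1, h2⟩ := h _ hm
  exact ⟨h1.of_mul_left hg, h2.of_mul_right⟩

theorem rapid_dil {α : R K → ℂ} (h : Rapid α) {g : R K} (hg : g ≠ 0) :
    Rapid (fun m => α (g * m)) := by
  intro j
  have h1 := (h j).comp_injective (mul_right_injective₀ hg)
  refine Summable.of_nonneg_of_le (fun n => mul_nonneg (norm_nonneg _) (pow_nonneg (N_nonneg _) _))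
    (fun n => ?_) h1
  simp only [Function.comp_apply]
  refine mul_le_mul_of_nonneg_left (pow_le_pow_left₀ (N_nonneg _) ?_ _) (norm_nonneg _)
  rw [N_mul]
  exact le_mul_of_one_le_left (N_nonneg _) (one_le_N hg)

theorem rapid_summable {α : R K → ℂ} (h : Rapid α) : Summable (fun n => ‖α n‖) := by
  simpa using h 0

theorem rapid_summable_sq {α : R K → ℂ} (h : Rapid α) : Summable (fun n => ‖α n‖ ^ 2) := by
  have h0 := rapid_summable h
  refine Summable.of_nonneg_of_le (fun n => by positivity) (fun n => ?_)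
    (h0.mul_left (∑' n, ‖α n‖))
  rw [sq]
  exact mul_le_mul_of_nonneg_right (h0.le_tsum n fun _ _ => norm_nonneg _) (norm_nonneg _)

theorem supp_of_le {α β : R K → ℂ} (h : SuppSq α) (hb : ∀ n, ‖β n‖ ≤ ‖α n‖) : SuppSq β := by
  intro n hn
  refine h n fun h0 => hn ?_
  have := hb n
  rw [h0, norm_zero] at this
  exact norm_le_zero_iff.1 this

theorem rapid_of_le {α β : R K → ℂ} (h : Rapid α) (hb : ∀ n, ‖β n‖ ≤ ‖α n‖) : Rapid β := by
  exact fun j => Summable.of_nonneg_of_le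
    (fun n => mul_nonneg (norm_nonneg _) (pow_nonneg (N_nonneg _) _))
    (fun n => mul_le_mul_of_nonneg_right (hb n) (pow_nonneg (N_nonneg _) _)) (h j)

theorem mom_nonneg (α : R K → ℂ) (j : ℕ) : 0 ≤ mom α j := by
  exact tsum_nonneg fun n => mul_nonneg (norm_nonneg _) (pow_nonneg (N_nonneg n) j)

theorem mom_le_of_le {α β : R K → ℂ} (h : Rapid α) (hb : ∀ n, ‖β n‖ ≤ ‖α n‖) (j : ℕ) :
    mom β j ≤ mom α j := by
  exact Summable.tsum_le_tsum
    (fun n => mul_le_mul_of_nonneg_right (hb n) (pow_nonneg (N_nonneg _) _)) (rapid_of_le h hb j) (h j)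

theorem mom_dil {α : R K → ℂ} (hα : Rapid α) {g : R K} (hg : g ≠ 0) (j : ℕ) :
    N g ^ j * mom (fun m => α (g * m)) j ≤ mom α j := by
  refine le_trans (le_of_eq ?_) (tsum_comp_le_tsum_of_inj (hα j)
    (fun n => mul_nonneg (norm_nonneg _) (pow_nonneg (N_nonneg n) j)) (mul_right_injective₀ hg))
  unfold mom
  rw [← tsum_mul_left]
  refine tsum_congr fun m => ?_
  simp only [Function.comp_apply]
  rw [N_mul, mul_pow]; ring

theorem norm_cls_le (α : R K → ℂ) (c : G K) (n : R K) : ‖cls α c n‖ ≤ ‖α n‖ := by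
  unfold cls
  split_ifs
  · exact le_rfl
  · simp

theorem cls_dil {α : R K → ℂ} (h0 : α 0 = 0) (c : G K) {g : R K} (hg : g ≠ 0) :
    (fun m => cls α c (g * m)) = cls (fun m => α (g * m)) (c / cl g) := by
  funext m
  unfold cls
  by_cases hm : m = 0
  · simp [hm, h0]
  · rw [cl_mul hg hm]
    refine if_congr ?_ rfl rfl
    rw [eq_div_iff_mul_eq', mul_comm (cl m) (cl g)]

end Crest.Agent.R312.FM
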