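import Crest.Agent.R312.B4F
import Crest.Agent.R312.B4aAbs

/-!
# R312 / B6Amp : amplification by sixth powers

Definitions and the dictionary R17 → R312 are in `B4aDefs.lean`.  Prefix helper lemmas with `b6amp_`.
Copy from `R17/FMoment_F5`.
-/

set_option autoImplicit false

noncomputable section

open scoped Classical ComplexConjugate NumberField
open MeasureTheory

namespace Crest.Agent.R312.FM

variable {K : Type} [Field K] [NumberField K] [Fld K] [Loc K] [Setup K]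

/-- port of `R17.FM.fmf5_mu` (`n / e ↦ dv n e`) -/
theorem b6amp_mu {a n : R K} (ha : Prim a) (hn : Prim n) :
    mu n = ∑ e ∈ pdiv a, if e ∣ n then (if IsCoprime (dv n e) a then mu e * mu (dv n e) else 0)
      else 0 := by
  obtain ⟨g, n', a', hg, hn', ha', rfl, rfl, hc⟩ := exists_prim_gcd hn ha
  have hgm : g ∈ pdiv (g * a') := (mem_pdiv ha.ne_zero).2 ⟨hg, dvd_mul_right _ _⟩
  rw [Finset.sum_eq_single_of_mem g hgm]
  · rw [if_pos (dvd_mul_right _ _), dv_mul_left hg.ne_zero]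
    split_ifs with h
    · exact mu_mul (h.of_mul_right_left).symm
    · refine mu_eq_zero fun hs => h ?_
      exact ((squarefree_mul_iff.1 hs).1.isCoprime.symm).mul_right hc
  · intro e he hne
    obtain ⟨he1, he2⟩ := (mem_pdiv ha.ne_zero).1 he
    split_ifs with h1 h2
    · exfalso
      obtain ⟨m, hm⟩ := h1
      rw [hm, dv_mul_left he1.ne_zero] at h2
      refine hne (he1.dvd_antisymm hg ?_ ?_)
      · obtain ⟨u, v, huv⟩ := hc
        have e1 : g = u * (g * n') + v * (g * a') := by linear_combination -g * huv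
        rw [e1]
        exact dvd_add (Dvd.dvd.mul_left ⟨m, hm⟩ _) (he2.mul_left _)
      · exact (h2.of_mul_right_left.symm).dvd_of_dvd_mul_right ⟨n', hm.symm⟩
    · rfl
    · rfl

/-- port of `R17.FM.pb_amplify` with `d = 1` (`pb_dvd`, `blks_sum`, `blks_smul`, `chi_pow_six`,
`χ_n(1) = 1`) -/
theorem Mb_amplify (ν : Tw K) {a : R K} (ha : Prim a) (y t : ℝ) :
    Mb ν 1 y t = ∑ e ∈ pdiv a, mu e * ν.v e * (N e : ℂ) ^ (-(1 / 2 + t * Complex.I)) *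
      Mb ν (a ^ 6) (y - Real.log (N e)) t := by
  set H : R K → R K → ℂ := fun e n =>
    (if IsCoprime (dv n e) a then mu e * mu (dv n e) else 0) * ν.v n with hH
  have h2 : ∀ e, PolyBd (fun n => if e ∣ n then H e n else 0) := by
    intro e
    refine polyBd_of_le_one fun n _ => ?_
    split_ifs with h
    · simp only [hH]
      rw [norm_mul]
      refine mul_le_one₀ ?_ (norm_nonneg _) (ν.norm_v_le n)
      split_ifs
      · rw [norm_mul]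
        exact mul_le_one₀ (norm_mu_le _) (norm_nonneg _) (norm_mu_le _)
      · simp
    · simp
  have h3 : Mb ν 1 y t = ∑ e ∈ pdiv a, pb (fun n => if e ∣ n then H e n else 0) y t := by
    unfold Mb pb
    rw [← blks_sum _ fun e _ => h2 e]
    refine blks_congr (fun n hn => ?_) _ _
    rw [(chi_isChar hn.ne_zero).one, mul_one, b6amp_mu ha hn, Finset.sum_mul]
    refine Finset.sum_congr rfl fun e _ => ?_
    by_cases h : e ∣ n
    · rw [if_pos h, if_pos h]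
    · rw [if_neg h, if_neg h, zero_mul]
  rw [h3]
  refine Finset.sum_congr rfl fun e he => ?_
  have he' := ((mem_pdiv ha.ne_zero).1 he).1
  have h4 : pb (fun m => if e ∣ e * m then H e (e * m) else 0) (y - Real.log (N e)) t =
      mu e * ν.v e * Mb ν (a ^ 6) (y - Real.log (N e)) t := by
    unfold Mb pb
    rw [← blks_smul]
    refine blks_congr (fun m hm => ?_) _ _
    simp only [hH]
    rw [if_pos (dvd_mul_right e m), dv_mul_left he'.ne_zero, ν.v_mul, chi_pow_six hm.ne_zero]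
    split_ifs
    · ring
    · ring
  have h5 := pb_dvd he' (fun n => if e ∣ n then H e n else 0) y t
  have h6 : (fun n => if e ∣ n then (if e ∣ n then H e n else 0) else 0) =
      fun n => if e ∣ n then H e n else 0 := by
    funext n
    split_ifs <;> rfl
  rw [h6] at h5
  rw [h5, h4]
  ring

/-- one amplifier -/
theorem b6amp_one (ν : Tw K) {a : R K} (ha : Prim a) (y t : ℝ) :
    ‖Mb ν 1 y t‖ ^ 2 ≤ nd a * ∑ e ∈ pdiv a,
      (N e)⁻¹ * ‖Mb ν (a ^ 6) (y - Real.log (N e)) t‖ ^ 2 := by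
  rw [Mb_amplify ν ha y t]
  refine (norm_sum_sq_le _ _).trans (mul_le_mul_of_nonneg_left
    (Finset.sum_le_sum fun e he => ?_) (Nat.cast_nonneg _))
  have he' := ((mem_pdiv ha.ne_zero).1 he).1
  have h1 : ‖mu e * ν.v e‖ ≤ 1 := by
    rw [norm_mul]
    exact mul_le_one₀ (norm_mu_le e) (norm_nonneg _) (ν.norm_v_le e)
  have h2 : ‖mu e * ν.v e * (N e : ℂ) ^ (-(1 / 2 + t * Complex.I))‖ ≤ N e ^ (-(1 / 2 : ℝ)) := by
    rw [norm_mul, Complex.norm_cpow_eq_rpow_re_of_pos (N_pos he'.ne_zero)]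
    have e1 : (-(1 / 2 + (t : ℂ) * Complex.I)).re = -(1 / 2 : ℝ) := by simp
    rw [e1]
    exact mul_le_of_le_one_left (Real.rpow_nonneg (N_nonneg e) _) h1
  have h3 : (N e ^ (-(1 / 2 : ℝ))) ^ 2 = (N e)⁻¹ := by
    rw [← Real.rpow_natCast, ← Real.rpow_mul (N_nonneg e), ← Real.rpow_neg_one]
    norm_num
  rw [norm_mul, mul_pow, ← h3]
  exact mul_le_mul_of_nonneg_right (pow_le_pow_left₀ (norm_nonneg _) h2 2) (sq_nonneg _)

theorem b6amp_inj {a b : R K} (ha : Prim a) (hb : Prim b) (h : a ^ 6 = b ^ 6) : a = b := by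
  obtain ⟨g, a', b', hg, ha', hb', rfl, rfl, hc⟩ := exists_prim_gcd ha hb
  rw [mul_pow, mul_pow] at h
  have h1 : a' ^ 6 = b' ^ 6 := mul_left_cancel₀ (pow_ne_zero 6 hg.ne_zero) h
  have h2 : a' = 1 := ha'.eq_one_of_isUnit
    ((hc.pow_right (n := 6)).isUnit_of_dvd' dvd_rfl (h1 ▸ dvd_pow_self a' (by norm_num)))
  have h3 : b' = 1 := hb'.eq_one_of_isUnit
    ((hc.symm.pow_right (n := 6)).isUnit_of_dvd' dvd_rfl (h1.symm ▸ dvd_pow_self b' (by norm_num)))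
  rw [h2, h3]

theorem b6amp_fib {𝒜 : ℝ} {f : R K → ℝ} (hf : ∀ ρ, 0 ≤ f ρ) :
    ∑ a ∈ ball K 𝒜, f (a ^ 6) ≤ ∑ ρ ∈ ball K (𝒜 ^ 6), f ρ := by
  rw [← Finset.sum_image (s := ball K 𝒜) (g := fun a => a ^ 6)
    (fun x hx y hy h => b6amp_inj (mem_ball.1 hx).1 (mem_ball.1 hy).1 h)]
  refine Finset.sum_le_sum_of_subset_of_nonneg (fun ρ hρ => ?_) fun ρ _ _ => hf ρ
  obtain ⟨a, ha, rfl⟩ := Finset.mem_image.1 hρ
  obtain ⟨h1, h2⟩ := mem_ball.1 ha
  refine mem_ball.2 ⟨h1.pow 6, ?_⟩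
  rw [N_pow]
  exact pow_le_pow_left₀ (N_nonneg a) h2 6

/-- Let `D = e^y`, `𝒜 = D^{1/6}`.  For `a ∈ ball 𝒜`: `‖M‖² ≤ nd a ∑_{e ∣ a} (N e)⁻¹ ‖Mb ν a⁶ (y - log N e) 0‖²`.
Sum over `a` (`card_ball_ge`: at least `c 𝒜` elements), `nd a ≤ C 𝒜^θ`, extend `e` to `ball 𝒜`; `a ↦ a⁶` is
injective on primary elements (`a⁶ = b⁶ ⇒ a ∣ b ∧ b ∣ a`, `Prim.dvd_antisymm`) with values in `ball D`;
`fMoment` with `A = 1`, `Z = D`; `∑_{e ∈ ball 𝒜} (N e)⁻¹ ≤ C 𝒜^θ` (`sum_ball_rpow`). -/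
theorem amp (ν : Tw K) {ε : ℝ} (hε : 0 < ε) : ∃ C, ∀ y : ℝ, 0 ≤ y →
    ‖Mb ν 1 y 0‖ ^ 2 ≤ C * Real.exp ((5 / 6 + ε) * y) := by
  have hθ : 0 < ε / 3 := by positivity
  obtain ⟨c, hc, hcard⟩ := card_ball_ge (K := K)
  obtain ⟨C1, hC1, hdv⟩ := nd_le (K := K) hθ
  obtain ⟨C2, hC2, hsum⟩ := sum_N_rpow_le (K := K) hθ
  obtain ⟨C3, B, hF⟩ := fMoment (K := K) 1 hθ
  refine ⟨C1 * C2 * (C3 * (1 + |(0 : ℝ)| + ν.sz) ^ B) / c, fun y hy => ?_⟩
  set 𝒜 := Real.exp (y / 6) with h𝒜def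
  set Z := Real.exp y with hZ
  have hZ𝒜 : 𝒜 ^ 6 = Z := by
    rw [h𝒜def, hZ, ← Real.exp_nat_mul]
    congr 1
    push_cast
    ring
  have h𝒜 : 1 ≤ 𝒜 := Real.one_le_exp (by positivity)
  have hZ1 : 1 ≤ Z := Real.one_le_exp hy
  set M : R K → ℝ → ℝ := fun d y => ‖Mb ν d y 0‖ ^ 2 with hM
  set z := Z ^ (ε / 3) with hz
  set 𝓔 := C3 * z * (1 + |(0 : ℝ)| + ν.sz) ^ B * Z with h𝓔def
  have H : ∀ y' ≤ y, ∑ ρ ∈ ball K Z, M ρ y' ≤ 𝓔 := fun y' hy' =>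
    hF Z hZ1 ν Z y' 0 hZ1 (Real.rpow_one Z).ge (Real.exp_le_exp.2 hy')
  have hM0 : ∀ d y, 0 ≤ M d y := fun d y => sq_nonneg _
  have h𝓔 : 0 ≤ 𝓔 := (Finset.sum_nonneg fun ρ _ => hM0 ρ y).trans (H y le_rfl)
  have h𝒜Z : 𝒜 ≤ Z := hZ𝒜 ▸ le_self_pow₀ h𝒜 (by norm_num)
  have hZ0 : 0 ≤ Z := by positivity
  have hz0 : 0 ≤ z := Real.rpow_nonneg hZ0 _
  have hpow : ∀ n : R K, N n ≤ Z → N n ^ (ε / 3) ≤ z := fun n hn =>
    Real.rpow_le_rpow (N_nonneg n) hn hθ.le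
  have hdv' : ∀ n : R K, n ≠ 0 → N n ≤ Z → nd n ≤ C1 * z := fun n hn h =>
    (hdv n hn).trans (mul_le_mul_of_nonneg_left (hpow n h) (by positivity))
  have h1 : ∀ y' ≤ y, ∑ a ∈ ball K 𝒜, M (a ^ 6) y' ≤ 𝓔 := by
    intro y' hy'
    refine (b6amp_fib (f := fun ρ => M ρ y') fun ρ => hM0 ρ y').trans ?_
    rw [hZ𝒜]
    exact H y' hy'
  have h2 : ∑ e ∈ ball K 𝒜, (N e)⁻¹ ≤ C2 * z := by
    refine le_trans ?_ (mul_le_mul_of_nonneg_right
      (hsum (ball K 𝒜) fun r hr => (mem_ball.1 hr).1) hz0)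
    rw [Finset.sum_mul]
    refine Finset.sum_le_sum fun e he => ?_
    obtain ⟨he1, he2⟩ := mem_ball.1 he
    have e1 : (N e)⁻¹ = N e ^ (-1 - ε / 3) * N e ^ (ε / 3) := by
      rw [← Real.rpow_add (N_pos he1.ne_zero), ← Real.rpow_neg_one]; congr 1; ring
    rw [e1]
    exact mul_le_mul_of_nonneg_left (hpow e (he2.trans h𝒜Z)) (Real.rpow_nonneg (N_nonneg e) _)
  have h3 : ∀ a ∈ ball K 𝒜, M 1 y ≤
      C1 * z * ∑ e ∈ ball K 𝒜, (N e)⁻¹ * M (a ^ 6) (y - Real.log (N e)) := by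
    intro a ha
    obtain ⟨ha1, ha2⟩ := mem_ball.1 ha
    have hnn : ∀ e : R K, 0 ≤ (N e)⁻¹ * M (a ^ 6) (y - Real.log (N e)) := fun e =>
      mul_nonneg (inv_nonneg.2 (N_nonneg e)) (hM0 _ _)
    refine (b6amp_one ν ha1 y 0).trans (mul_le_mul (hdv' a ha1.ne_zero (ha2.trans h𝒜Z))
      (Finset.sum_le_sum_of_subset_of_nonneg (fun e he => ?_) fun e _ _ => hnn e)
      (Finset.sum_nonneg fun e _ => hnn e) (by positivity))
    obtain ⟨he1, he2⟩ := (mem_pdiv ha1.ne_zero).1 he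
    exact mem_ball.2 ⟨he1, (N_le_of_dvd ha1.ne_zero he2).trans ha2⟩
  have h4 : ((ball K 𝒜).card : ℝ) * M 1 y ≤ C1 * z * (C2 * z * 𝓔) := by
    calc ((ball K 𝒜).card : ℝ) * M 1 y = ∑ a ∈ ball K 𝒜, M 1 y := by
          rw [Finset.sum_const, nsmul_eq_mul]
      _ ≤ ∑ a ∈ ball K 𝒜,
            C1 * z * ∑ e ∈ ball K 𝒜, (N e)⁻¹ * M (a ^ 6) (y - Real.log (N e)) :=
          Finset.sum_le_sum fun a ha => h3 a ha
      _ = C1 * z * ∑ e ∈ ball K 𝒜, (N e)⁻¹ *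
            ∑ a ∈ ball K 𝒜, M (a ^ 6) (y - Real.log (N e)) := by
          simp only [← Finset.mul_sum]
          congr 1
          simp only [Finset.mul_sum]
          exact Finset.sum_comm
      _ ≤ C1 * z * ∑ e ∈ ball K 𝒜, (N e)⁻¹ * 𝓔 := by
          refine mul_le_mul_of_nonneg_left (Finset.sum_le_sum fun e he => ?_) (by positivity)
          refine mul_le_mul_of_nonneg_left (h1 _ ?_) (inv_nonneg.2 (N_nonneg e))
          have := Real.log_nonneg (one_le_N (mem_ball.1 he).1.ne_zero)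
          linarith
      _ ≤ C1 * z * (C2 * z * 𝓔) := by
          rw [← Finset.sum_mul]
          exact mul_le_mul_of_nonneg_left (mul_le_mul_of_nonneg_right h2 h𝓔) (by positivity)
  have h5 : Real.exp ((5 / 6 + ε) * y) * 𝒜 = z * z * z * Z := by
    rw [hz, hZ, h𝒜def, ← Real.exp_mul, ← Real.exp_add, ← Real.exp_add, ← Real.exp_add, ← Real.exp_add]
    congr 1
    ring
  have h6 : c * 𝒜 * M 1 y ≤ C1 * z * (C2 * z * 𝓔) :=
    (mul_le_mul_of_nonneg_right (hcard 𝒜 h𝒜) (hM0 1 y)).trans h4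
  have h𝒜0 : 0 < 𝒜 := by positivity
  have h7 : C1 * C2 * (C3 * (1 + |(0 : ℝ)| + ν.sz) ^ B) / c * Real.exp ((5 / 6 + ε) * y) =
      C1 * z * (C2 * z * 𝓔) / (c * 𝒜) := by
    rw [h𝓔def, eq_div_iff (by positivity), mul_comm c 𝒜, ← mul_assoc, mul_assoc _ _ 𝒜, h5]
    field_simp
  rw [h7, le_div_iff₀ (by positivity), mul_comm]
  exact h6

end Crest.Agent.R312.FM
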