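import Crest.Agent.R312.B3L_Defs
import Crest.Agent.R312.B7Euler

/-!
# R312 / B3L_Zeta : `ζ_K(σ) ≤ C^{[K:ℚ]}` (pure Mathlib)

From `B7Euler` (owner helper45).
-/

set_option autoImplicit false

noncomputable section

open scoped Classical ComplexConjugate NumberField nonZeroDivisors
open MeasureTheory

namespace Crest.Agent.R312.BL

variable {K : Type} [Field K] [NumberField K] [Fld K]

omit [Fld K] in
theorem norm_absNorm_cpow0 (I : Ideal (𝓞 K)) {s : ℂ} (hs : 0 < s.re) :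
    ‖(Ideal.absNorm I : ℂ) ^ (-s)‖ = (Ideal.absNorm I : ℝ) ^ (-s.re) := by
  rw [Complex.norm_natCast_cpow_of_re_ne_zero _ (by rw [Complex.neg_re]; linarith), Complex.neg_re]

omit [Fld K] in
theorem zeta_aux {σ : ℝ} (hσ : 1 < σ) :
    CMul (fun I : Ideal (𝓞 K) => (Ideal.absNorm I : ℂ) ^ (-(σ : ℂ))) ∧
    (∀ P : PI K, ‖(Ideal.absNorm P.asIdeal : ℂ) ^ (-(σ : ℂ))‖ ≤ 1 / 2) ∧
    (Summable fun P : PI K => ‖(Ideal.absNorm P.asIdeal : ℂ) ^ (-(σ : ℂ))‖) ∧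
    ∑' P : PI K, ‖(Ideal.absNorm P.asIdeal : ℂ) ^ (-(σ : ℂ))‖ ≤
      Module.finrank ℚ K * ∑' m : ℕ, (m : ℝ) ^ (-σ) := by
  have hn : ∀ I : Ideal (𝓞 K), ‖(Ideal.absNorm I : ℂ) ^ (-(σ : ℂ))‖ = (Ideal.absNorm I : ℝ) ^ (-σ) :=
    fun I => norm_absNorm_cpow0 I (s := σ) (by simp; linarith)
  have hF : Summable fun m : ℕ => (m : ℝ) ^ (-σ) := Real.summable_nat_rpow.2 (by linarith)
  have h0 : ∀ m : ℕ, 0 ≤ (m : ℝ) ^ (-σ) := fun m => Real.rpow_nonneg (Nat.cast_nonneg m) _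
  have hle : ∀ P : PI K, ‖(Ideal.absNorm P.asIdeal : ℂ) ^ (-(σ : ℂ))‖ ≤ (lp P : ℝ) ^ (-σ) := by
    intro P
    rw [hn]
    exact Real.rpow_le_rpow_of_nonpos (by exact_mod_cast (lp_spec P).1.pos)
      (by exact_mod_cast lp_le P) (by linarith)
  have hl : Summable fun P : PI K => (lp P : ℝ) ^ (-σ) :=
    summable_lp (K := K) (F := fun m : ℕ => (m : ℝ) ^ (-σ)) h0 hF
  have hs : Summable fun P : PI K => ‖(Ideal.absNorm P.asIdeal : ℂ) ^ (-(σ : ℂ))‖ :=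
    Summable.of_nonneg_of_le (fun _ => norm_nonneg _) hle hl
  refine ⟨⟨by simp, ?_, fun I J => ?_⟩, fun P => ?_, hs, ?_⟩
  · have : (σ : ℂ) ≠ 0 := Complex.ofReal_ne_zero.2 (by linarith)
    simp [this]
  · rw [map_mul, Nat.cast_mul, Complex.natCast_mul_natCast_cpow]
  · rw [hn]
    have h2 : (2 : ℝ) ≤ Ideal.absNorm P.asIdeal := by exact_mod_cast b7_two_le P
    calc (Ideal.absNorm P.asIdeal : ℝ) ^ (-σ) ≤ (2 : ℝ) ^ (-σ) :=
          Real.rpow_le_rpow_of_nonpos two_pos h2 (by linarith)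
      _ ≤ (2 : ℝ) ^ (-1 : ℝ) := Real.rpow_le_rpow_of_exponent_le one_le_two (by linarith)
      _ = 1 / 2 := by rw [Real.rpow_neg_one, one_div]
  · exact (hs.tsum_le_tsum hle hl).trans (tsum_lp_le (K := K) (F := fun m : ℕ => (m : ℝ) ^ (-σ)) h0 hF)

omit [Fld K] in
theorem summable_absNorm {σ : ℝ} (hσ : 1 < σ) :
    Summable (fun I : Ideal (𝓞 K) => (Ideal.absNorm I : ℝ) ^ (-σ)) := by
  obtain ⟨h1, h2, h3, -⟩ := zeta_aux (K := K) hσ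
  refine (euler_summable h1 h2 h3).congr fun I => ?_
  exact norm_absNorm_cpow0 I (s := σ) (by simp; linarith)

omit [Fld K] in
theorem zetaK_nonneg (σ : ℝ) : 0 ≤ zetaK K σ :=
  tsum_nonneg fun _ => Real.rpow_nonneg (Nat.cast_nonneg _) _

theorem zetaK_le {σ : ℝ} (hσ : 1 < σ) : ∃ C : ℝ, 1 ≤ C ∧
    ∀ (K : Type) [Field K] [NumberField K], zetaK K σ ≤ C ^ Module.finrank ℚ K := by
  have hZ : 0 ≤ ∑' m : ℕ, (m : ℝ) ^ (-σ) :=
    tsum_nonneg fun m => Real.rpow_nonneg (Nat.cast_nonneg m) _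
  refine ⟨Real.exp (2 * ∑' m : ℕ, (m : ℝ) ^ (-σ)), Real.one_le_exp (by positivity), fun K _ _ => ?_⟩
  obtain ⟨h1, h2, h3, h4⟩ := zeta_aux (K := K) hσ
  have h5 := euler_tsum_norm_le h1 h2 h3
  have h6 : zetaK K σ = ∑' I : Ideal (𝓞 K), ‖(Ideal.absNorm I : ℂ) ^ (-(σ : ℂ))‖ :=
    tsum_congr fun I => (norm_absNorm_cpow0 I (s := σ) (by simp; linarith)).symm
  rw [h6, ← Real.exp_nat_mul]
  refine h5.trans (Real.exp_le_exp.2 ?_)
  linarith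

omit [Fld K] in
/-- `‖(N I : ℂ)^(-s)‖ = N I ^ (-re s)`, also for `I = ⊥` -/
theorem norm_absNorm_cpow (I : Ideal (𝓞 K)) {s : ℂ} (hs : 0 < s.re) :
    ‖(Ideal.absNorm I : ℂ) ^ (-s)‖ = (Ideal.absNorm I : ℝ) ^ (-s.re) := norm_absNorm_cpow0 I hs

omit [Fld K] in
theorem summable_Lser {a : Ideal (𝓞 K) → ℂ} {M : ℝ} (hM : ∀ I, ‖a I‖ ≤ M) {s : ℂ} (hs : 1 < s.re) :
    Summable (fun I : Ideal (𝓞 K) => a I * (Ideal.absNorm I : ℂ) ^ (-s)) := by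
  refine Summable.of_norm_bounded ((summable_absNorm hs).mul_left M) fun I => ?_
  rw [norm_mul, norm_absNorm_cpow I (by linarith)]
  exact mul_le_mul_of_nonneg_right (hM I) (Real.rpow_nonneg (Nat.cast_nonneg _) _)

omit [Fld K] in
theorem norm_Lser_le {a : Ideal (𝓞 K) → ℂ} {M : ℝ} (hM : ∀ I, ‖a I‖ ≤ M) {s : ℂ} (hs : 1 < s.re) :
    ‖Lser a s‖ ≤ M * zetaK K s.re := by
  refine tsum_of_norm_bounded ((summable_absNorm hs).hasSum.mul_left M) fun I => ?_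
  rw [norm_mul, norm_absNorm_cpow I (by linarith)]
  exact mul_le_mul_of_nonneg_right (hM I) (Real.rpow_nonneg (Nat.cast_nonneg _) _)

end Crest.Agent.R312.BL
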