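import Crest.Agent.R312.B4aDefs
import Crest.Agent.R312.B7Euler
import Crest.Agent.R312.B3L_Zeta

/-!
# R312 / B6Eul : from a Hecke character to a twist

Definitions and the dictionary R17 → R312 are in `B4aDefs.lean`.  Prefix helper lemmas with `b6eul_`.
-/

set_option autoImplicit false

noncomputable section

open scoped Classical ComplexConjugate NumberField
open MeasureTheory

namespace Crest.Agent.R312.FM

variable {K : Type} [Field K] [NumberField K] [Fld K] [Loc K] [Setup K]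

omit [Fld K] [Loc K] [Setup K] in
/-- `I` is coprime to `J ≠ 0` iff no prime divisor of `J` divides `I` -/
theorem b6eul_cop {J : Ideal (𝓞 K)} (I : Ideal (𝓞 K)) (hJ : J ≠ 0) :
    IsCoprime I J ↔ ∀ P : PI K, P.asIdeal ∣ J → ¬ P.asIdeal ∣ I := by
  constructor
  · intro h P hPJ hPI
    exact P.prime.not_isUnit (h.isUnit_of_dvd' hPI hPJ)
  · intro h
    rw [Ideal.isCoprime_iff_sup_eq]
    by_contra hne
    obtain ⟨P, hP⟩ := b7_exists_dvd (K := K) (I := I ⊔ J)
      (fun e => hJ (le_bot_iff.1 (le_sup_right.trans (le_of_eq e)))) (by simpa using hne)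
    exact h P (hP.trans (Ideal.dvd_iff_le.2 le_sup_right)) (hP.trans (Ideal.dvd_iff_le.2 le_sup_left))

omit [Loc K] [Setup K] in
theorem b6eul_norm_le {f : ℕ} {ξ : Pl K → ℝ} {ψ : Ideal (𝓞 K) → ℂ} (h : HChar f ξ ψ)
    (I : Ideal (𝓞 K)) : ‖ψ I‖ ≤ 1 := by
  by_cases hI : IsCoprime I (Ideal.span {(f : 𝓞 K)})
  · exact (h.norm I hI).le
  · rw [h.zero I hI, norm_zero]
    exact zero_le_one

/-- `exists_tw`, `Tw.dser_eq`; `ν.toH I = 1_{(I,Q)=1} ψ I`.  Apply `euler_sieve` to `a I = ψ I · N I^{-z}`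
(`CMul`; `ψ 0 = 0` as `2 ≤ f`; summable for `Re z > 1` by `euler_summable`, `summable_lp`, `lp_le`) and the
finite set `S` of primes `P ∣ Q` (`Ideal.finite_factors`); `I` is coprime to `Q` iff no `P ∈ S` divides it.
`hh z = ∏_{P ∈ S} (1 - ψ P · N P^{-z})`. -/
theorem exists_tw_eul {f : ℕ} (hf : f ∣ Loc.Q K) {ψ : Ideal (𝓞 K) → ℂ} (h : HChar f 0 ψ) :
    ∃ (ν : Tw K) (hh : ℂ → ℂ), Differentiable ℂ hh ∧
      ∀ z : ℂ, 1 < z.re → dser ν.v z = Lser ψ z * hh z := by
  obtain ⟨ν, -, -, hν⟩ := exists_tw hf h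
  have hQ : Ideal.span {((Loc.Q K : ℕ) : 𝓞 K)} ≠ 0 := by
    rw [Ne, Ideal.zero_eq_bot, Ideal.span_singleton_eq_bot]
    exact Nat.cast_ne_zero.2 Loc.Q_ne
  have hfin := Ideal.finite_factors hQ
  refine ⟨ν, fun z => ∏ P ∈ hfin.toFinset,
    (1 - ψ P.asIdeal * (Ideal.absNorm P.asIdeal : ℂ) ^ (-z)), ?_, fun z hz => ?_⟩
  · refine Differentiable.fun_finsetProd fun P _ => ?_
    refine (differentiable_const _).sub ((differentiable_const _).mul ?_)
    refine differentiable_id.neg.const_cpow (Or.inl ?_)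
    have := b7_two_le P
    exact Nat.cast_ne_zero.2 (by omega)
  · have hz0 : z ≠ 0 := by
      rintro rfl
      simp at hz
      linarith
    have ha : CMul fun I : Ideal (𝓞 K) => ψ I * (Ideal.absNorm I : ℂ) ^ (-z) := by
      refine ⟨by rw [h.one]; simp, by simp [hz0], fun I J => ?_⟩
      rw [map_mul, Nat.cast_mul, Complex.natCast_mul_natCast_cpow, h.mul]
      ring
    have hs : Summable fun I : Ideal (𝓞 K) => ‖ψ I * (Ideal.absNorm I : ℂ) ^ (-z)‖ := by
      refine Summable.of_nonneg_of_le (fun _ => norm_nonneg _) (fun I => ?_)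
        (BL.summable_absNorm (K := K) hz)
      rw [norm_mul, BL.norm_absNorm_cpow0 I (by linarith)]
      exact mul_le_of_le_one_left (Real.rpow_nonneg (Nat.cast_nonneg _) _) (b6eul_norm_le h I)
    have he := euler_sieve ha hs hfin.toFinset
    rw [Tw.dser_eq, mul_comm, Lser, Lser, he]
    refine tsum_congr fun I => ?_
    have hc : (∀ P ∈ hfin.toFinset, ¬ P.asIdeal ∣ I) ↔
        IsCoprime I (Ideal.span {((Loc.Q K : ℕ) : 𝓞 K)}) := by
      rw [b6eul_cop I hQ]
      simp only [Set.Finite.mem_toFinset, Set.mem_ofPred_eq]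
    by_cases hI : IsCoprime I (Ideal.span {((Loc.Q K : ℕ) : 𝓞 K)})
    · rw [if_pos (hc.2 hI), hν I hI]
    · rw [if_neg fun h' => hI (hc.1 h'), Tw.toH, if_neg hI, zero_mul]

end Crest.Agent.R312.FM
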