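import Crest.Agent.R312.B4aAbs
import Crest.Agent.R17.SigMellin

/-!
# R312 / B6Lap : the Laplace transform of the Möbius block

Definitions and the dictionary R17 → R312 are in `B4aDefs.lean`.  Prefix helper lemmas with `b6lap_`.
-/

set_option autoImplicit false

noncomputable section

open scoped Classical ComplexConjugate NumberField
open MeasureTheory

namespace Crest.Agent.R312.FM

variable {K : Type} [Field K] [NumberField K] [Fld K] [Loc K] [Setup K]

/-- port of `R17.dser_mul_mu` (file `LMisc`): `conv_sum`-type rearrangement and `sum_mu_pdiv`; or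
`tsum_mul_tsum_of_summable_norm` with `summable_dser` -/
theorem dser_mul_mu (ν : Tw K) {z : ℂ} (hz : 1 < z.re) :
    dser (fun n => mu n * ν.v n) z * dser ν.v z = 1 := by
  rw [mul_comm]
  exact ν.dser_mul_mu hz

theorem b6lap_lap {a : R K → ℂ} (hb : ∀ n, Prim n → ‖a n‖ ≤ 1) {z : ℂ} (hz : 1 < z.re) :
    ∫ y : ℝ, pb a y 0 * Complex.exp (-(z - 1 / 2) * y) =
      Real.sqrt Real.pi * Complex.exp ((z - 1 / 2) ^ 2 / 4) * dser a z := by
  set c : R K → ℂ := fun n => if Prim n then a n * (N n : ℂ) ^ (-(1 / 2 : ℂ)) else 0 with hc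
  have hcz : ∀ n, c n * Complex.exp (-(z - 1 / 2) * Real.log (N n)) =
      if Prim n then a n * (N n : ℂ) ^ (-z) else 0 := by
    intro n
    simp only [hc]
    split_ifs with hn
    · rw [bk2_cpow hn.ne_zero, bk2_cpow hn.ne_zero, mul_assoc, ← Complex.exp_add]
      congr 2
      ring
    · rw [zero_mul]
  have h := hasSum_integral_of_summable_integral_norm (μ := volume)
    (F := fun (n : R K) (y : ℝ) => c n * ((R17.gw (Real.log (N n) - y) : ℂ) *
      Complex.exp (-(z - 1 / 2) * y))) (fun n => (R17.SM.lap_int _ _).const_mul _) (by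
      refine ((summable_dser hb hz).mul_left
        (Real.sqrt Real.pi * Real.exp ((z - 1 / 2).re ^ 2 / 4))).congr fun n => ?_
      simp only [norm_mul (c n)]
      rw [integral_const_mul, R17.SM.lap_norm, ← hcz, norm_mul, Complex.norm_exp]
      simp only [Complex.mul_re, Complex.neg_re, Complex.ofReal_re, Complex.ofReal_im, mul_zero,
        sub_zero]
      ring)
  have h2 : ∀ y : ℝ, pb a y 0 * Complex.exp (-(z - 1 / 2) * y) = ∑' n : R K,
      c n * ((R17.gw (Real.log (N n) - y) : ℂ) * Complex.exp (-(z - 1 / 2) * y)) := by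
    intro y
    rw [pb, blks, ← tsum_mul_right]
    refine tsum_congr fun n => ?_
    simp only [hc, Complex.ofReal_zero, zero_mul, add_zero]
    split_ifs
    · exact mul_assoc _ _ _
    · rw [zero_mul, zero_mul]
  simp only [h2]
  rw [← h.tsum_eq, dser, ← tsum_mul_left]
  refine tsum_congr fun n => ?_
  rw [integral_const_mul, R17.SM.lap_gw, ← hcz]
  ring

theorem b6lap_gen {a : R K → ℂ} (hb : ∀ n, Prim n → ‖a n‖ ≤ 1) {θ C : ℝ}
    (h : ∀ y : ℝ, 0 ≤ y → ‖pb a y 0‖ ≤ C * Real.exp ((θ - 1 / 2) * y)) :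
    ∃ Φ : ℂ → ℂ, DifferentiableOn ℂ Φ {z | θ < z.re ∧ z.re < 3 / 2} ∧
      ∀ z : ℂ, 1 < z.re →
        Φ z = Real.sqrt Real.pi * Complex.exp ((z - 1 / 2) ^ 2 / 4) * dser a z := by
  have hF0 := continuous_pb (polyBd_of_le_one hb)
  have hF : Continuous fun y : ℝ => pb a y 0 :=
    hF0.comp' (g := fun p : ℝ × ℝ => pb a p.1 p.2) (f := fun y : ℝ => (y, (0 : ℝ))) (by fun_prop)
  obtain ⟨C1, hC1⟩ := norm_pb_le (K := K)
  obtain ⟨C2, hC2⟩ := norm_pb_le_neg (K := K) 1
  have h1 : ∀ y : ℝ, ‖pb a y 0‖ ≤ max (max C1 C2) 0 * Real.exp y := by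
    intro y
    rcases le_total 0 y with hy | hy
    · refine (hC1 a hb y 0).trans (mul_le_mul ((le_max_left _ _).trans (le_max_left _ _))
        (Real.exp_le_exp.2 (by linarith)) (Real.exp_pos _).le (le_max_right _ _))
    · have h2 := hC2 a hb y 0 hy
      rw [Nat.cast_one, one_mul] at h2
      exact h2.trans (mul_le_mul_of_nonneg_right ((le_max_right _ _).trans (le_max_left _ _))
        (Real.exp_pos _).le)
  refine ⟨fun z => ∫ y : ℝ, pb a y 0 * Complex.exp (-(z - 1 / 2) * y), fun z hz => ?_,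
    fun z hz => b6lap_lap hb hz⟩
  have h2 := R17.SM.lap_diff hF h1 h (w := z - 1 / 2) (by simp; linarith [hz.1])
    (by simp; linarith [hz.2])
  have h3 : DifferentiableAt ℂ (fun z : ℂ => z - 1 / 2) z := differentiableAt_id.sub_const _
  exact (DifferentiableAt.comp z (g := fun w : ℂ => ∫ y : ℝ, pb a y 0 * Complex.exp (-w * y))
    (f := fun z : ℂ => z - 1 / 2) h2 h3).differentiableWithinAt

/-- Port of `R17/SigMellin` (`lap_int`, `lap_gw`, `lap_norm`, `gw_le`, `mellin_eq`, `lap_diff`) for the single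
series `F y = Mb ν 1 y 0 = ∑'_n μν(n) N n^{-1/2} gw(log N n - y)`: `F` is continuous (`continuous_pb`),
`‖F y‖ ≤ C e^y` for all `y` (`gw_le`, `summable_N_rpow` with `σ = 3/2`), so
`Φ z = ∫ F y e^{-(z-1/2) y} dy` is holomorphic on the strip (`lap_diff` with `a = θ - 1/2`, `y2 = 0`); for
`1 < Re z` Fubini (`integral_tsum_of_summable_integral_norm`) gives
`Φ z = √π e^{(z-1/2)²/4} dser (μν) z`; `dser_mul_mu`. -/
theorem lap_main (ν : Tw K) {θ C : ℝ} (h : ∀ y : ℝ, 0 ≤ y → ‖Mb ν 1 y 0‖ ≤ C * Real.exp ((θ - 1 / 2) * y)) :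
    ∃ Φ : ℂ → ℂ, DifferentiableOn ℂ Φ {z | θ < z.re ∧ z.re < 3 / 2} ∧
      ∀ z : ℂ, 1 < z.re →
        Φ z * dser ν.v z = Real.sqrt Real.pi * Complex.exp ((z - 1 / 2) ^ 2 / 4) := by
  have hb : ∀ n, Prim n → ‖mu n * ν.v n * chi n 1‖ ≤ 1 := fun n hn => by
    rw [(chi_isChar hn.ne_zero).one, mul_one, norm_mul]
    exact mul_le_one₀ (norm_mu_le n) (norm_nonneg _) (ν.norm_v_le n)
  obtain ⟨Φ, h1, h2⟩ := b6lap_gen (a := fun n => mu n * ν.v n * chi n 1) hb h
  refine ⟨Φ, h1, fun z hz => ?_⟩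
  rw [h2 z hz, dser_congr (g := fun n => mu n * ν.v n)
      (fun n hn => by rw [(chi_isChar hn.ne_zero).one, mul_one]), mul_assoc,
      dser_mul_mu ν hz, mul_one]

end Crest.Agent.R312.FM
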