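import Crest.Agent.R312.B4F
import Crest.Agent.R312.B3L
import Crest.Agent.R312.B0Setup
import Crest.Agent.R312.B6Amp
import Crest.Agent.R312.B6Lap
import Crest.Agent.R312.B6Eul

/-!
# R312 / B6Main : the zero-free half plane (head module of part B6)
-/

set_option autoImplicit false

noncomputable section

open scoped Classical ComplexConjugate NumberField
open MeasureTheory

namespace Crest.Agent.R312

variable {K : Type} [Field K] [NumberField K] [Fld K]

/-- **Quasi-GRH** for ray class characters of `K`. -/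
theorem zf {f : ℕ} {ψ : Ideal (𝓞 K) → ℂ} (h : HChar f 0 ψ) {s : ℂ} (hs : 11 / 12 < s.re)
    (hs1 : s ≠ 1 ∨ ψ ≠ one0 f) : Lf ψ s ≠ 0 := by
  obtain ⟨iL, hfQ⟩ := exists_loc K (f := f) (by have := h.two_le; omega)
  obtain ⟨iS⟩ := exists_setup K
  obtain ⟨ν, hh, hhd, heul⟩ := FM.exists_tw_eul hfQ h
  set θ : ℝ := (11 / 12 + s.re) / 2 with hθ
  obtain ⟨C, hC⟩ := FM.amp ν (ε := 2 * θ - 11 / 6) (by rw [hθ]; linarith)
  obtain ⟨Φ, hΦd, hΦ⟩ := FM.lap_main ν (θ := θ) (C := Real.sqrt |C|) fun y hy => by
    refine (pow_le_pow_iff_left₀ (norm_nonneg _) (by positivity) two_ne_zero).1 ((hC y hy).trans ?_)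
    rw [mul_pow, Real.sq_sqrt (abs_nonneg C), ← Real.exp_nat_mul,
      show ((2 : ℕ) : ℝ) * ((θ - 1 / 2) * y) = (5 / 6 + (2 * θ - 11 / 6)) * y by push_cast; ring]
    exact mul_le_mul_of_nonneg_right (le_abs_self C) (Real.exp_pos _).le
  have main : ∀ E g : ℂ → ℂ, Differentiable ℂ E → Differentiable ℂ g →
      (∀ z : ℂ, 1 < z.re → E z = g z * Lser ψ z) → g s ≠ 0 → E s ≠ 0 := by
    intro E g hE hg hEg hgs h0
    have hne : ∀ z : ℂ, (Real.sqrt Real.pi : ℂ) * Complex.exp ((z - 1 / 2) ^ 2 / 4) ≠ 0 := fun z =>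
      mul_ne_zero (Complex.ofReal_ne_zero.2 (Real.sqrt_pos.2 Real.pi_pos).ne') (Complex.exp_ne_zero _)
    rcases lt_or_ge 1 s.re with h1 | h1
    · rw [hEg s h1] at h0
      have h2 := hΦ s h1
      rw [heul s h1, (mul_eq_zero.1 h0).resolve_left hgs, zero_mul, mul_zero] at h2
      exact hne s h2.symm
    set U : Set ℂ := {z | θ < z.re ∧ z.re < 3 / 2} with hU
    have hUo : IsOpen U := (isOpen_lt continuous_const Complex.continuous_re).inter
      (isOpen_lt Complex.continuous_re continuous_const)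
    have hUc : IsPreconnected U :=
      ((convex_halfSpace_re_gt θ).inter (convex_halfSpace_re_lt (3 / 2))).isPreconnected
    have d1 : DifferentiableOn ℂ (fun z => Φ z * (E z * hh z)) U :=
      hΦd.mul (hE.mul hhd).differentiableOn
    have d2 : DifferentiableOn ℂ (fun z => g z * (Real.sqrt Real.pi *
        Complex.exp ((z - 1 / 2) ^ 2 / 4))) U :=
      hg.differentiableOn.mul (by fun_prop)
    have hz0 : ((7 / 6 : ℝ) : ℂ) ∈ U := ⟨by simp only [Complex.ofReal_re]; linarith, by
      simp only [Complex.ofReal_re]; norm_num⟩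
    have := (d1.analyticOnNhd hUo).eqOn_of_preconnected_of_eventuallyEq (d2.analyticOnNhd hUo) hUc hz0
      (Filter.eventually_of_mem ((isOpen_lt continuous_const Complex.continuous_re).mem_nhds
        (show (1 : ℝ) < ((7 / 6 : ℝ) : ℂ).re by simp only [Complex.ofReal_re]; norm_num))
        fun z hz => by
          have h3 := hΦ z hz
          rw [heul z hz] at h3
          simp only
          rw [hEg z hz, ← h3]
          ring)
      (show s ∈ U from ⟨by linarith, by linarith⟩)
    simp only [h0, zero_mul, mul_zero] at this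
    exact mul_ne_zero hgs (hne s) this.symm
  by_cases h1 : s = 1
  · have h2 := Ef_one_eq_zero h (hs1.resolve_left (not_not.2 h1))
    rw [Lf, h2, zero_div, add_zero]
    refine main _ (fun _ => 1) ?_ (by fun_prop) (fun z hz => ?_) one_ne_zero
    · rw [← differentiableOn_univ, Complex.differentiableOn_dslope Filter.univ_mem]
      exact (Ef_differentiable h).differentiableOn
    · have hz1 : z ≠ 1 := by
        rintro rfl
        simp at hz
      rw [dslope_of_ne _ hz1, slope_def_field, h2, sub_zero, Ef_eq h hz, one_mul,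
        mul_div_cancel_left₀ _ (sub_ne_zero.2 hz1)]
  · rw [Lf, dslope_of_ne _ h1, slope_def_field, ← add_div, sub_add_cancel]
    exact div_ne_zero (main _ (fun z => z - 1) (Ef_differentiable h) (by fun_prop)
      (fun z hz => Ef_eq h hz) (sub_ne_zero.2 h1)) (sub_ne_zero.2 h1)

end Crest.Agent.R312
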