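import Crest.Agent.R17.Ring

/-!
# R312 / BDefs : all shared definitions of part B (owner helper53).  DO NOT EDIT.

Read `R312/ReadB.lean` for the overview.  This is the setting of `Crest/Agent/R17` (see `R17/Defs.lean`)
with `O = ℤ[ω]` replaced by the ring `R K = 𝓞_K[1/Q]` of `S`-integers (`S` = primes above `Q`) of a number
field `K ∋ ω`; `R K` is a PID with infinitely many units, `Prim` is a multiplicative system of
generators of its non-zero ideals, `N x = #(R/x)`.
-/

set_option autoImplicit false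

noncomputable section

open scoped Classical ComplexConjugate NumberField
open Crest.Agent.R17 (omC)

namespace Crest.Agent.R312

/-! ## The field, the ring of `S`-integers -/

/-- a number field with a cube root of unity and a generator `δ` of the different -/
class Fld (K : Type) [Field K] [NumberField K] where
  om : 𝓞 K
  om_eq : om ^ 2 + om + 1 = 0
  δ : 𝓞 K
  δ_ne : δ ≠ 0
  dual : ∀ x : K, (∀ y : 𝓞 K, ∃ n : ℤ, Algebra.trace ℚ K (x * y / (δ : K)) = n) ↔ IsIntegral ℤ x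

/-- `𝓞_K[1/Q]` as a subring of `K` -/
def RR (K : Type) [Field K] (Q : ℕ) : Subring K where
  carrier := {x | ∃ n : ℕ, IsIntegral ℤ ((Q : K) ^ n * x)}
  one_mem' := ⟨0, by simpa using isIntegral_one⟩
  zero_mem' := ⟨0, by simpa using isIntegral_zero⟩
  mul_mem' := by
    rintro x y ⟨m, hm⟩ ⟨n, hn⟩
    refine ⟨m + n, ?_⟩
    have := hm.mul hn
    rwa [show (Q : K) ^ m * x * ((Q : K) ^ n * y) = (Q : K) ^ (m + n) * (x * y) by ring] at this
  add_mem' := by
    rintro x y ⟨m, hm⟩ ⟨n, hn⟩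
    have hQ : ∀ k : ℕ, IsIntegral ℤ ((Q : K) ^ k) := fun k =>
      IsIntegral.pow (by exact_mod_cast isIntegral_algebraMap (R := ℤ) (A := K) (x := (Q : ℤ))) k
    refine ⟨m + n, ?_⟩
    have := ((hQ n).mul hm).add ((hQ m).mul hn)
    rwa [show (Q : K) ^ n * ((Q : K) ^ m * x) + (Q : K) ^ m * ((Q : K) ^ n * y) =
      (Q : K) ^ (m + n) * (x + y) by ring] at this
  neg_mem' := by
    rintro x ⟨m, hm⟩
    exact ⟨m, by rw [mul_neg]; exact hm.neg⟩

/-- the set `S`: an integer `Q` divisible by `6` such that `𝓞_K[1/Q]` is a PID -/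
class Loc (K : Type) [Field K] where
  Q : ℕ
  Q_ne : Q ≠ 0
  six_dvd : 6 ∣ Q
  pid : IsPrincipalIdealRing (RR K Q)

/-- the ring of `S`-integers -/
abbrev R (K : Type) [Field K] [Loc K] : Type := ↥(RR K (Loc.Q K))

instance (K : Type) [Field K] [Loc K] : IsPrincipalIdealRing (R K) := Loc.pid

/-! ## Archimedean places -/

section arch
variable (K : Type) [Field K] [NumberField K] [Fld K]

/-- the complex embeddings with `ω ↦ omC`: one for each infinite place -/
def Pl : Type := {φ : K →+* ℂ // φ (Fld.om : 𝓞 K) = omC}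

instance : Fintype (Pl K) := by unfold Pl; infer_instance

/-- the number of infinite places, `[K:ℚ]/2` -/
def dd : ℕ := Fintype.card (Pl K)

variable {K}

/-- `x_v` -/
def emb (v : Pl K) (x : K) : ℂ := v.1 x

/-- `|δ_v|` -/
def dl (v : Pl K) : ℝ := ‖emb v ((Fld.δ : 𝓞 K) : K)‖

/-- logarithmic embedding `log |x_v|²` -/
def lg (x : K) (v : Pl K) : ℝ := Real.log (‖emb v x‖ ^ 2)

/-- `∏_v |x_v|^{2 i ξ_v}` -/
def ch (ξ : Pl K → ℝ) (x : K) : ℂ := Complex.exp (((∑ v, ξ v * lg x v : ℝ) : ℂ) * Complex.I)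

/-- angular character `∏_v x_v/|x_v|` -/
def ang (x : K) : ℂ := ∏ v : Pl K, emb v x / (‖emb v x‖ : ℂ)

/-- `exp(2πi Tr(x/δ))`, trivial on `𝓞 K`; `𝓞 K` is self-dual -/
def eT (x : K) : ℂ :=
  Complex.exp (2 * Real.pi * Complex.I * ((Algebra.trace ℚ K (x / ((Fld.δ : 𝓞 K) : K)) : ℚ) : ℂ))

/-- the self-dual Gaussian at scale `T` -/
def gau (x : K) (T : ℝ) : ℝ :=
  Real.exp (-(2 * Real.pi * ∑ v : Pl K, ‖emb v x‖ ^ 2 / (dl v * T ^ ((dd K : ℝ)⁻¹))))

/-- the value in `ℂ` of an element of `ℚ(ω) ⊆ K` (the same at all `v : Pl K`) -/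
def toC0 (x : K) : ℂ := if h : Nonempty (Pl K) then emb h.some x else 0

/-! ## Hecke characters and L-functions (ideals of `𝓞 K`; independent of `S`) -/

/-- `ψ` is a Hecke character modulo the integer `f` with infinity type `ch ξ`, `∑ ξ = 0` -/
structure HChar (f : ℕ) (ξ : Pl K → ℝ) (ψ : Ideal (𝓞 K) → ℂ) : Prop where
  two_le : 2 ≤ f
  sum_zero : ∑ v, ξ v = 0
  one : ψ 1 = 1
  mul : ∀ I J, ψ (I * J) = ψ I * ψ J
  zero : ∀ I, ¬ IsCoprime I (Ideal.span {(f : 𝓞 K)}) → ψ I = 0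
  norm : ∀ I, IsCoprime I (Ideal.span {(f : 𝓞 K)}) → ‖ψ I‖ = 1
  ray : ∀ x : 𝓞 K, (f : 𝓞 K) ∣ x - 1 → ψ (Ideal.span {x}) = ch ξ (x : K)

omit [Fld K] in
/-- the principal character modulo `f` -/
def one0 (f : ℕ) (I : Ideal (𝓞 K)) : ℂ := if IsCoprime I (Ideal.span {(f : 𝓞 K)}) then 1 else 0

omit [Fld K] in
/-- `∑_I ψ(I) N(I)^{-s}` -/
def Lser (ψ : Ideal (𝓞 K) → ℂ) (s : ℂ) : ℂ :=
  ∑' I : Ideal (𝓞 K), ψ I * (Ideal.absNorm I : ℂ) ^ (-s)

omit [Fld K] in
/-- the entire function `(s-1) L(s,ψ)` -/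
def Ef (ψ : Ideal (𝓞 K) → ℂ) : ℂ → ℂ :=
  if h : ∃ E : ℂ → ℂ, Differentiable ℂ E ∧ ∀ s : ℂ, 1 < s.re → E s = (s - 1) * Lser ψ s
  then h.choose else 0

omit [Fld K] in
/-- the continuation of `Lser ψ`; `= Ef ψ s / (s-1)` for `s ≠ 1`, entire when `Ef ψ 1 = 0` -/
def Lf (ψ : Ideal (𝓞 K) → ℂ) (s : ℂ) : ℂ := dslope (Ef ψ) 1 s + Ef ψ 1 / (s - 1)

end arch

/-! ## Basic objects on `R K` -/

section loc
variable {K : Type} [Field K] [Loc K]

/-- `S`-integral elements of `K` (integral at all primes above `Q`) -/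
def SInt (x : K) : Prop := ∃ b : ℕ, b.Coprime (Loc.Q K) ∧ IsIntegral ℤ ((b : K) * x)

/-- `x ≡ 1 mod Q^n` at all primes above `Q` -/
def InU (n : ℕ) (x : K) : Prop := ∃ s : K, SInt s ∧ x = 1 + (Loc.Q K : K) ^ n * s

/-- `#(R/x)` (`0` for `x = 0`) -/
def nm (x : R K) : ℕ := Nat.card (R K ⧸ Ideal.span {x})

/-- the norm as a real number -/
def N (x : R K) : ℝ := (nm x : ℝ)

/-- exact division (junk value `0`) -/
def dv (a b : R K) : R K := if h : b ∣ a then h.choose else 0

/-- a complete residue system modulo `q ≠ 0` -/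
def res (q : R K) : Finset (R K) :=
  if h : (Set.range (fun c : R K ⧸ Ideal.span {q} => Quotient.out c)).Finite then h.toFinset else ∅

/-- Möbius function, complex valued -/
def mu (n : R K) : ℂ := ((UniqueFactorizationMonoid.moebius n : ℤ) : ℂ)

/-- `f` is periodic modulo `q` -/
def Per (q : R K) (f : R K → ℂ) : Prop := ∀ x t : R K, f (x + q * t) = f x

/-- `ψ` is a character modulo `q` -/
structure IsChar (q : R K) (ψ : R K → ℂ) : Prop where
  one : ψ 1 = 1
  mul : ∀ a b, ψ (a * b) = ψ a * ψ b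
  per : Per q ψ
  zero_iff : ∀ n, ψ n = 0 ↔ ¬ IsCoprime n q

/-- non-principal -/
def NonPrinc (q : R K) (ψ : R K → ℂ) : Prop := ∃ n, IsCoprime n q ∧ ψ n ≠ 1

variable (K) in
/-- the subgroup generated by `U_n` and the sixth powers -/
def Hsub (n : ℕ) : Subgroup Kˣ :=
  Subgroup.closure {x : Kˣ | InU n (x : K) ∨ ∃ z : Kˣ, x = z ^ 6}

variable (K) in
/-- the finite group `K^* / U_n K^{*6}` (exponent `6`) -/
abbrev GG (n : ℕ) : Type := Kˣ ⧸ Hsub K n

/-- the class of `x` (junk value `1` at `0`) -/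
def clN (n : ℕ) (x : K) : GG K n := if h : x = 0 then 1 else QuotientGroup.mk (Units.mk0 x h)

end loc

section sym
variable {K : Type} [Field K] [NumberField K] [Fld K] [Loc K]

variable (K) in
/-- `ω` as an element of `R K` -/
def omR : R K := ⟨((Fld.om : 𝓞 K) : K), 0, by simpa using (Fld.om : 𝓞 K).isIntegral_coe⟩

variable (K) in
/-- the sixth roots of unity -/
def units6 : Finset (R K) := {1, -1, omR K, -omR K, omR K ^ 2, -omR K ^ 2}

/-- the additive character of `K` that is trivial on `R K` and equals `eT` on `S`-integral elements -/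
def ee (x : K) : ℂ :=
  if h : ∃ r : R K, SInt (x - (r : K)) then eT (x - ((h.choose : R K) : K)) else 1

/-- `x ↦ ee (x / q)`, an additive character of `R / q` -/
def ad (q x : R K) : ℂ := ee ((x : K) / (q : K))

/-- Gauss sum / finite Fourier transform -/
def gs (q : R K) (ψ : R K → ℂ) (k : R K) : ℂ := ∑ x ∈ res q, ψ x * ad q (k * x)

/-- `k`-th power residue symbol `(d/p)_k` for a prime `p` (`k ∈ {2,3,6}`) -/
def symP (k : ℕ) (p d : R K) : ℂ :=
  ∑ u ∈ units6 K, if u ^ k = 1 ∧ p ∣ d ^ ((nm p - 1) / k) - u then toC0 (u : K) else 0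

/-- `k`-th power residue (Jacobi) symbol `(d/n)_k`; depends only on the ideal `(n)` -/
def sym (k : ℕ) (n d : R K) : ℂ :=
  ((UniqueFactorizationMonoid.factors n).map (fun p => symP k p d)).prod

/-- sextic symbol `χ_n(d) = (d/n)_6` -/
def chi (n d : R K) : ℂ := sym 6 n d
/-- cubic symbol `(d/n)_3` -/
def cub (n d : R K) : ℂ := sym 3 n d
/-- quadratic symbol `(d/n)_2` -/
def qua (n d : R K) : ℂ := sym 2 n d

/-- normalised quadratic Gauss sum `N(n)^{-1/2} ∑_{x mod n} ee(x²/n)` -/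
def gam (n : R K) : ℂ := (∑ x ∈ res n, ad n (x ^ 2)) / (Real.sqrt (N n) : ℂ)
/-- normalised sextic Gauss sum -/
def gt (n : R K) : ℂ := gs n (chi n) 1 / (Real.sqrt (N n) : ℂ)
/-- normalised cubic Gauss sum -/
def g3 (n : R K) : ℂ := gs n (cub n) 1 / (Real.sqrt (N n) : ℂ)

/-- the Hecke character `∏_{p ∣ m} (- g3(p)³)`; depends only on the ideal `(m)`, and equals `ang m`
for `m ∈ U_1` -/
def angN (m : R K) : ℂ := ((UniqueFactorizationMonoid.factors m).map (fun p => -(g3 p) ^ 3)).prod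

/-- the class function in the key identity `μ(m) gt(m) = f1(m) tt(m)` -/
def f1 (m : R K) : ℂ := conj (chi m 4) * gam m

/-- cubic reciprocity at level `n` -/
def Rec3 (n : ℕ) : Prop := ∀ a b : R K, InU n (a : K) → b ≠ 0 → cub a b = cub b a

/-- the quadratic Gauss sum is a class function at level `n` -/
def GamCls (n : ℕ) : Prop :=
  ∀ (a b : R K) (x z : K), a ≠ 0 → b ≠ 0 → InU n x → (a : K) = b * x * z ^ 2 → gam a = gam b

/-- the folded row weight `∑_{u ∈ R^*, u y S-integral} gau(u y, T)`, `y ≠ 0` -/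
def Om (y : K) (T : ℝ) : ℝ :=
  ∑' u : (R K)ˣ, if SInt (((u : R K) : K) * y) then gau (((u : R K) : K) * y) T else 0

end sym

/-! ## The level and the system of generators -/

/-- A level at which the reciprocity laws hold and a multiplicative system of generators whose classes
meet the classes of units trivially. -/
class Setup (K : Type) [Field K] [NumberField K] [Fld K] [Loc K] where
  lev : ℕ
  lev_pos : 1 ≤ lev
  rec3 : Rec3 (K := K) lev
  gam_cls : GamCls (K := K) lev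
  prim : R K → Prop
  prim_one : prim 1
  prim_mul : ∀ a b, prim a → prim b → prim (a * b)
  prim_ne : ∀ a, prim a → a ≠ 0
  prim_ex : ∀ a, a ≠ 0 → ∃ u : (R K)ˣ, prim (u * a)
  prim_uniq : ∀ a b, prim a → prim b → Associated a b → a = b
  prim_cl : ∀ (a : R K) (u : (R K)ˣ), prim a → clN lev (a : K) = clN lev ((u : R K) : K) →
    clN lev ((u : R K) : K) = 1

section setup
variable {K : Type} [Field K] [NumberField K] [Fld K] [Loc K] [Setup K]

/-- primary elements -/
def Prim (n : R K) : Prop := Setup.prim n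

variable (K) in
/-- the class group `K^*/U K^{*6}` -/
abbrev G : Type := GG K (Setup.lev K)

/-- the class of an element of `R K` -/
def cl (x : R K) : G K := clN (Setup.lev K) (x : K)

/-- the reciprocity bicharacter: `chi a b = sg a b * chi b a`, `sg a b = HH (cl a) (cl b)` -/
def HH (g h : G K) : ℂ :=
  if hx : ∃ p : R K × R K, p.1 ≠ 0 ∧ p.2 ≠ 0 ∧ IsCoprime p.1 p.2 ∧ cl p.1 = g ∧ cl p.2 = h
  then chi hx.choose.1 hx.choose.2 * conj (chi hx.choose.2 hx.choose.1) else 1

/-- the factor in sextic reciprocity -/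
def sg (a b : R K) : ℂ := HH (cl a) (cl b)

variable (K) in
/-- the primary elements of norm `≤ X` -/
def ball (X : ℝ) : Finset (R K) :=
  if h : {d : R K | Prim d ∧ N d ≤ X}.Finite then h.toFinset else ∅

/-- the primary divisors of `n` (empty for `n = 0`) -/
def pdiv (n : R K) : Finset (R K) := (ball K (N n)).filter (fun e => e ∣ n)

/-- restriction of a sequence to primary elements -/
def prim (a : R K → ℂ) : R K → ℂ := fun n => if Prim n then a n else 0

/-- cubic theta coefficient on primary `m`: `τ(m₀c³) = conj(g3 m₀) √N(c)` for `m₀` squarefree, else `0` -/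
def tau (m : R K) : ℂ :=
  ∑ c ∈ pdiv m, if c ^ 3 ∣ m ∧ Squarefree (dv m (c ^ 3)) then
    conj (g3 (dv m (c ^ 3))) * (Real.sqrt (N c) : ℂ) else 0

/-- `t(m) = τ(m) angN(m)` -/
def tt (m : R K) : ℂ := tau m * angN m

/-- row weight: rows are `0` and the primary elements; `wt d 1 T` on the original side,
`wt d q T⁻¹` on the dual side -/
def wt (d q : R K) (T : ℝ) : ℝ :=
  if d = 0 then 1 else if Prim d then Om ((d : K) / (q : K)) T else 0

variable (K) in
/-- twists: unitary characters of `K^*`, trivial on `R^*`, equal to `ch ξ` on `U` -/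
@[ext] structure Tw where
  f : K → ℂ
  ξ : Pl K → ℝ
  zero : f 0 = 0
  one : f 1 = 1
  mul : ∀ x y, f (x * y) = f x * f y
  norm : ∀ x, x ≠ 0 → ‖f x‖ = 1
  unit : ∀ u : (R K)ˣ, f ((u : R K) : K) = 1
  ray : ∀ x, InU (Setup.lev K) x → f x = ch ξ x
  sum_zero : ∑ v, ξ v = 0

omit [Setup K] [Fld K] in
theorem InU.ne_zero {n : ℕ} (hn : 1 ≤ n) {x : K} (h : InU n x) : x ≠ 0 := by
  rintro rfl
  obtain ⟨s, ⟨b, hb, hi⟩, hs⟩ := h
  have hQ : ((Loc.Q K : ℕ) : K) ≠ 0 := Nat.cast_ne_zero.2 Loc.Q_ne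
  have e : (b : K) * s = algebraMap ℚ K (-(b : ℚ) / (Loc.Q K : ℚ) ^ n) := by
    simp only [map_div₀, map_neg, map_natCast, map_pow]
    field_simp
    linear_combination (-(b : K)) * hs
  rw [e, isIntegral_algebraMap_iff (algebraMap ℚ K).injective] at hi
  obtain ⟨z, hz⟩ := IsIntegrallyClosed.isIntegral_iff.1 hi
  have hQ' : ((Loc.Q K : ℕ) : ℚ) ≠ 0 := Nat.cast_ne_zero.2 Loc.Q_ne
  have h2 : (z : ℚ) * (Loc.Q K : ℚ) ^ n = -(b : ℚ) := by
    have : (z : ℚ) = -(b : ℚ) / (Loc.Q K : ℚ) ^ n := by simpa using hz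
    rw [this]; field_simp
  have h3 : z * (Loc.Q K : ℤ) ^ n = -(b : ℤ) := by exact_mod_cast h2
  have h4 : (2 : ℤ) ∣ (Loc.Q K : ℤ) := by
    exact_mod_cast (Nat.dvd_trans (by norm_num) Loc.six_dvd : 2 ∣ Loc.Q K)
  have h5 : (2 : ℤ) ∣ (b : ℤ) := by
    rw [← dvd_neg, ← h3]
    exact (h4.trans (dvd_pow_self _ (by omega))).mul_left z
  have h6 : 2 ∣ Nat.gcd b (Loc.Q K) :=
    Nat.dvd_gcd (by exact_mod_cast h5) (by exact_mod_cast h4)
  rw [hb] at h6
  omega

omit [Loc K] [Setup K] in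
theorem ch_add (ξ η : Pl K → ℝ) (x : K) : ch (ξ + η) x = ch ξ x * ch η x := by
  unfold ch
  rw [← Complex.exp_add]
  congr 1
  simp only [Pi.add_apply, add_mul, Finset.sum_add_distrib]
  push_cast
  ring

omit [Loc K] [Setup K] in
theorem ch_neg (ξ : Pl K → ℝ) (x : K) : ch (-ξ) x = conj (ch ξ x) := by
  unfold ch
  rw [← Complex.exp_conj, map_mul, Complex.conj_ofReal, Complex.conj_I]
  congr 1
  simp only [Pi.neg_apply, neg_mul, Finset.sum_neg_distrib]
  push_cast
  ring

instance : Mul (Tw K) := ⟨fun a b =>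
  { f := fun x => a.f x * b.f x
    ξ := a.ξ + b.ξ
    zero := by rw [a.zero, zero_mul]
    one := by rw [a.one, b.one, mul_one]
    mul := fun x y => by rw [a.mul, b.mul]; ring
    norm := fun x hx => by rw [norm_mul, a.norm x hx, b.norm x hx, mul_one]
    unit := fun u => by rw [a.unit, b.unit, mul_one]
    ray := fun x hx => by rw [a.ray x hx, b.ray x hx, ch_add]
    sum_zero := by simp only [Pi.add_apply, Finset.sum_add_distrib, a.sum_zero, b.sum_zero, add_zero] }⟩

instance : One (Tw K) := ⟨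
  { f := fun x => if x = 0 then 0 else 1
    ξ := 0
    zero := by simp
    one := by simp
    mul := fun x y => by by_cases hx : x = 0 <;> by_cases hy : y = 0 <;> simp [hx, hy]
    norm := fun x hx => by simp [hx]
    unit := fun u => by simp
    ray := fun x hx => by simp [hx.ne_zero Setup.lev_pos, ch]
    sum_zero := by simp }⟩

instance : Inv (Tw K) := ⟨fun a =>
  { f := fun x => conj (a.f x)
    ξ := -a.ξ
    zero := by rw [a.zero, map_zero]
    one := by rw [a.one, map_one]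
    mul := fun x y => by rw [a.mul, map_mul]
    norm := fun x hx => by rw [Complex.norm_conj, a.norm x hx]
    unit := fun u => by rw [a.unit, map_one]
    ray := fun x hx => by rw [a.ray x hx, ch_neg]
    sum_zero := by simp only [Pi.neg_apply, Finset.sum_neg_distrib, a.sum_zero, neg_zero] }⟩

@[simp] theorem Tw.mul_f (a b : Tw K) (x : K) : (a * b).f x = a.f x * b.f x := rfl
@[simp] theorem Tw.mul_ξ (a b : Tw K) : (a * b).ξ = a.ξ + b.ξ := rfl
@[simp] theorem Tw.one_f (x : K) : (1 : Tw K).f x = if x = 0 then 0 else 1 := rfl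
@[simp] theorem Tw.one_ξ : (1 : Tw K).ξ = 0 := rfl
@[simp] theorem Tw.inv_f (a : Tw K) (x : K) : a⁻¹.f x = conj (a.f x) := rfl
@[simp] theorem Tw.inv_ξ (a : Tw K) : a⁻¹.ξ = -a.ξ := rfl

instance : CommGroup (Tw K) where
  mul_assoc a b c := Tw.ext (funext fun x => mul_assoc _ _ _) (add_assoc _ _ _)
  mul_comm a b := Tw.ext (funext fun x => mul_comm _ _) (add_comm _ _)
  one_mul a := Tw.ext (funext fun x => by
    by_cases hx : x = 0
    · simp [hx, a.zero]
    · simp [hx]) (zero_add _)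
  mul_one a := Tw.ext (funext fun x => by
    by_cases hx : x = 0
    · simp [hx, a.zero]
    · simp [hx]) (add_zero _)
  inv_mul_cancel a := Tw.ext (funext fun x => by
    by_cases hx : x = 0
    · simp [hx, a.zero]
    · simp [hx, Complex.conj_mul', a.norm x hx]) (neg_add_cancel _)

/-- value of a twist on `R K` -/
def Tw.v (ν : Tw K) (n : R K) : ℂ := ν.f (n : K)

/-- size of a twist -/
def Tw.sz (ν : Tw K) : ℝ := ‖ν.ξ‖

variable (K) in
/-- the finite set of class characters: `ξ = 0` and order dividing `6` -/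
def hchars : Finset (Tw K) :=
  if h : {ν : Tw K | ν.ξ = 0 ∧ ∀ x, x ≠ 0 → ν.f x ^ 6 = 1}.Finite then h.toFinset else ∅

/-- the primary generator of `I R` (`0` for `I = 0`) -/
def gen (I : Ideal (𝓞 K)) : R K :=
  if h : ∃ a : R K, Prim a ∧ ∀ x : R K, a ∣ x ↔ ∃ (n : ℕ) (y : 𝓞 K), y ∈ I ∧
    (Loc.Q K : K) ^ n * (x : K) = (y : K) then h.choose else 0

/-- the Hecke character modulo `Q ^ lev` attached to a twist -/
def Tw.toH (ν : Tw K) (I : Ideal (𝓞 K)) : ℂ :=
  if IsCoprime I (Ideal.span {((Loc.Q K : ℕ) : 𝓞 K)}) then ν.v (gen I) else 0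

/-- Dirichlet series over primary elements -/
def dser (φ : R K → ℂ) (s : ℂ) : ℂ := ∑' n : R K, if Prim n then φ n * (N n : ℂ) ^ (-s) else 0

/-- log-Gaussian weight -/
def gw (u : ℝ) : ℝ := Real.exp (-u ^ 2)

/-- block with complex exponent, over primary elements -/
def blks (a : R K → ℂ) (y : ℝ) (s : ℂ) : ℂ :=
  ∑' n : R K, if Prim n then a n * (N n : ℂ) ^ (-s) * (gw (Real.log (N n) - y) : ℂ) else 0

/-- normalised block on the critical line -/
def pb (a : R K → ℂ) (y t : ℝ) : ℂ := blks a y (1 / 2 + t * Complex.I)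

/-- polynomially bounded on primary elements -/
def PolyBd (a : R K → ℂ) : Prop := ∃ (C : ℝ) (j : ℕ), ∀ n, Prim n → ‖a n‖ ≤ C * N n ^ j

/-- `α` is supported on squarefree primary elements -/
def SuppSq (α : R K → ℂ) : Prop := ∀ n, α n ≠ 0 → Prim n ∧ Squarefree n

/-- `α` is supported on one class -/
def OneCl (α : R K → ℂ) : Prop := ∀ a b, α a ≠ 0 → α b ≠ 0 → cl a = cl b

/-- all polynomial moments of `α` are finite -/
def Rapid (α : R K → ℂ) : Prop := ∀ j : ℕ, Summable (fun n => ‖α n‖ * N n ^ j)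

/-- the `j`-th absolute moment -/
def mom (α : R K → ℂ) (j : ℕ) : ℝ := ∑' n, ‖α n‖ * N n ^ j

/-- the Möbius block on the row `d` -/
def Mb (ν : Tw K) (d : R K) (y t : ℝ) : ℂ := pb (fun n => mu n * ν.v n * chi n d) y t

/-- the theta block on the row `k` -/
def Fth (ν : Tw K) (k : R K) (y t : ℝ) : ℂ := pb (fun m => tt m * ν.v m * conj (chi m k)) y t

/-- the dual character in the Voronoi formula -/
def dual (c : R K) (ψ : R K → ℂ) : R K → ℂ := fun x => conj (ψ x) * conj (cub c x)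

/-- `∏_{p ∣ q} (1 - ν(p)² N(p)^{-2s})` -/
def PP (ν : Tw K) (q : R K) (s : ℂ) : ℂ :=
  ∑ e ∈ pdiv q, mu e * ν.v e ^ 2 * (N e : ℂ) ^ (-(2 * s))

end setup

end Crest.Agent.R312
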