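import Crest.Agent.R312.B8P
import Crest.Agent.R312.BDefs

/-!
# R312 / B8C : primes of degree one generate the class group; normalised generators (helper58)
-/

set_option autoImplicit false
set_option linter.unusedSectionVars false

noncomputable section

open Finset NumberField
open scoped Pointwise Classical nonZeroDivisors

namespace Crest.Agent.R312.B8

section gen
variable {K : Type} [Field K] [NumberField K]

theorem cop_ne {f : ℕ} (hf : 2 ≤ f) {I : Ideal (𝓞 K)}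
    (h : IsCoprime I (Ideal.span {(f : 𝓞 K)})) : I ≠ 0 := by
  rintro rfl
  have h1 := congrArg Ideal.absNorm (Ideal.isUnit_iff.1 (isCoprime_zero_left.1 h))
  rw [Ideal.absNorm_span_natCast, Ideal.absNorm_top, Nat.pow_eq_one] at h1
  have := Module.finrank_pos (R := ℤ) (M := 𝓞 K)
  omega

theorem cop_not_mem {f : ℕ} {I P : Ideal (𝓞 K)} (h : IsCoprime I (Ideal.span {(f : 𝓞 K)}))
    (hP : P ≠ ⊤) (hf : (f : 𝓞 K) ∈ P) : ¬ I ≤ P := fun hI =>
  hP (top_le_iff.1 (Ideal.isCoprime_iff_sup_eq.1 h ▸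
    sup_le hI ((Ideal.span_singleton_le_iff_mem _).2 hf)))

theorem norm_cop {f : ℕ} {P : Ideal (𝓞 K)} (hP : (Ideal.absNorm P).Prime)
    (h : IsCoprime P (Ideal.span {(f : 𝓞 K)})) : (Ideal.absNorm P).Coprime f := by
  rw [hP.coprime_iff_not_dvd]
  rintro ⟨c, hc⟩
  refine cop_not_mem h (max_of_norm hP).ne_top ?_ le_rfl
  rw [hc, Nat.cast_mul]
  exact P.mul_mem_right _ (Ideal.absNorm_mem P)

theorem cop_of_dvd {f : ℕ} {x : 𝓞 K} (h : (f : 𝓞 K) ∣ x - 1) :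
    IsCoprime (Ideal.span {x}) (Ideal.span {(f : 𝓞 K)}) := by
  obtain ⟨c, hc⟩ := h
  rw [Ideal.isCoprime_span_singleton_iff]
  exact ⟨1, -c, by linear_combination hc⟩

theorem exists_cop {f : ℕ} (hf : 2 ≤ f) (c : ClassGroup (𝓞 K)) :
    ∃ I : (Ideal (𝓞 K))⁰, IsCoprime (I : Ideal (𝓞 K)) (Ideal.span {(f : 𝓞 K)}) ∧
      ClassGroup.mk0 I = c := by
  obtain ⟨J, hJ⟩ := ClassGroup.mk0_surjective c⁻¹
  have hJ0 : (J : Ideal (𝓞 K)) ≠ 0 := nonZeroDivisors.coe_ne_zero J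
  have hf0 : Ideal.span {(f : 𝓞 K)} ≠ 0 := by
    simpa using (show f ≠ 0 by omega)
  obtain ⟨a, ha⟩ := IsDedekindDomain.exists_sup_span_eq
    (Ideal.mul_le_left : (J : Ideal (𝓞 K)) * Ideal.span {(f : 𝓞 K)} ≤ J) (mul_ne_zero hJ0 hf0)
  obtain ⟨I, hI⟩ : (J : Ideal (𝓞 K)) ∣ Ideal.span {a} :=
    Ideal.dvd_iff_le.2 (le_sup_right.trans ha.le)
  have hc : IsCoprime I (Ideal.span {(f : 𝓞 K)}) := by
    rw [hI, ← Ideal.mul_sup] at ha
    rw [Ideal.isCoprime_iff_sup_eq, sup_comm, ← Ideal.one_eq_top]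
    exact mul_left_cancel₀ hJ0 (ha.trans (mul_one _).symm)
  have hI0 := cop_ne hf hc
  refine ⟨⟨I, mem_nonZeroDivisors_of_ne_zero hI0⟩, hc, ?_⟩
  rw [← inv_inv c, ← hJ, ClassGroup.mk0_eq_mk0_inv_iff]
  refine ⟨a, ?_, by rw [hI, mul_comm]⟩
  rintro rfl
  exact mul_ne_zero hJ0 hI0 (hI.symm.trans (by simp))

variable [Fld K]

variable (K) in
/-- the conclusion of `least_prime` with the bound `X` -/
def LP (f : ℕ) (X : ℝ) : Prop :=
  ∀ ψ : Ideal (𝓞 K) → ℂ, HChar f 0 ψ → ψ ≠ one0 f →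
    ∃ P : Ideal (𝓞 K), P.IsPrime ∧ (Ideal.absNorm P).Prime ∧
      IsCoprime P (Ideal.span {(f : 𝓞 K)}) ∧ ψ P ≠ 1 ∧ (Ideal.absNorm P : ℝ) ≤ X

theorem LP.app {f : ℕ} {X : ℝ} (h : LP K f X) (hf : 2 ≤ f) (g : Ideal (𝓞 K) → ℂ)
    (hmul : ∀ I J, IsCoprime I (Ideal.span {(f : 𝓞 K)}) → IsCoprime J (Ideal.span {(f : 𝓞 K)}) →
      g (I * J) = g I * g J)
    {N : ℕ} (hN : N ≠ 0) (hfin : ∀ I, IsCoprime I (Ideal.span {(f : 𝓞 K)}) → g I ^ N = 1)
    (hray : ∀ x : 𝓞 K, (f : 𝓞 K) ∣ x - 1 → g (Ideal.span {x}) = 1)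
    {I : Ideal (𝓞 K)} (hI : IsCoprime I (Ideal.span {(f : 𝓞 K)})) (hne : g I ≠ 1) :
    ∃ P : Ideal (𝓞 K), (Ideal.absNorm P).Prime ∧
      IsCoprime P (Ideal.span {(f : 𝓞 K)}) ∧ g P ≠ 1 ∧ (Ideal.absNorm P : ℝ) ≤ X := by
  obtain ⟨P, -, h1, h2, h3, h4⟩ := h
    (fun I => if IsCoprime I (Ideal.span {(f : 𝓞 K)}) then g I else 0)
    { two_le := hf
      sum_zero := by simp
      one := by
        rw [if_pos isCoprime_one_left, Ideal.one_eq_top, ← Ideal.span_singleton_one]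
        exact hray 1 (by simp)
      mul := fun I J => by
        by_cases h1 : IsCoprime I (Ideal.span {(f : 𝓞 K)})
        · by_cases h2 : IsCoprime J (Ideal.span {(f : 𝓞 K)})
          · rw [if_pos h1, if_pos h2, if_pos (h1.mul_left h2), hmul I J h1 h2]
          · rw [if_neg h2, if_neg fun h => h2 h.of_mul_left_right, mul_zero]
        · rw [if_neg h1, if_neg fun h => h1 h.of_mul_left_left, zero_mul]
      zero := fun I h => if_neg h
      norm := fun I h => by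
        rw [if_pos h]
        exact Complex.norm_eq_one_of_pow_eq_one (hfin I h) hN
      ray := fun x hx => by
        rw [if_pos (cop_of_dvd hx), hray x hx]
        simp [ch] }
    (fun e => hne (by simpa only [one0, if_pos hI] using congrFun e I))
  exact ⟨P, h1, h2, by rwa [if_pos h2] at h3, h4⟩

/-- degree one primes prime to `f` generate the class group -/
theorem LP.eq_top {f : ℕ} {X : ℝ} (h : LP K f X) (hf : 2 ≤ f) (S : Subgroup (ClassGroup (𝓞 K)))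
    (hS : ∀ P : (Ideal (𝓞 K))⁰, (Ideal.absNorm (P : Ideal (𝓞 K))).Prime →
      IsCoprime (P : Ideal (𝓞 K)) (Ideal.span {(f : 𝓞 K)}) → ClassGroup.mk0 P ∈ S)
    (c : ClassGroup (𝓞 K)) : c ∈ S := by
  by_contra hc
  have : NeZero ((Monoid.exponent (ClassGroup (𝓞 K) ⧸ S) : ℕ) : ℂ) :=
    ⟨Nat.cast_ne_zero.2 Monoid.exponent_ne_zero_of_finite⟩
  obtain ⟨φ, hφ⟩ := CommGroup.exists_apply_ne_one_of_hasEnoughRootsOfUnity
    (ClassGroup (𝓞 K) ⧸ S) ℂ (a := (c : ClassGroup (𝓞 K) ⧸ S))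
    (fun e => hc ((QuotientGroup.eq_one_iff c).1 e))
  obtain ⟨g, hg⟩ : ∃ g : Ideal (𝓞 K) → ℂ, ∀ (I : Ideal (𝓞 K)) (h : I ∈ (Ideal (𝓞 K))⁰),
      g I = φ (ClassGroup.mk0 ⟨I, h⟩ : ClassGroup (𝓞 K)) :=
    ⟨fun I => if h : I ∈ (Ideal (𝓞 K))⁰ then φ (ClassGroup.mk0 ⟨I, h⟩ : ClassGroup (𝓞 K)) else 1,
      fun I h => dif_pos h⟩
  have hnz : ∀ {I}, IsCoprime I (Ideal.span {(f : 𝓞 K)}) → I ∈ (Ideal (𝓞 K))⁰ :=
    fun h => mem_nonZeroDivisors_of_ne_zero (cop_ne hf h)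
  obtain ⟨I, hI, hIc⟩ := exists_cop hf c
  obtain ⟨P, h1, h2, h3, -⟩ := h.app hf g
    (fun I J h1 h2 => by
      rw [hg I (hnz h1), hg J (hnz h2), ← Units.val_mul, ← map_mul, ← QuotientGroup.mk_mul,
        ← map_mul, hg _ (hnz (h1.mul_left h2)), MulMemClass.mk_mul_mk])
    (N := Nat.card (ClassGroup (𝓞 K) ⧸ S)) Nat.card_pos.ne'
    (fun I h => by
      rw [hg I (hnz h), ← Units.val_pow_eq_pow_val, ← map_pow, pow_card_eq_one', map_one,
        Units.val_one])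
    (fun x hx => by
      rw [hg _ (hnz (cop_of_dvd hx)), (ClassGroup.mk0_eq_one_iff _).2 ⟨x, rfl⟩]
      simp)
    hI (by rw [hg _ I.2, Subtype.coe_eta, hIc]; exact fun e => hφ (Units.ext e))
  apply h3
  rw [hg P (hnz h2), (QuotientGroup.eq_one_iff _).2 (hS ⟨P, hnz h2⟩ h1 h2)]
  simp

end gen

variable {m r : ℕ} [NeZero m] {K : Type} [Field K] [NumberField K] [IsCyclotomicExtension {m} ℚ K]

/-- every non-zero ideal has a normalised generator of `I^θ` -/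
theorem good_all [Fld K] (hr : r.Prime) (hr2 : r ≠ 2) (hm : r ∣ m) {f : ℕ} {X : ℝ} (h : LP K f X)
    (hf : 2 ≤ f) (hmf : m ∣ f) {I : Ideal (𝓞 K)} (hI : I ≠ 0) : ∃ β, Good m r I β := by
  let S : Subgroup (ClassGroup (𝓞 K)) :=
    { carrier := {c | ∃ (J : (Ideal (𝓞 K))⁰) (β : 𝓞 K), ClassGroup.mk0 J = c ∧ Good m r J β}
      one_mem' := ⟨1, 1, map_one _, by rw [OneMemClass.coe_one]; exact good_one hr hm⟩
      mul_mem' := by
        rintro _ _ ⟨J, β, rfl, h1⟩ ⟨J', β', rfl, h2⟩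
        exact ⟨J * J', β * β', map_mul _ _ _, by rw [Submonoid.coe_mul]; exact h1.mul h2⟩
      inv_mem' := by
        rintro _ ⟨J, β, rfl, h1⟩
        obtain ⟨J', hJ'⟩ := ClassGroup.mk0_surjective (ClassGroup.mk0 J)⁻¹
        obtain ⟨x, -, hx⟩ := ClassGroup.mk0_eq_mk0_inv_iff.1 hJ'
        have h2 := good_span hr hm x
        rw [← hx] at h2
        obtain ⟨α, hα, -⟩ := Good.cancel h2 h1 (nonZeroDivisors.coe_ne_zero J)
        exact ⟨J', α, hJ', hα⟩ }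
  obtain ⟨ζ, hζ⟩ := exists_root K hm
  obtain ⟨J, β, h1, h2⟩ := h.eq_top hf S (fun P h1 h2 => by
    obtain ⟨-, Φ, hΦ, -⟩ := good_prime hr hr2 hm hζ h1 ((norm_cop h1 h2).of_dvd_right hmf)
    exact ⟨P, Φ, rfl, hΦ⟩) (ClassGroup.mk0 ⟨I, mem_nonZeroDivisors_of_ne_zero hI⟩)
  obtain ⟨x, y, -, hy, hxy⟩ := ClassGroup.mk0_eq_mk0_iff.1 h1
  have h3 := (good_span hr hm x).mul h2
  rw [hxy, mul_comm] at h3
  obtain ⟨α, hα, -⟩ := Good.cancel h3 (good_span hr hm y) (by simpa using hy)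
  exact ⟨α, hα⟩

end Crest.Agent.R312.B8
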