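import Crest.Agent.R312.B8C

/-!
# R312 / B8N : the Hecke character `I ↦ (β_I / 𝔭)_r` and the prime `ℓ` (helper58)
-/

set_option autoImplicit false
set_option linter.unusedSectionVars false

noncomputable section

open Finset NumberField IsCyclotomicExtension.Rat
open scoped Pointwise Classical nonZeroDivisors

namespace Crest.Agent.R312.B8

variable {m r : ℕ} [NeZero m] {K : Type} [Field K] [NumberField K] [IsCyclotomicExtension {m} ℚ K]

omit [NeZero m] [IsCyclotomicExtension {m} ℚ K] in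
theorem exists_crt {f : ℕ} (hf : f ≠ 0) (P : Ideal (𝓞 K)) [hP : P.IsMaximal]
    (hfP : (f : 𝓞 K) ∈ P) {g : 𝓞 K} (hg : g ∉ P) :
    ∃ x : 𝓞 K, IsCoprime (Ideal.span {x}) (Ideal.span {(f : 𝓞 K)}) ∧ x - g ∈ P ∧
      ∀ σ : Gal(K/ℚ), σ • P ≠ P → σ⁻¹ • x - 1 ∈ P := by
  obtain ⟨B, hB, hfB⟩ := Ideal.eq_prime_pow_mul_coprime (I := Ideal.span {(f : 𝓞 K)})
    (by simpa using hf) P
  obtain ⟨a, ha, b, hb, hab⟩ := Submodule.mem_sup.1 (hB ▸ Submodule.mem_top : (1 : 𝓞 K) ∈ P ⊔ B)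
  have h1 : a + g * b - g ∈ P := by
    rw [show a + g * b - g = (1 - g) * a by linear_combination g * hab]
    exact P.mul_mem_left _ ha
  have h2 : a + g * b - 1 ∈ B := by
    rw [show a + g * b - 1 = (g - 1) * b by linear_combination hab]
    exact B.mul_mem_left _ hb
  refine ⟨a + g * b, ?_, h1, fun σ hσ => ?_⟩
  · rw [hfB]
    refine IsCoprime.mul_right (IsCoprime.pow_right ?_) ?_
    · rw [Ideal.isCoprime_iff_sup_eq, sup_comm]
      refine hP.out.2 _ (lt_of_le_of_ne le_sup_left fun e => hg ?_)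
      have : a + g * b ∈ P := e ▸ Ideal.mem_sup_right (Ideal.mem_span_singleton_self _)
      simpa using P.sub_mem this h1
    · rw [Ideal.isCoprime_iff_exists]
      exact ⟨_, Ideal.mem_span_singleton_self _, _, B.neg_mem h2, by ring⟩
  · have h3 : Ideal.span {(f : 𝓞 K)} ≤ σ • P := by
      rw [Ideal.span_singleton_le_iff_mem, ← smul_nat σ f]
      exact Ideal.smul_mem_pointwise_smul _ _ _ hfP
    have hpr : (σ • P).IsPrime := inferInstance
    rw [hfB, hpr.mul_le] at h3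
    rcases h3 with h3 | h3
    · exact absurd (hP.eq_of_le hpr.ne_top (hpr.le_of_pow_le h3)).symm hσ
    · have := Ideal.mem_pointwise_smul_iff_inv_smul_mem.1 (h3 h2)
      rwa [smul_sub, smul_one] at this

theorem thE_pow (hr : r.Prime) (hm : r ∣ m) {ζ : 𝓞 K} (hζ : IsPrimitiveRoot ζ r)
    (P : Ideal (𝓞 K)) [hP : P.IsMaximal] (hπ : IsPrimitiveRoot (Ideal.Quotient.mk P ζ) r)
    {N : ℕ} (hN : Ideal.absNorm P - 1 = r * N) {x : 𝓞 K} (hx : x ∉ P)
    (h1 : ∀ σ : Gal(K/ℚ), σ • P ≠ P → σ⁻¹ • x - 1 ∈ P) :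
    ∃ d, d ∣ m.totient ∧
      Ideal.Quotient.mk P (thE m r x) ^ N = (Ideal.Quotient.mk P x ^ N) ^ d := by
  let _ := Ideal.Quotient.field P
  let _ := Fintype.ofFinite (𝓞 K ⧸ P)
  have : NeZero r := ⟨hr.ne_zero⟩
  refine ⟨Nat.card (MulAction.stabilizer Gal(K/ℚ) P), ?_, ?_⟩
  · rw [← ZMod.card_units_eq_totient, ← Nat.card_eq_fintype_card,
      ← Nat.card_congr (galEquivZMod m K).toEquiv]
    exact Subgroup.card_subgroup_dvd_card _
  rw [Nat.card_eq_fintype_card, Fintype.card_subtype, ← prod_const, prod_filter, thE, map_prod,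
    ← prod_pow]
  refine prod_congr rfl fun σ _ => ?_
  rw [map_pow, ← pow_mul, mul_comm, pow_mul]
  split_ifs with hσ
  · rw [MulAction.mem_stabilizer_iff] at hσ
    have hmem : ∀ y ∈ P, σ • y ∈ P := fun y hy => hσ ▸ Ideal.smul_mem_pointwise_smul σ _ _ hy
    have hy : Ideal.Quotient.mk P (σ⁻¹ • x) ≠ 0 := fun h =>
      hx (by simpa using hmem _ (Ideal.Quotient.eq_zero_iff_mem.1 h))
    have hr1 : (Ideal.Quotient.mk P (σ⁻¹ • x) ^ N) ^ r = 1 := by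
      rw [← pow_mul, mul_comm, ← hN, ← card_quot]
      exact FiniteField.pow_card_sub_one_eq_one _ hy
    obtain ⟨j, -, hj⟩ := hπ.eq_pow_of_pow_eq_one hr1
    have h2 : (σ⁻¹ • x) ^ N - ζ ^ j ∈ P := by
      rw [← Ideal.Quotient.eq, map_pow, map_pow, hj]
    have h3 := hmem _ h2
    rw [smul_sub, smul_pow', smul_pow', smul_inv_smul,
      smul_root σ ((hζ.pow_eq_one_iff_dvd m).2 hm), ← Ideal.Quotient.eq, map_pow, map_pow, map_pow,
      ← pow_mul, mul_comm, pow_mul, hj] at h3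
    rw [h3, ww]
    exact (pow_eq_pow_mod _ hr1).symm
  · rw [MulAction.mem_stabilizer_iff] at hσ
    have := h1 σ hσ
    rw [← Ideal.Quotient.eq, map_one] at this
    rw [this, one_pow, one_pow]

theorem thE_one {f : ℕ} {P : Ideal (𝓞 K)} (hfP : (f : 𝓞 K) ∈ P) {x : 𝓞 K}
    (hx : (f : 𝓞 K) ∣ x - 1) : Ideal.Quotient.mk P (thE m r x) = 1 := by
  rw [thE, map_prod]
  refine prod_eq_one fun σ _ => ?_
  obtain ⟨c, hc⟩ := hx
  have : σ⁻¹ • x - 1 ∈ P := by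
    rw [← smul_one σ⁻¹, ← smul_sub, hc, smul_mul', smul_nat]
    exact P.mul_mem_right _ hfP
  rw [← Ideal.Quotient.eq, map_one] at this
  rw [map_pow, this, one_pow]

theorem nr_core [Fld K] (hr : r.Prime) (hr2 : r ≠ 2) {m' : ℕ} (hm : m = r * m') (hodd : Odd m)
    (hm' : ¬ r ∣ 2 * m') (hφ : ¬ r ∣ m.totient) {p : ℕ} (hp : p.Prime) (hpm : p.Coprime m)
    (hd : ∃ d : ℕ, 1 ≤ d ∧ d < r ∧ p ^ d % r ^ 2 = 1) {X : ℝ} (h : LP K (p * m) X) :
    ∃ l : ℕ, l.Prime ∧ (l : ℝ) ≤ X ∧ l ≠ p ∧ l % r = 1 ∧ p ^ ((l - 1) / r) % l ≠ 1 := by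
  have hrm : r ∣ m := Dvd.intro _ hm.symm
  have hm0 := NeZero.pos m
  have hf : 2 ≤ p * m := hp.two_le.trans (Nat.le_mul_of_pos_right _ hm0)
  have : NeZero r := ⟨hr.ne_zero⟩
  obtain ⟨ζ, hζ⟩ := exists_root K hrm
  obtain ⟨P, hP, hpP⟩ := Ideal.exists_le_maximal (Ideal.span {(p : 𝓞 K)}) fun e =>
    cop_ne (K := K) hp.two_le (by rw [e, ← Ideal.one_eq_top]; exact isCoprime_one_right) rfl
  rw [Ideal.span_singleton_le_iff_mem] at hpP
  have hfP : ((p * m : ℕ) : 𝓞 K) ∈ P := by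
    rw [Nat.cast_mul]; exact P.mul_mem_right _ hpP
  let _ := Ideal.Quotient.field P
  let _ := Fintype.ofFinite (𝓞 K ⧸ P)
  set π := Ideal.Quotient.mk P with hπdef
  have hchar : ringChar (𝓞 K ⧸ P) = p := CharP.ringChar_of_prime_eq_zero hp
    (by rw [← map_natCast π]; exact Ideal.Quotient.eq_zero_iff_mem.2 hpP)
  obtain ⟨e, -, he⟩ := FiniteField.card (𝓞 K ⧸ P) (ringChar (𝓞 K ⧸ P))
  rw [hchar] at he
  have hcard := card_quot P
  have h1q : 1 < Fintype.card (𝓞 K ⧸ P) := Fintype.one_lt_card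
  have hπ : IsPrimitiveRoot (π ζ) r := hζ.idealQuotient_mk (by omega)
    (by rw [← hcard, he]; exact (hpm.of_dvd_right hrm).pow_left _)
  obtain ⟨n, hn⟩ : r ^ 2 ∣ Fintype.card (𝓞 K ⧸ P) - 1 := by
    obtain ⟨d, d1, d2, d3⟩ := hd
    rw [he]
    refine sq_dvd hr d1 d2 d3 ?_ hp.pos
    rw [← he, ← hπ.pow_eq_one_iff_dvd]
    exact FiniteField.pow_card_sub_one_eq_one _ (hπ.ne_zero hr.ne_zero)
  have hn' : Fintype.card (𝓞 K ⧸ P) - 1 = r * (r * n) := by rw [hn]; ring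
  have hn0 : 0 < r * n := Nat.pos_of_ne_zero fun h0 => by rw [h0] at hn'; omega
  -- the test element
  obtain ⟨γ, hγ⟩ := IsCyclic.exists_generator (α := (𝓞 K ⧸ P)ˣ)
  have hoγ : orderOf γ = r * (r * n) := by
    rw [orderOf_eq_card_of_forall_mem_zpowers hγ, Nat.card_eq_fintype_card, Fintype.card_units, hn']
  obtain ⟨g, hg⟩ := Ideal.Quotient.mk_surjective (γ : 𝓞 K ⧸ P)
  have hgP : g ∉ P := fun h0 => γ.ne_zero (hg ▸ Ideal.Quotient.eq_zero_iff_mem.2 h0)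
  obtain ⟨x, hx1, hx2, hx3⟩ := exists_crt (by omega : p * m ≠ 0) P hfP hgP
  have hxγ : π x = γ := by rw [← hg]; exact Ideal.Quotient.eq.2 hx2
  have hxP : x ∉ P := fun h0 => γ.ne_zero (hxγ ▸ Ideal.Quotient.eq_zero_iff_mem.2 h0)
  obtain ⟨d, hd1, hd2⟩ := thE_pow hr hrm hζ P hπ (hcard ▸ hn') hxP hx3
  have hne : γ ^ (r * n * (d * (2 * m'))) ≠ 1 := by
    intro h0
    have h2 := orderOf_dvd_of_pow_eq_one h0
    rw [hoγ, mul_comm r (r * n), Nat.mul_dvd_mul_iff_left hn0] at h2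
    exact ((Nat.Prime.dvd_mul hr).1 h2).elim (fun h3 => hφ (h3.trans hd1)) hm'
  have : NeZero ((Monoid.exponent (𝓞 K ⧸ P)ˣ : ℕ) : ℂ) :=
    ⟨Nat.cast_ne_zero.2 Monoid.exponent_ne_zero_of_finite⟩
  obtain ⟨φ, hφ1⟩ := CommGroup.exists_apply_ne_one_of_hasEnoughRootsOfUnity _ ℂ hne
  let η : MulChar (𝓞 K ⧸ P) ℂ := MulChar.ofUnitHom φ
  obtain ⟨G, hG⟩ : ∃ G : Ideal (𝓞 K) → ℂ, ∀ I β, I ≠ 0 → Good m r I β →
      G I = η (π β ^ (2 * m * n)) := by
    refine ⟨fun I => if h : ∃ β, Good m r I β then η (π h.choose ^ (2 * m * n)) else 0,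
      fun I β hI hβ => ?_⟩
    have hex : ∃ β, Good m r I β := ⟨β, hβ⟩
    obtain ⟨u, hu, e⟩ := hβ.uniq hr hrm hodd hex.choose_spec hI
    simp only [dif_pos hex]
    rw [e, map_mul, mul_pow, pow_mul, ← map_pow, hu, map_one, one_pow, one_mul]
  have hall := fun {I : Ideal (𝓞 K)} (hI : IsCoprime I (Ideal.span {((p * m : ℕ) : 𝓞 K)})) =>
    good_all hr hr2 hrm h hf (dvd_mul_left m p) (cop_ne hf hI)
  obtain ⟨Q, hQ, hQc, hQ1, hQX⟩ := h.app hf G
    (fun I J hI hJ => by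
      obtain ⟨β, hβ⟩ := hall hI
      obtain ⟨β', hβ'⟩ := hall hJ
      rw [hG _ _ (cop_ne hf hI) hβ, hG _ _ (cop_ne hf hJ) hβ',
        hG _ _ (cop_ne hf (hI.mul_left hJ)) (hβ.mul hβ'), map_mul π, mul_pow, map_mul])
    (N := Fintype.card (𝓞 K ⧸ P) - 1) (by omega)
    (fun I hI => by
      obtain ⟨β, hβ⟩ := hall hI
      have h0 : π β ≠ 0 := fun h0 => cop_not_mem (thI_cop (m := m) (r := r) hI) hP.ne_top hfP (by
        rw [← hβ.1, Ideal.span_singleton_le_iff_mem]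
        exact Ideal.Quotient.eq_zero_iff_mem.1 h0)
      rw [hG _ _ (cop_ne hf hI) hβ, ← map_pow,
        FiniteField.pow_card_sub_one_eq_one _ (pow_ne_zero _ h0), map_one])
    (fun y hy => by
      rw [hG _ _ (cop_ne hf (cop_of_dvd hy)) (good_span hr hrm y), thE_one hfP hy, one_pow,
        map_one])
    hx1 (by
      rw [hG _ _ (cop_ne hf hx1) (good_span hr hrm x),
        show 2 * m * n = r * n * (2 * m') by rw [hm]; ring, pow_mul, hd2, hxγ, ← pow_mul,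
        ← pow_mul, ← Units.val_pow_eq_pow_val, MulChar.ofUnitHom_coe]
      exact fun e => hφ1 (Units.ext e))
  have hc := norm_cop hQ hQc
  have hlp : Ideal.absNorm Q ≠ p := fun e => by
    rw [e, Nat.Coprime, Nat.gcd_eq_left (dvd_mul_right p m)] at hc
    exact hp.one_lt.ne' hc
  obtain ⟨hdvd, Φ, hΦ, hrec⟩ := good_prime hr hr2 hrm hζ hQ (hc.of_dvd_right (dvd_mul_left m p))
  refine ⟨_, hQ, hQX, hlp, ?_, fun h0 => hQ1 ?_⟩
  · obtain ⟨k, hk⟩ := hdvd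
    have := hQ.one_lt
    rw [show Ideal.absNorm Q = 1 + r * k by omega, Nat.add_mul_mod_self_left,
      Nat.mod_eq_of_lt hr.one_lt]
  · have := hrec (𝓞 K ⧸ P) π (r * n) hπ hn' (by rw [hchar]; exact hlp.symm) (by rwa [hchar])
    rw [hG _ _ (cop_ne hf hQc) hΦ, show 2 * m * n = r * n * (2 * m') by rw [hm]; ring, pow_mul,
      this, one_pow, map_one]

end Crest.Agent.R312.B8
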