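import Mathlib

/-!
# R312 / B3Gauss : Fourier transforms of Gaussians on `ℂ` (pure Mathlib)
-/

set_option autoImplicit false

noncomputable section

open scoped ComplexConjugate
open MeasureTheory Complex

namespace Crest.Agent.R312

/-- Change of variables `z ↦ κ z` on `ℂ` (`Measure.map_linearMap_addHaar_eq_smul_addHaar` with the
determinant `normSq κ` of the multiplication, or `distribHaarChar_complex`). -/
theorem integral_comp_mul_complex (F : ℂ → ℂ) {κ : ℂ} (hκ : κ ≠ 0) :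
    ∫ z, F z = ((‖κ‖ ^ 2 : ℝ) : ℂ) * ∫ z, F (κ * z) := by
  have hd : LinearMap.det (LinearMap.mul ℝ ℂ κ) = ‖κ‖ ^ 2 := by
    rw [← Complex.normSq_eq_norm_sq, ← Algebra.norm_complex_apply, Algebra.norm_apply]
    rfl
  have h0 : (0 : ℝ) < ‖κ‖ ^ 2 := by positivity
  have h1 := Measure.map_linearMap_addHaar_eq_smul_addHaar (volume : Measure ℂ)
    (f := LinearMap.mul ℝ ℂ κ) (by rw [hd]; exact h0.ne')
  have h2 := (Homeomorph.mulLeft₀ κ hκ).measurableEmbedding.integral_map (μ := volume) F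
  have h3 : Measure.map (Homeomorph.mulLeft₀ κ hκ) (volume : Measure ℂ) =
      Measure.map (LinearMap.mul ℝ ℂ κ) volume := rfl
  rw [h3, h1, integral_smul_measure, hd, ENNReal.toReal_ofReal (abs_nonneg _),
    abs_of_pos (inv_pos.2 h0)] at h2
  change _ = _ * ∫ z, F (Homeomorph.mulLeft₀ κ hκ z)
  rw [← h2, Complex.real_smul, ← mul_assoc, ← Complex.ofReal_mul, mul_inv_cancel₀ h0.ne',
    Complex.ofReal_one, one_mul]

theorem b3g_one {A : ℂ} (hA : 0 < A.re) (a : ℝ) :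
    ∫ x : ℝ, cexp (-(2 * Real.pi * A) * x ^ 2 + -(4 * Real.pi * I * a) * x + 0) =
      (1 / (2 * A)) ^ (1 / 2 : ℂ) * cexp (-(2 * Real.pi * (a ^ 2 / A))) := by
  have hA0 : A ≠ 0 := fun h => by simp [h] at hA
  have hπ : (Real.pi : ℂ) ≠ 0 := Complex.ofReal_ne_zero.2 Real.pi_ne_zero
  rw [integral_cexp_quadratic]
  · congr 2
    · field_simp
    · field_simp
      linear_combination (4 * Real.pi * (a : ℂ) ^ 2) * I_sq
  · have : (-(2 * Real.pi * A)).re = -(2 * Real.pi * A.re) := by simp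
    rw [this, neg_lt_zero]
    exact mul_pos (mul_pos two_pos Real.pi_pos) hA

/-- Product of two one-dimensional Gaussians: `Complex.volume_preserving_equiv_real_prod`,
`integral_prod_mul`, `integral_cexp_quadratic`. -/
theorem integral_gauss_two {A B : ℂ} (hA : 0 < A.re) (hB : 0 < B.re) (a b : ℝ) :
    ∫ z : ℂ, cexp (-(2 * Real.pi * (A * z.re ^ 2 + B * z.im ^ 2)) -
        2 * Real.pi * I * (2 * (a * z.re - b * z.im))) =
      (1 / (2 * A)) ^ (1 / 2 : ℂ) * (1 / (2 * B)) ^ (1 / 2 : ℂ) *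
        cexp (-(2 * Real.pi * (a ^ 2 / A + b ^ 2 / B))) := by
  have h := Complex.volume_preserving_equiv_real_prod.integral_comp' (g := fun p : ℝ × ℝ =>
    cexp (-(2 * Real.pi * A) * p.1 ^ 2 + -(4 * Real.pi * I * a) * p.1 + 0) *
      cexp (-(2 * Real.pi * B) * p.2 ^ 2 + -(4 * Real.pi * I * (-b : ℝ)) * p.2 + 0))
  rw [Measure.volume_eq_prod, integral_prod_mul
    (fun x : ℝ => cexp (-(2 * Real.pi * A) * x ^ 2 + -(4 * Real.pi * I * a) * x + 0))
    (fun x : ℝ => cexp (-(2 * Real.pi * B) * x ^ 2 + -(4 * Real.pi * I * (-b : ℝ)) * x + 0)),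
    b3g_one hA, b3g_one hB] at h
  refine Eq.trans (integral_congr_ae (Filter.Eventually.of_forall fun z => ?_)) (h.trans ?_)
  · simp only [measurableEquivRealProd_apply, ← Complex.exp_add]
    congr 1
    push_cast
    ring
  · rw [mul_mul_mul_comm, ← Complex.exp_add]
    congr 2
    push_cast
    ring

theorem b3g_half {w : ℂ} (hw : w ≠ 0) : w ^ (1 / 2 : ℂ) * w ^ (1 / 2 : ℂ) = w := by
  rw [← Complex.cpow_add _ _ hw, add_halves, Complex.cpow_one]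

theorem b3g_norm_sq (z : ℂ) : ((‖z‖ ^ 2 : ℝ) : ℂ) = (z.re : ℂ) ^ 2 + (z.im : ℂ) ^ 2 := by
  rw [← Complex.normSq_eq_norm_sq, Complex.normSq_apply]
  push_cast
  ring

theorem b3g_sub {δ κ : ℂ} (hδ : δ ≠ 0) (h : ‖κ‖ ^ 2 = ‖δ‖) (y z : ℂ) :
    ‖κ * z‖ ^ 2 / ‖δ‖ = ‖z‖ ^ 2 ∧ ‖y‖ ^ 2 / ‖δ‖ = ‖y * κ / δ‖ ^ 2 ∧
      (-(y * (κ * z)) / δ).re = -((y * κ / δ).re * z.re - (y * κ / δ).im * z.im) := by
  have h0 : ‖δ‖ ≠ 0 := norm_ne_zero_iff.2 hδ
  refine ⟨?_, ?_, ?_⟩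
  · rw [norm_mul, mul_pow, h]
    field_simp
  · rw [norm_div, norm_mul, div_pow, mul_pow, h]
    field_simp
  · rw [← Complex.mul_re, ← Complex.neg_re]
    congr 1
    ring

/-- Complex width, no quadratic phase.  Substitute `z = κ ζ`, `κ² = δ`; `A = B = t`, `a + bi = κ y / δ`. -/
theorem gauss_ft_c {δ : ℂ} (hδ : δ ≠ 0) {t : ℂ} (ht : 0 < t.re) (y : ℂ) :
    ((2 / ‖δ‖ : ℝ) : ℂ) * ∫ z : ℂ, cexp (-(2 * Real.pi * (t * (‖z‖ ^ 2 / ‖δ‖ : ℝ)))) *
        cexp (2 * Real.pi * I * ((2 * (-(y * z) / δ).re : ℝ) : ℂ)) =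
      t⁻¹ * cexp (-(2 * Real.pi * (t⁻¹ * (‖y‖ ^ 2 / ‖δ‖ : ℝ)))) := by
  obtain ⟨κ, hκ⟩ := IsAlgClosed.exists_eq_mul_self δ
  have hκ0 : κ ≠ 0 := fun h => hδ (by rw [hκ, h, mul_zero])
  have hn : ‖κ‖ ^ 2 = ‖δ‖ := by rw [hκ, norm_mul, sq]
  have h0 : (‖δ‖ : ℂ) ≠ 0 := Complex.ofReal_ne_zero.2 (norm_ne_zero_iff.2 hδ)
  have ht0 : t ≠ 0 := fun h => by simp [h] at ht
  have h := integral_gauss_two ht ht (y * κ / δ).re (y * κ / δ).im
  rw [b3g_half (by simp [ht0])] at h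
  rw [integral_comp_mul_complex _ hκ0, hn, (b3g_sub hδ hn y 0).2.1, b3g_norm_sq]
  refine Eq.trans ?_ ((congrArg (2 * ·) h).trans ?_)
  · rw [← mul_assoc]
    congr 1
    · push_cast
      field_simp
    · refine integral_congr_ae (Filter.Eventually.of_forall fun z => ?_)
      simp only [← Complex.exp_add]
      rw [(b3g_sub hδ hn y z).1, (b3g_sub hδ hn y z).2.2, b3g_norm_sq]
      congr 1
      push_cast
      ring
  · simp only [← mul_assoc]
    congr 1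
    · field_simp
    · congr 1
      ring

/-- Real width, quadratic phase.  Choose `u` with `‖u‖ = 1`, `c u = ‖c‖`, and `κ² = δ u`; substitute
`z = κ ζ`: `|z|²/|δ| = |ζ|²`, `c z²/δ = ‖c‖ ζ²`; `A = t - 2i‖c‖`, `B = t + 2i‖c‖ = conj A`,
`A B = D = t² + 4‖c‖²`, `a + bi = η = κ y/δ`, `|η|² = |y|²/|δ|`, `‖c‖ η² = conj c · y²/δ`
(as `‖c‖ u = conj c`). -/
theorem gauss_ft_q {δ : ℂ} (hδ : δ ≠ 0) {t : ℝ} (ht : 0 < t) (c y : ℂ) :
    ((2 / ‖δ‖ : ℝ) : ℂ) * ∫ z : ℂ, cexp (-(2 * Real.pi * (t * (‖z‖ ^ 2 / ‖δ‖ : ℝ)))) *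
        cexp (2 * Real.pi * I * ((2 * (c * z * z / δ).re : ℝ) : ℂ)) *
        cexp (2 * Real.pi * I * ((2 * (-(y * z) / δ).re : ℝ) : ℂ)) =
      (((Real.sqrt (t ^ 2 + 4 * ‖c‖ ^ 2))⁻¹ : ℝ) : ℂ) *
        (cexp (-(2 * Real.pi * ((t / (t ^ 2 + 4 * ‖c‖ ^ 2) : ℝ) * (‖y‖ ^ 2 / ‖δ‖ : ℝ)))) *
        cexp (2 * Real.pi * I *
          ((2 * (-conj c / ((t ^ 2 + 4 * ‖c‖ ^ 2 : ℝ) : ℂ) * y * y / δ).re : ℝ) : ℂ))) := by
  obtain ⟨u, hu1, hu2, hu3⟩ : ∃ u : ℂ, ‖u‖ = 1 ∧ c * u = ‖c‖ ∧ ‖c‖ * u = conj c := by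
    by_cases hc : c = 0
    · exact ⟨1, by simp, by simp [hc], by simp [hc]⟩
    · have h1 : (‖c‖ : ℂ) ≠ 0 := Complex.ofReal_ne_zero.2 (norm_ne_zero_iff.2 hc)
      refine ⟨conj c / ‖c‖, by simp [hc], ?_, by field_simp⟩
      rw [← mul_div_assoc, Complex.mul_conj, Complex.normSq_eq_norm_sq]
      push_cast
      field_simp
  obtain ⟨κ, hκ⟩ := IsAlgClosed.exists_eq_mul_self (δ * u)
  have hn : ‖κ‖ ^ 2 = ‖δ‖ := by rw [sq, ← norm_mul, ← hκ, norm_mul, hu1, mul_one]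
  have hκ0 : κ ≠ 0 := fun h => hδ (by rw [← norm_eq_zero, ← hn, h]; simp)
  have h0 : (‖δ‖ : ℂ) ≠ 0 := Complex.ofReal_ne_zero.2 (norm_ne_zero_iff.2 hδ)
  set D : ℝ := t ^ 2 + 4 * ‖c‖ ^ 2 with hD
  have hD0 : 0 < D := by positivity
  have hDc : (D : ℂ) ≠ 0 := Complex.ofReal_ne_zero.2 hD0.ne'
  set A : ℂ := t - 2 * I * ‖c‖ with hA
  set B : ℂ := t + 2 * I * ‖c‖ with hB
  have hAre : A.re = t := by simp [hA]
  have hBre : B.re = t := by simp [hB]
  have hA0 : A ≠ 0 := fun h => ht.ne' (by rw [← hAre, h, Complex.zero_re])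
  have hB0 : B ≠ 0 := fun h => ht.ne' (by rw [← hBre, h, Complex.zero_re])
  have hBA : B = conj A := by simp [hA, hB, map_ofNat]
  have hAB : A * B = D := by
    rw [hA, hB, hD]
    push_cast
    linear_combination (-4 * (‖c‖ : ℂ) ^ 2) * I_sq
  have hnA : ‖A‖ = Real.sqrt D := by
    rw [eq_comm, Real.sqrt_eq_iff_mul_self_eq hD0.le (norm_nonneg _)]
    apply Complex.ofReal_injective
    rw [← hAB, hBA, Complex.mul_conj, Complex.normSq_eq_norm_sq, sq]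
  have hw : (1 / (2 * A)) ^ (1 / 2 : ℂ) * (1 / (2 * B)) ^ (1 / 2 : ℂ) =
      (((Real.sqrt D)⁻¹ : ℝ) : ℂ) / 2 := by
    have e1 : 1 / (2 * B) = conj (1 / (2 * A)) := by
      rw [hBA, map_div₀, map_mul, map_one, map_ofNat]
    have e2 : (1 / (2 * A)).arg ≠ Real.pi := by
      rw [Ne, Complex.arg_eq_pi_iff, not_and_or, not_lt]
      left
      rw [one_div, Complex.inv_re]
      refine div_nonneg ?_ (Complex.normSq_nonneg _)
      simp only [Complex.mul_re, Complex.re_ofNat, Complex.im_ofNat, zero_mul, sub_zero, hAre]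
      positivity
    have e3 : conj (1 / 2 : ℂ) = 1 / 2 := by rw [map_div₀, map_one, map_ofNat]
    rw [e1, Complex.conj_cpow _ _ e2, e3, Complex.mul_conj, Complex.normSq_eq_norm_sq, sq,
      ← norm_mul, b3g_half (by simp [hA0]), norm_div, norm_mul, hnA]
    simp only [norm_one, Complex.norm_ofNat]
    push_cast
    ring
  have h := integral_gauss_two (A := A) (B := B) (hAre ▸ ht) (hBre ▸ ht)
    (y * κ / δ).re (y * κ / δ).im
  rw [hw] at h
  have hq : ∀ z : ℂ, (c * (κ * z) * (κ * z) / δ).re = ‖c‖ * (z.re ^ 2 - z.im ^ 2) := by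
    intro z
    have : c * (κ * z) * (κ * z) / δ = ‖c‖ * (z * z) := by
      rw [← hu2, div_eq_iff hδ]
      linear_combination (-(c * z * z)) * hκ
    rw [this, Complex.re_ofReal_mul, Complex.mul_re]
    ring
  have hq' : (-conj c / (D : ℂ) * y * y / δ).re =
      -(‖c‖ / D) * ((y * κ / δ).re ^ 2 - (y * κ / δ).im ^ 2) := by
    have : -conj c / (D : ℂ) * y * y / δ = ((-(‖c‖ / D) : ℝ) : ℂ) * ((y * κ / δ) * (y * κ / δ)) := by
      rw [← hu3]
      push_cast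
      field_simp
      linear_combination (-‖c‖ * y ^ 2 : ℂ) * hκ
    rw [this, Complex.re_ofReal_mul, Complex.mul_re]
    ring
  rw [integral_comp_mul_complex _ hκ0, hn, (b3g_sub hδ hn y 0).2.1, b3g_norm_sq, hq']
  refine Eq.trans ?_ ((congrArg (2 * ·) h).trans ?_)
  · rw [← mul_assoc]
    congr 1
    · push_cast
      field_simp
    · refine integral_congr_ae (Filter.Eventually.of_forall fun z => ?_)
      simp only [← Complex.exp_add]
      rw [(b3g_sub hδ hn y z).1, (b3g_sub hδ hn y z).2.2, b3g_norm_sq, hq]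
      congr 1
      rw [hA, hB]
      push_cast
      ring
  · simp only [← Complex.exp_add]
    rw [← mul_assoc]
    congr 1
    · ring
    · congr 1
      push_cast
      generalize (((y * κ / δ).re : ℝ) : ℂ) = a
      generalize (((y * κ / δ).im : ℝ) : ℂ) = b
      rw [div_add_div _ _ hA0 hB0, hAB, hA, hB]
      field_simp
      ring

end Crest.Agent.R312
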