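import Mathlib

/-!
# R312 / B3PoisZ : Poisson summation on `ℤ^ι`, on lattices given by a basis, and in corank one
(pure Mathlib; owner helper6)
-/

set_option autoImplicit false
set_option linter.unusedSectionVars false

noncomputable section

open scoped Classical FourierTransform
open MeasureTheory

namespace Crest.Agent.R312

/-- `e(t) = exp(2πit)` -/
def eR (t : ℝ) : ℂ := Complex.exp (2 * Real.pi * Complex.I * (t : ℂ))

theorem eR_add (s t : ℝ) : eR (s + t) = eR s * eR t := by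
  unfold eR
  rw [← Complex.exp_add]
  push_cast
  ring_nf

theorem eR_int (n : ℤ) : eR n = 1 := by
  unfold eR
  rw [show 2 * (Real.pi : ℂ) * Complex.I * ((n : ℝ) : ℂ) = n * (2 * Real.pi * Complex.I) by
    push_cast; ring]
  exact Complex.exp_int_mul_two_pi_mul_I n

theorem norm_eR (t : ℝ) : ‖eR t‖ = 1 := by
  unfold eR
  rw [show 2 * (Real.pi : ℂ) * Complex.I * (t : ℂ) = ((2 * Real.pi * t : ℝ) : ℂ) * Complex.I by
    push_cast; ring]
  exact Complex.norm_exp_ofReal_mul_I _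

@[fun_prop] theorem continuous_eR : Continuous eR := by
  unfold eR
  fun_prop

variable {ι : Type} [Fintype ι]

theorem summable_pi_prod {α : Type} {f : ι → α → ℝ} (h0 : ∀ i a, 0 ≤ f i a) (h : ∀ i, Summable (f i)) :
    Summable fun n : ι → α => ∏ i, f i (n i) := by
  refine summable_of_sum_le (c := ∏ i, ∑' a, f i a) (fun n => Finset.prod_nonneg fun i _ => h0 i _)
    fun s => ?_
  calc ∑ n ∈ s, ∏ i, f i (n i)
      ≤ ∑ n ∈ Fintype.piFinset (fun i => s.image fun n => n i), ∏ i, f i (n i) :=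
        Finset.sum_le_sum_of_subset_of_nonneg
          (fun n hn => Fintype.mem_piFinset.2 fun i => Finset.mem_image_of_mem _ hn)
          fun n _ _ => Finset.prod_nonneg fun i _ => h0 i _
    _ = ∏ i, ∑ a ∈ s.image (fun n => n i), f i a := (Finset.prod_univ_sum _ _).symm
    _ ≤ _ := Finset.prod_le_prod (fun i _ => Finset.sum_nonneg fun a _ => h0 i a)
        fun i _ => (h i).sum_le_tsum _ fun a _ => h0 i a

theorem summable_exp_neg_abs_int {c : ℝ} (hc : 0 < c) :
    Summable fun n : ℤ => Real.exp (-(c * |(n : ℝ)|)) := by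
  have h : Summable fun n : ℕ => Real.exp (n * -c) := Real.summable_exp_nat_mul_iff.2 (by linarith)
  refine Summable.of_nat_of_neg (h.congr fun n => ?_) (h.congr fun n => ?_)
  · simp [mul_comm]
  · simp [mul_comm]

theorem summable_exp_neg_norm_int {c : ℝ} (hc : 0 < c) :
    Summable fun n : ι → ℤ => Real.exp (-(c * ‖(fun i => (n i : ℝ))‖)) := by
  have hc' : 0 < c / (Fintype.card ι + 1) := by positivity
  refine (summable_pi_prod (f := fun (_ : ι) (n : ℤ) =>
    Real.exp (-(c / (Fintype.card ι + 1) * |(n : ℝ)|))) (fun _ _ => (Real.exp_pos _).le)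
    fun _ => summable_exp_neg_abs_int hc').of_nonneg_of_le (fun _ => (Real.exp_pos _).le) fun n => ?_
  rw [← Real.exp_sum, Real.exp_le_exp, Finset.sum_neg_distrib, neg_le_neg_iff, ← Finset.mul_sum]
  have h1 : ∑ i, |(n i : ℝ)| ≤ (Fintype.card ι + 1) * ‖(fun i => (n i : ℝ))‖ := by
    calc _ ≤ ∑ _i : ι, ‖(fun i => (n i : ℝ))‖ :=
          Finset.sum_le_sum fun i _ => norm_le_pi_norm (fun i => (n i : ℝ)) i
      _ ≤ _ := by
          rw [Finset.sum_const, Finset.card_univ, nsmul_eq_mul]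
          nlinarith [norm_nonneg (fun i => (n i : ℝ))]
  calc _ ≤ c / (Fintype.card ι + 1) * ((Fintype.card ι + 1) * ‖(fun i => (n i : ℝ))‖) :=
        mul_le_mul_of_nonneg_left h1 hc'.le
    _ = _ := by field_simp

theorem integrable_exp_neg_norm {V : Type} [NormedAddCommGroup V] [NormedSpace ℝ V]
    [FiniteDimensional ℝ V] [MeasurableSpace V] [BorelSpace V] (μ : Measure V) [μ.IsAddHaarMeasure]
    {c : ℝ} (hc : 0 < c) : Integrable (fun y : V => Real.exp (-(c * ‖y‖))) μ := by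
  set k := Module.finrank ℝ V + 1
  have h := (integrable_one_add_norm (μ := μ) (r := (k : ℝ)) (by simp [k])).const_mul
    (Real.exp c * k.factorial / c ^ k)
  refine h.mono' (by fun_prop) (ae_of_all _ fun y => ?_)
  have h1 : 0 < 1 + ‖y‖ := by positivity
  have h2 := Real.pow_div_factorial_le_exp (x := c * (1 + ‖y‖)) (by positivity) k
  rw [Real.norm_of_nonneg (Real.exp_pos _).le, Real.rpow_neg h1.le, Real.rpow_natCast, Real.exp_neg,
    ← div_eq_mul_inv, div_div, inv_eq_one_div, div_le_div_iff₀ (Real.exp_pos _) (by positivity),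
    one_mul, ← mul_pow]
  rw [div_le_iff₀ (by positivity), mul_add, mul_one, Real.exp_add] at h2
  rw [mul_add, mul_one]
  linarith

section unfold

variable {V : Type} [AddCommGroup V] [MeasurableSpace V] [MeasurableAdd V]

theorem pz_meas {ℓ : V →+ (ι → ℝ)} (hℓ : Measurable ℓ) (n : ι → ℤ) :
    MeasurableSet {y | ∀ i, ℓ y i - n i ∈ Set.Ico (0 : ℝ) 1} := by
  rw [Set.setOf_forall]
  exact MeasurableSet.iInter fun i =>
    (((measurable_pi_apply i).comp hℓ).sub_const _) measurableSet_Ico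

theorem pz_disj (ℓ : V →+ (ι → ℝ)) :
    Pairwise (Function.onFun Disjoint fun n : ι → ℤ => {y | ∀ i, ℓ y i - n i ∈ Set.Ico (0 : ℝ) 1}) := by
  intro n n' h
  refine Set.disjoint_left.2 fun y h1 h2 => h (funext fun i => ?_)
  have e1 : ⌊ℓ y i⌋ = n i := Int.floor_eq_iff.2 ⟨by linarith [(h1 i).1], by linarith [(h1 i).2]⟩
  have e2 : ⌊ℓ y i⌋ = n' i := Int.floor_eq_iff.2 ⟨by linarith [(h2 i).1], by linarith [(h2 i).2]⟩
  rw [← e1, e2]

theorem pz_cover (ℓ : V →+ (ι → ℝ)) :
    ⋃ n : ι → ℤ, {y | ∀ i, ℓ y i - n i ∈ Set.Ico (0 : ℝ) 1} = Set.univ :=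
  Set.eq_univ_of_forall fun y => Set.mem_iUnion.2 ⟨fun i => ⌊ℓ y i⌋, fun i =>
    ⟨Int.fract_nonneg _, Int.fract_lt_one _⟩⟩

theorem pz_pre {ℓ : V →+ (ι → ℝ)} {lam : (ι → ℤ) → V} (hlam : ∀ n i, ℓ (lam n) i = n i) (n : ι → ℤ) :
    (fun y => y + lam n) ⁻¹' {y | ∀ i, ℓ y i - n i ∈ Set.Ico (0 : ℝ) 1} =
      {y | ∀ i, ℓ y i ∈ Set.Ico (0 : ℝ) 1} := by
  ext y
  simp [hlam]

end unfold

/-- Unfolding: `ℓ` are additive coordinates, `lam n` has coordinates `n`. -/
theorem hasSum_unfold {V : Type} [AddCommGroup V] [MeasurableSpace V] [MeasurableAdd V]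
    (μ : Measure V) [μ.IsAddRightInvariant] (ℓ : V →+ (ι → ℝ)) (hℓ : Measurable ℓ)
    (lam : (ι → ℤ) → V) (hlam : ∀ n i, ℓ (lam n) i = n i) {g : V → ℂ} (hg : Integrable g μ) :
    HasSum (fun n => ∫ y in {y | ∀ i, ℓ y i ∈ Set.Ico (0 : ℝ) 1}, g (y + lam n) ∂μ) (∫ y, g y ∂μ) := by
  have h := hasSum_integral_iUnion (pz_meas hℓ) (pz_disj ℓ) (μ := μ) hg.integrableOn
  rw [pz_cover, Measure.restrict_univ] at h
  have e : ∀ n : ι → ℤ, ∫ y in {y | ∀ i, ℓ y i ∈ Set.Ico (0 : ℝ) 1}, g (y + lam n) ∂μ =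
      ∫ y in {y | ∀ i, ℓ y i - n i ∈ Set.Ico (0 : ℝ) 1}, g y ∂μ := fun n => by
    rw [← pz_pre hlam n]
    exact (measurePreserving_add_right μ (lam n)).setIntegral_preimage_emb
      (measurableEmbedding_addRight (lam n)) g _
  simp only [e]
  exact h

theorem lintegral_unfold {V : Type} [AddCommGroup V] [MeasurableSpace V] [MeasurableAdd V]
    (μ : Measure V) [μ.IsAddRightInvariant] (ℓ : V →+ (ι → ℝ)) (hℓ : Measurable ℓ)
    (lam : (ι → ℤ) → V) (hlam : ∀ n i, ℓ (lam n) i = n i) (g : V → ENNReal) :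
    ∑' n, ∫⁻ y in {y | ∀ i, ℓ y i ∈ Set.Ico (0 : ℝ) 1}, g (y + lam n) ∂μ = ∫⁻ y, g y ∂μ := by
  have h := lintegral_iUnion (μ := μ) (pz_meas hℓ) (pz_disj ℓ) g
  rw [pz_cover, Measure.restrict_univ] at h
  rw [h]
  refine tsum_congr fun n => ?_
  rw [← pz_pre hlam n]
  exact (measurePreserving_add_right μ (lam n)).setLIntegral_comp_preimage_emb
    (measurableEmbedding_addRight (lam n)) g _

theorem pz_cube_eq : {y : ι → ℝ | ∀ i, y i ∈ Set.Ico (0 : ℝ) 1} =
    Set.pi Set.univ fun _ => Set.Ico (0 : ℝ) 1 := by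
  ext y
  simp

theorem volume_cube : volume {y : ι → ℝ | ∀ i, y i ∈ Set.Ico (0 : ℝ) 1} = 1 := by
  rw [pz_cube_eq, volume_pi_pi]
  simp

theorem measurableSet_cube : MeasurableSet {y : ι → ℝ | ∀ i, y i ∈ Set.Ico (0 : ℝ) 1} := by
  rw [pz_cube_eq]
  exact MeasurableSet.univ_pi fun _ => measurableSet_Ico

theorem pz_mFourier (m : ι → ℤ) (x : ι → ℝ) :
    UnitAddTorus.mFourier m (fun i => (x i : UnitAddCircle)) = eR (∑ i, m i * x i) := by
  simp only [UnitAddTorus.mFourier, ContinuousMap.coe_mk, fourier_coe_apply, eR, ← Complex.exp_sum]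
  congr 1
  push_cast
  rw [Finset.mul_sum]
  exact Finset.sum_congr rfl fun i _ => by ring

/-- A continuous `ℤ^ι`-periodic function with summable Fourier coefficients is the sum of its Fourier
series. -/
theorem hasSum_fourier_Z {F : (ι → ℝ) → ℂ} (hF : Continuous F)
    (hper : ∀ x (n : ι → ℤ), F (x + fun i => (n i : ℝ)) = F x)
    (hs : Summable fun m : ι → ℤ =>
      ∫ y in {y : ι → ℝ | ∀ i, y i ∈ Set.Ico (0 : ℝ) 1}, F y * eR (-∑ i, m i * y i)) (x : ι → ℝ) :
    HasSum (fun m : ι → ℤ =>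
      (∫ y in {y : ι → ℝ | ∀ i, y i ∈ Set.Ico (0 : ℝ) 1}, F y * eR (-∑ i, m i * y i)) *
        eR (∑ i, m i * x i)) (F x) := by
  let G : UnitAddTorus ι → ℂ := fun z => F fun i => Quotient.out (z i)
  have hG : ∀ y : ι → ℝ, G (fun i => (y i : UnitAddCircle)) = F y := by
    intro y
    have h : ∀ i, ∃ n : ℤ, Quotient.out ((y i : ℝ) : UnitAddCircle) = y i + n := fun i => by
      obtain ⟨⟨_, n, rfl⟩, hn⟩ :=
        QuotientAddGroup.mk_out_eq_mul (AddSubgroup.zmultiples (1 : ℝ)) (y i)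
      exact ⟨n, by simpa using hn⟩
    choose n hn using h
    rw [← hper y n]
    exact congrArg F (funext hn)
  have hq : IsOpenQuotientMap (Pi.map fun (_ : ι) (t : ℝ) => (t : UnitAddCircle)) :=
    IsOpenQuotientMap.piMap fun _ => QuotientAddGroup.isOpenQuotientMap_mk
  have hGc : Continuous G := hq.continuous_comp_iff.1 (hF.congr fun y => (hG y).symm)
  have hco : ∀ m, UnitAddTorus.mFourierCoeff (⟨G, hGc⟩ : C(UnitAddTorus ι, ℂ)) m =
      ∫ y in {y : ι → ℝ | ∀ i, y i ∈ Set.Ico (0 : ℝ) 1}, F y * eR (-∑ i, m i * y i) := by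
    intro m
    rw [UnitAddTorus.mFourierCoeff_eq_integral _ m 0]
    have e : {x : ι → ℝ | ∀ i, x i ∈ Set.Ioc ((0 : ι → ℝ) i) ((0 : ι → ℝ) i + 1)} =ᵐ[volume]
        {y : ι → ℝ | ∀ i, y i ∈ Set.Ico (0 : ℝ) 1} := by
      have e1 : {x : ι → ℝ | ∀ i, x i ∈ Set.Ioc ((0 : ι → ℝ) i) ((0 : ι → ℝ) i + 1)} =
          Set.pi Set.univ fun _ => Set.Ioc (0 : ℝ) 1 := by
        ext y
        simp
      rw [e1, pz_cube_eq]
      exact (Measure.univ_pi_Ioc_ae_eq_Icc (f := fun _ : ι => (0 : ℝ)) (g := fun _ => 1)).trans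
        (Measure.univ_pi_Ico_ae_eq_Icc (f := fun _ : ι => (0 : ℝ)) (g := fun _ => 1)).symm
    rw [setIntegral_congr_set e]
    refine integral_congr_ae (ae_of_all _ fun y => ?_)
    simp only [ContinuousMap.coe_mk, hG, pz_mFourier, smul_eq_mul, Pi.neg_apply, Int.cast_neg,
      neg_mul, Finset.sum_neg_distrib]
    ring
  have h := UnitAddTorus.hasSum_mFourier_series_apply_of_summable
    (f := (⟨G, hGc⟩ : C(UnitAddTorus ι, ℂ))) (hs.congr fun m => (hco m).symm)
    fun i => (x i : UnitAddCircle)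
  simp only [hco] at h
  simpa only [pz_mFourier, smul_eq_mul, ContinuousMap.coe_mk, hG] using h

theorem pz_norm_cube {y : ι → ℝ} (hy : ∀ i, y i ∈ Set.Ico (0 : ℝ) 1) : ‖y‖ ≤ 1 :=
  (pi_norm_le_iff_of_nonneg zero_le_one).2 fun i => by
    rw [Real.norm_eq_abs, abs_of_nonneg (hy i).1]
    exact (hy i).2.le

/-- **Poisson summation** on `ℤ^ι`. -/
theorem poisson_Z {f : (ι → ℝ) → ℂ} (hf : Continuous f)
    (hloc : ∀ r : ℝ, ∃ g : (ι → ℤ) → ℝ, Summable g ∧
      ∀ n y, ‖y‖ ≤ r → ‖f (y + fun i => (n i : ℝ))‖ ≤ g n)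
    (hs : Summable fun m : ι → ℤ => ∫ y, f y * eR (-∑ i, m i * y i)) (x : ι → ℝ) :
    ∑' n : ι → ℤ, f (x + fun i => (n i : ℝ)) =
      ∑' m : ι → ℤ, (∫ y, f y * eR (-∑ i, m i * y i)) * eR (∑ i, m i * x i) := by
  have hF : Continuous fun y : ι → ℝ => ∑' n : ι → ℤ, f (y + fun i => (n i : ℝ)) := by
    refine continuous_iff_continuousAt.2 fun y => ?_
    obtain ⟨g, hg, hb⟩ := hloc (‖y‖ + 1)
    refine (continuousOn_tsum (s := Metric.closedBall 0 (‖y‖ + 1))
      (fun n => (hf.comp (continuous_add_const _)).continuousOn) hg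
      fun n z hz => hb n z (mem_closedBall_zero_iff.1 hz)).continuousAt ?_
    exact Metric.closedBall_mem_nhds_of_mem (mem_ball_zero_iff.2 (lt_add_one _))
  have hper : ∀ (y : ι → ℝ) (k : ι → ℤ),
      ∑' n : ι → ℤ, f ((y + fun i => (k i : ℝ)) + fun i => (n i : ℝ)) =
        ∑' n : ι → ℤ, f (y + fun i => (n i : ℝ)) := by
    intro y k
    rw [← (Equiv.addLeft k).tsum_eq fun n : ι → ℤ => f (y + fun i => (n i : ℝ))]
    refine tsum_congr fun n => congrArg f (funext fun i => ?_)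
    simp [add_assoc]
  obtain ⟨g, hg, hb⟩ := hloc 1
  have hg0 : ∀ n, 0 ≤ g n := fun n => (norm_nonneg _).trans (hb n 0 (by simp))
  have hfi : Integrable f := by
    refine ⟨hf.aestronglyMeasurable, ?_⟩
    rw [hasFiniteIntegral_iff_enorm, ← lintegral_unfold volume (AddMonoidHom.id (ι → ℝ)) measurable_id
      (fun n i => (n i : ℝ)) (fun _ _ => rfl)]
    refine lt_of_le_of_lt (ENNReal.tsum_le_tsum (g := fun n => ENNReal.ofReal (g n)) fun n => ?_) ?_
    · refine (setLIntegral_mono' measurableSet_cube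
        (g := fun _ => ENNReal.ofReal (g n)) fun y hy => ?_).trans ?_
      · rw [← ofReal_norm_eq_enorm]
        exact ENNReal.ofReal_le_ofReal (hb n y (pz_norm_cube hy))
      · rw [setLIntegral_const]
        exact (congrArg _ volume_cube).trans_le (mul_one _).le
    · rw [← ENNReal.ofReal_tsum_of_nonneg hg0 hg]
      exact ENNReal.ofReal_lt_top
  have hco : ∀ m : ι → ℤ, ∫ y in {y : ι → ℝ | ∀ i, y i ∈ Set.Ico (0 : ℝ) 1},
      (∑' n : ι → ℤ, f (y + fun i => (n i : ℝ))) * eR (-∑ i, m i * y i) =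
      ∫ y, f y * eR (-∑ i, m i * y i) := by
    intro m
    have i1 : Integrable fun y : ι → ℝ => f y * eR (-∑ i, m i * y i) :=
      hfi.mul_bdd (c := 1) (Continuous.aestronglyMeasurable (by fun_prop))
        (ae_of_all _ fun y => (norm_eR _).le)
    have h1 := hasSum_unfold volume (AddMonoidHom.id (ι → ℝ)) measurable_id
      (fun n i => (n i : ℝ)) (fun _ _ => rfl) i1
    have e : ∀ (n : ι → ℤ) (y : ι → ℝ), eR (-∑ i, m i * (y + fun i => (n i : ℝ)) i) =
        eR (-∑ i, m i * y i) := fun n y => by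
      have : -∑ i, (m i : ℝ) * (y + fun i => (n i : ℝ)) i =
          -∑ i, m i * y i + ((-∑ i, m i * n i : ℤ) : ℝ) := by
        simp only [Pi.add_apply, mul_add, Finset.sum_add_distrib]
        push_cast
        ring
      rw [this, eR_add, eR_int, mul_one]
    simp only [e, AddMonoidHom.id_apply] at h1
    haveI : IsFiniteMeasure (volume.restrict {y : ι → ℝ | ∀ i, y i ∈ Set.Ico (0 : ℝ) 1}) :=
      ⟨by rw [Measure.restrict_apply_univ, volume_cube]; exact ENNReal.one_lt_top⟩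
    have hbd : ∀ n : ι → ℤ, ∀ᵐ y ∂volume.restrict {y : ι → ℝ | ∀ i, y i ∈ Set.Ico (0 : ℝ) 1},
        ‖f (y + fun i => (n i : ℝ)) * eR (-∑ i, m i * y i)‖ ≤ g n := fun n =>
      (ae_restrict_iff' measurableSet_cube).2 (ae_of_all _ fun y hy => by
        rw [norm_mul, norm_eR, mul_one]
        exact hb n y (pz_norm_cube hy))
    have i2 : ∀ n : ι → ℤ, Integrable (fun y => f (y + fun i => (n i : ℝ)) * eR (-∑ i, m i * y i))
        (volume.restrict {y : ι → ℝ | ∀ i, y i ∈ Set.Ico (0 : ℝ) 1}) := fun n =>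
      (integrable_const (g n)).mono' (Continuous.aestronglyMeasurable (by fun_prop)) (hbd n)
    have h2 := hasSum_integral_of_summable_integral_norm i2
      (hg.of_nonneg_of_le (fun n => integral_nonneg fun _ => norm_nonneg _) fun n => by
        refine (integral_mono_ae (i2 n).norm (integrable_const (g n)) (hbd n)).trans ?_
        rw [integral_const, measureReal_def, Measure.restrict_apply_univ, volume_cube]
        simp)
    rw [h1.unique h2]
    simp only [tsum_mul_right]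
  have h := hasSum_fourier_Z hF hper (hs.congr fun m => (hco m).symm) x
  simp only [hco] at h
  exact h.tsum_eq.symm

section basis

variable {V : Type} [NormedAddCommGroup V] [NormedSpace ℝ V] [FiniteDimensional ℝ V]
  [MeasurableSpace V] [BorelSpace V]

theorem integral_basis_coord (μ : Measure V) [μ.IsAddHaarMeasure] (b : Module.Basis ι ℝ V) (F : V → ℂ) :
    ∫ y, F y ∂μ = (μ.real (ZSpan.fundamentalDomain b) : ℂ) * ∫ t : ι → ℝ, F (∑ i, t i • b i) := by
  let A : (ι → ℝ) ≃L[ℝ] V := b.equivFunL.symm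
  have hA : ∀ t, A t = ∑ i, t i • b i := fun t => b.equivFun_symm_apply t
  have h := Measure.isAddLeftInvariant_eq_smul μ (Measure.map A volume)
  set c := Measure.addHaarScalarFactor μ (Measure.map A volume)
  have e1 : Measure.map A volume (ZSpan.fundamentalDomain b) = 1 := by
    rw [Measure.map_apply A.continuous.measurable (ZSpan.fundamentalDomain_measurableSet b),
      ← volume_cube (ι := ι)]
    congr 1
    ext t
    simp only [Set.mem_preimage, ZSpan.mem_fundamentalDomain, Set.mem_setOf_eq]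
    refine forall_congr' fun i => ?_
    rw [← b.equivFun_apply, show A t = b.equivFun.symm t from rfl, LinearEquiv.apply_symm_apply]
  have e2 : μ.real (ZSpan.fundamentalDomain b) = c := by
    rw [measureReal_def]
    conv_lhs => rw [h]
    rw [Measure.smul_apply, e1]
    simp
  rw [e2]
  conv_lhs => rw [h]
  rw [integral_smul_nnreal_measure]
  have e3 := integral_map_equiv (μ := (volume : Measure (ι → ℝ)))
    A.toHomeomorph.toMeasurableEquiv F
  simp only [Homeomorph.toMeasurableEquiv_coe, ContinuousLinearEquiv.coe_toHomeomorph] at e3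
  rw [e3]
  simp only [hA, NNReal.smul_def, Complex.real_smul]

theorem measureReal_fundamentalDomain_pos (μ : Measure V) [μ.IsAddHaarMeasure]
    (b : Module.Basis ι ℝ V) : 0 < μ.real (ZSpan.fundamentalDomain b) :=
  ENNReal.toReal_pos (ZSpan.measure_fundamentalDomain_ne_zero b)
    (ZSpan.fundamentalDomain_isBounded b).measure_lt_top.ne

/-- **Poisson summation** on the lattice spanned by a basis. -/
theorem poisson_basis (μ : Measure V) [μ.IsAddHaarMeasure] (b : Module.Basis ι ℝ V) {f : V → ℂ}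
    (hf : Continuous f)
    (hloc : ∀ r : ℝ, ∃ g : (ι → ℤ) → ℝ, Summable g ∧
      ∀ n y, ‖y‖ ≤ r → ‖f (y + ∑ i, (n i : ℝ) • b i)‖ ≤ g n)
    (hs : Summable fun m : ι → ℤ => ∫ y, f y * eR (-∑ i, m i * b.repr y i) ∂μ) (a : V) :
    ∑' n : ι → ℤ, f (a + ∑ i, (n i : ℝ) • b i) = ((μ.real (ZSpan.fundamentalDomain b) : ℂ))⁻¹ *
      ∑' m : ι → ℤ, (∫ y, f y * eR (-∑ i, m i * b.repr y i) ∂μ) * eR (∑ i, m i * b.repr a i) := by
  let A : (ι → ℝ) ≃L[ℝ] V := b.equivFunL.symm
  have hA : ∀ t, A t = ∑ i, t i • b i := fun t => b.equivFun_symm_apply t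
  have hr : ∀ (t : ι → ℝ) i, b.repr (∑ i, t i • b i) i = t i := fun t i => by
    rw [← hA, ← b.equivFun_apply, show A t = b.equivFun.symm t from rfl, LinearEquiv.apply_symm_apply]
  have hc : ((μ.real (ZSpan.fundamentalDomain b) : ℝ) : ℂ) ≠ 0 :=
    Complex.ofReal_ne_zero.2 (measureReal_fundamentalDomain_pos μ b).ne'
  have hco : ∀ m : ι → ℤ, ∫ t : ι → ℝ, f (A t) * eR (-∑ i, m i * t i) =
      ((μ.real (ZSpan.fundamentalDomain b) : ℂ))⁻¹ *
        ∫ y, f y * eR (-∑ i, m i * b.repr y i) ∂μ := fun m => by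
    rw [integral_basis_coord μ b, inv_mul_cancel_left₀ hc]
    simp only [hr, hA]
  have h := poisson_Z (f := fun t => f (A t)) (hf.comp A.continuous) (fun r => by
    obtain ⟨g, hg, hb⟩ := hloc (‖(A : (ι → ℝ) →L[ℝ] V)‖ * r)
    refine ⟨g, hg, fun n y hy => ?_⟩
    rw [map_add, hA fun i => (n i : ℝ)]
    exact hb n _ ((A : (ι → ℝ) →L[ℝ] V).le_opNorm_of_le hy))
    (by simp only [hco]; exact hs.mul_left _) (b.repr a)
  simp only [hco, map_add, mul_assoc, tsum_mul_left] at h
  rw [← h]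
  refine tsum_congr fun n => ?_
  rw [hA, hA, b.sum_repr]

theorem summable_exp_neg_norm_basis (b : Module.Basis ι ℝ V) {c : ℝ} (hc : 0 < c) :
    Summable fun n : ι → ℤ => Real.exp (-(c * ‖∑ i, (n i : ℝ) • b i‖)) := by
  let A : V →L[ℝ] (ι → ℝ) := b.equivFunL
  have hM : 0 < ‖A‖ + 1 := by positivity
  refine (summable_exp_neg_norm_int (ι := ι) (div_pos hc hM)).of_nonneg_of_le
    (fun _ => (Real.exp_pos _).le) fun n => ?_
  rw [Real.exp_le_exp, neg_le_neg_iff, div_mul_eq_mul_div, div_le_iff₀ hM, mul_assoc]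
  refine mul_le_mul_of_nonneg_left ?_ hc.le
  have h1 : A (∑ i, (n i : ℝ) • b i) = fun i => (n i : ℝ) := by
    rw [← b.equivFun_symm_apply]
    exact b.equivFun.apply_symm_apply _
  have h2 := A.le_opNorm (∑ i, (n i : ℝ) • b i)
  rw [h1] at h2
  nlinarith [norm_nonneg (∑ i, (n i : ℝ) • b i)]

end basis

instance pz_haar_prod : (volume : Measure (ℝ × (ι → ℝ))).IsAddHaarMeasure :=
  Measure.prod.instIsAddHaarMeasure _ _

/-- **Poisson summation in corank one**: sum over `ℤ^ι`, Fourier inversion in the extra variable. -/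
theorem poisson_partial {G : ℝ × (ι → ℝ) → ℂ} (hG : Continuous G) {C c : ℝ} (hc : 0 < c)
    (hdec : ∀ p, ‖G p‖ ≤ C * Real.exp (-(c * ‖p‖))) {F : (ι → ℤ) → ℝ → ℂ}
    (hF : ∀ m τ, F m τ = ∫ p : ℝ × (ι → ℝ), G p * eR (-(τ * p.1 + ∑ i, m i * p.2 i)))
    (hi : ∀ m, Integrable (F m)) (hs : Summable fun m => ∫ τ, ‖F m τ‖) (w : ℝ) (t : ι → ℝ) :
    ∑' n : ι → ℤ, G (w, t + fun i => (n i : ℝ)) =
      ∑' m : ι → ℤ, ∫ τ : ℝ, F m τ * eR (τ * w + ∑ i, m i * t i) := by
  have hC : 0 ≤ C := by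
    have := (norm_nonneg _).trans (hdec 0)
    simpa using this
  have hdec2 : ∀ w (y : ι → ℝ), ‖G (w, y)‖ ≤ C * Real.exp (-(c * ‖y‖)) := fun w y =>
    (hdec _).trans (mul_le_mul_of_nonneg_left (Real.exp_le_exp.2 (neg_le_neg
      (mul_le_mul_of_nonneg_left (norm_snd_le (w, y)) hc.le))) hC)
  have hGi : Integrable G := ((integrable_exp_neg_norm volume hc).const_mul C).mono'
    hG.aestronglyMeasurable (ae_of_all _ hdec)
  have key : ∀ m : ι → ℤ, ∫ y : ι → ℝ, G (w, y) * eR (-∑ i, m i * y i) = ∫ τ, F m τ * eR (τ * w) := by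
    intro m
    have i1 : Integrable fun p : ℝ × (ι → ℝ) => G p * eR (-∑ i, m i * p.2 i) :=
      hGi.mul_bdd (c := 1) (Continuous.aestronglyMeasurable (by fun_prop))
        (ae_of_all _ fun y => (norm_eR _).le)
    have c1 : Continuous fun u : ℝ => ∫ y : ι → ℝ, G (u, y) * eR (-∑ i, m i * y i) :=
      continuous_of_dominated (fun u => Continuous.aestronglyMeasurable (by fun_prop))
        (fun u => ae_of_all _ fun y => by rw [norm_mul, norm_eR, mul_one]; exact hdec2 u y)
        ((integrable_exp_neg_norm volume hc).const_mul C) (ae_of_all _ fun y => by fun_prop)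
    have e : 𝓕 (fun u : ℝ => ∫ y : ι → ℝ, G (u, y) * eR (-∑ i, m i * y i)) = F m := by
      funext τ
      have i2 : Integrable fun p : ℝ × (ι → ℝ) => G p * eR (-(τ * p.1 + ∑ i, m i * p.2 i)) :=
        hGi.mul_bdd (c := 1) (Continuous.aestronglyMeasurable (by fun_prop))
          (ae_of_all _ fun y => (norm_eR _).le)
      rw [Real.fourier_real_eq_integral_exp_smul, hF, Measure.volume_eq_prod, integral_prod _ i2]
      refine integral_congr_ae (ae_of_all _ fun u => ?_)
      simp only [smul_eq_mul]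
      rw [← integral_const_mul]
      refine integral_congr_ae (ae_of_all _ fun y => ?_)
      simp only [neg_add, eR_add]
      rw [show Complex.exp (((-2 * Real.pi * u * τ : ℝ) : ℂ) * Complex.I) = eR (-(τ * u)) by
        unfold eR; congr 1; push_cast; ring]
      ring
    have h := (Integrable.integral_prod_left i1).fourierInv_fourier_eq (by rw [e]; exact hi m)
      (v := w) c1.continuousAt
    rw [e, Real.fourierInv_eq'] at h
    rw [← h]
    refine integral_congr_ae (ae_of_all _ fun τ => ?_)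
    simp only [smul_eq_mul, eR, RCLike.inner_apply, conj_trivial]
    rw [mul_comm]
    congr 2
    push_cast
    ring
  have h := poisson_Z (f := fun y => G (w, y)) (by fun_prop) (fun r => ⟨fun n =>
      C * Real.exp (c * r) * Real.exp (-(c * ‖(fun i => (n i : ℝ))‖)),
      (summable_exp_neg_norm_int hc).mul_left _, fun n y hy => by
        refine (hdec2 _ _).trans ?_
        beta_reduce
        rw [mul_assoc, ← Real.exp_add]
        refine mul_le_mul_of_nonneg_left (Real.exp_le_exp.2 ?_) hC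
        have := norm_sub_norm_le (fun i => (n i : ℝ)) (-y)
        rw [sub_neg_eq_add, norm_neg, add_comm] at this
        nlinarith⟩)
    (by
      simp only [key]
      refine hs.of_norm_bounded fun m => (norm_integral_le_integral_norm _).trans (le_of_eq ?_)
      simp only [norm_mul, norm_eR, mul_one]) t
  rw [h]
  refine tsum_congr fun m => ?_
  rw [key, ← integral_mul_const]
  simp only [eR_add, mul_assoc]

end Crest.Agent.R312
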