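import Crest.Agent.R312.A0Adj

/-!
# R312 / A0Dig : digit idempotents and `r`-th roots
Read `A0Defs.lean` first.  Keep the statements; auxiliary lemmas get the prefix `a0d_`.
-/

set_option autoImplicit false

namespace Crest.Agent.R312

open Crest.Agent.Lib.PT Polynomial Crest.PolyFactor

variable {F : Type*} [Field F] [Fintype F] {A : Alg} {r : ℕ}

/-- the standing assumptions on `r` and on the value `g₀` of the non-residue -/
structure NRes (F : Type*) [Field F] [Fintype F] (r : ℕ) (g₀ : F) : Prop where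
  prime : r.Prime
  dvd : r ∣ Fintype.card F - 1
  ne : g₀ ≠ 0
  nonres : g₀ ^ ((Fintype.card F - 1) / r) ≠ 1

theorem a0d_ne (F : Type*) [Field F] [Fintype F] : Fintype.card F - 1 ≠ 0 := by
  have := Fintype.one_lt_card (α := F)
  omega

theorem a0d_mul (r n : ℕ) : n / r ^ padicValNat r n * r ^ padicValNat r n = n :=
  Nat.div_mul_cancel pow_padicValNat_dvd

theorem a0d_pos {r n : ℕ} (hr : r.Prime) (hn : n ≠ 0) (hd : r ∣ n) : 1 ≤ padicValNat r n :=
  haveI := Fact.mk hr
  one_le_padicValNat_of_dvd hn hd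

theorem a0d_div {r n : ℕ} (hr : r.Prime) (hn : n ≠ 0) (hd : r ∣ n) :
    n / r = n / r ^ padicValNat r n * r ^ (padicValNat r n - 1) := by
  have h1 := a0d_pos hr hn hd
  refine Nat.div_eq_of_eq_mul_left hr.pos ?_
  rw [mul_assoc, ← pow_succ, Nat.sub_add_cancel h1, a0d_mul]

theorem a0d_not_dvd {r n : ℕ} (hr : r.Prime) (hn : n ≠ 0) : ¬ r ∣ n / r ^ padicValNat r n := by
  have := Fact.mk hr
  intro h
  refine pow_succ_padicValNat_not_dvd (p := r) hn ?_
  have h2 := Nat.mul_dvd_mul_right h (r ^ padicValNat r n)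
  rwa [a0d_mul, ← pow_succ'] at h2

theorem a0d_digits (r n k : ℕ) : ∑ i ∈ Finset.range k, n / r ^ i % r * r ^ i = n % r ^ k := by
  induction k with
  | zero => simp [Nat.mod_one]
  | succ k ih => rw [Finset.sum_range_succ, ih, Nat.mod_pow_succ, mul_comm]

theorem NRes.zeta {g₀ : F} (h : NRes F r g₀) :
    IsPrimitiveRoot (g₀ ^ ((Fintype.card F - 1) / r)) r := by
  have := Fact.mk h.prime
  have h1 : (g₀ ^ ((Fintype.card F - 1) / r)) ^ r = 1 := by
    rw [← pow_mul, Nat.div_mul_cancel h.dvd, FiniteField.pow_card_sub_one_eq_one _ h.ne]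
  have h2 := IsPrimitiveRoot.orderOf (g₀ ^ ((Fintype.card F - 1) / r))
  rwa [orderOf_eq_prime h1 h.nonres] at h2

/-- `γ = g₀^t` has order `r^e` (`orderOf_eq_prime_pow`) -/
theorem NRes.gam {g₀ : F} (h : NRes F r g₀) :
    IsPrimitiveRoot (g₀ ^ ((Fintype.card F - 1) / r ^ padicValNat r (Fintype.card F - 1)))
      (r ^ padicValNat r (Fintype.card F - 1)) := by
  have := Fact.mk h.prime
  have he := a0d_pos h.prime (a0d_ne F) h.dvd
  have h2 := IsPrimitiveRoot.orderOf
    (g₀ ^ ((Fintype.card F - 1) / r ^ padicValNat r (Fintype.card F - 1)))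
  rwa [orderOf_eq_prime_pow (p := r) (n := padicValNat r (Fintype.card F - 1) - 1),
    Nat.sub_add_cancel he] at h2
  · rw [← pow_mul, ← a0d_div h.prime (a0d_ne F) h.dvd]
    exact h.nonres
  · rw [← pow_mul, Nat.sub_add_cancel he, a0d_mul, FiniteField.pow_card_sub_one_eq_one _ h.ne]

/-- `IsPrimitiveRoot.eq_pow_of_pow_eq_one` -/
theorem NRes.exists_log {g₀ : F} (h : NRes F r g₀) {v : F} (hv : v ≠ 0) :
    ∃ n < r ^ padicValNat r (Fintype.card F - 1),
      v ^ ((Fintype.card F - 1) / r ^ padicValNat r (Fintype.card F - 1)) =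
        (g₀ ^ ((Fintype.card F - 1) / r ^ padicValNat r (Fintype.card F - 1))) ^ n := by
  have : NeZero (r ^ padicValNat r (Fintype.card F - 1)) := ⟨pow_ne_zero _ h.prime.ne_zero⟩
  obtain ⟨n, hn, hn'⟩ := h.gam.eq_pow_of_pow_eq_one
    (ξ := v ^ ((Fintype.card F - 1) / r ^ padicValNat r (Fintype.card F - 1)))
    (by rw [← pow_mul, a0d_mul, FiniteField.pow_card_sub_one_eq_one _ hv])
  exact ⟨n, hn, hn'.symm⟩

namespace Hom

variable {φ : Vec → F}

omit [Fintype F] in
theorem zeta (h : Hom A φ) (r q : ℕ) (γ0 : Vec) : φ (A.zeta r q γ0) = φ γ0 ^ ((q - 1) / r) := h.pow _ _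

omit [Fintype F] in
theorem gam (h : Hom A φ) (r q : ℕ) (γ0 : Vec) :
    φ (A.gam r q γ0) = φ γ0 ^ ((q - 1) / r ^ padicValNat r (q - 1)) := h.pow _ _

omit [Fintype F] in
open Classical in
/-- Geometric sum of `x = ζ^(r-c) u`, `x^r = 1`, `x = 1 ↔ u = ζ^c` (`mul_geom_sum`); `p ∤ r` since `(r : F) ≠ 0`
(`IsPrimitiveRoot.neZero'` or `r • 1 = 0` contradicts primitivity), `invP_mul`, `Hom.cast_p`. -/
theorem idem (hp : A.p.Prime) (h : Hom A φ) (hr : 0 < r) {ζ u : Vec} (hζ : IsPrimitiveRoot (φ ζ) r)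
    (hu : φ u ^ r = 1) {c : ℕ} (hc : c < r) :
    φ (A.idem r ζ u c) = if φ u = φ ζ ^ c then 1 else 0 := by
  have : NeZero r := ⟨hr.ne'⟩
  have hr0 : (r : F) ≠ 0 := hζ.neZero'.ne
  have hpr : ¬ A.p ∣ r := by
    rintro ⟨s, rfl⟩
    exact hr0 (by rw [Nat.cast_mul, h.cast_p, zero_mul])
  have hinv : (invP A.p r : F) * r = 1 := by
    have := nsmul_congr (m := (1 : F)) (by rw [nsmul_one, h.cast_p]) (invP_mul hp hpr)
    simpa using this
  have hx : φ ζ ^ c * φ ζ ^ (r - c) = 1 := by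
    rw [← pow_add, Nat.add_sub_cancel' hc.le, hζ.pow_eq_one]
  unfold Alg.idem
  rw [h.smul, h.sum_range]
  simp only [h.mul, h.pow, pow_mul, ← mul_pow]
  split_ifs with hu'
  · rw [hu', mul_comm (φ ζ ^ (r - c)), hx]
    simpa using hinv
  · have h1 : φ ζ ^ (r - c) * φ u ≠ 1 := fun e => hu' (by
      linear_combination φ ζ ^ c * e - φ u * hx)
    have h2 : (φ ζ ^ (r - c) * φ u) ^ r = 1 := by
      rw [mul_pow, hu, mul_one, ← pow_mul, mul_comm, pow_mul, hζ.pow_eq_one, one_pow]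
    have h3 := geom_sum_mul (φ ζ ^ (r - c) * φ u) r
    rw [h2, sub_self] at h3
    rw [(mul_eq_zero.1 h3).resolve_right (sub_ne_zero.2 h1), mul_zero]

omit [Fintype F] in
theorem a0d_fold (hp : A.p.Prime) (h : Hom A φ) (hr : r.Prime) {e n : ℕ} {γ ζ v : Vec}
    (hγ : φ γ ^ r ^ e = 1) (hζγ : φ ζ = φ γ ^ r ^ (e - 1)) (hζ : IsPrimitiveRoot (φ ζ) r)
    (hv : φ v = φ γ ^ n) (i : ℕ) (hi : i ≤ e) :
    φ ((List.range i).foldl (A.digStep r e γ ζ) (v, [])).1 = φ γ ^ (n - n % r ^ i) ∧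
      ((List.range i).foldl (A.digStep r e γ ζ) (v, [])).2.length = i ∧
      ∀ j < i, ∀ c < r, φ ((((List.range i).foldl (A.digStep r e γ ζ) (v, [])).2.getD j []).getD c [])
        = if n / r ^ j % r = c then 1 else 0 := by
  classical
  induction i with
  | zero => exact ⟨by simpa [Nat.mod_one] using hv, rfl, fun j hj => absurd hj (by omega)⟩
  | succ i ih =>
    obtain ⟨h1, h2, h3⟩ := ih (by omega)
    rw [List.range_succ, List.foldl_append, List.foldl_cons, List.foldl_nil]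
    generalize List.foldl _ _ (List.range i) = s at h1 h2 h3
    have hu : φ (A.pow s.1 (r ^ (e - 1 - i))) = φ ζ ^ (n / r ^ i % r) := by
      rw [h.pow, h1, ← pow_eq_pow_mod _ hζ.pow_eq_one, hζγ, ← pow_mul, ← pow_mul]
      congr 1
      have e1 : n - n % r ^ i = r ^ i * (n / r ^ i) := by
        have := Nat.div_add_mod n (r ^ i)
        omega
      rw [e1, show e - 1 = i + (e - 1 - i) by omega, pow_add, Nat.add_sub_cancel_left]
      ring
    have hd : n / r ^ i % r < r := Nat.mod_lt _ hr.pos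
    have hE : ∀ c < r, φ (A.idem r ζ (A.pow s.1 (r ^ (e - 1 - i))) c)
        = if n / r ^ i % r = c then 1 else 0 := fun c hc => by
      rw [h.idem hp hr.pos hζ (by rw [hu, ← pow_mul, mul_comm, pow_mul, hζ.pow_eq_one, one_pow]) hc,
        hu]
      exact if_congr ⟨fun e => hζ.pow_inj hd hc e, fun e => by rw [e]⟩ rfl rfl
    unfold Alg.digStep
    refine ⟨?_, by simp [h2], fun j hj c hc => ?_⟩
    · dsimp only
      rw [h.mul, h.sum_range, Finset.sum_eq_single (n / r ^ i % r), h.mul, hE _ hd, if_pos rfl,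
        one_mul, h.pow, h1, ← pow_add, show e - (e - i) = i by omega]
      · have e1 : n % r ^ (i + 1) = n % r ^ i + r ^ i * (n / r ^ i % r) := Nat.mod_pow_succ
        have e2 : n % r ^ (i + 1) ≤ n := Nat.mod_le _ _
        have e3 : n / r ^ i % r * r ^ i ≤ r ^ e :=
          (Nat.mul_le_mul_right _ hd.le).trans (by
            rw [← pow_succ']; exact Nat.pow_le_pow_right hr.pos hi)
        rw [mul_comm] at e1
        rw [show n - n % r ^ i + (r ^ e - n / r ^ i % r * r ^ i) = n - n % r ^ (i + 1) + r ^ e by omega,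
          pow_add, hγ, mul_one]
      · intro c hc hne
        rw [h.mul, hE c (Finset.mem_range.1 hc), if_neg hne.symm, zero_mul]
      · intro hc
        exact absurd (Finset.mem_range.2 hd) hc
    · dsimp only
      rcases Nat.lt_succ_iff_lt_or_eq.1 hj with hj | rfl
      · rw [List.getD_append _ _ _ _ (by omega)]
        exact h3 j hj c hc
      · rw [List.getD_append_right _ _ _ _ (by omega), h2, Nat.sub_self, List.getD_cons_zero,
          List.getD_eq_getElem _ _ (by simpa using hc)]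
        simpa using hE c hc

/-- Invariant of the fold after `i` steps: the first component has value `γ^(n - n % r^i)`, the second one has
length `i` and contains the right idempotents; `u_i = γ^((n / r^i) r^(e-1)) = ζ^(n / r^i % r)`. -/
theorem dig (hp : A.p.Prime) (h : Hom A φ) {γ0 v : Vec} (hγ : NRes F r (φ γ0)) {n : ℕ}
    (hn : n < r ^ padicValNat r (Fintype.card F - 1))
    (hv : φ v ^ ((Fintype.card F - 1) / r ^ padicValNat r (Fintype.card F - 1)) =
      φ (A.gam r (Fintype.card F) γ0) ^ n) {i c : ℕ} (hi : i < padicValNat r (Fintype.card F - 1))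
    (hc : c < r) :
    φ (A.dig r (Fintype.card F) γ0 v i c) = if n / r ^ i % r = c then 1 else 0 := by
  have hγ' := hγ.gam
  have hζ := hγ.zeta
  rw [← h.gam] at hγ'
  rw [← h.zeta] at hζ
  refine (a0d_fold hp h hγ.prime hγ'.pow_eq_one ?_ hζ (by rw [h.pow, hv]) _ le_rfl).2.2 i hi c hc
  rw [h.zeta, h.gam, ← pow_mul, ← a0d_div hγ.prime (a0d_ne F) hγ.dvd]

/-- `v^t = γ^n` with `r ∣ n`; the product has value `γ^(n / r)` (base `r` expansion); `t t' = 1 + r k` -/
theorem root (hp : A.p.Prime) (h : Hom A φ) {γ0 v : Vec} (hγ : NRes F r (φ γ0)) (hv : φ v ≠ 0)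
    (hv' : φ v ^ ((Fintype.card F - 1) / r) = 1) :
    φ (A.root r (Fintype.card F) γ0 v) ^ r = φ v := by
  obtain ⟨n, hn, hn'⟩ := hγ.exists_log hv
  have hr := hγ.prime
  have he := a0d_pos hr (a0d_ne F) hγ.dvd
  have hdiv := a0d_div hr (a0d_ne F) hγ.dvd
  have hnd := a0d_not_dvd hr (a0d_ne F)
  rw [← h.gam r _ γ0] at hn'
  have hdig := fun i c => h.dig hp hγ hn hn' (i := i) (c := c)
  have hrn : r ∣ n := by
    refine hγ.zeta.dvd_of_pow_eq_one n ?_
    rw [hdiv, pow_mul, ← h.gam r _ γ0, ← pow_mul, mul_comm, pow_mul, ← hn', ← pow_mul, ← hdiv, hv']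
  unfold Alg.root
  generalize padicValNat r (Fintype.card F - 1) = e at *
  generalize (Fintype.card F - 1) / r ^ e = t at *
  have hs : ∀ i ∈ Finset.range (e - 1), φ (A.sum ((List.range r).map fun c =>
      A.mul (A.dig r (Fintype.card F) γ0 v (i + 1) c)
        (A.pow (A.gam r (Fintype.card F) γ0) (c * r ^ (e - (e - i))))))
      = φ (A.gam r (Fintype.card F) γ0) ^ (n / r / r ^ i % r * r ^ i) := fun i hi => by
    have hi' := Finset.mem_range.1 hi
    have hd : n / r ^ (i + 1) % r < r := Nat.mod_lt _ hr.pos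
    rw [h.sum_range, Finset.sum_eq_single (n / r ^ (i + 1) % r), h.mul, hdig _ _ (by omega) hd,
      if_pos rfl, one_mul, h.pow, show e - (e - i) = i by omega, Nat.div_div_eq_div_mul, ← pow_succ']
    · intro c hc hne
      rw [h.mul, hdig _ c (by omega) (Finset.mem_range.1 hc), if_neg hne.symm, zero_mul]
    · intro hc
      exact absurd (Finset.mem_range.2 hd) hc
  have hlt : n / r < r ^ (e - 1) := by
    rw [Nat.div_lt_iff_lt_mul hr.pos, ← pow_succ, Nat.sub_add_cancel he]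
    exact hn
  have hmod : t * invP r t ≡ 1 [MOD r] := by rw [mul_comm]; exact invP_mul hr hnd
  have hpos : 1 ≤ t * invP r t := by
    by_contra h0
    rw [show t * invP r t = 0 by omega] at hmod
    exact hr.one_lt.ne' (Nat.dvd_one.1 ((Nat.modEq_iff_dvd' (by norm_num)).1 hmod))
  have hk : (t * invP r t - 1) / r * r + 1 = t * invP r t := by
    rw [Nat.div_mul_cancel ((Nat.modEq_iff_dvd' hpos).1 hmod.symm)]
    omega
  rw [h.mul, h.pow, h.pow, h.inv hv, h.prod_range, Finset.prod_congr rfl hs, Finset.prod_pow_eq_pow_sum,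
    a0d_digits, Nat.mod_eq_of_lt hlt, mul_pow, ← pow_mul _ (invP r t), mul_comm (invP r t), pow_mul,
    ← pow_mul _ (n / r), Nat.div_mul_cancel hrn, ← hn', ← pow_mul, ← pow_mul]
  generalize (t * invP r t - 1) / r * r = k at hk
  rw [← hk, pow_succ, mul_right_comm, ← mul_pow, mul_inv_cancel₀ hv, one_pow, one_mul]

/-- `root` for `Hom.lift` -/
theorem proot (hp : A.p.Prime) (h : Hom A φ) {γ0 : Vec} (hγ : NRes F r (φ γ0)) {v m : Pol}
    (hm : Mon φ m) {α : F} (hα : (poly φ m).eval α = 0) (hv : (poly φ v).eval α ≠ 0)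
    (hv' : (poly φ v).eval α ^ ((Fintype.card F - 1) / r) = 1) :
    (poly φ (A.proot r (Fintype.card F) γ0 v m)).eval α ^ r = (poly φ v).eval α := by
  have h1 := (h.lift hm hα).root (by simpa using hp) (γ0 := A.emb m γ0) (v := A.ofPoly m v)
    (by rwa [h.lift_emb hm hα]) (by rwa [h.lift_ofPoly hm hα]) (by rwa [h.lift_ofPoly hm hα])
  rw [h.lift_ofPoly hm hα] at h1
  exact h1

end Hom

theorem a0d_len (A : Alg) (r e : ℕ) (γ ζ v : Vec) (l : List ℕ) :
    (l.foldl (A.digStep r e γ ζ) (v, [])).2.length = l.length ∧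
      ∀ E ∈ (l.foldl (A.digStep r e γ ζ) (v, [])).2, E.length = r := by
  induction l using List.reverseRecOn with
  | nil => exact ⟨rfl, fun E hE => by simp at hE⟩
  | append_singleton l b ih =>
    rw [List.foldl_append, List.foldl_cons, List.foldl_nil]
    generalize List.foldl _ _ l = s at ih
    unfold Alg.digStep
    refine ⟨by simp [ih.1], fun E hE => ?_⟩
    rcases List.mem_append.1 hE with hE | hE
    · exact ih.2 E hE
    · rw [List.mem_singleton.1 hE]
      simp

theorem length_digs (A : Alg) (r q : ℕ) (γ0 v : Vec) :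
    (A.digs r q γ0 v).length = padicValNat r (q - 1) := by
  unfold Alg.digs
  rw [(a0d_len ..).1, List.length_range]

theorem dig_mem (A : Alg) {r q : ℕ} (γ0 v : Vec) {i c : ℕ} (hi : i < padicValNat r (q - 1)) (hc : c < r) :
    A.dig r q γ0 v i c ∈ (A.digs r q γ0 v).flatten := by
  have h1 : i < (A.digs r q γ0 v).length := by rwa [length_digs]
  have h2 : (A.digs r q γ0 v)[i] ∈ A.digs r q γ0 v := List.getElem_mem h1
  have h3 : (A.digs r q γ0 v)[i].length = r := (a0d_len ..).2 _ h2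
  unfold Alg.dig
  rw [List.getD_eq_getElem _ _ h1, List.getD_eq_getElem _ _ (by omega)]
  exact List.mem_flatten.2 ⟨_, h2, List.getElem_mem _⟩

/-- `ρ(a)^t ≠ ρ(b)^t` (`t` is prime to `r`), so the logarithms differ in some digit `i`; take `c` = the digit at `a` -/
theorem digs_wit {S : Type*} {φ : Vec → S → F} (hp : A.p.Prime) (h : Hom A φ) {γ0 ρ : Vec} {g₀ : F}
    (hγ : NRes F r g₀) (hγ0 : ∀ a, φ γ0 a = g₀) {a b : S} (ha : φ ρ a ≠ 0)
    (hab : φ ρ a ^ r = φ ρ b ^ r) (hne : φ ρ a ≠ φ ρ b) :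
    ∃ d ∈ (A.digs r (Fintype.card F) γ0 ρ).flatten, Wit φ d := by
  have hr := hγ.prime
  have hb : φ ρ b ≠ 0 := fun e => pow_ne_zero r ha (by rw [hab, e, zero_pow hr.ne_zero])
  obtain ⟨n, hn, hn'⟩ := hγ.exists_log ha
  obtain ⟨m, hm, hm'⟩ := hγ.exists_log hb
  have hnm : n ≠ m := by
    rintro rfl
    have h1 : (φ ρ a / φ ρ b) ^ r = 1 := by rw [div_pow, hab, div_self (pow_ne_zero _ hb)]
    have h2 : (φ ρ a / φ ρ b) ^
        ((Fintype.card F - 1) / r ^ padicValNat r (Fintype.card F - 1)) = 1 := by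
      rw [div_pow, hn', ← hm', div_self (pow_ne_zero _ hb)]
    have h3 := pow_gcd_eq_one.2 ⟨h1, h2⟩
    rw [((Nat.Prime.coprime_iff_not_dvd hr).2 (a0d_not_dvd hr (a0d_ne F))).gcd_eq_one, pow_one,
      div_eq_one_iff_eq hb] at h3
    exact hne h3
  obtain ⟨i, hi, hd⟩ : ∃ i < padicValNat r (Fintype.card F - 1), n / r ^ i % r ≠ m / r ^ i % r := by
    by_contra hall
    push Not at hall
    refine hnm ?_
    rw [← Nat.mod_eq_of_lt hn, ← Nat.mod_eq_of_lt hm, ← a0d_digits, ← a0d_digits]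
    exact Finset.sum_congr rfl fun i hi => by rw [hall i (Finset.mem_range.1 hi)]
  have hc : n / r ^ i % r < r := Nat.mod_lt _ hr.pos
  have key : ∀ (x : S) (k : ℕ), k < r ^ padicValNat r (Fintype.card F - 1) →
      φ ρ x ^ ((Fintype.card F - 1) / r ^ padicValNat r (Fintype.card F - 1)) =
        (g₀ ^ ((Fintype.card F - 1) / r ^ padicValNat r (Fintype.card F - 1))) ^ k →
      φ (A.dig r (Fintype.card F) γ0 ρ i (n / r ^ i % r)) x
        = if k / r ^ i % r = n / r ^ i % r then 1 else 0 := fun x k hk hk' =>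
    (h.pt x).dig hp (γ0 := γ0) (v := ρ) (by rw [show pt φ x γ0 = g₀ from hγ0 x]; exact hγ) hk
      (by rw [(h.pt x).gam, show pt φ x γ0 = g₀ from hγ0 x]; exact hk') hi hc
  refine ⟨_, dig_mem A γ0 ρ hi hc, ⟨b, ?_⟩, ⟨a, ?_⟩⟩
  · rw [key b m hm hm', if_neg hd.symm]
  · rw [key a n hn hn', if_pos rfl]
    exact one_ne_zero

end Crest.Agent.R312
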