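import Crest.Agent.R312.A0Vec

/-!
# R312 / A0Ker : kernels, bases, linear systems
Read `A0Defs.lean` first.  Keep the statements; auxiliary lemmas get the prefix `a0k_`.
-/

set_option autoImplicit false

namespace Crest.Agent.R312

open Crest.Agent.Lib.PT Polynomial Crest.PolyFactor

variable {M N : Type*} [AddCommGroup M] [AddCommGroup N] {p D : ℕ}

theorem a0k_dot (p : ℕ) {n : ℕ} (c : Vec) {row : Vec} (hrow : row.length = n) :
    ((dot c row : ℕ) : ZMod p) = ∑ i ∈ Finset.range n, crd p n c i * (row.getD i 0 : ℕ) := by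
  rw [dot_eq, hrow, Nat.cast_sum]
  refine Finset.sum_congr rfl fun i hi => ?_
  rw [crd, if_pos (Finset.mem_range.1 hi), Nat.cast_mul]

theorem a0k_crd_mkv (hp : 0 < p) (n : ℕ) (f : ℕ → ℕ) (i : ℕ) :
    crd p n (mkv p n f) i = if i < n then (f i : ZMod p) else 0 := by
  unfold crd
  split_ifs with hi
  · rw [getD_mkv _ _ hi, rd_eq hp, ZMod.natCast_mod]
  · rfl

theorem a0k_pred (hp : 0 < p) : ((p - 1 : ℕ) : ZMod p) = -1 := by
  rw [Nat.cast_pred hp, ZMod.natCast_self, zero_sub]

theorem a0k_col (G : List Vec) (j i : ℕ) : (col G j).getD i 0 = (G.getD i []).getD j 0 := by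
  unfold col
  simp only [List.getD_eq_getElem?_getD, List.getElem?_map]
  cases G[i]? <;> simp

theorem a0k_filter {φ : Vec → M} (h : Lin p D φ) (L : List Vec) :
    sp φ (L.filter fun c => decide (¬ IsZ p D c)) = sp φ L := by
  refine le_antisymm (sp_le.2 fun u hu => mem_sp (List.mem_of_mem_filter hu)) (sp_le.2 fun u hu => ?_)
  by_cases hz : IsZ p D u
  · rw [h.isZ hz]; exact zero_mem _
  · exact mem_sp (List.mem_filter.2 ⟨hu, by simpa using hz⟩)

/-- One elimination step.  Let `λ : (ℕ → ZMod p) →+ ZMod p`, `λ x = ∑ i < n, x i * row i`, so that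
`λ (crd c) = dot c row` if `row.length = n` (`dot_eq`).  If `λ` vanishes on `L` nothing changes.  Else let
`c0 ∈ L`, `a = λ c0 ≠ 0`; the new vectors are `a c - λ(c) c0 ∈ ker λ`.  Conversely `T x = a • x - λ x • c0` is
additive and maps the span of `L` into the span of the new list (`c0 ↦ 0`, `List.mem_erase_of_ne`); if `λ x = 0`
then `T x = a • x`, and `x = invP p a • (a • x)`. -/
theorem sp_cut (hp : p.Prime) {n : ℕ} (L : List Vec) {row : Vec} (hrow : row.length = n)
    (x : ℕ → ZMod p) :
    x ∈ sp (crd p n) (cut p n L row) ↔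
      x ∈ sp (crd p n) L ∧ ∑ i ∈ Finset.range n, x i * (row.getD i 0 : ℕ) = 0 := by
  have := Fact.mk hp
  let lam : (ℕ → ZMod p) →+ ZMod p := AddMonoidHom.mk'
    (fun x => ∑ i ∈ Finset.range n, x i * (row.getD i 0 : ℕ)) fun x y => by
      simp [add_mul, Finset.sum_add_distrib]
  have hlam : ∀ c, lam (crd p n c) = (dot c row : ℕ) := fun c => (a0k_dot p c hrow).symm
  show _ ↔ _ ∧ lam x = 0
  unfold cut
  cases hf : L.find? fun c => decide (¬ p ∣ dot c row) with
  | none =>
    have h1 : sp (crd p n) L ≤ lam.ker := sp_le.2 fun c hc => by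
      have := List.find?_eq_none.1 hf c hc
      rw [AddMonoidHom.mem_ker, hlam, ZMod.natCast_eq_zero_iff]
      simpa using this
    exact ⟨fun h => ⟨h, h1 h⟩, fun h => h.1⟩
  | some c0 =>
    have hc0 : c0 ∈ L := List.mem_of_find?_eq_some hf
    have ha : lam (crd p n c0) ≠ 0 := by
      have := List.find?_some hf
      rw [hlam, Ne, ZMod.natCast_eq_zero_iff]
      simpa using this
    let T : (ℕ → ZMod p) →+ (ℕ → ZMod p) := AddMonoidHom.mk'
      (fun x => lam (crd p n c0) • x - lam x • crd p n c0) fun x y => by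
        rw [map_add, smul_add, add_smul]; abel
    have hT : ∀ c ∈ L.erase c0, crd p n (mkv p n fun i =>
        dot c0 row * c.getD i 0 + (p - 1) * dot c row * c0.getD i 0) = T (crd p n c) := fun c _ => by
      funext i
      rw [a0k_crd_mkv hp.pos]
      simp only [T, AddMonoidHom.mk'_apply, Pi.sub_apply, Pi.smul_apply, smul_eq_mul, hlam]
      unfold crd
      split_ifs
      · rw [Nat.cast_add, Nat.cast_mul, Nat.cast_mul, Nat.cast_mul, a0k_pred hp.pos]; ring
      · simp
    rw [Option.elim_some, sp_map, sp_congr hT]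
    constructor
    · intro hx
      have h1 : sp (fun c => T (crd p n c)) (L.erase c0) ≤ sp (crd p n) L ⊓ lam.ker :=
        sp_le.2 fun c hc => AddSubgroup.mem_inf.2 ⟨sub_mem
          (ZMod.smul_mem (mem_sp (List.mem_of_mem_erase hc)) _) (ZMod.smul_mem (mem_sp hc0) _), by
            show lam (_ - _) = 0
            rw [map_sub, ZMod.map_smul, ZMod.map_smul, smul_eq_mul, smul_eq_mul, mul_comm, sub_self]⟩
      exact h1 hx
    · rintro ⟨hx, hx0⟩
      have h1 : sp (crd p n) L ≤ (sp (fun c => T (crd p n c)) (L.erase c0)).comap T :=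
        sp_le.2 fun c hc => by
          rw [AddSubgroup.mem_comap]
          by_cases e : c = c0
          · rw [e, show T (crd p n c0) = 0 from sub_self _]
            exact zero_mem _
          · exact mem_sp (φ := fun c => T (crd p n c)) ((List.mem_erase_of_ne e).2 hc)
      have h2 := ZMod.smul_mem (AddSubgroup.mem_comap.1 (h1 hx)) (lam (crd p n c0))⁻¹
      rwa [show T x = lam (crd p n c0) • x - lam x • crd p n c0 from rfl, hx0, zero_smul, sub_zero,
        inv_smul_smul₀ ha] at h2

theorem length_cut_le (p n : ℕ) (L : List Vec) (row : Vec) : (cut p n L row).length ≤ L.length := by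
  unfold cut
  generalize List.find? _ _ = o
  cases o with
  | none => exact le_rfl
  | some c0 => rw [Option.elim_some, List.length_map]; exact List.length_erase_le

theorem a0k_fold (p n : ℕ) (f : ℕ → Vec) (l : List ℕ) :
    (l.foldl (fun L j => cut p n L (f j)) (units p n)).length ≤ n ∧
      ∀ c ∈ l.foldl (fun L j => cut p n L (f j)) (units p n), ∃ g, c = mkv p n g := by
  induction l using List.reverseRecOn with
  | nil =>
    refine ⟨by simp [units], fun c hc => ?_⟩
    obtain ⟨j, -, rfl⟩ := List.mem_map.1 hc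
    exact ⟨_, rfl⟩
  | append_singleton l b ih =>
    rw [List.foldl_append, List.foldl_cons, List.foldl_nil]
    refine ⟨(length_cut_le _ _ _ _).trans ih.1, fun c hc => ?_⟩
    unfold cut at hc
    generalize List.find? _ _ = o at hc
    cases o with
    | none => exact ih.2 c hc
    | some c0 =>
      obtain ⟨j, -, rfl⟩ := List.mem_map.1 hc
      exact ⟨_, rfl⟩

theorem length_ker_le (p D : ℕ) (G : List Vec) : (ker p D G).length ≤ G.length := (List.length_filter_le _ _).trans (a0k_fold p _ _ _).1

/-- members of `ker` are of the form `mkv p G.length _` -/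
theorem ker_mkv {G : List Vec} {c : Vec} (hc : c ∈ ker p D G) : ∃ f, c = mkv p G.length f := (a0k_fold p _ _ _).2 c (List.mem_of_mem_filter hc)

theorem ker_not_isZ {G : List Vec} {c : Vec} (hc : c ∈ ker p D G) : ¬ IsZ p G.length c := by
  simpa using (List.mem_filter.1 hc).2

/-- the span of `ker` (induction on `D` with `sp_cut`; zero vectors do not matter) -/
theorem mem_sp_ker (hp : p.Prime) (G : List Vec) (x : ℕ → ZMod p) :
    x ∈ sp (crd p G.length) (ker p D G) ↔ (∀ i, G.length ≤ i → x i = 0) ∧
      ∀ j < D, ∑ i ∈ Finset.range G.length, x i * ((G.getD i []).getD j 0 : ℕ) = 0 := by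
  unfold ker
  rw [a0k_filter (lin_crd hp.pos _)]
  induction D with
  | zero =>
    rw [List.range_zero, List.foldl_nil]
    constructor
    · intro hx
      refine ⟨fun i hi => ?_, fun j hj => absurd hj (by omega)⟩
      have h1 : sp (crd p G.length) (units p G.length) ≤
          (Pi.evalAddMonoidHom (fun _ : ℕ => ZMod p) i).ker :=
        sp_le.2 fun c _ => by simp [crd, not_lt.2 hi]
      exact h1 hx
    · rintro ⟨hx, -⟩
      obtain ⟨v, -, rfl⟩ := exists_crd hp.pos hx
      exact (lin_crd hp.pos _).mem_sp_units v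
  | succ D ih =>
    rw [List.range_succ, List.foldl_append, List.foldl_cons, List.foldl_nil,
      sp_cut hp _ (by simp [col]), ih]
    simp only [a0k_col, Nat.forall_lt_succ_right, and_assoc]

theorem a0k_sum (p : ℕ) (G : List Vec) (c : Vec) (j : ℕ) :
    ∑ i ∈ Finset.range G.length, crd p G.length c i * ((G.getD i []).getD j 0 : ℕ) =
      ∑ i ∈ Finset.range G.length, ((c.getD i 0 : ℕ) : ZMod p) * ((G.getD i []).getD j 0 : ℕ) :=
  Finset.sum_congr rfl fun i hi => by rw [crd, if_pos (Finset.mem_range.1 hi)]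

theorem ker_mem (hp : p.Prime) {G : List Vec} {c : Vec} (hc : c ∈ ker p D G) :
    c.length = G.length ∧ (∀ x ∈ c, x < p) ∧ (∃ i < G.length, ((c.getD i 0 : ℕ) : ZMod p) ≠ 0) ∧
      ∀ j < D, ∑ i ∈ Finset.range G.length,
        ((c.getD i 0 : ℕ) : ZMod p) * ((G.getD i []).getD j 0 : ℕ) = 0 := by
  have h1 := ker_not_isZ hc
  have h2 := ((mem_sp_ker hp G _).1 (mem_sp hc)).2
  obtain ⟨f, hf⟩ := ker_mkv hc
  refine ⟨by rw [hf, length_mkv], fun x hx => lt_of_mem_mkv hp.pos (hf ▸ hx), ?_, fun j hj => ?_⟩
  · unfold IsZ at h1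
    push Not at h1
    obtain ⟨i, hi, h3⟩ := h1
    exact ⟨i, hi, by rwa [Ne, ZMod.natCast_eq_zero_iff]⟩
  · rw [← a0k_sum]
    exact h2 j hj

theorem ker_eq_nil_iff (hp : p.Prime) (G : List Vec) :
    ker p D G = [] ↔ ∀ x : ℕ → ZMod p,
      (∀ j < D, ∑ i ∈ Finset.range G.length, x i * ((G.getD i []).getD j 0 : ℕ) = 0) →
        ∀ i < G.length, x i = 0 := by
  constructor
  · intro h x hx i hi
    have h1 := (mem_sp_ker (D := D) hp G fun i => if i < G.length then x i else 0).2
      ⟨fun i hi => if_neg (not_lt.2 hi), fun j hj => by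
        rw [← hx j hj]
        exact Finset.sum_congr rfl fun i hi => by rw [if_pos (Finset.mem_range.1 hi)]⟩
    rw [h, sp_nil, AddSubgroup.mem_bot] at h1
    simpa [hi] using congrFun h1 i
  · intro h
    refine List.eq_nil_iff_forall_not_mem.2 fun c hc => ?_
    obtain ⟨-, -, ⟨i, hi, h1⟩, h2⟩ := ker_mem hp hc
    exact h1 (h _ h2 i hi)

/-- a relation in terms of a faithful interpretation -/
theorem rel_iff {ψ : Vec → N} (hψ : Lin p D ψ) (hf : Faith p D ψ) (G : List Vec) (c : Vec) :
    (∀ j < D, ∑ i ∈ Finset.range G.length,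
      ((c.getD i 0 : ℕ) : ZMod p) * ((G.getD i []).getD j 0 : ℕ) = 0) ↔
    ∑ i ∈ Finset.range G.length, c.getD i 0 • ψ (G.getD i []) = 0 := by
  rw [← hψ.lc, ← hψ.isZ_iff hf, lc, isZ_mkv hψ.pos]
  refine forall₂_congr fun j _ => ?_
  rw [← ZMod.natCast_eq_zero_iff, a0k_dot p c (n := G.length) (by simp [col]), ← a0k_sum]
  simp only [a0k_col]

theorem kerOn_mem {E : ℕ} {gens imgs : List Vec} {v : Vec} (hv : v ∈ kerOn p D E gens imgs) :
    ¬ IsZ p D v ∧ ∃ f, v = mkv p D f := by
  obtain ⟨h1, h2⟩ := List.mem_filter.1 hv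
  obtain ⟨c, -, rfl⟩ := List.mem_map.1 h1
  exact ⟨by simpa using h2, _, rfl⟩

theorem length_kerOn_le (p D E : ℕ) (gens imgs : List Vec) :
    (kerOn p D E gens imgs).length ≤ imgs.length := (List.length_filter_le _ _).trans (by rw [List.length_map]; exact length_ker_le _ _ _)

/-- the kernel of the additive map `T` on the span of the generators `g x`, `x ∈ l` -/
theorem sp_kerOn (hp : p.Prime) {ι : Type*} {E : ℕ} {φ : Vec → M} {ψ : Vec → N} (hφ : Lin p D φ)
    (hψ : Lin p E ψ) (hf : Faith p E ψ) (T : M →+ N) (l : List ι) (g f : ι → Vec)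
    (h : ∀ x ∈ l, ψ (f x) = T (φ (g x))) :
    sp φ (kerOn p D E (l.map g) (l.map f)) = sp φ (l.map g) ⊓ T.ker := by
  have hT : ∀ c : Vec, T (φ (lc p D c (l.map g))) =
      ∑ i ∈ Finset.range (l.map f).length, c.getD i 0 • ψ ((l.map f).getD i []) := fun c => by
    rw [hφ.lc, map_sum, List.length_map, List.length_map]
    refine Finset.sum_congr rfl fun i hi => ?_
    have hi' := Finset.mem_range.1 hi
    rw [map_nsmul, List.getD_eq_getElem (l.map g) _ (by simpa using hi'),
      List.getD_eq_getElem (l.map f) _ (by simpa using hi'), List.getElem_map, List.getElem_map,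
      h _ (List.getElem_mem _)]
  have hL : Lin p (l.map f).length fun c => φ (lc p D c (l.map g)) := by
    simp only [hφ.lc, List.length_map]
    exact lin_of hp.pos _ _ fun i => hφ.tors _
  unfold kerOn
  rw [a0k_filter hφ, sp_map]
  refine le_antisymm (sp_le.2 fun c hc => ⟨hφ.lc_mem_sp _ _, ?_⟩) fun x hx => ?_
  · show T _ = 0
    rw [hT, ← rel_iff hψ hf]
    exact (ker_mem hp hc).2.2.2
  · obtain ⟨c, -, rfl⟩ := hφ.mem_sp_iff.1 hx.1
    have h1 : T (φ (lc p D c (l.map g))) = 0 := hx.2
    rw [hT, ← rel_iff hψ hf] at h1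
    refine hL.mem_sp_of_crd ((mem_sp_ker hp _ _).2 ⟨fun i hi => if_neg (not_lt.2 hi), fun j hj => ?_⟩)
    rw [a0k_sum]
    exact h1 j hj

theorem basisOn_sublist {α : Type} (p D : ℕ) (key : α → Vec) (l : List α) :
    (basisOn p D key l).Sublist l := by
  refine (List.take_sublist _ _).trans ?_
  induction l using List.reverseRecOn with
  | nil => exact List.Sublist.refl _
  | append_singleton l b ih =>
    rw [List.foldl_append, List.foldl_cons, List.foldl_nil]
    split_ifs
    · exact ih.append_right _
    · exact ih.trans (List.sublist_append_left _ _)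

theorem length_basisOn_le {α : Type} (p D : ℕ) (key : α → Vec) (l : List α) :
    (basisOn p D key l).length ≤ D := List.length_take_le _ _

theorem a0k_len (hp : p.Prime) {G : List Vec} (h : ker p D G = []) : G.length ≤ D := by
  have := Fact.mk hp
  have h1 : LinearIndependent (ZMod p)
      fun (i : Fin G.length) (j : Fin D) => (((G.getD i []).getD j 0 : ℕ) : ZMod p) := by
    refine Fintype.linearIndependent_iff.2 fun g hg i => ?_
    have h2 := (ker_eq_nil_iff hp G).1 h (fun i => if hi : i < G.length then g ⟨i, hi⟩ else 0)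
      (fun j hj => by
        have h3 := congrFun hg ⟨j, hj⟩
        rw [Finset.sum_apply] at h3
        rw [Finset.sum_range]
        simpa using h3) i i.2
    simpa using h2
  simpa using h1.fintype_card_le_finrank

theorem a0k_dep (hp : p.Prime) {G : List Vec} {u : Vec} (h : ker p D G = [])
    (h' : ker p D (G ++ [u]) ≠ []) : crd p D u ∈ sp (crd p D) G := by
  have := Fact.mk hp
  rw [Ne, ker_eq_nil_iff hp] at h'
  push Not at h'
  obtain ⟨y, hy, i, hi, hi'⟩ := h'
  rw [List.length_append, List.length_singleton] at hy hi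
  have hy' : ∀ j < D, ∑ i ∈ Finset.range G.length, y i * ((G.getD i []).getD j 0 : ℕ)
      + y G.length * (u.getD j 0 : ℕ) = 0 := fun j hj => by
    rw [← hy j hj, Finset.sum_range_succ, List.getD_append_right _ _ _ _ le_rfl, Nat.sub_self,
      List.getD_cons_zero]
    congr 1
    exact Finset.sum_congr rfl fun i hi => by rw [List.getD_append _ _ _ _ (Finset.mem_range.1 hi)]
  have hn : y G.length ≠ 0 := fun e => by
    rcases Nat.lt_succ_iff_lt_or_eq.1 hi with hi | rfl
    · exact hi' ((ker_eq_nil_iff hp G).1 h y (fun j hj => by simpa [e] using hy' j hj) i hi)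
    · exact hi' e
  have e : crd p D u = (-(y G.length)⁻¹) • ∑ i ∈ Finset.range G.length, y i • crd p D (G.getD i []) := by
    funext j
    simp only [Pi.smul_apply, Finset.sum_apply, smul_eq_mul, crd]
    split_ifs with hj
    · rw [eq_neg_of_add_eq_zero_left (hy' j hj)]
      field_simp
    · simp
  rw [e]
  refine ZMod.smul_mem (sum_mem fun i hi => ZMod.smul_mem (mem_sp ?_) _) _
  rw [List.getD_eq_getElem _ _ (Finset.mem_range.1 hi)]
  exact List.getElem_mem _

theorem a0k_basis (hp : p.Prime) {α : Type} (key : α → Vec) (l : List α) :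
    ker p D ((l.foldl (fun acc x => if ker p D ((acc ++ [x]).map key) = [] then acc ++ [x] else acc)
      []).map key) = [] ∧ ∀ x ∈ l, crd p D (key x) ∈ sp (crd p D)
        ((l.foldl (fun acc x => if ker p D ((acc ++ [x]).map key) = [] then acc ++ [x] else acc)
          []).map key) := by
  induction l using List.reverseRecOn with
  | nil => exact ⟨List.length_eq_zero_iff.1 (Nat.le_zero.1 (length_ker_le p D [])), by simp⟩
  | append_singleton l b ih =>
    rw [List.foldl_append, List.foldl_cons, List.foldl_nil]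
    generalize List.foldl _ _ l = B at ih
    split_ifs with hb
    · refine ⟨hb, fun x hx => ?_⟩
      rcases List.mem_append.1 hx with hx | hx
      · rw [List.map_append, sp_append]
        exact AddSubgroup.mem_sup_left (ih.2 x hx)
      · exact mem_sp (List.mem_map_of_mem (List.mem_append_right _ hx))
    · refine ⟨ih.1, fun x hx => ?_⟩
      rcases List.mem_append.1 hx with hx | hx
      · exact ih.2 x hx
      · rw [List.mem_singleton.1 hx]
        rw [List.map_append] at hb
        exact a0k_dep hp ih.1 hb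

/-- Invariant of the fold: the keys of `acc` are independent in coordinates (`ker = []`) and span all keys seen so
far.  Independent families in `Fin D → ZMod p` have at most `D` members (`LinearIndependent.fintype_card_le_finrank`),
so `take D` does nothing.  Work with `crd`, then `Lin.mem_sp_of_crd`. -/
theorem sp_basisOn (hp : p.Prime) {α : Type} {φ : Vec → M} (hφ : Lin p D φ) (key : α → Vec)
    (l : List α) : sp (fun x => φ (key x)) (basisOn p D key l) = sp (fun x => φ (key x)) l := by
  refine le_antisymm (sp_le.2 fun x hx => mem_sp (φ := fun x => φ (key x))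
    ((basisOn_sublist p D key l).subset hx)) (sp_le.2 fun x hx => ?_)
  obtain ⟨h1, h2⟩ := a0k_basis (D := D) hp key l
  have h3 := a0k_len hp h1
  rw [List.length_map] at h3
  unfold basisOn
  rw [List.take_of_length_le h3, ← sp_map φ key]
  exact hφ.mem_sp_of_crd (h2 x hx)

theorem length_basisOf_le (p D : ℕ) (U : List Vec) : (basisOf p D U).length ≤ D := by
  rw [basisOf, List.length_map]; exact length_basisOn_le _ _ _ _

theorem sp_basisOf (hp : p.Prime) {φ : Vec → M} (hφ : Lin p D φ) (U : List Vec) :
    sp φ (basisOf p D U) = sp φ U := by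
  rw [basisOf, sp_map, sp_congr fun u _ => hφ.nrm u]
  exact sp_basisOn hp hφ (fun u => u) U

/-- the relation `(-1, x)` of `y :: G` lies in the span of `ker`, so some member has a nonzero first entry -/
theorem solve_spec (hp : p.Prime) (G : List Vec) (y : Vec) (x : ℕ → ZMod p)
    (hx : ∀ j < D, ∑ i ∈ Finset.range G.length, x i * ((G.getD i []).getD j 0 : ℕ)
      = ((y.getD j 0 : ℕ) : ZMod p)) :
    (solve p D G y).length = G.length ∧ (∀ a ∈ solve p D G y, a < p) ∧
      ∀ j < D, ∑ i ∈ Finset.range G.length,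
        (((solve p D G y).getD i 0 : ℕ) : ZMod p) * ((G.getD i []).getD j 0 : ℕ)
          = ((y.getD j 0 : ℕ) : ZMod p) := by
  have := Fact.mk hp
  unfold solve
  cases hf : (ker p D (y :: G)).find? fun c => decide (¬ p ∣ c.getD 0 0) with
  | none =>
    exfalso
    have h1 : sp (crd p (y :: G).length) (ker p D (y :: G)) ≤
        (Pi.evalAddMonoidHom (fun _ : ℕ => ZMod p) 0).ker := sp_le.2 fun c hc => by
      have := List.find?_eq_none.1 hf c hc
      rw [AddMonoidHom.mem_ker, Pi.evalAddMonoidHom_apply, crd, if_pos (by simp),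
        ZMod.natCast_eq_zero_iff]
      simpa using this
    have h2 := h1 ((mem_sp_ker (D := D) hp (y :: G)
      fun i => if i = 0 then -1 else if i - 1 < G.length then x (i - 1) else 0).2
      ⟨fun i hi => by
        rw [List.length_cons] at hi
        rw [if_neg (by omega), if_neg (by omega)], fun j hj => by
        rw [List.length_cons, Finset.sum_range_succ', if_pos rfl, List.getD_cons_zero, ← hx j hj,
          neg_one_mul, add_neg_eq_zero]
        exact Finset.sum_congr rfl fun i hi => by
          rw [if_neg (by omega), Nat.add_sub_cancel, if_pos (Finset.mem_range.1 hi),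
            List.getD_cons_succ]⟩)
    simp at h2
  | some c =>
    have hc := List.mem_of_find?_eq_some hf
    have h0 : ¬ p ∣ c.getD 0 0 := by simpa using List.find?_some hf
    have hinv : ((invP p (c.getD 0 0) : ℕ) : ZMod p) * (c.getD 0 0 : ℕ) = 1 := by
      have := (ZMod.natCast_eq_natCast_iff _ _ _).2 (invP_mul hp h0)
      rwa [Nat.cast_mul, Nat.cast_one] at this
    rw [Option.elim_some]
    refine ⟨length_mkv _ _ _, fun a ha => lt_of_mem_mkv hp.pos ha, fun j hj => ?_⟩
    have h1 := (ker_mem hp hc).2.2.2 j hj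
    rw [List.length_cons, Finset.sum_range_succ', List.getD_cons_zero] at h1
    have h2 : ∀ i ∈ Finset.range G.length,
        (((vsmul p G.length ((p - 1) * invP p (c.getD 0 0)) c.tail).getD i 0 : ℕ) : ZMod p) *
          ((G.getD i []).getD j 0 : ℕ) = -(invP p (c.getD 0 0) : ℕ) *
            ((c.getD (i + 1) 0 : ℕ) * (((y :: G).getD (i + 1) []).getD j 0 : ℕ)) := fun i hi => by
      rw [vsmul, getD_mkv _ _ (Finset.mem_range.1 hi), rd_eq hp.pos, ZMod.natCast_mod, Nat.cast_mul,
        Nat.cast_mul, a0k_pred hp.pos, List.getD_cons_succ,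
        show c.tail.getD i 0 = c.getD (i + 1) 0 by cases c <;> simp]
      ring
    rw [Finset.sum_congr rfl h2, ← Finset.mul_sum, eq_neg_of_add_eq_zero_left h1]
    linear_combination (((y.getD j 0 : ℕ) : ZMod p)) * hinv

end Crest.Agent.R312
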