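import Crest.Agent.R312.A0Poly2
import Crest.Agent.R312.A0Ker

/-!
# R312 / A0KerA : kernels over `A`, candidates
Read `A0Defs.lean` first.  Keep the statements; auxiliary lemmas get the prefix `a0r_`.
-/

set_option autoImplicit false

namespace Crest.Agent.R312

open Crest.Agent.Lib.PT Polynomial Crest.PolyFactor

variable {S F : Type*} [Field F] [Fintype F] {A : Alg} {φ : Vec → S → F}

section aux

variable {R : Type*} [CommRing R] {ψ : Vec → R}

theorem a0r_zip (h : Hom A ψ) (L : List Vec) (ys : List Pol) :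
    ((List.zipWith A.psmul L ys).map (poly ψ)).sum =
      ∑ i ∈ Finset.range ys.length, C (ψ (L.getD i [])) * poly ψ (ys.getD i []) := by
  induction ys generalizing L with
  | nil => simp
  | cons y ys ih =>
    cases L with
    | nil => simp [h.nil]
    | cons c L =>
      rw [List.zipWith_cons_cons, List.map_cons, List.sum_cons, ih, List.length_cons,
        Finset.sum_range_succ', h.psmul, add_comm]
      rfl

theorem a0r_lin (h : Hom A ψ) (ys : List Pol) : Lin A.p (ys.length * A.dim) fun u =>
    ∑ i ∈ Finset.range ys.length,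
      C (ψ ((unflat A.p A.dim ys.length u).getD i [])) * poly ψ (ys.getD i []) :=
  Lin.sum h.pos _ fun i _ => (h.lin.unflat ys.length i).comp
    ((AddMonoidHom.mulRight (poly ψ (ys.getD i []))).comp (C : R →+* R[X]).toAddMonoidHom)

/-- the images of the unit vectors -/
def a0r_G (A : Alg) (ys : List Pol) : List Vec :=
  (units A.p (ys.length * A.dim)).map fun u => flat A.p A.dim ys.flatten.length
    (A.psum (List.zipWith A.psmul (unflat A.p A.dim ys.length u) ys))

theorem a0r_len (A : Alg) (ys : List Pol) : (a0r_G A ys).length = ys.length * A.dim := by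
  simp [a0r_G, units]

theorem a0r_rel (h : Hom A ψ) (hf : Faith A.p A.dim ψ) (ys : List Pol) (c : Vec) :
    (∀ j < ys.flatten.length * A.dim, ∑ i ∈ Finset.range (a0r_G A ys).length,
      ((c.getD i 0 : ℕ) : ZMod A.p) * (((a0r_G A ys).getD i []).getD j 0 : ℕ) = 0) ↔
    ∑ i ∈ Finset.range ys.length,
      C (ψ ((unflat A.p A.dim ys.length c).getD i [])) * poly ψ (ys.getD i []) = 0 := by
  rw [rel_iff (h.lin.poly_unflat _) (Faith.poly_unflat h.lin hf _), (a0r_lin h ys).eq c, a0r_len]
  refine Eq.congr_left (Finset.sum_congr rfl fun i hi => ?_)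
  have hi' := Finset.mem_range.1 hi
  rw [List.getD_eq_getElem (a0r_G A ys) _ (by rwa [a0r_len])]
  simp only [a0r_G, units, List.getElem_map, List.getElem_range]
  rw [h.lin.poly_unflat_flat, h.psum, a0r_zip h]
  refine (degree_poly_lt _ _).trans_le (Nat.cast_le.2 (length_psum_le A fun P hP => ?_))
  obtain ⟨j, hj, rfl⟩ := List.getElem_of_mem hP
  rw [List.getElem_zipWith, length_psmul]
  exact (List.sublist_flatten_of_mem (List.getElem_mem _)).length_le

theorem a0r_map {S : Type*} (φ : Vec → S → R) (ys : List Pol) (L : ℕ → Vec) (a : S) :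
    (∑ i ∈ Finset.range ys.length, C (φ (L i)) * poly φ (ys.getD i [])).map
      (Pi.evalRingHom (fun _ => R) a) =
    ∑ i ∈ Finset.range ys.length, C (φ (L i) a) * poly (pt φ a) (ys.getD i []) := by
  rw [Polynomial.map_sum]
  exact Finset.sum_congr rfl fun i _ => by rw [Polynomial.map_mul, map_C, poly_pt]; rfl

end aux

omit [Fintype F] in
theorem kerA_mem (hp : A.p.Prime) (h : Iso A φ) {ys : List Pol} {lam : List Vec} (hl : lam ∈ A.kerA ys) :
    lam.length = ys.length ∧ (∃ a, ∃ i < ys.length, φ (lam.getD i []) a ≠ 0) ∧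
      ∀ a, ∑ i ∈ Finset.range ys.length,
        C (φ (lam.getD i []) a) * poly (pt φ a) (ys.getD i []) = 0 := by
  obtain ⟨c, hc, rfl⟩ := List.mem_map.1 hl
  change c ∈ ker A.p _ (a0r_G A ys) at hc
  refine ⟨length_unflat _ _ _ _, ?_, fun a => ?_⟩
  · have h1 := ker_not_isZ hc
    rw [a0r_len, isZ_unflat hp.pos] at h1
    push Not at h1
    obtain ⟨i, hi, h2⟩ := h1
    obtain ⟨a, ha⟩ := Function.ne_iff.1 fun e => h2 (h.faith _ e)
    exact ⟨a, i, hi, ha⟩
  · rw [← a0r_map, (a0r_rel h.hom h.faith ys c).1 (ker_mem hp hc).2.2.2, Polynomial.map_zero]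

omit [Fintype F] in
/-- Lift `μ` to the tuple of elements of `A` with values `μ i` at `a` and `0` elsewhere (`Iso.exists_single`),
flatten it; its coordinate vector is a relation, so lies in the span of `ker` (`mem_sp_ker`, `rel_iff`). -/
theorem kerA_span (hp : A.p.Prime) (h : Iso A φ) (ys : List Pol) (a : S) (μ : ℕ → F)
    (hμ : ∑ i ∈ Finset.range ys.length, C (μ i) * poly (pt φ a) (ys.getD i []) = 0) :
    (fun i : Fin ys.length => μ i) ∈ Submodule.span F
      ((fun (lam : List Vec) (i : Fin ys.length) => φ (lam.getD i []) a) '' {lam | lam ∈ A.kerA ys}) := by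
  classical
  choose v hv using fun i => h.surj (Pi.single a (μ i))
  have hc : ∀ i < ys.length, φ ((unflat A.p A.dim ys.length (flat A.p A.dim ys.length
      ((List.range ys.length).map v))).getD i []) = φ (v i) := fun i hi => by
    rw [h.hom.lin.unflat_flat _ hi, List.getD_eq_getElem _ _ (by simpa using hi)]
    simp
  generalize flat A.p A.dim ys.length ((List.range ys.length).map v) = c at hc
  have h1 := (a0r_rel h.hom h.faith ys c).2 (by
    rw [Finset.sum_congr rfl fun i hi => by rw [hc i (Finset.mem_range.1 hi)]]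
    refine Polynomial.ext fun m => funext fun b => ?_
    have h2 := congrArg (coeff · m) (a0r_map φ ys v b)
    simp only [coeff_map, Pi.evalRingHom_apply] at h2
    rw [h2, coeff_zero, Pi.zero_apply]
    simp only [hv]
    by_cases e : b = a
    · subst e
      simp only [Pi.single_eq_same]
      rw [hμ, coeff_zero]
    · simp [Pi.single_eq_of_ne e])
  have hL : Lin A.p (a0r_G A ys).length fun u (i : Fin ys.length) =>
      φ ((unflat A.p A.dim ys.length u).getD i []) a := by
    rw [a0r_len]
    exact Lin.pi hp.pos fun i =>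
      (h.hom.lin.unflat ys.length i).comp (Pi.evalAddMonoidHom (fun _ : S => F) a)
  have h2 := hL.mem_sp_of_crd ((mem_sp_ker hp (a0r_G A ys) (crd A.p _ c)).2
    ⟨fun i hi => if_neg (not_lt.2 hi), fun j hj => by rw [a0k_sum]; exact h1 j hj⟩)
  rw [← sp_map (fun (lam : List Vec) (i : Fin ys.length) => φ (lam.getD i []) a)] at h2
  have e : (fun i : Fin ys.length => μ i) =
      fun i : Fin ys.length => φ ((unflat A.p A.dim ys.length c).getD i []) a := by
    funext i
    rw [hc i i.2, hv, Pi.single_eq_same]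
  rw [e]
  exact mem_span_of_mem_sp h2

theorem length_kerA_le (A : Alg) (ys : List Pol) : (A.kerA ys).length ≤ ys.length * A.dim := by
  rw [Alg.kerA, List.length_map]
  exact (length_ker_le _ _ _).trans (a0r_len A ys).le

theorem basisA_sublist {α : Type} (A : Alg) (D : ℕ) (key : α → Pol) (l : List α) :
    (A.basisA D key l).Sublist l := basisOn_sublist _ _ _ _

theorem length_basisA_le {α : Type} (A : Alg) (D : ℕ) (key : α → Pol) (l : List α) :
    (A.basisA D key l).length ≤ D * A.dim := length_basisOn_le _ _ _ _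

/-- for any homomorphism `ψ`, e.g. `pt φ a` -/
theorem basisA_span {R : Type*} [CommRing R] {ψ : Vec → R} (hp : A.p.Prime) (h : Hom A ψ) {α : Type}
    {D : ℕ} {key : α → Pol} {l : List α} (hD : ∀ x ∈ l, (poly ψ (key x)).degree < D) {x : α}
    (hx : x ∈ l) : poly ψ (key x) ∈
      Submodule.span R ((fun y => poly ψ (key y)) '' {y | y ∈ A.basisA D key l}) := by
  have h1 := sp_basisOn hp (h.lin.poly_unflat D) (fun x => flat A.p A.dim D (key x)) l
  rw [sp_congr fun y hy => h.lin.poly_unflat_flat (hD y hy), sp_congr fun y hy =>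
    h.lin.poly_unflat_flat (hD y ((basisOn_sublist _ _ _ _).subset hy))] at h1
  refine mem_span_of_mem_sp ?_
  unfold Alg.basisA
  rw [h1]
  exact mem_sp (φ := fun y => poly ψ (key y)) hx

theorem a0r_coeff (p : ℕ) (u : Vec) (i : ℕ) : (ofCoeffList p u).coeff i = (u.getD i 0 : ℕ) := by
  unfold ofCoeffList
  rw [finsetSum_coeff]
  simp only [coeff_monomial, Finset.sum_ite_eq', Finset.mem_range]
  split_ifs with hi
  · rfl
  · rw [List.getD_eq_default _ _ (not_lt.1 hi), Nat.cast_zero]

omit [Fintype F] in
/-- If `c` vanishes at `a₀` then `∏_{a ≠ a₀} (X - a)` is a nonzero relation of degree `< n`, so the kernel list is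
not empty.  Any member `u` is a nonzero polynomial of degree `< n = deg f` vanishing at the `a` with `c(a) ≠ 0`. -/
theorem cands_spec {p : ℕ} [Fact p.Prime] (hA : A.p = p) {T : Finset (ZMod p)} {φ : Vec → T → F}
    (h : Iso A φ) (ι : ZMod p →+* F) {x c : Vec} (hx : ∀ a : T, φ x a = ι a) (hc : Wit φ c) :
    ∃ u ∈ A.cands T.card x c, ¬ (∏ a ∈ T, (X - C a)) ∣ ofCoeffList p u ∧
      ¬ IsCoprime (ofCoeffList p u) (∏ a ∈ T, (X - C a)) := by
  classical
  subst hA
  have hp : A.p.Prime := Fact.out
  obtain ⟨⟨a0, ha0⟩, a1, ha1⟩ := hc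
  unfold Alg.cands
  generalize hG : ((List.range T.card).map fun i => A.mul (A.pow x i) c) = G
  have hlen : G.length = T.card := by simp [← hG]
  have key : ∀ u : Vec, u.length = T.card → ((∀ j < A.dim, ∑ i ∈ Finset.range G.length,
      ((u.getD i 0 : ℕ) : ZMod A.p) * ((G.getD i []).getD j 0 : ℕ) = 0) ↔
      ∀ a : T, ι ((ofCoeffList A.p u).eval a.1) * φ c a = 0) := fun u hu => by
    rw [rel_iff h.hom.lin h.faith, funext_iff]
    refine forall_congr' fun a => Eq.congr_left ?_
    unfold ofCoeffList
    rw [Finset.sum_apply, eval_finsetSum, map_sum, Finset.sum_mul, hu, hlen]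
    refine Finset.sum_congr rfl fun i hi => ?_
    rw [List.getD_eq_getElem G _ (by rw [hlen]; exact Finset.mem_range.1 hi)]
    simp only [← hG, List.getElem_map, List.getElem_range, h.hom.mul, h.hom.pow, Pi.smul_apply,
      Pi.mul_apply, Pi.pow_apply, hx, eval_monomial, map_mul, map_pow, map_natCast, nsmul_eq_mul,
      mul_assoc]
  have hne : ker A.p A.dim G ≠ [] := by
    intro e
    have hQ : (∏ a ∈ T.erase a0, (X - C a)).Monic := monic_prod_of_monic _ _ fun a _ => monic_X_sub_C a
    have hd : (∏ a ∈ T.erase a0, (X - C a)).natDegree = T.card - 1 := by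
      rw [natDegree_finsetProd_X_sub_C_eq_card, Finset.card_erase_of_mem a0.2]
    have hpos : 0 < T.card := Finset.card_pos.2 ⟨_, a0.2⟩
    generalize hQ' : ∏ a ∈ T.erase a0, (X - C a) = Q at hQ hd
    have hu : ofCoeffList A.p ((List.range T.card).map fun i => (Q.coeff i).val) = Q := by
      ext i
      rw [a0r_coeff]
      by_cases hi : i < T.card
      · rw [List.getD_eq_getElem _ _ (by simpa using hi)]
        simp
      · rw [List.getD_eq_default _ _ (by simpa using hi), Nat.cast_zero,
          coeff_eq_zero_of_natDegree_lt (by omega)]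
    have h1 := (ker_eq_nil_iff hp G).1 e _ ((key ((List.range T.card).map fun i => (Q.coeff i).val)
      (by simp)).2 fun a => by
      rw [hu]
      by_cases e : a = a0
      · rw [e, ha0, mul_zero]
      · rw [← hQ', eval_prod, Finset.prod_eq_zero (i := a.1)
          (Finset.mem_erase.2 ⟨fun e' => e (Subtype.ext e'), a.2⟩) (by simp), map_zero, zero_mul])
      (T.card - 1) (by omega)
    rw [← a0r_coeff, hu, ← hd, hQ.coeff_natDegree] at h1
    exact one_ne_zero h1
  obtain ⟨u, hu⟩ := List.exists_mem_of_ne_nil _ hne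
  obtain ⟨h1, -, ⟨i, -, h2⟩, h3⟩ := ker_mem hp hu
  refine ⟨u, hu, fun hd => ?_, fun hcop => ?_⟩
  · have h0 : ofCoeffList A.p u ≠ 0 := fun e => h2 (by rw [← a0r_coeff, e, coeff_zero])
    have h4 := natDegree_le_of_dvd hd h0
    have h5 : (ofCoeffList A.p u).natDegree < T.card := by
      rw [natDegree_lt_iff_degree_lt h0, degree_lt_iff_coeff_zero]
      intro m hm
      rw [a0r_coeff, List.getD_eq_default _ _ (by omega), Nat.cast_zero]
    rw [natDegree_finsetProd_X_sub_C_eq_card] at h4
    omega
  · have h4 := (mul_eq_zero.1 ((key u (h1.trans hlen)).1 h3 a1)).resolve_right ha1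
    have h5 := hcop.map (evalRingHom a1.1)
    rw [coe_evalRingHom, (map_eq_zero ι).1 h4, eval_prod,
      Finset.prod_eq_zero (f := fun a => eval a1.1 (X - C a)) a1.2 (by simp)] at h5
    exact not_isCoprime_zero_zero h5

end Crest.Agent.R312
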