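import Crest.Agent.R312.Iface
import Crest.Agent.Lib.PT.All

/-!
# R312 / A3Spec : the interface between the outer algorithm (A1) and `splitOdd` (A3)
-/

set_option autoImplicit false

namespace Crest.Agent.R312

open Polynomial Crest.Agent.Lib.PT Crest.PolyFactor

/-- the dense coefficient list (as in `encodeInst`): length `natDegree + 1`, entries `< p` -/
noncomputable def clA {p : ℕ} (f : (ZMod p)[X]) : List ℕ :=
  (List.range (f.natDegree + 1)).map fun i => (f.coeff i).val

/-- A polynomial-time program returning a list of candidates (arbitrary coefficient lists), one of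
which is a non-zero non-unit modulo `f` (for instance a proper non-trivial factor of `f`). -/
def SplitOddSpec : Prop :=
  ∃ sp : ℕ × ℕ × List ℕ × List ℕ × List ℕ → List (List ℕ), PT sp ∧
    ∀ (p : ℕ) [Fact p.Prime] (r : ℕ) (h γ : (ZMod p)[X]) (S : Finset (ZMod p)),
      r.Prime → r ≠ 2 → r ∣ S.card → 0 < S.card → S.card < p →
      h.Monic → Irreducible h → h ∣ ∑ i ∈ Finset.range r, X ^ i → γ.degree < h.degree →
      AdjoinRoot.mk h γ ≠ 0 → AdjoinRoot.mk h γ ^ ((p ^ h.natDegree - 1) / r) ≠ 1 →
      ∃ u ∈ sp (p, r, clA h, clA γ, clA (∏ a ∈ S, (X - C a))),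
        ¬ (∏ a ∈ S, (X - C a)) ∣ ofCoeffList p u ∧
          ¬ IsCoprime (ofCoeffList p u) (∏ a ∈ S, (X - C a))

end Crest.Agent.R312
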