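import Crest.Agent.R312.A0Adj
import Crest.Agent.R312.A3Spec

/-!
# R312 / A0Main : the model of `A = F[x]/f`
Read `A0Defs.lean` first.  Keep the statements; auxiliary lemmas get the prefix `a0x_`.
-/

set_option autoImplicit false

namespace Crest.Agent.R312

open Crest.Agent.Lib.PT Polynomial Crest.PolyFactor

variable {p : ℕ} [Fact p.Prime]

theorem a0x_getD (f : (ZMod p)[X]) {i : ℕ} (hi : i < f.natDegree + 1) :
    (((clA f).getD i 0 : ℕ) : ZMod p) = f.coeff i := by
  rw [List.getD_eq_getElem _ _ (by simpa [clA] using hi)]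
  simp [clA]

theorem ofCoeffList_cl (f : (ZMod p)[X]) : ofCoeffList p (clA f) = f := by
  have e : (clA f).length = f.natDegree + 1 := by simp [clA]
  rw [ofCoeffList, e]
  conv_rhs => rw [f.as_sum_range]
  exact Finset.sum_congr rfl fun i hi => by rw [a0x_getD f (Finset.mem_range.1 hi)]

theorem length_cl (f : (ZMod p)[X]) : (clA f).length = f.natDegree + 1 := by simp [clA]

theorem fmon_cl {f : (ZMod p)[X]} (hf : f.Monic) : FMon p (clA f) := by
  refine ⟨List.ne_nil_of_length_pos (by rw [length_cl]; omega), ?_⟩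
  rw [length_cl, Nat.add_sub_cancel, a0x_getD f (Nat.lt_succ_self _)]
  exact hf

/-- the number of elements of `F` (`AdjoinRoot.powerBasis'`, `Module.card_fintype`) -/
theorem card_adjoinRoot {h : (ZMod p)[X]} (hh : h.Monic) [Fintype (AdjoinRoot h)] :
    Fintype.card (AdjoinRoot h) = p ^ h.natDegree := by
  rw [Module.card_fintype (AdjoinRoot.powerBasis' hh).basis, ZMod.card, Fintype.card_fin]
  rfl

theorem finite_adjoinRoot {h : (ZMod p)[X]} (hh : h.Monic) : Finite (AdjoinRoot h) := Module.finite_iff_finite (R := ZMod p) |>.1 (AdjoinRoot.powerBasis' hh).finite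

/-- `iso_quot`, `Iso.split_field` with `α a = AdjoinRoot.of h a` (`unfold mainA`) -/
theorem main_model {h : (ZMod p)[X]} (hh : h.Monic) [Fact (Irreducible h)] (T : Finset (ZMod p)) :
    ∃ φ : Vec → T → AdjoinRoot h, Iso (mainA p (clA h) (clA (∏ a ∈ T, (X - C a)))) φ ∧
      (∀ a : T, φ (mainX p (clA h) (clA (∏ a ∈ T, (X - C a)))) a = AdjoinRoot.of h a) ∧
      ∀ (γ : (ZMod p)[X]) (a : T),
        φ (mainC p (clA h) (clA (∏ a ∈ T, (X - C a))) (clA γ)) a = AdjoinRoot.mk h γ := by
  have hp : 0 < p := (Fact.out : p.Prime).pos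
  have hI := iso_quot hp (fmon_cl hh) (ofCoeffList_cl h)
  have hf : (∏ a ∈ T, (X - C a) : (ZMod p)[X]).Monic :=
    monic_prod_of_monic _ _ fun a _ => monic_X_sub_C a
  have hm := hI.hom.mon_pscal (AdjoinRoot.of h) (fmon_cl hf)
  have hs : poly (qv h (clA h)) ((quot p (clA h)).pscal (clA (∏ a ∈ T, (X - C a)))) =
      ∏ a : T, (X - C (AdjoinRoot.of h a)) := by
    rw [hI.hom.pscal (AdjoinRoot.of h), ofCoeffList_cl, Polynomial.map_prod,
      ← Finset.prod_coe_sort T]
    simp
  have hx : ∀ a : T, (poly (qv h (clA h)) ((quot p (clA h)).pscal (clA (∏ a ∈ T, (X - C a))))).eval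
      (AdjoinRoot.of h a) = 0 := fun a => by
    rw [hs, eval_prod]
    exact Finset.prod_eq_zero (Finset.mem_univ a) (by simp)
  refine ⟨fun v a => lift (quot p (clA h)) ((quot p (clA h)).pscal (clA (∏ a ∈ T, (X - C a))))
    (qv h (clA h)) (AdjoinRoot.of h a) v, ?_, fun a => hI.hom.lift_gen hm (hx a), fun γ a => ?_⟩
  · unfold mainA
    exact hI.split_field hm ((AdjoinRoot.of h).injective.comp Subtype.val_injective) hs
  · beta_reduce
    rw [mainC, hI.hom.lift_emb hm (hx a), qv_qcls hp (fmon_cl hh) (ofCoeffList_cl h), ofCoeffList_cl]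

end Crest.Agent.R312
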