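import Crest.Agent.R312.A0Div
import Crest.Agent.R312.A0Ker

/-!
# R312 / A0PT : polynomial time and sizes for the programs of `A0Defs.lean`
All `*_pt` lemmas are tagged `fun_prop`.  Counters (`D`, `k`, `n`, `r`) need `PB` as well.
-/

set_option autoImplicit false

namespace Crest.Agent.R312

open Crest.Agent.Lib.PT Polynomial

variable {α β : Type} [Enc α] [Enc β]

@[fun_prop] theorem sz_pt {x : α → β} (hx : PT x) : PT fun a => sz (x a) :=
  hx.toBits.length.of_eq fun _ => length_toBits _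

@[fun_prop] theorem clamp_pt {B : α → ℕ} {x d : α → β} (hB : PT B) (hx : PT x) (hd : PT d) :
    PT fun a => clamp (B a) (x a) (d a) := by
  unfold clamp; fun_prop

theorem sz_iterC (B : ℕ) (f : β → β) (n : ℕ) (s : β) : sz (iterC B f n s) ≤ B + sz s := by
  unfold iterC
  induction n with
  | zero => simp
  | succ n ih =>
    rw [Function.iterate_succ_apply', clamp]
    split_ifs <;> omega

theorem sz_foldC {γ : Type} (B : ℕ) (f : β → γ → β) (s : β) (l : List γ) :
    sz (foldC B f s l) ≤ B + sz s := by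
  unfold foldC
  induction l using List.reverseRecOn with
  | nil => simp
  | append_singleton l b ih =>
    rw [List.foldl_append, List.foldl_cons, List.foldl_nil, clamp]
    split_ifs <;> omega

@[fun_prop] theorem iterC_pt {B n : α → ℕ} {f : α → β → β} {s : α → β} (hB : PT B) (bB : PB B)
    (hf : PT fun x : α × β => f x.1 x.2) (hn : PT n) (bn : PB n) (hs : PT s) :
    PT fun a => iterC (B a) (f a) (n a) (s a) :=
  PT.iterate (f := fun a x => clamp (B a) (f a x) x) hn bn hs (by fun_prop)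
    (B := fun a => B a + sz (s a)) (by fun_prop) fun a k _ => sz_iterC _ _ _ _

@[fun_prop] theorem foldC_pt {γ : Type} [Enc γ] {B : α → ℕ} {f : α → β → γ → β} {s : α → β}
    {l : α → List γ} (hB : PT B) (bB : PB B) (hf : PT fun x : α × β × γ => f x.1 x.2.1 x.2.2)
    (hs : PT s) (hl : PT l) : PT fun a => foldC (B a) (f a) (s a) (l a) :=
  PT.foldl_of_prefix (f := fun a x b => clamp (B a) (f a x b) x) hl hs (by fun_prop)
    (B := fun a => B a + sz (s a)) (by fun_prop) fun a _ _ => sz_foldC _ _ _ _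

@[fun_prop] theorem iterB_pt [Bdd β] {N n : α → ℕ} {f : α → β → β} {s : α → β} (hN : PT N) (bN : PB N)
    (hf : PT fun x : α × β => f x.1 x.2) (hn : PT n) (bn : PB n) (hs : PT s) :
    PT fun a => iterB (N a) (f a) (n a) (s a) := by
  unfold iterB; fun_prop

@[fun_prop] theorem foldB_pt [Bdd β] {γ : Type} [Enc γ] {N : α → ℕ} {f : α → β → γ → β} {s : α → β}
    {l : α → List γ} (hN : PT N) (bN : PB N) (hf : PT fun x : α × β × γ => f x.1 x.2.1 x.2.2)
    (hs : PT s) (hl : PT l) : PT fun a => foldB (N a) (f a) (s a) (l a) := by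
  unfold foldB; fun_prop

/-- the clamp is never active if an invariant guarantees `Bd N` -/
theorem iterB_eq [Bdd β] {N : ℕ} {f : β → β} {n : ℕ} {s : β} (h : ∀ k < n, Bd N (f^[k + 1] s)) :
    iterB N f n s = f^[n] s := by
  unfold iterB iterC
  induction n with
  | zero => rfl
  | succ n ih =>
    rw [Function.iterate_succ_apply', ih fun k hk => h k (by omega), clamp,
      ← Function.iterate_succ_apply' f n s, if_pos (Bdd.sz_le (h n (by omega)))]

/-- invariants for `iterB` -/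
theorem iterB_inv [Bdd β] {N : ℕ} {f : β → β} {s : β} (I : ℕ → β → Prop) (n : ℕ) (h0 : I 0 s)
    (hI : ∀ k < n, ∀ x, I k x → I (k + 1) (f x) ∧ Bd N (f x)) : I n (iterB N f n s) := by
  unfold iterB iterC
  induction n with
  | zero => exact h0
  | succ n ih =>
    have h1 := hI n (by omega) _ (ih fun k hk => hI k (by omega))
    rw [Function.iterate_succ_apply', clamp, if_pos (Bdd.sz_le h1.2)]
    exact h1.1

/-- invariants for `foldB`; `pre` is the part of the list already processed -/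
theorem foldB_inv [Bdd β] {γ : Type} {N : ℕ} {f : β → γ → β} {s : β} (I : List γ → β → Prop)
    (l : List γ) (h0 : I [] s)
    (hI : ∀ pre b x, pre ++ [b] <+: l → I pre x → I (pre ++ [b]) (f x b) ∧ Bd N (f x b)) :
    I l (foldB N f s l) := by
  unfold foldB foldC
  induction l using List.reverseRecOn with
  | nil => exact h0
  | append_singleton l b ih =>
    have h1 := hI l b _ (List.prefix_refl _)
      (ih fun pre c x hp => hI pre c x (hp.trans (List.prefix_append _ _)))
    rw [List.foldl_append, List.foldl_cons, List.foldl_nil, clamp, if_pos (Bdd.sz_le h1.2)]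
    exact h1.1

/-! ## Vectors -/

@[fun_prop] theorem rd_pt {p : α → ℕ} {x : α → ℕ}
    (hp : PT p) (hx : PT x) :
    PT fun a => rd (p a) (x a) := by
  unfold rd; fun_prop

@[fun_prop] theorem mkv_pt {p D : α → ℕ} {f : α → ℕ → ℕ} (hp : PT p) (hD : PT D) (bD : PB D)
    (hf : PT fun x : α × ℕ => f x.1 x.2) : PT fun a => mkv (p a) (D a) (f a) := by
  unfold mkv; fun_prop

theorem Nrm.sz_le {p D : ℕ} {v : Vec} (h : Nrm p D v) : sz v ≤ vsz p D := by
  have := sz_list_le (B := 2 * sz p) fun x hx => sz_nat_le_of_le (h.2 x hx)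
  rwa [h.1] at this

theorem sz_mkv (p D : ℕ) (f : ℕ → ℕ) : sz (mkv p D f) ≤ vsz p D := (nrm_mkv p D f).sz_le

@[fun_prop] theorem vsz_pb {p D : α → ℕ} (hp : PT p) (bD : PB D) : PB fun a => vsz (p a) (D a) := by
  unfold vsz; fun_prop

@[fun_prop] theorem nrm_pt {p : α → ℕ} {D : α → ℕ} {v : α → Vec}
    (hp : PT p) (hD : PT D) (bD : PB D) (hv : PT v) :
    PT fun a => nrm (p a) (D a) (v a) := by
  unfold nrm; fun_prop

@[fun_prop] theorem isZ_pt {p : α → ℕ} {D : α → ℕ} {v : α → Vec}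
    (hp : PT p) (hD : PT D) (bD : PB D) (hv : PT v) :
    PT fun a => IsZ (p a) (D a) (v a) := PT.ball_lt hD bD (by fun_prop)

@[fun_prop] theorem unit_pt {p : α → ℕ} {D : α → ℕ} {j : α → ℕ}
    (hp : PT p) (hD : PT D) (bD : PB D) (hj : PT j) :
    PT fun a => unit (p a) (D a) (j a) := by
  unfold unit; fun_prop

@[fun_prop] theorem units_pt {p : α → ℕ} {D : α → ℕ}
    (hp : PT p) (hD : PT D) (bD : PB D) :
    PT fun a => units (p a) (D a) := by
  unfold units; fun_prop

@[fun_prop] theorem vadd_pt {p : α → ℕ} {D : α → ℕ} {u : α → Vec} {v : α → Vec}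
    (hp : PT p) (hD : PT D) (bD : PB D) (hu : PT u) (hv : PT v) :
    PT fun a => vadd (p a) (D a) (u a) (v a) := by
  unfold vadd; fun_prop

@[fun_prop] theorem vsub_pt {p : α → ℕ} {D : α → ℕ} {u : α → Vec} {v : α → Vec}
    (hp : PT p) (hD : PT D) (bD : PB D) (hu : PT u) (hv : PT v) :
    PT fun a => vsub (p a) (D a) (u a) (v a) := by
  unfold vsub; fun_prop

@[fun_prop] theorem vsmul_pt {p : α → ℕ} {D : α → ℕ} {c : α → ℕ} {u : α → Vec}
    (hp : PT p) (hD : PT D) (bD : PB D) (hc : PT c) (hu : PT u) :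
    PT fun a => vsmul (p a) (D a) (c a) (u a) := by
  unfold vsmul; fun_prop

@[fun_prop] theorem col_pt {G : α → List Vec} {j : α → ℕ}
    (hG : PT G) (hj : PT j) :
    PT fun a => col (G a) (j a) := by
  unfold col; fun_prop

@[fun_prop] theorem vsum_pt {p : α → ℕ} {D : α → ℕ} {G : α → List Vec}
    (hp : PT p) (hD : PT D) (bD : PB D) (hG : PT G) :
    PT fun a => vsum (p a) (D a) (G a) := by
  unfold vsum; fun_prop

@[fun_prop] theorem dot_pt {u : α → Vec} {v : α → Vec}
    (hu : PT u) (hv : PT v) :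
    PT fun a => dot (u a) (v a) := by
  unfold dot; fun_prop

@[fun_prop] theorem lc_pt {p : α → ℕ} {D : α → ℕ} {u : α → Vec} {G : α → List Vec}
    (hp : PT p) (hD : PT D) (bD : PB D) (hu : PT u) (hG : PT G) :
    PT fun a => lc (p a) (D a) (u a) (G a) := by
  unfold lc; fun_prop

@[fun_prop] theorem flat_pt {p : α → ℕ} {D : α → ℕ} {k : α → ℕ} {P : α → List Vec}
    (hp : PT p) (hD : PT D) (bD : PB D) (hk : PT k) (bk : PB k) (hP : PT P) :
    PT fun a => flat (p a) (D a) (k a) (P a) := by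
  unfold flat; fun_prop

@[fun_prop] theorem unflat_pt {p : α → ℕ} {D : α → ℕ} {k : α → ℕ} {v : α → Vec}
    (hp : PT p) (hD : PT D) (bD : PB D) (hk : PT k) (bk : PB k) (hv : PT v) :
    PT fun a => unflat (p a) (D a) (k a) (v a) := by
  unfold unflat; fun_prop

@[fun_prop] theorem invP_pt {p : α → ℕ} {x : α → ℕ}
    (hp : PT p) (hx : PT x) :
    PT fun a => invP (p a) (x a) := PT.nat_powMod hx (by fun_prop) (by fun_prop) fun _ => by omega

@[fun_prop] theorem cut_pt {p : α → ℕ} {D : α → ℕ} {L : α → List Vec} {v : α → Vec}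
    (hp : PT p) (hD : PT D) (bD : PB D) (hL : PT L) (hv : PT v) :
    PT fun a => cut (p a) (D a) (L a) (v a) := by
  unfold cut; fun_prop

theorem sz_cut_fold (p n : ℕ) (f : ℕ → Vec) (l : List ℕ) :
    (l.foldl (fun L j => cut p n L (f j)) (units p n)).length ≤ n ∧
      ∀ c ∈ l.foldl (fun L j => cut p n L (f j)) (units p n), sz c ≤ vsz p n := by
  induction l using List.reverseRecOn with
  | nil =>
    refine ⟨by simp [units], fun c hc => ?_⟩
    obtain ⟨j, -, rfl⟩ := List.mem_map.1 hc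
    exact sz_mkv _ _ _
  | append_singleton l b ih =>
    rw [List.foldl_append, List.foldl_cons, List.foldl_nil]
    refine ⟨(length_cut_le _ _ _ _).trans ih.1, fun c hc => ?_⟩
    unfold cut at hc
    generalize List.find? _ _ = o at hc
    cases o with
    | none => exact ih.2 c hc
    | some c0 =>
      obtain ⟨j, -, rfl⟩ := List.mem_map.1 hc
      exact sz_mkv _ _ _

@[fun_prop] theorem ker_pt {p : α → ℕ} {D : α → ℕ} {G : α → List Vec}
    (hp : PT p) (hD : PT D) (bD : PB D) (hG : PT G) :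
    PT fun a => ker (p a) (D a) (G a) := by
  unfold ker
  refine PT.filter (PT.foldl_of_prefix (by fun_prop) (by fun_prop) (by fun_prop)
    (B := fun a => (G a).length * (vsz (p a) (G a).length + 1) + 1) (by fun_prop) fun a pre _ => ?_)
    (by fun_prop)
  obtain ⟨h1, h2⟩ := sz_cut_fold (p a) (G a).length (col (G a)) pre
  exact (sz_list_le h2).trans (by gcongr)

@[fun_prop] theorem kerOn_pt {p : α → ℕ} {D : α → ℕ} {E : α → ℕ} {G : α → List Vec} {H : α → List Vec}
    (hp : PT p) (hD : PT D) (bD : PB D) (hE : PT E) (bE : PB E) (hG : PT G) (hH : PT H) :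
    PT fun a => kerOn (p a) (D a) (E a) (G a) (H a) := by
  unfold kerOn; fun_prop

@[fun_prop] theorem basisOn_pt {p D : α → ℕ} {key : α → β → Vec} {l : α → List β} (hp : PT p) (hD : PT D)
    (bD : PB D) (hk : PT fun x : α × β => key x.1 x.2) (hl : PT l) :
    PT fun a => basisOn (p a) (D a) (key a) (l a) := by
  unfold basisOn
  refine PT.take hD (PT.foldl_grow hl (by fun_prop) (by fun_prop) (G := fun x => sz x.2 + 1)
    (by fun_prop) fun a c b _ => ?_)
  have := sz_append c [b]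
  simp only [sz_cons, sz_nil] at this
  dsimp only
  split_ifs <;> omega

@[fun_prop] theorem basisOf_pt {p : α → ℕ} {D : α → ℕ} {U : α → List Vec}
    (hp : PT p) (hD : PT D) (bD : PB D) (hU : PT U) :
    PT fun a => basisOf (p a) (D a) (U a) := by
  unfold basisOf; fun_prop

@[fun_prop] theorem solve_pt {p : α → ℕ} {D : α → ℕ} {G : α → List Vec} {v : α → Vec}
    (hp : PT p) (hD : PT D) (bD : PB D) (hG : PT G) (hv : PT v) :
    PT fun a => solve (p a) (D a) (G a) (v a) := by
  unfold solve; fun_prop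

/-! ## Algebras -/

theorem alg_tuple_pt {A : α → Alg} (hA : PT A) : PT fun a => ((A a).p, (A a).one, (A a).tab) :=
  hA.of_enc_eq fun _ => rfl

@[fun_prop] theorem alg_p_pt {A : α → Alg} (hA : PT A) : PT fun a => (A a).p := (alg_tuple_pt hA).fst

@[fun_prop] theorem alg_one_pt {A : α → Alg} (hA : PT A) : PT fun a => (A a).one :=
  (alg_tuple_pt hA).snd.fst

@[fun_prop] theorem alg_tab_pt {A : α → Alg} (hA : PT A) : PT fun a => (A a).tab :=
  (alg_tuple_pt hA).snd.snd

@[fun_prop] theorem alg_mk_pt {p : α → ℕ} {o : α → Vec} {t : α → List (List Vec)} (hp : PT p) (ho : PT o)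
    (ht : PT t) : PT fun a => Alg.mk (p a) (o a) (t a) :=
  (hp.pair (ho.pair ht)).of_enc_eq fun _ => rfl

@[fun_prop] theorem dim_pt {A : α → Alg} (hA : PT A) : PT fun a => (A a).dim := by
  unfold Alg.dim; fun_prop

@[fun_prop] theorem dim_pb {A : α → Alg} (hA : PT A) : PB fun a => (A a).dim := by
  unfold Alg.dim; fun_prop

namespace Alg

@[fun_prop] theorem zero_pt {A : α → Alg}
    (hA : PT A) :
    PT fun a => Alg.zero (A a) := by
  unfold Alg.zero; fun_prop

@[fun_prop] theorem nrm_pt {A : α → Alg} {u : α → Vec}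
    (hA : PT A) (hu : PT u) :
    PT fun a => Alg.nrm (A a) (u a) := by
  unfold Alg.nrm; fun_prop

@[fun_prop] theorem add_pt {A : α → Alg} {u : α → Vec} {v : α → Vec}
    (hA : PT A) (hu : PT u) (hv : PT v) :
    PT fun a => Alg.add (A a) (u a) (v a) := by
  unfold Alg.add; fun_prop

@[fun_prop] theorem sub_pt {A : α → Alg} {u : α → Vec} {v : α → Vec}
    (hA : PT A) (hu : PT u) (hv : PT v) :
    PT fun a => Alg.sub (A a) (u a) (v a) := by
  unfold Alg.sub; fun_prop

@[fun_prop] theorem neg_pt {A : α → Alg} {u : α → Vec}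
    (hA : PT A) (hu : PT u) :
    PT fun a => Alg.neg (A a) (u a) := by
  unfold Alg.neg; fun_prop

@[fun_prop] theorem smul_pt {A : α → Alg} {k : α → ℕ} {u : α → Vec}
    (hA : PT A) (hk : PT k) (hu : PT u) :
    PT fun a => Alg.smul (A a) (k a) (u a) := by
  unfold Alg.smul; fun_prop

@[fun_prop] theorem scal_pt {A : α → Alg} {k : α → ℕ}
    (hA : PT A) (hk : PT k) :
    PT fun a => Alg.scal (A a) (k a) := by
  unfold Alg.scal; fun_prop

@[fun_prop] theorem sum_pt {A : α → Alg} {l : α → List Vec}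
    (hA : PT A) (hl : PT l) :
    PT fun a => Alg.sum (A a) (l a) := by
  unfold Alg.sum; fun_prop

@[fun_prop] theorem basis_pt {A : α → Alg}
    (hA : PT A) :
    PT fun a => Alg.basis (A a) := by
  unfold Alg.basis; fun_prop

@[fun_prop] theorem mul_pt {A : α → Alg} {u : α → Vec} {v : α → Vec}
    (hA : PT A) (hu : PT u) (hv : PT v) :
    PT fun a => Alg.mul (A a) (u a) (v a) := by
  unfold Alg.mul; fun_prop

theorem nrm_zero (A : Alg) : Nrm A.p A.dim A.zero := nrm_mkv _ _ _
theorem nrm_nrm (A : Alg) (u : Vec) : Nrm A.p A.dim (A.nrm u) := nrm_mkv _ _ _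
theorem nrm_add (A : Alg) (u v : Vec) : Nrm A.p A.dim (A.add u v) := nrm_mkv _ _ _
theorem nrm_sub (A : Alg) (u v : Vec) : Nrm A.p A.dim (A.sub u v) := nrm_mkv _ _ _
theorem nrm_neg (A : Alg) (u : Vec) : Nrm A.p A.dim (A.neg u) := nrm_mkv _ _ _
theorem nrm_smul (A : Alg) (k : ℕ) (u : Vec) : Nrm A.p A.dim (A.smul k u) := nrm_mkv _ _ _
theorem nrm_scal (A : Alg) (k : ℕ) : Nrm A.p A.dim (A.scal k) := nrm_mkv _ _ _
theorem nrm_sum (A : Alg) (l : List Vec) : Nrm A.p A.dim (A.sum l) := nrm_mkv _ _ _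
theorem nrm_mul (A : Alg) (u v : Vec) : Nrm A.p A.dim (A.mul u v) := nrm_mkv _ _ _
theorem nrm_prod (A : Alg) (l : List Vec) : Nrm A.p A.dim (A.prod l) := by
  cases l <;> exact nrm_mkv _ _ _
theorem nrm_pow_aux (A : Alg) (u : Vec) (l : List Bool) : Nrm A.p A.dim
    (l.foldr (fun b acc => if b = true then A.mul (A.mul acc acc) u else A.mul acc acc) (A.scal 1)) := by
  cases l with
  | nil => exact nrm_mkv _ _ _
  | cons b l => rw [List.foldr_cons]; split_ifs <;> exact nrm_mkv _ _ _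
theorem nrm_pow (A : Alg) (u : Vec) (e : ℕ) : Nrm A.p A.dim (A.pow u e) := nrm_pow_aux A u _
theorem nrm_inv (A : Alg) (q : ℕ) (u : Vec) : Nrm A.p A.dim (A.inv q u) := nrm_pow A u _
theorem nrm_peval (A : Alg) (P : Pol) (x : Vec) : Nrm A.p A.dim (A.peval P x) := by
  cases P <;> exact nrm_mkv _ _ _

@[fun_prop] theorem prod_pt {A : α → Alg} {l : α → List Vec}
    (hA : PT A) (hl : PT l) :
    PT fun a => Alg.prod (A a) (l a) := PT.foldr_of_suffix (f := fun a => (A a).mul) hl (by fun_prop) (by fun_prop)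
    (B := fun a => vsz (A a).p (A a).dim) (by fun_prop) fun a suf _ => (nrm_prod (A a) suf).sz_le

@[fun_prop] theorem pow_pt {A : α → Alg} {u : α → Vec} {e : α → ℕ}
    (hA : PT A) (hu : PT u) (he : PT e) :
    PT fun a => Alg.pow (A a) (u a) (e a) := by
  unfold Alg.pow
  exact PT.foldr_of_suffix (by fun_prop) (by fun_prop) (by fun_prop)
    (B := fun a => vsz (A a).p (A a).dim) (by fun_prop) fun a suf _ => (nrm_pow_aux (A a) _ suf).sz_le

@[fun_prop] theorem isZ_pt {A : α → Alg} {u : α → Vec}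
    (hA : PT A) (hu : PT u) :
    PT fun a => Alg.IsZ (A a) (u a) := by
  unfold Alg.IsZ; fun_prop

@[fun_prop] theorem eqv_pt {A : α → Alg} {u : α → Vec} {v : α → Vec}
    (hA : PT A) (hu : PT u) (hv : PT v) :
    PT fun a => Alg.Eqv (A a) (u a) (v a) := by
  unfold Alg.Eqv; fun_prop

@[fun_prop] theorem isU_pt {A : α → Alg} {q : α → ℕ} {c : α → Vec}
    (hA : PT A) (hq : PT q) (hc : PT c) :
    PT fun a => Alg.IsU (A a) (q a) (c a) := by
  unfold Alg.IsU; fun_prop

@[fun_prop] theorem isWit_pt {A : α → Alg} {q : α → ℕ} {c : α → Vec}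
    (hA : PT A) (hq : PT q) (hc : PT c) :
    PT fun a => Alg.IsWit (A a) (q a) (c a) := by
  unfold Alg.IsWit; fun_prop

@[fun_prop] theorem inv_pt {A : α → Alg} {q : α → ℕ} {c : α → Vec}
    (hA : PT A) (hq : PT q) (hc : PT c) :
    PT fun a => Alg.inv (A a) (q a) (c a) := by
  unfold Alg.inv; fun_prop

@[fun_prop] theorem mulSpan_pt {A : α → Alg} {U : α → List Vec} {W : α → List Vec}
    (hA : PT A) (hU : PT U) (hW : PT W) :
    PT fun a => Alg.mulSpan (A a) (U a) (W a) := by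
  unfold Alg.mulSpan; fun_prop

@[fun_prop] theorem idealSpan_pt {A : α → Alg} {U : α → List Vec}
    (hA : PT A) (hU : PT U) :
    PT fun a => Alg.idealSpan (A a) (U a) := by
  unfold Alg.idealSpan; fun_prop

@[fun_prop] theorem cands_pt {A : α → Alg} {n : α → ℕ} {u : α → Vec} {c : α → Vec}
    (hA : PT A) (hn : PT n) (bn : PB n) (hu : PT u) (hc : PT c) :
    PT fun a => Alg.cands (A a) (n a) (u a) (c a) := by
  unfold Alg.cands; fun_prop

@[fun_prop] theorem padd_pt {A : α → Alg} {P : α → Pol} {Q : α → Pol}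
    (hA : PT A) (hP : PT P) (hQ : PT Q) :
    PT fun a => Alg.padd (A a) (P a) (Q a) := by
  unfold Alg.padd; fun_prop

@[fun_prop] theorem psub_pt {A : α → Alg} {P : α → Pol} {Q : α → Pol}
    (hA : PT A) (hP : PT P) (hQ : PT Q) :
    PT fun a => Alg.psub (A a) (P a) (Q a) := by
  unfold Alg.psub; fun_prop

@[fun_prop] theorem pneg_pt {A : α → Alg} {P : α → Pol}
    (hA : PT A) (hP : PT P) :
    PT fun a => Alg.pneg (A a) (P a) := by
  unfold Alg.pneg; fun_prop

@[fun_prop] theorem pIsZ_pt {A : α → Alg} {P : α → Pol}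
    (hA : PT A) (hP : PT P) :
    PT fun a => Alg.PIsZ (A a) (P a) := PT.ball hP (by fun_prop)

@[fun_prop] theorem psmul_pt {A : α → Alg} {c : α → Vec} {P : α → Pol}
    (hA : PT A) (hc : PT c) (hP : PT P) :
    PT fun a => Alg.psmul (A a) (c a) (P a) := by
  unfold Alg.psmul; fun_prop

@[fun_prop] theorem pmul_pt {A : α → Alg} {P : α → Pol} {Q : α → Pol}
    (hA : PT A) (hP : PT P) (hQ : PT Q) :
    PT fun a => Alg.pmul (A a) (P a) (Q a) := by
  unfold Alg.pmul; fun_prop

theorem foldr_max_le (l : List ℕ) : l.foldr max 0 ≤ l.sum := by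
  induction l with
  | nil => simp
  | cons a l ih => simp only [List.foldr_cons, List.sum_cons]; omega

@[fun_prop] theorem psum_pt {A : α → Alg} {l : α → List Pol}
    (hA : PT A) (hl : PT l) :
    PT fun a => Alg.psum (A a) (l a) := by
  unfold Alg.psum
  refine PT.map (PT.range (by fun_prop) (PB.mono (g := fun a => (l a).flatten.length) (by fun_prop)
    fun a => ?_)) (by fun_prop)
  rw [List.length_flatten]
  exact foldr_max_le _

@[fun_prop] theorem pone_pt {A : α → Alg}
    (hA : PT A) :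
    PT fun a => Alg.pone (A a) := by
  unfold Alg.pone; fun_prop

@[fun_prop] theorem pX_pt {A : α → Alg}
    (hA : PT A) :
    PT fun a => Alg.pX (A a) := by
  unfold Alg.pX; fun_prop

@[fun_prop] theorem pshift_pt {A : α → Alg} {n : α → ℕ} {P : α → Pol}
    (hA : PT A) (hn : PT n) (bn : PB n) (hP : PT P) :
    PT fun a => Alg.pshift (A a) (n a) (P a) := by
  unfold Alg.pshift; fun_prop

/-- all coefficients are normal -/
def PN (A : Alg) (P : Pol) : Prop := ∀ c ∈ P, Nrm A.p A.dim c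

theorem PN.sz_le {A : Alg} {P : Pol} (h : A.PN P) {n : ℕ} (hn : P.length ≤ n) :
    sz P ≤ n * (vsz A.p A.dim + 1) + 1 :=
  (sz_list_le fun c hc => (h c hc).sz_le).trans (by gcongr)

theorem pn_map {γ : Type*} (A : Alg) (l : List γ) {f : γ → Vec} (h : ∀ x, Nrm A.p A.dim (f x)) :
    A.PN (l.map f) := fun c hc => by
  obtain ⟨x, -, rfl⟩ := List.mem_map.1 hc
  exact h x

theorem pn_padd (A : Alg) (P Q : Pol) : A.PN (A.padd P Q) := pn_map A _ fun _ => nrm_mkv _ _ _
theorem pn_psub (A : Alg) (P Q : Pol) : A.PN (A.psub P Q) := pn_map A _ fun _ => nrm_mkv _ _ _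
theorem pn_pneg (A : Alg) (P : Pol) : A.PN (A.pneg P) := pn_map A _ fun _ => nrm_mkv _ _ _
theorem pn_psmul (A : Alg) (c : Vec) (P : Pol) : A.PN (A.psmul c P) := pn_map A _ fun _ => nrm_mkv _ _ _
theorem pn_pmul (A : Alg) (P Q : Pol) : A.PN (A.pmul P Q) := pn_map A _ fun _ => nrm_mkv _ _ _
theorem pn_psum (A : Alg) (l : List Pol) : A.PN (A.psum l) := pn_map A _ fun _ => nrm_mkv _ _ _
theorem pn_pderiv (A : Alg) (P : Pol) : A.PN (A.pderiv P) := pn_map A _ fun _ => nrm_mkv _ _ _
theorem pn_pscal (A : Alg) (f : Vec) : A.PN (A.pscal f) := pn_map A _ fun _ => nrm_mkv _ _ _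
theorem pn_toPoly (A : Alg) (m : Pol) (v : Vec) : A.PN (A.toPoly m v) := pn_map A _ fun _ => nrm_mkv _ _ _
theorem pn_pone (A : Alg) : A.PN A.pone := fun c hc => by
  rw [List.mem_singleton.1 hc]; exact nrm_mkv _ _ _
theorem pn_pX (A : Alg) : A.PN A.pX := fun c hc => by
  simp only [pX, List.mem_cons, List.not_mem_nil, or_false] at hc
  rcases hc with rfl | rfl <;> exact nrm_mkv _ _ _
theorem pn_pprod (A : Alg) (l : List Pol) : A.PN (A.pprod l) := by
  cases l with
  | nil => exact pn_pone A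
  | cons P l => exact pn_pmul A _ _
theorem pn_ppow (A : Alg) (P : Pol) (n : ℕ) : A.PN (A.ppow P n) := pn_pprod A _
theorem pn_pdm (A : Alg) (P m : Pol) : A.PN (A.pdm P m).1 ∧ A.PN (A.pdm P m).2 := by
  unfold Alg.pdm
  induction P with
  | nil =>
    refine ⟨fun c hc => by simp at hc, fun c hc => ?_⟩
    rw [List.eq_of_mem_replicate hc]; exact nrm_mkv _ _ _
  | cons c P ih =>
    rw [List.foldr_cons]
    generalize List.foldr _ _ P = s at ih
    unfold Alg.dmStep
    refine ⟨fun x hx => ?_, pn_map A _ fun _ => nrm_mkv _ _ _⟩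
    rcases List.mem_cons.1 hx with rfl | hx
    · exact nrm_mkv _ _ _
    · exact ih.1 x hx
theorem pn_pmod (A : Alg) (P m : Pol) : A.PN (A.pmod P m) := (pn_pdm A P m).2
theorem pn_pdiv (A : Alg) (P m : Pol) : A.PN (A.pdiv P m) := fun c hc =>
  (pn_pdm A P m).1 c (List.mem_of_mem_take hc)
theorem pn_ppowMod_aux (A : Alg) (P m : Pol) (l : List Bool) :
    ∃ Q, l.foldr (fun b acc => if b = true then A.pmod (A.pmul (A.pmul acc acc) P) m
      else A.pmod (A.pmul acc acc) m) (A.pmod A.pone m) = A.pmod Q m := by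
  cases l with
  | nil => exact ⟨_, rfl⟩
  | cons b l => rw [List.foldr_cons]; split_ifs <;> exact ⟨_, rfl⟩
theorem pn_ppowMod (A : Alg) (P : Pol) (e : ℕ) (m : Pol) : A.PN (A.ppowMod P e m) := by
  obtain ⟨Q, hQ⟩ := pn_ppowMod_aux A P m e.bits
  unfold Alg.ppowMod
  rw [hQ]
  exact pn_pmod A Q m

theorem length_pprod_le' (A : Alg) (l : List Pol) : (A.pprod l).length ≤ l.flatten.length + 1 := by
  refine (length_pprod_le A l).trans (Nat.succ_le_succ ?_)
  rw [List.length_flatten]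
  exact List.sum_le_sum fun P _ => Nat.sub_le _ _

@[fun_prop] theorem pprod_pt {A : α → Alg} {l : α → List Pol}
    (hA : PT A) (hl : PT l) :
    PT fun a => Alg.pprod (A a) (l a) := PT.foldr_of_suffix (f := fun a => (A a).pmul) hl (by fun_prop) (by fun_prop)
    (B := fun a => ((l a).flatten.length + 1) * (vsz (A a).p (A a).dim + 1) + 1) (by fun_prop)
    fun a suf hs => (pn_pprod (A a) suf).sz_le ((length_pprod_le' _ _).trans
      (Nat.succ_le_succ hs.sublist.flatten.length_le))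

@[fun_prop] theorem ppow_pt {A : α → Alg} {P : α → Pol} {n : α → ℕ}
    (hA : PT A) (hP : PT P) (hn : PT n) (bn : PB n) :
    PT fun a => Alg.ppow (A a) (P a) (n a) := by
  unfold Alg.ppow; fun_prop

@[fun_prop] theorem pderiv_pt {A : α → Alg} {P : α → Pol}
    (hA : PT A) (hP : PT P) :
    PT fun a => Alg.pderiv (A a) (P a) := by
  unfold Alg.pderiv; fun_prop

@[fun_prop] theorem peval_pt {A : α → Alg} {P : α → Pol} {u : α → Vec}
    (hA : PT A) (hP : PT P) (hu : PT u) :
    PT fun a => Alg.peval (A a) (P a) (u a) := by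
  unfold Alg.peval
  exact PT.foldr_of_suffix hP (by fun_prop) (by fun_prop)
    (B := fun a => vsz (A a).p (A a).dim) (by fun_prop) fun a suf _ => (nrm_peval (A a) suf _).sz_le

@[fun_prop] theorem pscal_pt {A : α → Alg} {u : α → Vec}
    (hA : PT A) (hu : PT u) :
    PT fun a => Alg.pscal (A a) (u a) := by
  unfold Alg.pscal; fun_prop

@[fun_prop] theorem dmStep_pt {A : α → Alg} {m : α → Pol} {c : α → Vec} {s : α → Pol × Pol}
    (hA : PT A) (hm : PT m) (hc : PT c) (hs : PT s) :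
    PT fun a => Alg.dmStep (A a) (m a) (c a) (s a) := by
  unfold Alg.dmStep; fun_prop

@[fun_prop] theorem pdm_pt {A : α → Alg} {P : α → Pol} {m : α → Pol}
    (hA : PT A) (hP : PT P) (hm : PT m) :
    PT fun a => Alg.pdm (A a) (P a) (m a) := by
  unfold Alg.pdm
  refine PT.foldr_of_suffix (f := fun a => (A a).dmStep (m a)) hP (by fun_prop) (by fun_prop)
    (B := fun a => 2 * (((P a).length + (m a).length) * (vsz (A a).p (A a).dim + 1) + 1) + 1)
    (by fun_prop) fun a suf hs => ?_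
  have h1 := (pn_pdm (A a) suf (m a)).1.sz_le (n := (P a).length + (m a).length)
    (by rw [length_pdm_fst]; have := hs.length_le; omega)
  have h2 := (pn_pmod (A a) suf (m a)).sz_le (n := (P a).length + (m a).length)
    (by rw [length_pmod]; omega)
  unfold Alg.pmod at h2
  unfold Alg.pdm at h1 h2
  rw [sz_prod]
  omega

@[fun_prop] theorem pmod_pt {A : α → Alg} {P : α → Pol} {m : α → Pol}
    (hA : PT A) (hP : PT P) (hm : PT m) :
    PT fun a => Alg.pmod (A a) (P a) (m a) := by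
  unfold Alg.pmod; fun_prop

@[fun_prop] theorem pdiv_pt {A : α → Alg} {P : α → Pol} {m : α → Pol}
    (hA : PT A) (hP : PT P) (hm : PT m) :
    PT fun a => Alg.pdiv (A a) (P a) (m a) := by
  unfold Alg.pdiv; fun_prop

@[fun_prop] theorem ppowMod_pt {A : α → Alg} {P : α → Pol} {e : α → ℕ} {m : α → Pol}
    (hA : PT A) (hP : PT P) (he : PT e) (hm : PT m) :
    PT fun a => Alg.ppowMod (A a) (P a) (e a) (m a) := by
  unfold Alg.ppowMod
  refine PT.foldr_of_suffix (by fun_prop) (by fun_prop) (by fun_prop)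
    (B := fun a => (m a).length * (vsz (A a).p (A a).dim + 1) + 1) (by fun_prop) fun a suf _ => ?_
  obtain ⟨Q, hQ⟩ := pn_ppowMod_aux (A a) (P a) (m a) suf
  rw [hQ]
  exact (pn_pmod _ _ _).sz_le (by simp)

@[fun_prop] theorem tr_pt {A : α → Alg} {m : α → Pol} {P : α → Pol}
    (hA : PT A) (hm : PT m) (hP : PT P) :
    PT fun a => Alg.tr (A a) (m a) (P a) := by
  unfold Alg.tr; fun_prop

@[fun_prop] theorem ptrim_pt {A : α → Alg} {P : α → Pol}
    (hA : PT A) (hP : PT P) :
    PT fun a => Alg.ptrim (A a) (P a) := by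
  unfold Alg.ptrim; fun_prop

@[fun_prop] theorem monicize_pt {A : α → Alg} {q : α → ℕ} {P : α → Pol}
    (hA : PT A) (hq : PT q) (hP : PT P) :
    PT fun a => Alg.monicize (A a) (q a) (P a) := by
  unfold Alg.monicize; fun_prop

@[fun_prop] theorem ofPoly_pt {A : α → Alg} {m : α → Pol} {P : α → Pol}
    (hA : PT A) (hm : PT m) (hP : PT P) :
    PT fun a => Alg.ofPoly (A a) (m a) (P a) := by
  unfold Alg.ofPoly; fun_prop

@[fun_prop] theorem toPoly_pt {A : α → Alg} {m : α → Pol} {v : α → Vec}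
    (hA : PT A) (hm : PT m) (hv : PT v) :
    PT fun a => Alg.toPoly (A a) (m a) (v a) := by
  unfold Alg.toPoly; fun_prop

@[fun_prop] theorem emb_pt {A : α → Alg} {m : α → Pol} {c : α → Vec}
    (hA : PT A) (hm : PT m) (hc : PT c) :
    PT fun a => Alg.emb (A a) (m a) (c a) := by
  unfold Alg.emb; fun_prop

@[fun_prop] theorem gen_pt {A : α → Alg} {m : α → Pol}
    (hA : PT A) (hm : PT m) :
    PT fun a => Alg.gen (A a) (m a) := by
  unfold Alg.gen; fun_prop

@[fun_prop] theorem adj_pt {A : α → Alg} {m : α → Pol}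
    (hA : PT A) (hm : PT m) :
    PT fun a => Alg.adj (A a) (m a) := by
  unfold Alg.adj; fun_prop

@[fun_prop] theorem minMonic_pt {A : α → Alg} {q : α → ℕ} {U : α → List Pol}
    (hA : PT A) (hq : PT q) (hU : PT U) :
    PT fun a => Alg.minMonic (A a) (q a) (U a) := by
  unfold Alg.minMonic; fun_prop

@[fun_prop] theorem idealMon_pt {A : α → Alg} {q : α → ℕ} {m : α → Pol} {U : α → List Pol}
    (hA : PT A) (hq : PT q) (hm : PT m) (hU : PT U) :
    PT fun a => Alg.idealMon (A a) (q a) (m a) (U a) := by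
  unfold Alg.idealMon; fun_prop

@[fun_prop] theorem pgcd_pt {A : α → Alg} {q : α → ℕ} {m : α → Pol} {U : α → List Pol}
    (hA : PT A) (hq : PT q) (hm : PT m) (hU : PT U) :
    PT fun a => Alg.pgcd (A a) (q a) (m a) (U a) := by
  have h : PT fun a => (A a).idealMon (q a) (m a) ((U a).flatMap fun P =>
      (List.range ((m a).length - 1)).flatMap fun j => (A a).basis.map fun e =>
        (A a).psmul e ((A a).pshift ((m a).length - ((m a).length - j)) P)) := by fun_prop
  refine h.of_eq fun a => ?_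
  unfold Alg.pgcd
  congr 1
  refine List.flatMap_congr fun P _ => List.flatMap_congr fun j hj => ?_
  have := List.mem_range.1 hj
  rw [show (m a).length - ((m a).length - j) = j by omega]

@[fun_prop] theorem kerA_pt {A : α → Alg} {U : α → List Pol}
    (hA : PT A) (hU : PT U) :
    PT fun a => Alg.kerA (A a) (U a) := by
  unfold Alg.kerA; fun_prop

@[fun_prop] theorem basisA_pt {A : α → Alg} {D : α → ℕ} {key : α → β → Pol} {l : α → List β} (hA : PT A)
    (hD : PT D) (bD : PB D) (hk : PT fun x : α × β => key x.1 x.2) (hl : PT l) :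
    PT fun a => (A a).basisA (D a) (key a) (l a) := by
  unfold Alg.basisA; fun_prop

end Alg

theorem padicValNat_le_size (r n : ℕ) : padicValNat r n ≤ n.size := by
  rcases Nat.eq_zero_or_pos n with rfl | hn
  · simp
  refine (padicValNat_le_nat_log n).trans ?_
  rcases Nat.lt_or_ge r 2 with h | h
  · rw [Nat.log_of_left_le_one (by omega)]; omega
  · exact (Nat.log_anti_left (by norm_num) h).trans
      (Nat.log_lt_of_lt_pow' (Nat.size_pos.2 hn).ne' (Nat.lt_size_self n)).le

theorem padicValNat_eq_countP (r n : ℕ) : padicValNat r n = if r = 1 ∨ n = 0 then 0 else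
    (List.range n.size).countP fun i => decide (r ^ (n.size - (n.size - (i + 1))) ∣ n) := by
  split_ifs with h
  · rcases h with rfl | rfl <;> simp
  · push Not at h
    have h1 := padicValNat_le_size r n
    have h2 : ∀ i ∈ List.range n.size, (decide (r ^ (n.size - (n.size - (i + 1))) ∣ n) = true ↔
        decide (i < padicValNat r n) = true) := fun i hi => by
      have := List.mem_range.1 hi
      rw [show n.size - (n.size - (i + 1)) = i + 1 by omega, decide_eq_true_iff, decide_eq_true_iff,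
        padicValNat_dvd_iff_le_of_ne_one h.1 h.2]
      rfl
    rw [List.countP_congr h2]
    generalize padicValNat r n = e at h1
    generalize n.size = s at h1
    induction s, h1 using Nat.le_induction with
    | base =>
      rw [List.countP_eq_length.2 (by simp), List.length_range]
    | succ s hs ih =>
      rw [List.range_succ, List.countP_append, ← ih]
      simp [hs]

@[fun_prop] theorem padicValNat_pb {r n : α → ℕ} (hn : PT n) : PB fun a => padicValNat (r a) (n a) :=
  (PB.size hn).mono fun _ => padicValNat_le_size _ _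

@[fun_prop] theorem padicValNat_pt {r n : α → ℕ} (hr : PT r) (hn : PT n) :
    PT fun a => padicValNat (r a) (n a) := by
  simp only [padicValNat_eq_countP]
  fun_prop

namespace Alg

@[fun_prop] theorem idem_pt {A : α → Alg} {r : α → ℕ} {u : α → Vec} {v : α → Vec} {k : α → ℕ}
    (hA : PT A) (hr : PT r) (br : PB r) (hu : PT u) (hv : PT v) (hk : PT k) :
    PT fun a => Alg.idem (A a) (r a) (u a) (v a) (k a) := by
  unfold Alg.idem; fun_prop

@[fun_prop] theorem gam_pt {A : α → Alg} {r : α → ℕ} {q : α → ℕ} {g : α → Vec}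
    (hA : PT A) (hr : PT r) (hq : PT q) (hg : PT g) :
    PT fun a => Alg.gam (A a) (r a) (q a) (g a) := by
  unfold Alg.gam; fun_prop

@[fun_prop] theorem zeta_pt {A : α → Alg} {r : α → ℕ} {q : α → ℕ} {g : α → Vec}
    (hA : PT A) (hr : PT r) (hq : PT q) (hg : PT g) :
    PT fun a => Alg.zeta (A a) (r a) (q a) (g a) := by
  unfold Alg.zeta; fun_prop

@[fun_prop] theorem digStep_pt {A : α → Alg} {r : α → ℕ} {e : α → ℕ} {u : α → Vec} {v : α → Vec} {s : α → Vec × List (List Vec)} {i : α → ℕ}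
    (hA : PT A) (hr : PT r) (br : PB r) (he : PT e) (be : PB e) (hu : PT u) (hv : PT v) (hs : PT s) (hi : PT i) :
    PT fun a => Alg.digStep (A a) (r a) (e a) (u a) (v a) (s a) (i a) := by
  unfold Alg.digStep; fun_prop

theorem nrm_idem (A : Alg) (r : ℕ) (ζ u : Vec) (c : ℕ) : Nrm A.p A.dim (A.idem r ζ u c) := nrm_mkv _ _ _

theorem digs_fold (A : Alg) (r e : ℕ) (γ ζ v : Vec) (hv : Nrm A.p A.dim v) (l : List ℕ) :
    Nrm A.p A.dim (l.foldl (A.digStep r e γ ζ) (v, [])).1 ∧
      (l.foldl (A.digStep r e γ ζ) (v, [])).2.length = l.length ∧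
      ∀ E ∈ (l.foldl (A.digStep r e γ ζ) (v, [])).2, E.length = r ∧ A.PN E := by
  induction l using List.reverseRecOn with
  | nil => exact ⟨hv, rfl, fun E hE => by simp at hE⟩
  | append_singleton l b ih =>
    rw [List.foldl_append, List.foldl_cons, List.foldl_nil]
    generalize List.foldl _ _ l = s at ih
    unfold Alg.digStep
    refine ⟨nrm_mkv _ _ _, by simp [ih.2.1], fun E hE => ?_⟩
    rcases List.mem_append.1 hE with hE | hE
    · exact ih.2.2 E hE
    · rw [List.mem_singleton.1 hE]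
      exact ⟨by simp, pn_map A _ fun _ => nrm_mkv _ _ _⟩

@[fun_prop] theorem digs_pt {A : α → Alg} {r : α → ℕ} {q : α → ℕ} {g : α → Vec} {v : α → Vec}
    (hA : PT A) (hr : PT r) (br : PB r) (hq : PT q) (hg : PT g) (hv : PT v) :
    PT fun a => Alg.digs (A a) (r a) (q a) (g a) (v a) := by
  unfold Alg.digs
  refine PT.snd (β := Vec) (PT.foldl_of_prefix (by fun_prop) (by fun_prop) (by fun_prop)
    (B := fun a => vsz (A a).p (A a).dim + (padicValNat (r a) (q a - 1) *
      (r a * (vsz (A a).p (A a).dim + 1) + 1 + 1) + 1) + 1) (by fun_prop) fun a pre hp => ?_)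
  obtain ⟨h1, h2, h3⟩ := digs_fold (A a) (r a) (padicValNat (r a) (q a - 1))
    ((A a).gam (r a) (q a) (g a)) ((A a).zeta (r a) (q a) (g a)) _ (nrm_pow (A a) (v a)
      ((q a - 1) / r a ^ padicValNat (r a) (q a - 1))) pre
  have h4 := sz_list_le fun E hE => (h3 E hE).2.sz_le (h3 E hE).1.le
  have h5 : pre.length ≤ padicValNat (r a) (q a - 1) := by simpa using hp.length_le
  rw [h2] at h4
  rw [sz_prod]
  exact Nat.succ_le_succ (Nat.add_le_add h1.sz_le (h4.trans (by gcongr)))

@[fun_prop] theorem dig_pt {A : α → Alg} {r : α → ℕ} {q : α → ℕ} {g : α → Vec} {v : α → Vec} {i : α → ℕ} {k : α → ℕ}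
    (hA : PT A) (hr : PT r) (br : PB r) (hq : PT q) (hg : PT g) (hv : PT v) (hi : PT i) (hk : PT k) :
    PT fun a => Alg.dig (A a) (r a) (q a) (g a) (v a) (i a) (k a) := by
  unfold Alg.dig; fun_prop

@[fun_prop] theorem root_pt {A : α → Alg} {r : α → ℕ} {q : α → ℕ} {g : α → Vec} {v : α → Vec}
    (hA : PT A) (hr : PT r) (br : PB r) (hq : PT q) (hg : PT g) (hv : PT v) :
    PT fun a => Alg.root (A a) (r a) (q a) (g a) (v a) := by
  unfold Alg.root; fun_prop

@[fun_prop] theorem proot_pt {A : α → Alg} {r : α → ℕ} {q : α → ℕ} {g : α → Vec} {P : α → Pol} {m : α → Pol}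
    (hA : PT A) (hr : PT r) (br : PB r) (hq : PT q) (hg : PT g) (hP : PT P) (hm : PT m) :
    PT fun a => Alg.proot (A a) (r a) (q a) (g a) (P a) (m a) := by
  unfold Alg.proot; fun_prop

end Alg

@[fun_prop] theorem base_pt {p : α → ℕ}
    (hp : PT p) :
    PT fun a => base (p a) := by
  unfold base; fun_prop

@[fun_prop] theorem up_pt {u : α → Vec}
    (hu : PT u) :
    PT fun a => up (u a) := by
  unfold up; fun_prop

@[fun_prop] theorem quot_pt {p : α → ℕ} {u : α → Vec}
    (hp : PT p) (hu : PT u) :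
    PT fun a => quot (p a) (u a) := by
  unfold quot; fun_prop

@[fun_prop] theorem qcls_pt {p : α → ℕ} {u : α → Vec} {v : α → Vec}
    (hp : PT p) (hu : PT u) (hv : PT v) :
    PT fun a => qcls (p a) (u a) (v a) := by
  unfold qcls; fun_prop

@[fun_prop] theorem mainA_pt {p : α → ℕ} {u : α → Vec} {v : α → Vec}
    (hp : PT p) (hu : PT u) (hv : PT v) :
    PT fun a => mainA (p a) (u a) (v a) := by
  unfold mainA; fun_prop

@[fun_prop] theorem mainX_pt {p : α → ℕ} {u : α → Vec} {v : α → Vec}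
    (hp : PT p) (hu : PT u) (hv : PT v) :
    PT fun a => mainX (p a) (u a) (v a) := by
  unfold mainX; fun_prop

@[fun_prop] theorem mainC_pt {p : α → ℕ} {u : α → Vec} {v : α → Vec} {g : α → Vec}
    (hp : PT p) (hu : PT u) (hv : PT v) (hg : PT g) :
    PT fun a => mainC (p a) (u a) (v a) (g a) := by
  unfold mainC; fun_prop

/-! ## `Bd` bounds -/

theorem Nrm.bd {p D N : ℕ} {v : Vec} (h : Nrm p D v) (hD : D ≤ N) (hp : p < 2 ^ N) : Bd N v :=
  ⟨h.1.le.trans hD, fun x hx => (h.2 x hx).trans_lt hp⟩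

theorem bd_mkv {p D N : ℕ} (hD : D ≤ N) (hp : p < 2 ^ N) (f : ℕ → ℕ) : Bd N (mkv p D f) :=
  (nrm_mkv p D f).bd hD hp

theorem bd_of_le {N x : ℕ} (h : x ≤ N) : Bd N x := h.trans_lt Nat.lt_two_pow_self

theorem Bd.sublist [Bdd β] {N : ℕ} {l l' : List β} (h : Bd N l') (hl : l.Sublist l') : Bd N l :=
  ⟨hl.length_le.trans h.1, fun x hx => h.2 x (hl.subset hx)⟩

theorem bd_map {γ : Type*} [Bdd β] {N : ℕ} {l : List γ} {f : γ → β} (hl : l.length ≤ N)
    (h : ∀ x ∈ l, Bd N (f x)) : Bd N (l.map f) :=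
  ⟨by simpa using hl, fun y hy => by
    obtain ⟨x, hx, rfl⟩ := List.mem_map.1 hy
    exact h x hx⟩

theorem Bd.getD [Bdd β] {N : ℕ} {l : List β} {d : β} (h : Bd N l) (hd : Bd N d) (i : ℕ) :
    Bd N (l.getD i d) := by
  rw [List.getD_eq_getElem?_getD]
  cases hi : l[i]? with
  | none => exact hd
  | some x => exact h.2 x (List.mem_of_getElem? hi)

theorem bd_ker {p D N : ℕ} {G : List Vec} (hG : G.length ≤ N) (hp : p < 2 ^ N) : Bd N (ker p D G) :=
  ⟨(length_ker_le p D G).trans hG, fun c hc => by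
    obtain ⟨f, rfl⟩ := ker_mkv hc
    exact bd_mkv hG hp f⟩

theorem bd_basisOf {p D N : ℕ} (hD : D ≤ N) (hp : p < 2 ^ N) (U : List Vec) : Bd N (basisOf p D U) :=
  bd_map ((length_basisOn_le _ _ _ _).trans hD) fun _ _ => bd_mkv hD hp _

theorem bd_solve {p D N : ℕ} {G : List Vec} (hG : G.length ≤ N) (hp : p < 2 ^ N) (y : Vec) :
    Bd N (solve p D G y) := by
  unfold solve
  generalize List.find? _ _ = o
  cases o with
  | none => exact bd_nil
  | some c => exact bd_mkv hG hp _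

namespace Alg

variable {A : Alg} {N : ℕ}

theorem Sm.mono {N' : ℕ} (h : A.Sm N) (hN : N ≤ N') : A.Sm N' :=
  ⟨h.1.trans hN, h.2.trans_le (Nat.pow_le_pow_right (by norm_num) hN)⟩

theorem Sm.bd (h : A.Sm N) {v : Vec} (hv : Nrm A.p A.dim v) : Bd N v := hv.bd h.1 h.2

theorem Sm.pbd (h : A.Sm N) {P : Pol} (hP : A.PN P) (hl : P.length ≤ N) : Bd N P :=
  ⟨hl, fun c hc => h.bd (hP c hc)⟩

theorem Sm.zero (h : A.Sm N)  : Bd N A.zero := h.bd (nrm_zero A )
theorem Sm.nrm (h : A.Sm N) (u : Vec) : Bd N (A.nrm u) := h.bd (nrm_nrm A u)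
theorem Sm.add (h : A.Sm N) (u : Vec) (v : Vec) : Bd N (A.add u v) := h.bd (nrm_add A u v)
theorem Sm.sub (h : A.Sm N) (u : Vec) (v : Vec) : Bd N (A.sub u v) := h.bd (nrm_sub A u v)
theorem Sm.neg (h : A.Sm N) (u : Vec) : Bd N (A.neg u) := h.bd (nrm_neg A u)
theorem Sm.smul (h : A.Sm N) (k : ℕ) (u : Vec) : Bd N (A.smul k u) := h.bd (nrm_smul A k u)
theorem Sm.scal (h : A.Sm N) (k : ℕ) : Bd N (A.scal k) := h.bd (nrm_scal A k)
theorem Sm.sum (h : A.Sm N) (l : List Vec) : Bd N (A.sum l) := h.bd (nrm_sum A l)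
theorem Sm.mul (h : A.Sm N) (u : Vec) (v : Vec) : Bd N (A.mul u v) := h.bd (nrm_mul A u v)
theorem Sm.prod (h : A.Sm N) (l : List Vec) : Bd N (A.prod l) := h.bd (nrm_prod A l)
theorem Sm.pow (h : A.Sm N) (u : Vec) (k : ℕ) : Bd N (A.pow u k) := h.bd (nrm_pow A u k)
theorem Sm.inv (h : A.Sm N) (k : ℕ) (u : Vec) : Bd N (A.inv k u) := h.bd (nrm_inv A k u)
theorem Sm.peval (h : A.Sm N) (P : Pol) (u : Vec) : Bd N (A.peval P u) := h.bd (nrm_peval A P u)
theorem Sm.idem (h : A.Sm N) (k : ℕ) (u : Vec) (v : Vec) (j : ℕ) : Bd N (A.idem k u v j) := h.bd (nrm_idem A k u v j)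
theorem Sm.root (h : A.Sm N) (r q : ℕ) (g v : Vec) : Bd N (A.root r q g v) := h.mul _ _
theorem Sm.zeta (h : A.Sm N) (r q : ℕ) (g : Vec) : Bd N (A.zeta r q g) := h.pow _ _
theorem Sm.basis (h : A.Sm N) : Bd N A.basis :=
  bd_map (by simpa using h.1) fun _ _ => bd_mkv h.1 h.2 _
theorem Sm.pmod (h : A.Sm N) (P : Pol) {m : Pol} (hm : m.length ≤ N + 1) : Bd N (A.pmod P m) :=
  h.pbd (pn_pmod A P m) (by simp; omega)
theorem Sm.pdiv (h : A.Sm N) {P : Pol} (hP : P.length ≤ N) (m : Pol) : Bd N (A.pdiv P m) :=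
  h.pbd (pn_pdiv A P m) (by simp; omega)
theorem Sm.ppowMod (h : A.Sm N) (P : Pol) (e : ℕ) {m : Pol} (hm : m.length ≤ N + 1) :
    Bd N (A.ppowMod P e m) := h.pbd (pn_ppowMod A P e m) (by simp; omega)
theorem Sm.toPoly (h : A.Sm N) {m : Pol} (hm : m.length ≤ N + 1) (v : Vec) : Bd N (A.toPoly m v) :=
  h.pbd (pn_toPoly A m v) (by simp; omega)
theorem Sm.proot (h : A.Sm N) (r q : ℕ) (g : Vec) (v : Pol) {m : Pol} (hm : m.length ≤ N + 1) :
    Bd N (A.proot r q g v m) := h.toPoly hm _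
theorem Sm.tr (h : A.Sm N) (m P : Pol) : Bd N (A.tr m P) := by
  unfold Alg.tr
  rw [List.getD_eq_getElem?_getD]
  cases hi : (A.pmod (A.pmul P (A.pderiv m)) m)[m.length - 2]? with
  | none => exact bd_nil
  | some x => exact h.bd (pn_pmod A _ _ x (List.mem_of_getElem? hi))
theorem Sm.psmul (h : A.Sm N) (c : Vec) {P : Pol} (hP : P.length ≤ N) : Bd N (A.psmul c P) :=
  h.pbd (pn_psmul A c P) (by simpa using hP)
theorem Sm.pneg (h : A.Sm N) {P : Pol} (hP : P.length ≤ N) : Bd N (A.pneg P) :=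
  h.pbd (pn_pneg A P) (by simpa using hP)
theorem Sm.padd (h : A.Sm N) {P Q : Pol} (hP : P.length ≤ N) (hQ : Q.length ≤ N) : Bd N (A.padd P Q) :=
  h.pbd (pn_padd A P Q) (by simp; omega)
theorem Sm.psub (h : A.Sm N) {P Q : Pol} (hP : P.length ≤ N) (hQ : Q.length ≤ N) : Bd N (A.psub P Q) :=
  h.pbd (pn_psub A P Q) (by simp; omega)
theorem Sm.pmul (h : A.Sm N) {P Q : Pol} (hl : P.length + Q.length ≤ N + 1) : Bd N (A.pmul P Q) :=
  h.pbd (pn_pmul A P Q) (by simp; omega)
theorem Sm.psum (h : A.Sm N) {l : List Pol} (hl : ∀ P ∈ l, P.length ≤ N) : Bd N (A.psum l) :=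
  h.pbd (pn_psum A l) (length_psum_le A hl)
theorem Sm.monicize (h : A.Sm N) (q : ℕ) {P : Pol} (hP : P.length ≤ N) : Bd N (A.monicize q P) := by
  unfold Alg.monicize
  split_ifs
  · exact bd_nil (α := Vec)
  · exact h.psmul _ ((ptrim_prefix A P).length_le.trans hP)
  · exact h.nrm _
theorem monicize_nrm (A : Alg) {q : ℕ} {P : Pol} :
    (∀ c, A.monicize q P = Sum.inl c → Nrm A.p A.dim c) ∧
      ∀ Q, A.monicize q P = Sum.inr Q → A.PN Q := by
  unfold Alg.monicize
  refine ⟨fun c hc => ?_, fun Q hQ => ?_⟩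
  · split_ifs at hc
    cases hc
    exact nrm_nrm A _
  · split_ifs at hQ
    · cases hQ
      exact fun c hc => by simp at hc
    · cases hQ
      exact pn_psmul A _ _
/-- witnesses returned by `pgcd` (`idealMon`, `minMonic`: same term) are bounded -/
theorem Sm.pgcd_inl (h : A.Sm N) {q : ℕ} {m : Pol} {G : List Pol} {c : Vec}
    (hc : A.pgcd q m G = Sum.inl c) : Bd N c := h.bd ((monicize_nrm A).1 c hc)
theorem Sm.pgcd_inr (h : A.Sm N) {q : ℕ} {m : Pol} {G : List Pol} {d : Pol}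
    (hd : A.pgcd q m G = Sum.inr d) (hl : d.length ≤ N) : Bd N d := h.pbd ((monicize_nrm A).2 d hd) hl
theorem Sm.kerA (h : A.Sm N) {ys : List Pol} (hl : ys.length * A.dim ≤ N) (hl' : ys.length ≤ N) :
    Bd N (A.kerA ys) :=
  bd_map ((length_ker_le _ _ _).trans (by simpa [units] using hl)) fun _ _ =>
    bd_map (by simpa using hl') fun _ _ => bd_mkv h.1 h.2 _
theorem Sm.digs (h : A.Sm N) {r q : ℕ} (hr : r ≤ N) (hq : q < 2 ^ N) (g v : Vec) :
    Bd N (A.digs r q g v) := by
  obtain ⟨-, h2, h3⟩ := digs_fold A r (padicValNat r (q - 1)) (A.gam r q g) (A.zeta r q g) _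
    (nrm_pow A v ((q - 1) / r ^ padicValNat r (q - 1))) (List.range (padicValNat r (q - 1)))
  refine ⟨?_, fun E hE => h.pbd (h3 E hE).2 ((h3 E hE).1.le.trans hr)⟩
  unfold Alg.digs
  rw [h2, List.length_range]
  exact (padicValNat_le_size _ _).trans (Nat.size_le.2 (by omega))
theorem Sm.adj (h : A.Sm N) {m : Pol} (hm : (m.length - 1) * A.dim ≤ N) : (A.adj m).Sm N :=
  ⟨by simpa using hm, by simpa using h.2⟩
theorem nrm_ofPoly (A : Alg) (m P : Pol) : Nrm (A.adj m).p (A.adj m).dim (A.ofPoly m P) := by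
  rw [adj_p, adj_dim]; exact nrm_mkv _ _ _

end Alg

end Crest.Agent.R312
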