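import Crest.Agent.R312.A0Min
import Crest.Agent.R312.A0KerA
import Crest.Agent.R312.A0Dig
import Crest.Agent.R312.A0Main
import Crest.Agent.R312.A0PT

/-! # R312 / A0 : the `F_p`-library (see `A0Defs.lean`) -/
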