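import Crest.Agent.R312.A0Div

/-!
# R312 / A0Adj : adjoining a root
Read `A0Defs.lean` first.  Keep the statements; auxiliary lemmas get the prefix `a0j_`.
-/

set_option autoImplicit false

namespace Crest.Agent.R312

open Crest.Agent.Lib.PT Polynomial Crest.PolyFactor

variable {R : Type*} [CommRing R] {A : Alg} {φ : Vec → R} {m : Pol}

theorem a0j_deg (φ : Vec → R) (A : Alg) (m : Pol) (v : Vec) :
    (poly φ (A.toPoly m v)).degree < (m.length - 1 : ℕ) := by
  simpa only [length_toPoly] using degree_poly_lt φ (A.toPoly m v)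

theorem a0j_exists (hs : Function.Surjective φ) (h0 : φ [] = 0) (Q : R[X]) : ∃ P : Pol, poly φ P = Q :=
  (exists_poly hs h0 (k := Q.natDegree + 1)
    (degree_le_natDegree.trans_lt (by exact_mod_cast Nat.lt_succ_self _))).imp fun _ h => h.2

theorem a0j_faith (h : Iso A φ) {v : Vec} (hv : poly φ (A.toPoly m v) = 0) :
    IsZ (A.adj m).p (A.adj m).dim v := by
  rw [Alg.adj_p, Alg.adj_dim]
  exact Faith.poly_unflat h.hom.lin h.faith _ v hv

theorem a0j_getD {β : Type} (p D : ℕ) (f : Vec → β) (d : β) {i : ℕ} (hi : i < D) :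
    ((units p D).map f).getD i d = f (unit p D i) := by
  rw [List.getD_eq_getElem _ _ (by simpa [units] using hi)]
  simp [units]

theorem a0j_card {F T : Type*} [Field F] {φ : Vec → F} (hm : Mon φ m) (s : Finset T) (α : T → F)
    (hs : poly φ m = ∏ t ∈ s, (X - C (α t))) : m.length - 1 = s.card := by
  rw [← hm.natDegree_eq, hs, natDegree_finsetProd_X_sub_C_eq_card]

namespace Hom

theorem toPoly_ofPoly (h : Hom A φ) (hm : Mon φ m) (P : Pol) :
    poly φ (A.toPoly m (A.ofPoly m P)) = poly φ P %ₘ poly φ m := by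
  rw [← h.pmod hm]
  refine h.lin.poly_unflat_flat ?_
  simpa only [length_pmod] using degree_poly_lt φ (A.pmod P m)

theorem lift_ofPoly (h : Hom A φ) (hm : Mon φ m) {x : R} (hx : (poly φ m).eval x = 0) (P : Pol) :
    lift A m φ x (A.ofPoly m P) = (poly φ P).eval x := by
  rw [R312.lift, h.toPoly_ofPoly hm, modByMonic_eq_sub_mul_div, eval_sub, eval_mul, hx, zero_mul,
    sub_zero]

theorem lift_emb (h : Hom A φ) (hm : Mon φ m) {x : R} (hx : (poly φ m).eval x = 0) (c : Vec) :
    lift A m φ x (A.emb m c) = φ c := by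
  rw [Alg.emb, h.lift_ofPoly hm hx, poly_singleton, eval_C]

theorem lift_gen (h : Hom A φ) (hm : Mon φ m) {x : R} (hx : (poly φ m).eval x = 0) :
    lift A m φ x (A.gen m) = x := by
  rw [Alg.gen, h.lift_ofPoly hm hx, h.pX, eval_X]

/-- `hom_of_tab`, `Lin.poly_unflat`, `lift_ofPoly` (`unfold Alg.adj`) -/
theorem lift (h : Hom A φ) (hm : Mon φ m) {x : R} (hx : (poly φ m).eval x = 0) :
    Hom (A.adj m) (lift A m φ x) := by
  refine hom_of_tab ?_ ?_ fun i hi j hj => ?_
  · rw [Alg.adj_p, Alg.adj_dim]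
    exact (h.lin.poly_unflat _).comp (evalRingHom x).toAddMonoidHom
  · unfold Alg.adj
    rw [h.lift_ofPoly hm hx, h.pone, eval_one]
  · rw [Alg.adj_dim] at hi hj
    rw [Alg.adj_p, Alg.adj_dim]
    unfold Alg.adj
    rw [a0j_getD _ _ _ _ hi, a0j_getD _ _ _ _ hj, h.lift_ofPoly hm hx, h.pmul, eval_mul]
    rfl

end Hom

/-- `Hom.lift` for `AdjoinRoot.of ∘ φ` and the root; a multiple of the monic `m` of smaller degree vanishes -/
theorem Iso.adjoinRoot (h : Iso A φ) (hm : Mon φ m) :
    Iso (A.adj m) fun v => AdjoinRoot.mk (poly φ m) (poly φ (A.toPoly m v)) := by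
  have e : ∀ P : Pol, (poly (fun v => AdjoinRoot.of (poly φ m) (φ v)) P).eval (AdjoinRoot.root _) =
      AdjoinRoot.mk (poly φ m) (poly φ P) := fun P => by
    rw [← map_poly, eval_map, ← AdjoinRoot.algebraMap_eq, ← aeval_def, AdjoinRoot.aeval_eq]
  refine ⟨?_, fun v hv => a0j_faith h ?_, fun y => ?_⟩
  · have h1 := (h.hom.comp (AdjoinRoot.of (poly φ m))).lift (hm.comp _) (x := AdjoinRoot.root _)
      (by rw [e, AdjoinRoot.mk_self])
    convert h1 using 2 with v
    exact (e _).symm
  · nontriviality R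
    by_contra h0
    refine hm.monic.not_dvd_of_degree_lt h0 ?_ (AdjoinRoot.mk_eq_zero.1 hv)
    rw [degree_eq_natDegree hm.monic.ne_zero, hm.natDegree_eq]
    exact a0j_deg φ A m v
  · obtain ⟨Q, rfl⟩ := AdjoinRoot.mk_surjective y
    obtain ⟨P, rfl⟩ := a0j_exists h.surj h.hom.nil Q
    refine ⟨A.ofPoly m P, ?_⟩
    beta_reduce
    rw [h.hom.toPoly_ofPoly hm, modByMonic_eq_sub_mul_div, map_sub, map_mul, AdjoinRoot.mk_self,
      zero_mul, sub_zero]

/-- a split polynomial over a field: vanishing at `deg m` points, Lagrange interpolation -/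
theorem Iso.split_field {F T : Type*} [Field F] [Fintype T] {φ : Vec → F} (h : Iso A φ) (hm : Mon φ m)
    {α : T → F} (hα : Function.Injective α) (hs : poly φ m = ∏ t, (X - C (α t))) :
    Iso (A.adj m) fun v t => lift A m φ (α t) v := by
  classical
  have hx : ∀ t, (poly φ m).eval (α t) = 0 := fun t => by
    rw [hs, eval_prod]
    exact Finset.prod_eq_zero (Finset.mem_univ t) (by simp)
  refine ⟨Hom.pi (by rw [Alg.adj_p]; exact h.hom.pos) fun t => h.hom.lift hm (hx t),
    fun v hv => a0j_faith h ?_, fun y => ?_⟩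
  · refine eq_zero_of_degree_lt_of_eval_index_eq_zero Finset.univ hα.injOn ?_
      fun t _ => congrFun hv t
    rw [← a0j_card hm _ α hs]
    exact a0j_deg φ A m v
  · obtain ⟨P, hP⟩ := a0j_exists h.surj h.hom.nil (Lagrange.interpolate Finset.univ α y)
    refine ⟨A.ofPoly m P, funext fun t => ?_⟩
    rw [h.hom.lift_ofPoly hm (hx t), hP,
      Lagrange.eval_interpolate_at_node _ hα.injOn (Finset.mem_univ t)]

/-- a polynomial over a product of fields which is split and separable at every point -/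
theorem Iso.split {S F T : Type*} [Field F] [Fintype T] [DecidableEq S] {φ : Vec → S → F} (h : Iso A φ)
    (hm : Mon φ m) (π : T → S) {α : T → F} (hα : ∀ t t', π t = π t' → α t = α t' → t = t')
    (hs : ∀ a, poly (pt φ a) m = ∏ t ∈ Finset.univ.filter fun t => π t = a, (X - C (α t))) :
    Iso (A.adj m) fun v t => lift A m (pt φ (π t)) (α t) v := by
  classical
  have hx : ∀ t, (poly (pt φ (π t)) m).eval (α t) = 0 := fun t => by
    rw [hs, eval_prod]
    exact Finset.prod_eq_zero (i := t) (by simp) (by simp)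
  have hinj : ∀ a, Set.InjOn α (Finset.univ.filter fun t => π t = a : Finset T) :=
    fun a t ht t' ht' => hα t t' ((Finset.mem_filter.1 ht).2.trans (Finset.mem_filter.1 ht').2.symm)
  refine ⟨Hom.pi (by rw [Alg.adj_p]; exact h.hom.pos) fun t => (h.hom.pt _).lift (hm.pt _) (hx t),
    fun v hv => a0j_faith h (h.hom.pisZ ((h.pisZ_iff _).2 fun a => ?_)), fun y => ?_⟩
  · refine eq_zero_of_degree_lt_of_eval_index_eq_zero _ (hinj a) ?_ fun t ht => ?_
    · rw [← a0j_card (hm.pt a) _ α (hs a)]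
      exact a0j_deg _ A m v
    · rw [← (Finset.mem_filter.1 ht).2]
      exact congrFun hv t
  · obtain ⟨P, hP⟩ := a0j_exists h.surj h.hom.nil (∑ i ∈ Finset.range (m.length - 1), monomial i
      fun a => (Lagrange.interpolate (Finset.univ.filter fun t => π t = a) α y).coeff i)
    refine ⟨A.ofPoly m P, funext fun t => ?_⟩
    have h1 := Lagrange.degree_interpolate_lt y (hinj (π t))
    rw [← a0j_card (hm.pt _) _ α (hs _)] at h1
    rw [(h.hom.pt _).lift_ofPoly (hm.pt _) (hx t), poly_pt, hP,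
      ← Lagrange.eval_interpolate_at_node y (hinj (π t)) (i := t) (by simp)]
    congr 1
    ext i
    simp only [coeff_map, finsetSum_coeff, coeff_monomial, Finset.sum_ite_eq', Finset.mem_range]
    split_ifs with hi
    · rfl
    · rw [map_zero, coeff_eq_zero_of_degree_lt (h1.trans_le (by exact_mod_cast not_lt.1 hi))]

theorem iso_quot {p : ℕ} (hp : 0 < p) {h : (ZMod p)[X]} {l : Vec} (hl : FMon p l)
    (he : ofCoeffList p l = h) : Iso (quot p l) (qv h l) := by
  have h1 := (iso_base hp).adjoinRoot (mon_up.2 hl)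
  rw [poly_up, he] at h1
  unfold quot
  exact h1

theorem qv_qcls {p : ℕ} (hp : 0 < p) {h : (ZMod p)[X]} {l : Vec} (hl : FMon p l)
    (he : ofCoeffList p l = h) (γ : Vec) :
    qv h l (qcls p l γ) = AdjoinRoot.mk h (ofCoeffList p γ) := by
  rw [qv, qcls, (iso_base hp).hom.toPoly_ofPoly (mon_up.2 hl), poly_up, poly_up, he,
    modByMonic_eq_sub_mul_div, map_sub, map_mul, AdjoinRoot.mk_self, zero_mul, sub_zero]

end Crest.Agent.R312
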