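import Crest.Agent.R312.A0Vec

/-!
# R312 / A0Alg : ring operations of an algebra
Read `A0Defs.lean` first.  Keep the statements; auxiliary lemmas get the prefix `a0a_`.
-/

set_option autoImplicit false
set_option linter.unusedSectionVars false

namespace Crest.Agent.R312

open Crest.Agent.Lib.PT Polynomial Crest.PolyFactor

variable {R R' : Type*} [CommRing R] [CommRing R'] {A : Alg} {φ : Vec → R}

theorem a0a_sum_range {M : Type*} [AddCommMonoid M] (n : ℕ) (f : ℕ → M) :
    ((List.range n).map f).sum = ∑ i ∈ Finset.range n, f i := by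
  induction n with
  | zero => simp
  | succ n ih => rw [List.range_succ, List.map_append, List.sum_append, ih, Finset.sum_range_succ]; simp

theorem a0a_prod_range {M : Type*} [CommMonoid M] (n : ℕ) (f : ℕ → M) :
    ((List.range n).map f).prod = ∏ i ∈ Finset.range n, f i := by
  induction n with
  | zero => simp
  | succ n ih => rw [List.range_succ, List.map_append, List.prod_append, ih, Finset.prod_range_succ]; simp

/-- it suffices to check products of basis vectors -/
theorem hom_of_tab (hl : Lin A.p A.dim φ) (h1 : φ A.one = 1)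
    (ht : ∀ i < A.dim, ∀ j < A.dim,
      φ ((A.tab.getD i []).getD j []) = φ (unit A.p A.dim i) * φ (unit A.p A.dim j)) : Hom A φ := by
  refine ⟨hl, h1, fun u v => ?_⟩
  rw [Alg.mul, hl.mkv, hl.eq u, hl.eq v, Finset.sum_mul_sum]
  simp_rw [a0a_sum_range, Finset.sum_smul]
  rw [Finset.sum_comm]
  refine Finset.sum_congr rfl fun i hi => ?_
  rw [Finset.sum_comm]
  refine Finset.sum_congr rfl fun j hj => ?_
  rw [smul_mul_smul_comm, ← ht i (Finset.mem_range.1 hi) j (Finset.mem_range.1 hj),
    hl.eq ((A.tab.getD i []).getD j []), Finset.smul_sum]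
  exact Finset.sum_congr rfl fun k _ => by rw [mul_nsmul']

namespace Hom

theorem pos (h : Hom A φ) : 0 < A.p := h.lin.pos

theorem cast_p (h : Hom A φ) : (A.p : R) = 0 := by
  have := h.lin.tors A.one
  rwa [h.one, nsmul_one] at this

theorem nil (h : Hom A φ) : φ [] = 0 := h.lin.nil

theorem zero (h : Hom A φ) : φ A.zero = 0 := by
  rw [Alg.zero, h.lin.mkv]
  simp

theorem nrm (h : Hom A φ) (u : Vec) : φ (A.nrm u) = φ u := by
  exact h.lin.nrm u

theorem add (h : Hom A φ) (u v : Vec) : φ (A.add u v) = φ u + φ v := by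
  exact h.lin.vadd u v

theorem sub (h : Hom A φ) (u v : Vec) : φ (A.sub u v) = φ u - φ v := by
  exact h.lin.vsub u v

theorem neg (h : Hom A φ) (u : Vec) : φ (A.neg u) = -φ u := by
  rw [Alg.neg, h.lin.vsub, h.nil, zero_sub]

theorem smul (h : Hom A φ) (c : ℕ) (u : Vec) : φ (A.smul c u) = c * φ u := by
  rw [Alg.smul, h.lin.vsmul, nsmul_eq_mul]

theorem scal (h : Hom A φ) (c : ℕ) : φ (A.scal c) = c := by
  rw [Alg.scal, h.lin.vsmul, h.one, nsmul_one]

theorem sum (h : Hom A φ) (l : List Vec) : φ (A.sum l) = (l.map φ).sum := by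
  exact h.lin.vsum l

theorem sum_range (h : Hom A φ) (n : ℕ) (f : ℕ → Vec) :
    φ (A.sum ((List.range n).map f)) = ∑ i ∈ Finset.range n, φ (f i) := by
  rw [h.sum, List.map_map, a0a_sum_range]
  rfl

theorem prod (h : Hom A φ) (l : List Vec) : φ (A.prod l) = (l.map φ).prod := by
  induction l with
  | nil => simpa [Alg.prod] using h.scal 1
  | cons a l ih =>
    rw [List.map_cons, List.prod_cons, ← ih, ← h.mul]
    rfl

theorem prod_range (h : Hom A φ) (n : ℕ) (f : ℕ → Vec) :
    φ (A.prod ((List.range n).map f)) = ∏ i ∈ Finset.range n, φ (f i) := by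
  rw [h.prod, List.map_map, a0a_prod_range]
  rfl

/-- for every list of bits `l` the fold is `φ u ^ ofBits l` (`ofBits_cons`, `Nat.bit`, `ofBits_bits`) -/
theorem pow (h : Hom A φ) (u : Vec) (e : ℕ) : φ (A.pow u e) = φ u ^ e := by
  unfold Alg.pow
  induction e using Nat.binaryRec' with
  | zero => simpa using h.scal 1
  | bit b n hn ih =>
    rw [Nat.bits_append_bit n b hn, List.foldr_cons]
    cases b
    · rw [if_neg (by simp), h.mul, ih, ← pow_add, Nat.bit_false_apply, two_mul]
    · rw [if_pos rfl, h.mul, h.mul, ih, ← pow_add, ← pow_succ, Nat.bit_true_apply, two_mul]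

theorem comp (h : Hom A φ) (T : R →+* R') : Hom A fun v => T (φ v) := by
  exact ⟨h.lin.comp T.toAddMonoidHom, by rw [h.one, map_one], fun u v => by rw [h.mul, map_mul]⟩

theorem pt {S : Type*} {φ : Vec → S → R} (h : Hom A φ) (a : S) : Hom A (pt φ a) := by
  exact h.comp (Pi.evalRingHom (fun _ => R) a)

theorem pi {S : Type*} {φ : Vec → S → R} (hp : 0 < A.p) (h : ∀ a, Hom A (R312.pt φ a)) :
    Hom A φ := by
  exact ⟨Lin.pi hp fun a => (h a).lin, funext fun a => (h a).one,
    fun u v => funext fun a => (h a).mul u v⟩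

theorem isZ (h : Hom A φ) {u : Vec} (hu : A.IsZ u) : φ u = 0 := h.lin.isZ hu

theorem eqv (h : Hom A φ) {u v : Vec} (huv : A.Eqv u v) : φ u = φ v := by
  have := h.lin.isZ huv
  rwa [h.sub, sub_eq_zero] at this

theorem isZ_iff (h : Hom A φ) (hf : Faith A.p A.dim φ) (u : Vec) : A.IsZ u ↔ φ u = 0 :=
  h.lin.isZ_iff hf u

theorem eqv_iff (h : Hom A φ) (hf : Faith A.p A.dim φ) (u v : Vec) : A.Eqv u v ↔ φ u = φ v := by
  rw [Alg.Eqv, h.lin.isZ_iff hf, h.sub, sub_eq_zero]

/-- in a field with `q` elements (`FiniteField.pow_card_sub_one_eq_one`, `q ≥ 2`) -/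
theorem inv {F : Type*} [Field F] [Fintype F] {φ : Vec → F} (h : Hom A φ) {c : Vec} (hc : φ c ≠ 0) :
    φ (A.inv (Fintype.card F) c) = (φ c)⁻¹ := by
  have h1 := FiniteField.pow_card_sub_one_eq_one _ hc
  have h2 : 1 < Fintype.card F := Fintype.one_lt_card
  rw [Alg.inv, h.pow]
  refine eq_inv_of_mul_eq_one_left ?_
  rw [← pow_succ, show Fintype.card F - 2 + 1 = Fintype.card F - 1 by omega, h1]

theorem a0a_mul_mem (h : Hom A φ) {U U' : List Vec} {a b : R} (ha : a ∈ sp φ U) (hb : b ∈ sp φ U') :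
    a * b ∈ sp φ (A.mulSpan U U') := by
  induction ha using AddSubgroup.closure_induction with
  | mem x hx =>
    obtain ⟨u, hu, rfl⟩ := hx
    induction hb using AddSubgroup.closure_induction with
    | mem y hy =>
      obtain ⟨v, hv, rfl⟩ := hy
      rw [← h.mul]
      exact mem_sp (List.mem_flatMap.2 ⟨u, hu, List.mem_map_of_mem hv⟩)
    | zero => simp
    | add x y _ _ hx hy => rw [mul_add]; exact add_mem hx hy
    | neg x _ hx => rw [mul_neg]; exact neg_mem hx
  | zero => simp
  | add x y _ _ hx hy => rw [add_mul]; exact add_mem hx hy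
  | neg x _ hx => rw [neg_mul]; exact neg_mem hx

theorem sp_mulSpan (h : Hom A φ) {U U' : List Vec} {I J : Ideal R}
    (hI : sp φ U = I.toAddSubgroup) (hJ : sp φ U' = J.toAddSubgroup) :
    sp φ (A.mulSpan U U') = (I * J).toAddSubgroup := by
  refine le_antisymm (sp_le.2 fun w hw => ?_) fun x hx => ?_
  · obtain ⟨u, hu, hw⟩ := List.mem_flatMap.1 hw
    obtain ⟨v, hv, rfl⟩ := List.mem_map.1 hw
    rw [h.mul]
    have h1 : φ u ∈ I.toAddSubgroup := hI ▸ mem_sp hu
    have h2 : φ v ∈ J.toAddSubgroup := hJ ▸ mem_sp hv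
    exact Ideal.mul_mem_mul h1 h2
  · refine Submodule.mul_induction_on (show x ∈ I * J from hx) (fun a ha b hb => ?_)
      fun x y hx hy => add_mem hx hy
    exact h.a0a_mul_mem (hI ▸ ha) (hJ ▸ hb)

theorem sp_idealSpan (h : Hom A φ) (hs : Function.Surjective φ) (gens : List Vec) :
    sp φ (A.idealSpan gens) = (Ideal.span (φ '' {g | g ∈ gens})).toAddSubgroup := by
  refine le_antisymm (sp_le.2 fun w hw => ?_) fun x hx => ?_
  · obtain ⟨u, hu, hw⟩ := List.mem_flatMap.1 hw
    obtain ⟨v, -, rfl⟩ := List.mem_map.1 hw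
    rw [h.mul]
    exact Ideal.mul_mem_right _ _ (Ideal.subset_span ⟨u, hu, rfl⟩)
  · have key : ∀ r, x * r ∈ sp φ (A.idealSpan gens) := by
      replace hx : x ∈ Ideal.span (φ '' {g | g ∈ gens}) := hx
      induction hx using Submodule.span_induction with
      | mem x hx =>
        intro r
        obtain ⟨v, rfl⟩ := hs r
        exact h.a0a_mul_mem (AddSubgroup.subset_closure hx) (h.lin.mem_sp_units v)
      | zero => simp
      | add x y _ _ hx hy => intro r; rw [add_mul]; exact add_mem (hx r) (hy r)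
      | smul a x _ hx => intro r; rw [smul_eq_mul, mul_comm a, mul_assoc]; exact hx _
    simpa using key 1

end Hom

theorem Iso.comp (h : Iso A φ) (T : R ≃+* R') : Iso A fun v => T (φ v) := by
  exact ⟨h.hom.comp T.toRingHom, fun v hv => h.faith v (T.map_eq_zero_iff.1 hv),
    T.surjective.comp h.surj⟩

namespace Iso

variable {S F : Type*} [Field F] [Fintype F] {φ : Vec → S → F}

theorem isZ_iff (h : Iso A φ) (u : Vec) : A.IsZ u ↔ ∀ a, φ u a = 0 := by
  rw [h.hom.isZ_iff h.faith, funext_iff]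
  rfl

theorem eqv_iff (h : Iso A φ) (u v : Vec) : A.Eqv u v ↔ ∀ a, φ u a = φ v a := by
  rw [h.hom.eqv_iff h.faith, funext_iff]

theorem isU_iff (h : Iso A φ) (c : Vec) : A.IsU (Fintype.card F) c ↔ ∀ a, φ c a ≠ 0 := by
  have h2 : 1 < Fintype.card F := Fintype.one_lt_card
  rw [Alg.IsU, h.eqv_iff]
  refine forall_congr' fun a => ?_
  rw [h.hom.pow, h.hom.one, Pi.pow_apply, Pi.one_apply]
  refine ⟨fun h1 h0 => ?_, FiniteField.pow_card_sub_one_eq_one _⟩
  rw [h0, zero_pow (by omega)] at h1
  exact zero_ne_one h1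

theorem isWit_iff (h : Iso A φ) (c : Vec) : A.IsWit (Fintype.card F) c ↔ Wit φ c := by
  rw [Alg.IsWit, h.isZ_iff, h.isU_iff, Wit, and_comm]
  simp only [ne_eq, not_forall, not_not]

theorem pt_surj (h : Iso A φ) (a : S) : Function.Surjective (pt φ a) := by
  intro x
  obtain ⟨v, hv⟩ := h.surj fun _ => x
  exact ⟨v, congrFun hv a⟩

/-- an element with value `x` at `a` and `0` elsewhere -/
theorem exists_single (h : Iso A φ) (a : S) (x : F) :
    ∃ v, φ v a = x ∧ ∀ b, b ≠ a → φ v b = 0 := by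
  classical
  obtain ⟨v, hv⟩ := h.surj (Pi.single a x)
  exact ⟨v, by rw [hv, Pi.single_eq_same], fun b hb => by rw [hv, Pi.single_eq_of_ne hb]⟩

end Iso

/-- `unfold base` (it is irreducible; `base_p`, `base_dim`) -/
theorem iso_base {p : ℕ} (hp : 0 < p) : Iso (base p) (bv p) := by
  have : NeZero p := ⟨hp.ne'⟩
  have hl : Lin p 1 (bv p) := by
    have h := a0v_coord (M := ZMod p) (D := 1) hp one_pos (m := 1) (by simp)
    convert h using 2 with v
    simp [bv]
  have hu : bv p (unit p 1 0) = 1 := by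
    rw [bv, unit, (ZMod.natCast_eq_natCast_iff _ _ _).2 (a0v_mkv_mod hp _ one_pos)]
    simp
  refine ⟨hom_of_tab (by rw [base_p, base_dim]; exact hl) (by unfold base; simp [bv]) fun i hi j hj => ?_, fun v hv i hi => ?_, fun x => ?_⟩
  · rw [base_dim] at hi hj
    obtain rfl : i = 0 := by omega
    obtain rfl : j = 0 := by omega
    rw [base_p, base_dim, hu]
    unfold base
    simp [bv]
  · rw [base_dim] at hi
    obtain rfl : i = 0 := by omega
    rw [base_p]
    exact (ZMod.natCast_eq_zero_iff _ _).1 hv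
  · exact ⟨[x.val], by simp [bv]⟩

end Crest.Agent.R312
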