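import Mathlib
import Crest.Prelude.Def_PolyFactor
import Crest.Agent.Lib.PT.All

/-!
# R312 / A0Defs : programs of the `F_p`-library and their semantics (sub-lead: helper2).  DO NOT CHANGE.

`import Crest.Agent.R312.A0` gives everything (specifications: `A0Vec, A0Ker, A0Alg, A0Poly, A0Poly2, A0Div,
A0Adj, A0Min, A0KerA, A0Dig, A0Main`; polynomial time and sizes: `A0PT`).

* Vectors are lists of numbers (`Vec`); a vector of `F_p^D` is read modulo `p`, missing entries are `0`, entries
  beyond `D` are ignored.  So *every* list denotes a vector and no lemma has well-formedness side conditions.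
* Semantics: predicates on a function `φ : Vec → M`.  `Lin p D φ` (additive interpretation), `Faith p D φ`
  (only zero vectors go to zero), `Hom A φ` (ring homomorphism from the algebra `A`), `Iso A φ`
  (`Hom`, `Faith`, surjective).  A product of fields is the ring `S → F`; evaluation at `a` is `pt φ a` (`Hom.pt`).
* Spans are `sp φ U : AddSubgroup M` (no `ZMod p`-module instances are needed).
* `Alg` = structure constants; `A.adj m` is `A[X]/m`; `Pol` = little-endian lists of coefficients, `poly φ P : R[X]`.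
* Routines that may hit a zero divisor return `Vec ⊕ _`; `inl c` is a witness (`Wit φ c`), which `Alg.cands`
  turns into candidates for `SplitOddSpec` (`cands_spec`).
* Sizes: `Bd N x` (numbers `< 2^N`, lists of length `≤ N`), `A.Sm N`.  Loops `iterB`, `foldB` are clamped:
  polynomial time for free, equal to the plain loop if all states satisfy `Bd N`.
-/

set_option autoImplicit false

namespace Crest.Agent.R312

open Crest.Agent.Lib.PT Polynomial

abbrev Vec : Type := List ℕ
abbrev Pol : Type := List Vec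

/-! ## Clamped loops -/

section clamp
variable {α β : Type} [Enc α]

/-- `x` if it is small, else `d` -/
def clamp (B : ℕ) (x d : α) : α := if sz x ≤ B then x else d

/-- iteration with a size clamp -/
def iterC (B : ℕ) (f : α → α) (n : ℕ) (s : α) : α := (fun x => clamp B (f x) x)^[n] s

/-- left fold with a size clamp -/
def foldC (B : ℕ) (f : α → β → α) (s : α) (l : List β) : α :=
  l.foldl (fun x b => clamp B (f x b) x) s

end clamp

/-- types with a notion of `N`-bounded elements -/
class Bdd (α : Type) [Enc α] where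
  Bd : ℕ → α → Prop
  c : ℕ
  k : ℕ
  mono : ∀ {N N' x}, N ≤ N' → Bd N x → Bd N' x
  sz_le : ∀ {N x}, Bd N x → sz x ≤ c * (N + 1) ^ k

export Bdd (Bd)

section bdd
variable {α β : Type} [Enc α] [Enc β] [Bdd α] [Bdd β]

theorem bdd_aux (c N : ℕ) {k k' : ℕ} (h : k ≤ k') : c * (N + 1) ^ k ≤ c * (N + 1) ^ k' :=
  Nat.mul_le_mul_left _ (Nat.pow_le_pow_right (by omega) h)

instance : Bdd ℕ where
  Bd N x := x < 2 ^ N
  c := 4
  k := 1
  mono h hx := hx.trans_le (Nat.pow_le_pow_right (by norm_num) h)
  sz_le hx := by have := sz_nat_le_of_lt hx; rw [pow_one]; omega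

instance : Bdd Bool where
  Bd _ _ := True
  c := 3
  k := 0
  mono _ h := h
  sz_le {_ x} _ := by simpa using sz_bool_le x

instance : Bdd (List α) where
  Bd N l := l.length ≤ N ∧ ∀ x ∈ l, Bd N x
  c := Bdd.c α + 1
  k := Bdd.k α + 1
  mono h hx := ⟨hx.1.trans h, fun x hx' => Bdd.mono h (hx.2 x hx')⟩
  sz_le {N l} hl := by
    have h1 := sz_list_le fun x hx => Bdd.sz_le (hl.2 x hx)
    have h2 := Nat.mul_le_mul_right (Bdd.c α * (N + 1) ^ Bdd.k α + 1) hl.1
    have h3 : 1 ≤ (N + 1) ^ Bdd.k α := Nat.one_le_pow _ _ (by omega)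
    rw [pow_succ]
    nlinarith [Nat.zero_le (Bdd.c α * (N + 1) ^ Bdd.k α)]

instance : Bdd (α × β) where
  Bd N x := Bd N x.1 ∧ Bd N x.2
  c := Bdd.c α + Bdd.c β + 1
  k := Bdd.k α + Bdd.k β
  mono h hx := ⟨Bdd.mono h hx.1, Bdd.mono h hx.2⟩
  sz_le {N x} hx := by
    have h1 := (Bdd.sz_le hx.1).trans (bdd_aux _ N (Nat.le_add_right _ (Bdd.k β)))
    have h2 := (Bdd.sz_le hx.2).trans (bdd_aux _ N (Nat.le_add_left _ (Bdd.k α)))
    have h3 : 1 ≤ (N + 1) ^ (Bdd.k α + Bdd.k β) := Nat.one_le_pow _ _ (by omega)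
    rw [sz_prod]
    nlinarith

instance : Bdd (α ⊕ β) where
  Bd N x := x.elim (Bd N) (Bd N)
  c := Bdd.c α + Bdd.c β + 4
  k := Bdd.k α + Bdd.k β
  mono {_ _ x} h hx := by cases x <;> exact Bdd.mono h hx
  sz_le {N x} hx := by
    have h3 : 1 ≤ (N + 1) ^ (Bdd.k α + Bdd.k β) := Nat.one_le_pow _ _ (by omega)
    cases x with
    | inl a =>
      have h1 := (Bdd.sz_le (x := a) hx).trans (bdd_aux _ N (Nat.le_add_right _ (Bdd.k β)))
      rw [sz_inl]
      nlinarith [Nat.zero_le (Bdd.c β * (N + 1) ^ (Bdd.k α + Bdd.k β))]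
    | inr b =>
      have h1 := (Bdd.sz_le (x := b) hx).trans (bdd_aux _ N (Nat.le_add_left _ (Bdd.k α)))
      rw [sz_inr]
      nlinarith [Nat.zero_le (Bdd.c α * (N + 1) ^ (Bdd.k α + Bdd.k β))]

instance : Bdd (Option α) where
  Bd N x := ∀ a ∈ x, Bd N a
  c := Bdd.c α + 2
  k := Bdd.k α
  mono h hx a ha := Bdd.mono h (hx a ha)
  sz_le {N x} hx := by
    have h3 : 1 ≤ (N + 1) ^ Bdd.k α := Nat.one_le_pow _ _ (by omega)
    cases x with
    | none => rw [sz_none]; nlinarith [Nat.zero_le (Bdd.c α * (N + 1) ^ Bdd.k α)]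
    | some a =>
      have h1 := Bdd.sz_le (hx a rfl)
      rw [sz_some]
      nlinarith

theorem Bd.mono {N N' : ℕ} {x : α} (hx : Bd N x) (h : N ≤ N') : Bd N' x := Bdd.mono h hx
theorem bd_nat {N x : ℕ} : Bd N x ↔ x < 2 ^ N := Iff.rfl
@[simp] theorem bd_bool {N : ℕ} {x : Bool} : Bd N x := trivial
theorem bd_list {N : ℕ} {l : List α} : Bd N l ↔ l.length ≤ N ∧ ∀ x ∈ l, Bd N x := Iff.rfl
theorem bd_prod {N : ℕ} {x : α × β} : Bd N x ↔ Bd N x.1 ∧ Bd N x.2 := Iff.rfl
@[simp] theorem bd_mk {N : ℕ} {a : α} {b : β} : Bd N (a, b) ↔ Bd N a ∧ Bd N b := Iff.rfl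
@[simp] theorem bd_inl {N : ℕ} {a : α} : Bd N (Sum.inl a : α ⊕ β) ↔ Bd N a := Iff.rfl
@[simp] theorem bd_inr {N : ℕ} {b : β} : Bd N (Sum.inr b : α ⊕ β) ↔ Bd N b := Iff.rfl
@[simp] theorem bd_none {N : ℕ} : Bd N (none : Option α) := fun _ h => by simp at h
@[simp] theorem bd_some {N : ℕ} {a : α} : Bd N (some a) ↔ Bd N a :=
  ⟨fun h => h a rfl, fun h b hb => by cases hb; exact h⟩
@[simp] theorem bd_nil {N : ℕ} : Bd N ([] : List α) := ⟨Nat.zero_le _, fun _ h => by simp at h⟩

/-- iteration; equal to `f^[n] s` if all states are `N`-bounded -/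
def iterB (N : ℕ) (f : α → α) (n : ℕ) (s : α) : α := iterC (Bdd.c α * (N + 1) ^ Bdd.k α) f n s

/-- left fold; equal to `l.foldl f s` if all states are `N`-bounded -/
def foldB {γ : Type} (N : ℕ) (f : α → γ → α) (s : α) (l : List γ) : α :=
  foldC (Bdd.c α * (N + 1) ^ Bdd.k α) f s l

end bdd

/-! ## Vectors -/

def rd (p x : ℕ) : ℕ := if p = 0 then 0 else x % p

/-- the reduced vector of length `D` with entries `f i` -/
def mkv (p D : ℕ) (f : ℕ → ℕ) : Vec := (List.range D).map fun i => rd p (f i)

def nrm (p D : ℕ) (v : Vec) : Vec := mkv p D fun i => v.getD i 0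

/-- the vector is zero in `F_p^D` -/
def IsZ (p D : ℕ) (v : Vec) : Prop := ∀ i < D, p ∣ v.getD i 0

instance (p D : ℕ) (v : Vec) : Decidable (IsZ p D v) := by unfold IsZ; infer_instance

def unit (p D j : ℕ) : Vec := mkv p D fun i => if i = j then 1 else 0
def units (p D : ℕ) : List Vec := (List.range D).map (unit p D)
def vadd (p D : ℕ) (u v : Vec) : Vec := mkv p D fun i => u.getD i 0 + v.getD i 0
def vsub (p D : ℕ) (u v : Vec) : Vec := mkv p D fun i => u.getD i 0 + (p - 1) * v.getD i 0
def vsmul (p D c : ℕ) (u : Vec) : Vec := mkv p D fun i => c * u.getD i 0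
def col (G : List Vec) (j : ℕ) : Vec := G.map fun g => g.getD j 0
def vsum (p D : ℕ) (G : List Vec) : Vec := mkv p D fun i => (col G i).sum
def dot (c w : Vec) : ℕ := (List.zipWith (fun a b => a * b) c w).sum
/-- the linear combination `∑ c_i G_i` -/
def lc (p D : ℕ) (c : Vec) (G : List Vec) : Vec := mkv p D fun j => dot c (col G j)

/-- `k` vectors of `F_p^D` as one vector of `F_p^(k D)` -/
def flat (p D k : ℕ) (P : List Vec) : Vec :=
  mkv p (k * D) fun n => (P.getD (n / D) []).getD (n % D) 0

def unflat (p D k : ℕ) (v : Vec) : List Vec :=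
  (List.range k).map fun i => mkv p D fun j => v.getD (i * D + j) 0

/-- normal vectors (for size bounds) -/
def Nrm (p D : ℕ) (v : Vec) : Prop := v.length = D ∧ ∀ x ∈ v, x ≤ p

/-- bound for the size of a normal vector -/
def vsz (p D : ℕ) : ℕ := D * (2 * sz p + 1) + 1

/-- inverse modulo a prime -/
def invP (p a : ℕ) : ℕ := a ^ (p - 2) % max p 1

/-! ## Kernels -/

/-- intersect the span of `L ⊂ F_p^n` with the kernel of the functional `row` -/
def cut (p n : ℕ) (L : List Vec) (row : Vec) : List Vec :=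
  (L.find? fun c => decide (¬ p ∣ dot c row)).elim L fun c0 =>
    (L.erase c0).map fun c =>
      mkv p n fun i => dot c0 row * c.getD i 0 + (p - 1) * dot c row * c0.getD i 0

/-- nonzero vectors spanning the relations `{c ∈ F_p^(G.length) | ∑ c_i G_i = 0 in F_p^D}` -/
def ker (p D : ℕ) (G : List Vec) : List Vec :=
  ((List.range D).foldl (fun L j => cut p G.length L (col G j)) (units p G.length)).filter
    fun c => decide (¬ IsZ p G.length c)

/-- nonzero vectors spanning the kernel of the map `gens_i ↦ imgs_i` (`F_p^D ⊇ span gens → F_p^E`) -/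
def kerOn (p D E : ℕ) (gens imgs : List Vec) : List Vec :=
  ((ker p E imgs).map fun c => lc p D c gens).filter fun v => decide (¬ IsZ p D v)

/-- a sublist of length `≤ D` whose keys span the same space -/
def basisOn {α : Type} (p D : ℕ) (key : α → Vec) (l : List α) : List α :=
  (l.foldl (fun acc x => if ker p D ((acc ++ [x]).map key) = [] then acc ++ [x] else acc) []).take D

/-- at most `D` normal vectors with the same span -/
def basisOf (p D : ℕ) (U : List Vec) : List Vec := (basisOn p D (fun u => u) U).map (nrm p D)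

/-- a solution `c` of `∑ c_i G_i = y` in `F_p^D`, if there is one -/
def solve (p D : ℕ) (G : List Vec) (y : Vec) : Vec :=
  ((ker p D (y :: G)).find? fun c => decide (¬ p ∣ c.getD 0 0)).elim [] fun c =>
    vsmul p G.length ((p - 1) * invP p (c.getD 0 0)) c.tail

/-! ## Algebras -/

/-- a finite commutative `F_p`-algebra by structure constants -/
structure Alg where
  p : ℕ
  one : Vec
  tab : List (List Vec)

instance : Enc Alg := Enc.ofInj (fun A => (A.p, A.one, A.tab)) (by
  rintro ⟨a, b, c⟩ ⟨a', b', c'⟩ h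
  simp only [Prod.mk.injEq] at h
  obtain ⟨rfl, rfl, rfl⟩ := h
  rfl)

namespace Alg

variable (A : Alg)

def dim : ℕ := A.one.length
def zero : Vec := mkv A.p A.dim fun _ => 0
def nrm (u : Vec) : Vec := R312.nrm A.p A.dim u
def add (u v : Vec) : Vec := vadd A.p A.dim u v
def sub (u v : Vec) : Vec := vsub A.p A.dim u v
def neg (u : Vec) : Vec := vsub A.p A.dim [] u
def smul (c : ℕ) (u : Vec) : Vec := vsmul A.p A.dim c u
/-- the image of the number `c` -/
def scal (c : ℕ) : Vec := vsmul A.p A.dim c A.one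
def sum (l : List Vec) : Vec := vsum A.p A.dim l
def basis : List Vec := units A.p A.dim
def mul (u v : Vec) : Vec :=
  mkv A.p A.dim fun k => ((List.range A.dim).map fun i => ((List.range A.dim).map fun j =>
    u.getD i 0 * v.getD j 0 * ((A.tab.getD i []).getD j []).getD k 0).sum).sum
def prod (l : List Vec) : Vec := l.foldr A.mul (A.scal 1)
/-- power with binary exponent -/
def pow (u : Vec) (e : ℕ) : Vec :=
  e.bits.foldr (fun b acc => if b = true then A.mul (A.mul acc acc) u else A.mul acc acc) (A.scal 1)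
def IsZ (u : Vec) : Prop := R312.IsZ A.p A.dim u
def Eqv (u v : Vec) : Prop := R312.IsZ A.p A.dim (A.sub u v)
/-- unit test in a product of fields with `q` elements -/
def IsU (q : ℕ) (c : Vec) : Prop := A.Eqv (A.pow c (q - 1)) A.one
/-- test for non-zero non-units -/
def IsWit (q : ℕ) (c : Vec) : Prop := ¬ A.IsZ c ∧ ¬ A.IsU q c
/-- inverse in a product of fields with `q` elements -/
def inv (q : ℕ) (c : Vec) : Vec := A.pow c (q - 2)

instance (u : Vec) : Decidable (A.IsZ u) := by unfold IsZ; infer_instance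
instance (u v : Vec) : Decidable (A.Eqv u v) := by unfold Eqv; infer_instance
instance (q : ℕ) (c : Vec) : Decidable (A.IsU q c) := by unfold IsU; infer_instance
instance (q : ℕ) (c : Vec) : Decidable (A.IsWit q c) := by unfold IsWit; infer_instance

/-- all products; spans the product of two ideals -/
def mulSpan (U U' : List Vec) : List Vec := U.flatMap fun u => U'.map (A.mul u)
/-- spans the ideal generated by `gens` -/
def idealSpan (gens : List Vec) : List Vec := A.mulSpan gens A.basis
/-- the `P ∈ F_p[T]` of degree `< n` with `P(x) c = 0` -/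
def cands (n : ℕ) (x c : Vec) : List Vec :=
  ker A.p A.dim ((List.range n).map fun i => A.mul (A.pow x i) c)

/-! ## Polynomials over an algebra -/

def padd (P Q : Pol) : Pol :=
  (List.range (max P.length Q.length)).map fun i => A.add (P.getD i []) (Q.getD i [])
def psub (P Q : Pol) : Pol :=
  (List.range (max P.length Q.length)).map fun i => A.sub (P.getD i []) (Q.getD i [])
def pneg (P : Pol) : Pol := P.map A.neg
/-- zero test -/
def PIsZ (P : Pol) : Prop := ∀ c ∈ P, A.IsZ c
instance (P : Pol) : Decidable (A.PIsZ P) := by unfold PIsZ; infer_instance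
/-- `c * P` -/
def psmul (c : Vec) (P : Pol) : Pol := P.map (A.mul c)
def pmul (P Q : Pol) : Pol :=
  (List.range (P.length + Q.length - 1)).map fun k => A.sum ((List.range P.length).map fun i =>
    if i ≤ k then A.mul (P.getD i []) (Q.getD (k - i) []) else [])
def psum (l : List Pol) : Pol :=
  (List.range ((l.map List.length).foldr max 0)).map fun i => A.sum (l.map fun P => P.getD i [])
def pone : Pol := [A.scal 1]
def pX : Pol := [A.zero, A.scal 1]
/-- `X ^ n * P` -/
def pshift (n : ℕ) (P : Pol) : Pol := List.replicate n A.zero ++ P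
def pprod (l : List Pol) : Pol := l.foldr A.pmul A.pone
/-- power with a small exponent -/
def ppow (P : Pol) (n : ℕ) : Pol := A.pprod (List.replicate n P)
def pderiv (P : Pol) : Pol :=
  (List.range (P.length - 1)).map fun i => A.smul (i + 1) (P.getD (i + 1) [])
def peval (P : Pol) (x : Vec) : Vec := P.foldr (fun c acc => A.add c (A.mul acc x)) A.zero
/-- an `F_p`-polynomial as a polynomial over `A` -/
def pscal (f : Vec) : Pol := f.map A.scal

/-- one step of the division by the monic `m` -/
def dmStep (m : Pol) (c : Vec) (s : Pol × Pol) : Pol × Pol :=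
  (A.nrm ((c :: s.2).getD (m.length - 1) []) :: s.1,
    (List.range (m.length - 1)).map fun i =>
      A.sub ((c :: s.2).getD i []) (A.mul ((c :: s.2).getD (m.length - 1) []) (m.getD i [])))
def pdm (P m : Pol) : Pol × Pol :=
  P.foldr (A.dmStep m) ([], List.replicate (m.length - 1) A.zero)
/-- remainder modulo a monic list; has length `m.length - 1` -/
def pmod (P m : Pol) : Pol := (A.pdm P m).2
/-- quotient by a monic list; has length `P.length - (m.length - 1)` -/
def pdiv (P m : Pol) : Pol := (A.pdm P m).1.take (P.length - (m.length - 1))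
/-- `P ^ e mod m` with binary exponent -/
def ppowMod (P : Pol) (e : ℕ) (m : Pol) : Pol :=
  e.bits.foldr (fun b acc => if b = true then A.pmod (A.pmul (A.pmul acc acc) P) m
    else A.pmod (A.pmul acc acc) m) (A.pmod A.pone m)
/-- trace of (the class of) `P` from `A[X]/m` to `A` -/
def tr (m P : Pol) : Vec := (A.pmod (A.pmul P (A.pderiv m)) m).getD (m.length - 2) []
/-- remove the leading zeros -/
def ptrim (P : Pol) : Pol := (P.reverse.dropWhile fun c => decide (A.IsZ c)).reverse
/-- divide by the leading coefficient (`inr []` for the zero polynomial) -/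
def monicize (q : ℕ) (P : Pol) : Vec ⊕ Pol :=
  if A.ptrim P = [] then Sum.inr []
  else if A.IsU q ((A.ptrim P).getLastD []) then
    Sum.inr (A.psmul (A.inv q ((A.ptrim P).getLastD [])) (A.ptrim P))
  else Sum.inl (A.nrm ((A.ptrim P).getLastD []))

/-! ## Adjoining a root of a monic polynomial -/

/-- the class of `P` in `A[X]/m` -/
def ofPoly (m P : Pol) : Vec := flat A.p A.dim (m.length - 1) (A.pmod P m)
/-- the reduced representative of an element of `A[X]/m` -/
def toPoly (m : Pol) (v : Vec) : Pol := unflat A.p A.dim (m.length - 1) v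
def emb (m : Pol) (c : Vec) : Vec := A.ofPoly m [c]
def gen (m : Pol) : Vec := A.ofPoly m A.pX

/-- `A[X]/m` -/
def adj (m : Pol) : Alg where
  p := A.p
  one := A.ofPoly m A.pone
  tab := (units A.p ((m.length - 1) * A.dim)).map fun u =>
    (units A.p ((m.length - 1) * A.dim)).map fun v =>
      A.ofPoly m (A.pmul (A.toPoly m u) (A.toPoly m v))

@[simp] theorem adj_p (m : Pol) : (A.adj m).p = A.p := rfl

@[simp] theorem adj_dim (m : Pol) : (A.adj m).dim = (m.length - 1) * A.dim := by
  simp [adj, dim, ofPoly, flat, mkv]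

/-! ## Monic elements of least degree -/

/-- a monic element of least degree of the span of `U` (`inr []` if the span is zero) -/
def minMonic (q : ℕ) (U : List Pol) : Vec ⊕ Pol :=
  A.monicize q (unflat A.p A.dim U.flatten.length
    (((List.range U.flatten.length).map fun e =>
      kerOn A.p (U.flatten.length * A.dim) (U.flatten.length * A.dim)
        (U.map (flat A.p A.dim U.flatten.length))
        (U.map fun P => flat A.p A.dim U.flatten.length (P.drop (e + 1)))).flatten.headD []))

/-- the monic generator of an ideal containing the monic `μ` and spanned by `U` modulo `μ` -/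
def idealMon (q : ℕ) (μ : Pol) (U : List Pol) : Vec ⊕ Pol :=
  A.minMonic q ((U.map fun P => A.pmod P μ) ++ A.basis.map fun e => A.psmul e μ)

/-- the monic generator of the ideal generated by the monic `μ` and the members of `G` -/
def pgcd (q : ℕ) (μ : Pol) (G : List Pol) : Vec ⊕ Pol :=
  A.idealMon q μ (G.flatMap fun P => (List.range (μ.length - 1)).flatMap fun j =>
    A.basis.map fun e => A.psmul e (A.pshift j P))

/-- the relations over `A` between the polynomials `ys` -/
def kerA (ys : List Pol) : List (List Vec) :=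
  (ker A.p (ys.flatten.length * A.dim) ((units A.p (ys.length * A.dim)).map fun u =>
    flat A.p A.dim ys.flatten.length
      (A.psum (List.zipWith A.psmul (unflat A.p A.dim ys.length u) ys)))).map
    (unflat A.p A.dim ys.length)

/-- a sublist of length `≤ D * A.dim` with the same span (the keys have degree `< D`) -/
def basisA {α : Type} (D : ℕ) (key : α → Pol) (l : List α) : List α :=
  basisOn A.p (D * A.dim) (fun x => flat A.p A.dim D (key x)) l

/-! ## Digits and roots -/

/-- indicator function of `u = ζ^c` -/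
def idem (r : ℕ) (ζ u : Vec) (c : ℕ) : Vec :=
  A.smul (invP A.p r) (A.sum ((List.range r).map fun k =>
    A.mul (A.pow ζ ((r - c) * k)) (A.pow u k)))
/-- `γ = γ₀^t`, `q - 1 = r^e t` -/
def gam (r q : ℕ) (γ0 : Vec) : Vec := A.pow γ0 ((q - 1) / r ^ padicValNat r (q - 1))
/-- `ζ = γ₀^((q-1)/r)` -/
def zeta (r q : ℕ) (γ0 : Vec) : Vec := A.pow γ0 ((q - 1) / r)
def digStep (r e : ℕ) (γ ζ : Vec) (s : Vec × List (List Vec)) (i : ℕ) : Vec × List (List Vec) :=
  (A.mul s.1 (A.sum ((List.range r).map fun c =>
      A.mul (A.idem r ζ (A.pow s.1 (r ^ (e - 1 - i))) c) (A.pow γ (r ^ e - c * r ^ (e - (e - i)))))),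
    s.2 ++ [(List.range r).map (A.idem r ζ (A.pow s.1 (r ^ (e - 1 - i))))])
/-- the table of the digit idempotents `e_c(u_i)`, `i < e`, `c < r` -/
def digs (r q : ℕ) (γ0 v : Vec) : List (List Vec) :=
  ((List.range (padicValNat r (q - 1))).foldl
    (A.digStep r (padicValNat r (q - 1)) (A.gam r q γ0) (A.zeta r q γ0))
    (A.pow v ((q - 1) / r ^ padicValNat r (q - 1)), [])).2
def dig (r q : ℕ) (γ0 v : Vec) (i c : ℕ) : Vec := ((A.digs r q γ0 v).getD i []).getD c []
/-- an `r`-th root -/
def root (r q : ℕ) (γ0 v : Vec) : Vec :=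
  A.mul
    (A.pow (A.prod ((List.range (padicValNat r (q - 1) - 1)).map fun i =>
        A.sum ((List.range r).map fun c => A.mul (A.dig r q γ0 v (i + 1) c)
          (A.pow (A.gam r q γ0)
            (c * r ^ (padicValNat r (q - 1) - (padicValNat r (q - 1) - i)))))))
      (invP r ((q - 1) / r ^ padicValNat r (q - 1))))
    (A.pow (A.inv q v) (((q - 1) / r ^ padicValNat r (q - 1) *
      invP r ((q - 1) / r ^ padicValNat r (q - 1)) - 1) / r))

/-- an `r`-th root modulo `m` -/
def proot (r q : ℕ) (γ0 : Vec) (v m : Pol) : Pol :=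
  A.toPoly m ((A.adj m).root r q (A.emb m γ0) (A.ofPoly m v))

/-- `dim ≤ N`, `p < 2 ^ N` -/
def Sm (N : ℕ) : Prop := A.dim ≤ N ∧ A.p < 2 ^ N

end Alg

/-! ## The prime field and polynomials over it -/

/-- `F_p` -/
def base (p : ℕ) : Alg := ⟨p, [1], [[[1]]]⟩
def up (f : Vec) : Pol := f.map fun c => [c]
/-- `F_p[z]/h` -/
def quot (p : ℕ) (h : Vec) : Alg := (base p).adj (up h)
/-- the class of `γ ∈ F_p[z]` in `quot p h` -/
def qcls (p : ℕ) (h γ : Vec) : Vec := (base p).ofPoly (up h) (up γ)
/-- `A = F[x]/f`, `F = F_p[z]/h` -/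
def mainA (p : ℕ) (h f : Vec) : Alg := (quot p h).adj ((quot p h).pscal f)
/-- `x ∈ A` -/
def mainX (p : ℕ) (h f : Vec) : Vec := (quot p h).gen ((quot p h).pscal f)
/-- the constant `γ(z) ∈ A` -/
def mainC (p : ℕ) (h f γ : Vec) : Vec := (quot p h).emb ((quot p h).pscal f) (qcls p h γ)

@[simp] theorem base_p (p : ℕ) : (base p).p = p := rfl
@[simp] theorem base_dim (p : ℕ) : (base p).dim = 1 := rfl
@[simp] theorem quot_p (p : ℕ) (f : Vec) : (quot p f).p = p := rfl
@[simp] theorem quot_dim (p : ℕ) (f : Vec) : (quot p f).dim = f.length - 1 := by simp [quot, up]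
@[simp] theorem mainA_p (p : ℕ) (h f : Vec) : (mainA p h f).p = p := rfl
@[simp] theorem mainA_dim (p : ℕ) (h f : Vec) :
    (mainA p h f).dim = (f.length - 1) * (h.length - 1) := by simp [mainA, Alg.pscal]

attribute [irreducible] Alg.adj Alg.dmStep Alg.pdm Alg.digStep base quot mainA

/-! ## Semantics -/

section sem

variable {M : Type*} [AddCommGroup M] {R : Type*} [CommRing R]

/-- `φ` is the additive map `F_p^D → M` given by its values on the unit vectors -/
structure Lin (p D : ℕ) (φ : Vec → M) : Prop where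
  pos : 0 < p
  tors : ∀ v, p • φ v = 0
  eq : ∀ v, φ v = ∑ i ∈ Finset.range D, v.getD i 0 • φ (unit p D i)

def Faith (p D : ℕ) (φ : Vec → M) : Prop := ∀ v, φ v = 0 → IsZ p D v

/-- the span of a list (of vectors, polynomials, ...) -/
def sp {ι : Type*} (φ : ι → M) (U : List ι) : AddSubgroup M := AddSubgroup.closure (φ '' {u | u ∈ U})

structure Hom (A : Alg) (φ : Vec → R) : Prop where
  lin : Lin A.p A.dim φ
  one : φ A.one = 1
  mul : ∀ u v, φ (A.mul u v) = φ u * φ v

structure Iso (A : Alg) (φ : Vec → R) : Prop where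
  hom : Hom A φ
  faith : Faith A.p A.dim φ
  surj : Function.Surjective φ

/-- coordinates modulo `p` -/
def crd (p D : ℕ) (v : Vec) : ℕ → ZMod p := fun i => if i < D then (v.getD i 0 : ZMod p) else 0

/-- the interpretation of `base p` -/
def bv (p : ℕ) (v : Vec) : ZMod p := (v.getD 0 0 : ℕ)

noncomputable def poly (φ : Vec → R) (P : Pol) : R[X] :=
  ∑ i ∈ Finset.range P.length, monomial i (φ (P.getD i []))

/-- a monic list: the last entry is `1` -/
def Mon (φ : Vec → R) (m : Pol) : Prop := m ≠ [] ∧ φ (m.getD (m.length - 1) []) = 1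

/-- a monic coefficient list over `F_p` -/
def FMon (p : ℕ) (f : Vec) : Prop := f ≠ [] ∧ ((f.getD (f.length - 1) 0 : ℕ) : ZMod p) = 1

/-- evaluation of an element of `A[X]/m` at a root `x` of `m` -/
noncomputable def lift (A : Alg) (m : Pol) (φ : Vec → R) (x : R) (v : Vec) : R :=
  (poly φ (A.toPoly m v)).eval x

/-- evaluation at the point `a` -/
abbrev pt {S F : Type*} (φ : Vec → S → F) (a : S) : Vec → F := fun v => φ v a

/-- the interpretation of `quot p l` in `AdjoinRoot h` (`h = ofCoeffList p l`) -/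
noncomputable def qv {p : ℕ} (h : (ZMod p)[X]) (l : Vec) (v : Vec) : AdjoinRoot h :=
  AdjoinRoot.mk h (poly (bv p) ((base p).toPoly (up l) v))

/-- a non-zero non-unit of a product of fields -/
def Wit {S F : Type*} [Zero F] (φ : Vec → S → F) (c : Vec) : Prop :=
  (∃ a, φ c a = 0) ∧ ∃ a, φ c a ≠ 0

end sem

end Crest.Agent.R312
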