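import Crest.Agent.R312.A0Poly2

/-!
# R312 / A0Div : division by a monic polynomial, trace
Read `A0Defs.lean` first.  Keep the statements; auxiliary lemmas get the prefix `a0i_`.
-/

set_option autoImplicit false

namespace Crest.Agent.R312

open Crest.Agent.Lib.PT Polynomial Crest.PolyFactor

variable {R : Type*} [CommRing R] {A : Alg} {φ : Vec → R} {m : Pol}

theorem a0i_cons (A : Alg) (c : Vec) (P m : Pol) : A.pdm (c :: P) m = A.dmStep m c (A.pdm P m) := by
  unfold Alg.pdm
  rfl

theorem a0i_nil (A : Alg) (m : Pol) : A.pdm [] m = ([], List.replicate (m.length - 1) A.zero) := by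
  unfold Alg.pdm
  rfl

theorem a0i_tr [Nontrivial R] (s : Multiset R) (Q : R[X]) :
    ((Q * derivative (s.map fun α => X - C α).prod) %ₘ (s.map fun α => X - C α).prod).coeff
      (s.card - 1) = (s.map fun α => Q.eval α).sum := by
  classical
  have hmon : ∀ t : Multiset R, (t.map fun α => X - C α).prod.Monic := fun t =>
    monic_multiset_prod_of_monic _ _ fun α _ => monic_X_sub_C α
  have hdeg : ∀ α ∈ s, ((s.erase α).map fun α => X - C α).prod.natDegree = s.card - 1 := fun α hα => by
    rw [natDegree_multiset_prod_X_sub_C_eq_card, Multiset.card_erase_of_mem hα]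
    rfl
  have cs : ∀ i, (s.map fun α => C (Q.eval α) * ((s.erase α).map fun α => X - C α).prod).sum.coeff i =
      (s.map fun α => Q.eval α * ((s.erase α).map fun α => X - C α).prod.coeff i).sum := fun i => by
    rw [← lcoeff_apply, map_multiset_sum, Multiset.map_map]
    exact congrArg _ (Multiset.map_congr rfl fun α _ => coeff_C_mul _)
  have h1 : (Q * derivative (s.map fun α => X - C α).prod) %ₘ (s.map fun α => X - C α).prod =
      (s.map fun α => C (Q.eval α) * ((s.erase α).map fun α => X - C α).prod).sum := by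
    refine (modByMonic_eq_of_dvd_sub (hmon s) ?_).trans ((modByMonic_eq_self_iff (hmon s)).2 ?_)
    · rw [derivative_prod, ← Multiset.sum_map_mul_left, ← Multiset.sum_map_sub]
      refine Multiset.dvd_sum fun x hx => ?_
      obtain ⟨α, hα, rfl⟩ := Multiset.mem_map.1 hx
      rw [← Multiset.prod_map_erase hα, derivative_X_sub_C, mul_one, ← sub_mul]
      exact mul_dvd_mul_right (X_sub_C_dvd_sub_C_eval) _
    · rw [degree_eq_natDegree (hmon s).ne_zero, natDegree_multiset_prod_X_sub_C_eq_card,
        degree_lt_iff_coeff_zero]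
      intro i hi
      rw [cs]
      refine Multiset.sum_eq_zero fun x hx => ?_
      obtain ⟨α, hα, rfl⟩ := Multiset.mem_map.1 hx
      have := Multiset.card_pos_iff_exists_mem.2 ⟨α, hα⟩
      rw [coeff_eq_zero_of_natDegree_lt (by rw [hdeg α hα]; omega), mul_zero]
  rw [h1, cs]
  refine congrArg _ (Multiset.map_congr rfl fun α hα => ?_)
  rw [← hdeg α hα, (hmon _).coeff_natDegree, mul_one]

/-- `unfold Alg.pmod Alg.pdm`, induction on `P`, `unfold Alg.dmStep` -/
@[simp] theorem length_pmod (A : Alg) (P m : Pol) : (A.pmod P m).length = m.length - 1 := by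
  unfold Alg.pmod
  cases P with
  | nil => simp [a0i_nil]
  | cons c P =>
    rw [a0i_cons]
    unfold Alg.dmStep
    simp

theorem length_pdm_fst (A : Alg) (P m : Pol) : (A.pdm P m).1.length = P.length := by
  induction P with
  | nil => simp [a0i_nil]
  | cons c P ih =>
    rw [a0i_cons]
    unfold Alg.dmStep
    simp [ih]

@[simp] theorem length_pdiv (A : Alg) (P m : Pol) :
    (A.pdiv P m).length = P.length - (m.length - 1) := by
  simp [Alg.pdiv, length_pdm_fst]

@[simp] theorem length_ppowMod (A : Alg) (P : Pol) (e : ℕ) (m : Pol) :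
    (A.ppowMod P e m).length = m.length - 1 := by
  unfold Alg.ppowMod
  cases e.bits with
  | nil => simp
  | cons b l =>
    rw [List.foldr_cons]
    split_ifs <;> simp

@[simp] theorem length_toPoly (A : Alg) (m : Pol) (v : Vec) : (A.toPoly m v).length = m.length - 1 := by
  simp [Alg.toPoly]

namespace Hom

/-- Horner scheme: induction on `P`.  With `k = m.length - 1`, `s = c :: r` (length `k + 1`), `t = s[k]`:
`poly s = C c + X * poly r` and the new remainder is `poly s - C t * poly m` (compare coefficients; the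
coefficient of `X^k` cancels as `m` is monic). -/
theorem pdm (h : Hom A φ) (hm : Mon φ m) (P : Pol) :
    poly φ (A.pdm P m).2 + poly φ m * poly φ (A.pdm P m).1 = poly φ P := by
  induction P with
  | nil =>
    have e := h.pshift (m.length - 1) []
    simp only [Alg.pshift, List.append_nil] at e
    simp [a0i_nil, e]
  | cons c P ih =>
    have hl : (c :: (A.pdm P m).2).length = m.length - 1 + 1 :=
      congrArg (· + 1) (length_pmod A P m)
    have h0 := hm.length_pos
    have e : poly φ (A.dmStep m c (A.pdm P m)).2 = poly φ (c :: (A.pdm P m).2) -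
        C (φ ((c :: (A.pdm P m).2).getD (m.length - 1) [])) * poly φ m := by
      unfold Alg.dmStep
      ext i
      rw [coeff_sub, coeff_C_mul, h.coeff_poly, h.coeff_poly, h.coeff_poly, a0q_getD]
      split_ifs with hi
      · rw [h.sub, h.mul]
      · rcases (not_lt.1 hi).eq_or_lt with rfl | hi'
        · rw [hm.2, h.nil, mul_one, sub_self]
        · rw [a0q_nil (P := m) (by omega), a0q_nil (i := i) (by omega), h.nil, mul_zero, sub_zero]
    have e' : poly φ (A.dmStep m c (A.pdm P m)).1 =
        C (φ ((c :: (A.pdm P m).2).getD (m.length - 1) [])) + X * poly φ (A.pdm P m).1 := by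
      unfold Alg.dmStep
      rw [poly_cons, h.nrm]
    rw [a0i_cons, e, e', poly_cons, poly_cons, ← ih]
    ring

theorem a0i_uniq [Nontrivial R] (h : Hom A φ) (hm : Mon φ m) (P : Pol) :
    poly φ P /ₘ poly φ m = poly φ (A.pdm P m).1 ∧ poly φ P %ₘ poly φ m = poly φ (A.pdm P m).2 := by
  refine div_modByMonic_unique _ _ hm.monic ⟨h.pdm hm P, ?_⟩
  rw [degree_eq_natDegree hm.monic.ne_zero, hm.natDegree_eq, ← length_pmod A P m]
  exact degree_poly_lt φ _

/-- `div_modByMonic_unique` (trivial ring: `subsingleton`) -/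
theorem pmod (h : Hom A φ) (hm : Mon φ m) (P : Pol) : poly φ (A.pmod P m) = poly φ P %ₘ poly φ m := by
  nontriviality R
  exact (a0i_uniq h hm P).2.symm

/-- `poly_take`; the degree of the quotient is `natDegree_divByMonic` -/
theorem pdiv (h : Hom A φ) (hm : Mon φ m) (P : Pol) : poly φ (A.pdiv P m) = poly φ P /ₘ poly φ m := by
  nontriviality R
  have h1 := (a0i_uniq h hm P).1
  rw [Alg.pdiv, poly_take h.nil, h1]
  rw [← h1]
  by_cases h0 : poly φ P /ₘ poly φ m = 0
  · rw [h0, degree_zero]
    exact WithBot.bot_lt_coe _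
  · have h2 := natDegree_le_natDegree (not_lt.1 (mt (divByMonic_eq_zero_iff hm.monic).2 h0))
    have h3 : poly φ P ≠ 0 := fun h3 => h0 (by rw [h3, zero_divByMonic])
    have h4 := (natDegree_lt_iff_degree_lt h3).2 (degree_poly_lt φ P)
    rw [← natDegree_lt_iff_degree_lt h0, natDegree_divByMonic _ hm.monic]
    rw [hm.natDegree_eq] at h2 ⊢
    omega

theorem mon_pdiv (h : Hom A φ) (hm : Mon φ m) {P : Pol} (hP : Mon φ P) (hl : m.length ≤ P.length) :
    Mon φ (A.pdiv P m) := by
  have h0 := hm.length_pos
  rcases subsingleton_or_nontrivial R with hR | hR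
  · exact ⟨List.ne_nil_of_length_pos (by rw [length_pdiv]; omega), Subsingleton.elim _ _⟩
  refine mon_of_monic h.nil ?_ ?_
  · rw [h.pdiv hm, Monic, leadingCoeff_divByMonic_of_monic hm.monic, hP.monic]
    rw [degree_eq_natDegree hm.monic.ne_zero, degree_eq_natDegree hP.monic.ne_zero, hm.natDegree_eq,
      hP.natDegree_eq]
    exact_mod_cast Nat.sub_le_sub_right hl 1
  · rw [h.pdiv hm, natDegree_divByMonic _ hm.monic, length_pdiv, hm.natDegree_eq, hP.natDegree_eq]
    omega

theorem ppowMod (h : Hom A φ) (hm : Mon φ m) (P : Pol) (e : ℕ) :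
    poly φ (A.ppowMod P e m) = poly φ P ^ e %ₘ poly φ m := by
  conv_rhs => rw [← ofBits_bits e]
  unfold Alg.ppowMod
  induction e.bits with
  | nil => rw [List.foldr_nil, h.pmod hm, h.pone, ofBits_nil, pow_zero]
  | cons b l ih =>
    rw [List.foldr_cons, ofBits_cons]
    have h1 := dvd_modByMonic_sub (poly φ P ^ ofBits l) (poly φ m)
    cases b
    · rw [if_neg (by simp), h.pmod hm, h.pmul, ih]
      refine modByMonic_eq_of_dvd_sub hm.monic ?_
      convert h1.mul_right (poly φ P ^ ofBits l %ₘ poly φ m + poly φ P ^ ofBits l) using 1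
      rw [Nat.bit_false]
      ring
    · rw [if_pos rfl, h.pmod hm, h.pmul, h.pmul, ih]
      refine modByMonic_eq_of_dvd_sub hm.monic ?_
      convert h1.mul_right ((poly φ P ^ ofBits l %ₘ poly φ m + poly φ P ^ ofBits l) * poly φ P) using 1
      rw [Nat.bit_true]
      ring

/-- `m' = ∑_{α ∈ s} ∏_{s.erase α} (X - β)` (`derivative_prod`); `P ∏_{s.erase α} ≡ P(α) ∏_{s.erase α} mod m` because
`X - α ∣ P - P(α)`; the sum of the right sides has degree `< card s` and the wanted coefficient of
`X^(card s - 1)`.  (`card s = m.length - 1` if `R` is nontrivial; for `s = 0` the remainder list is empty.) -/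
theorem tr (h : Hom A φ) (hm : Mon φ m) {s : Multiset R}
    (hs : poly φ m = (s.map fun α => X - C α).prod) (P : Pol) :
    φ (A.tr m P) = (s.map fun α => (poly φ P).eval α).sum := by
  nontriviality R
  have h1 := hm.natDegree_eq
  rw [hs, natDegree_multiset_prod_X_sub_C_eq_card] at h1
  rw [Alg.tr, ← h.coeff_poly, h.pmod hm, h.pmul, h.pderiv, hs, ← a0i_tr, h1]
  rfl

theorem tr_roots {F : Type*} [Field F] {φ : Vec → F} (h : Hom A φ) (hm : Mon φ m)
    (hs : (poly φ m).Splits) (P : Pol) :
    φ (A.tr m P) = ((poly φ m).roots.map fun α => (poly φ P).eval α).sum :=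
  h.tr hm (hs.eq_prod_roots_of_monic hm.monic) P

end Hom

end Crest.Agent.R312
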