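import Crest.Agent.R312.A0Div
import Crest.Agent.R312.A0Ker

/-!
# R312 / A0Min : monic generators
Read `A0Defs.lean` first.  Keep the statements; auxiliary lemmas get the prefix `a0m_`.
-/

set_option autoImplicit false

namespace Crest.Agent.R312

open Crest.Agent.Lib.PT Polynomial Crest.PolyFactor

variable {S F : Type*} [Field F] [Fintype F] {A : Alg} {φ : Vec → S → F}

/-- `ptrim`, `ptrim_last`, `Iso.isU_iff`, `Hom.inv` -/
theorem monicize_inl (h : Iso A φ) {P : Pol} {c : Vec}
    (hc : A.monicize (Fintype.card F) P = Sum.inl c) : Wit φ c := by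
  unfold Alg.monicize at hc
  split_ifs at hc with h1 h2
  cases hc
  have := (h.isWit_iff _).1 ⟨ptrim_last h1, h2⟩
  unfold Wit at this ⊢
  rwa [h.hom.nrm]

theorem monicize_inr (h : Iso A φ) {P Q : Pol} (hQ : A.monicize (Fintype.card F) P = Sum.inr Q) :
    (Q = [] ∧ poly φ P = 0) ∨
      (Mon φ Q ∧ Q.length ≤ P.length ∧ ∃ u : S → F, IsUnit u ∧ poly φ Q = C u * poly φ P) := by
  unfold Alg.monicize at hQ
  split_ifs at hQ with h1 h2
  · cases hQ
    exact Or.inl ⟨rfl, by rw [← h.hom.ptrim, h1, poly_nil]⟩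
  · cases hQ
    have hu : φ (A.inv (Fintype.card F) ((A.ptrim P).getLastD [])) * φ ((A.ptrim P).getLastD []) = 1 := by
      funext a
      have h3 := (h.isU_iff _).1 h2 a
      have h4 := (h.hom.pt a).inv (c := (A.ptrim P).getLastD []) h3
      rw [Pi.mul_apply, Pi.one_apply, show φ (A.inv _ _) a = _ from h4]
      exact inv_mul_cancel₀ h3
    refine Or.inr ⟨⟨?_, ?_⟩, ?_, _, IsUnit.of_mul_eq_one _ hu, by rw [h.hom.psmul, h.hom.ptrim]⟩
    · intro e
      exact h1 (List.map_eq_nil_iff.1 e)
    · rw [← h.hom.coeff_poly, h.hom.psmul, coeff_C_mul, h.hom.coeff_poly, length_psmul, ← hu,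
        List.getLastD_eq_getLast?, List.getLast?_eq_getElem?, List.getD_eq_getElem?_getD]
    · rw [length_psmul]
      exact (ptrim_prefix A P).length_le

/-- per-root form -/
theorem monicize_pt (h : Iso A φ) {P Q : Pol} (hP : ∃ a, poly (pt φ a) P ≠ 0)
    (hQ : A.monicize (Fintype.card F) P = Sum.inr Q) :
    Mon φ Q ∧ Q.length ≤ P.length ∧ ∀ a, Associated (poly (pt φ a) P) (poly (pt φ a) Q) := by
  rcases monicize_inr h hQ with ⟨-, h0⟩ | ⟨h1, h2, u, hu, h3⟩
  · obtain ⟨a, ha⟩ := hP
    exact absurd (by rw [poly_pt, h0, Polynomial.map_zero]) ha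
  · refine ⟨h1, h2, fun a => ?_⟩
    rw [poly_pt φ a Q, h3, Polynomial.map_mul, map_C, ← poly_pt]
    exact associated_unit_mul_right _ _ (isUnit_C.2 (hu.map _))

theorem minMonic_inl (h : Iso A φ) {U : List Pol} {c : Vec}
    (hc : A.minMonic (Fintype.card F) U = Sum.inl c) : Wit φ c := monicize_inl h hc

theorem a0m_first {γ : Type*} (K : ℕ → List γ) (d : γ) (k : ℕ) :
    ((∀ e < k, K e = []) ∧ ((List.range k).map K).flatten = []) ∨
      ∃ e < k, ((List.range k).map K).flatten ≠ [] ∧ ((List.range k).map K).flatten.headD d ∈ K e ∧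
        ∀ e' < e, K e' = [] := by
  induction k with
  | zero => exact Or.inl ⟨fun e he => absurd he (by omega), rfl⟩
  | succ k ih =>
    rw [List.range_succ, List.map_append, List.flatten_append, List.map_singleton,
      List.flatten_singleton]
    rcases ih with ⟨h1, h2⟩ | ⟨e, he, h1, h2, h3⟩
    · rw [h2, List.nil_append]
      cases hk : K k with
      | nil =>
        refine Or.inl ⟨fun e he => ?_, rfl⟩
        rcases Nat.lt_succ_iff_lt_or_eq.1 he with he | rfl
        · exact h1 e he
        · exact hk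
      | cons x l => exact Or.inr ⟨k, by omega, by simp, by simp [hk], h1⟩
    · refine Or.inr ⟨e, by omega, by simp [h1], ?_, h3⟩
      obtain ⟨x, l, hx⟩ := List.exists_cons_of_ne_nil h1
      rw [hx] at h2 ⊢
      exact h2

theorem a0m_len {U : List Pol} {P : Pol} (hP : P ∈ U) : P.length ≤ U.flatten.length :=
  (List.sublist_flatten_of_mem hP).length_le

omit [Fintype F] in
/-- the list `K_e` spans the members of degree `≤ e` -/
theorem a0m_ker (hp : A.p.Prime) (h : Iso A φ) (U : List Pol) (e : ℕ) (w : (S → F)[X]) :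
    w ∈ sp (fun v => poly φ (unflat A.p A.dim U.flatten.length v))
      (kerOn A.p (U.flatten.length * A.dim) (U.flatten.length * A.dim)
        (U.map (flat A.p A.dim U.flatten.length))
        (U.map fun P => flat A.p A.dim U.flatten.length (P.drop (e + 1)))) ↔
      w ∈ sp (poly φ) U ∧ w.natDegree ≤ e := by
  have hl := h.hom.lin
  have hΦ := hl.poly_unflat U.flatten.length
  have hF := Faith.poly_unflat hl h.faith U.flatten.length
  have hdeg : ∀ P : Pol, P.length ≤ U.flatten.length → (poly φ P).degree < U.flatten.length :=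
    fun P hP => (degree_poly_lt φ P).trans_le (by exact_mod_cast hP)
  let c : ℕ → (S → F)[X] →+ (ℕ → S → F) := fun n =>
    AddMonoidHom.mk' (fun w i => w.coeff (n + i)) fun _ _ => by funext i; simp
  have hψ := hΦ.comp (c 0)
  have hψF : Faith A.p (U.flatten.length * A.dim)
      fun v => c 0 (poly φ (unflat A.p A.dim U.flatten.length v)) := fun v hv =>
    hF v (Polynomial.ext fun i => by simpa [c] using congrFun hv i)
  rw [sp_kerOn hp hΦ hψ hψF (c (e + 1)) U _ _ fun P hP => ?_, sp_map,
    sp_congr fun P hP => hl.poly_unflat_flat (hdeg P (a0m_len hP)), AddSubgroup.mem_inf,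
    AddMonoidHom.mem_ker, natDegree_le_iff_coeff_eq_zero]
  · refine and_congr_right fun _ => ⟨fun h1 n hn => ?_, fun h1 => funext fun i => h1 _ (by omega)⟩
    have := congrFun h1 (n - (e + 1))
    simpa [c, show e + 1 + (n - (e + 1)) = n by omega] using this
  · rw [hl.poly_unflat_flat (hdeg P (a0m_len hP)),
      hl.poly_unflat_flat (hdeg _ ((List.drop_sublist _ _).length_le.trans (a0m_len hP)))]
    funext i
    simp only [c, AddMonoidHom.mk'_apply, h.hom.coeff_poly, List.getD_eq_getElem?_getD,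
      List.getElem?_drop, zero_add]

/-- Let `k = U.flatten.length ≥` all lengths, `Φ v = poly φ (unflat k v)` (`Lin.poly_unflat`, `Faith.poly_unflat`),
`V = sp (poly φ) U = sp Φ (U.map flat)`.  By `sp_kerOn` with `T = (· /ₘ X^(e+1))` (or `divX^[e+1]`) the list `K_e`
spans `V ∩ {degree ≤ e}` and consists of vectors with `Φ ≠ 0`.  The head of the flattened list lies in the first
non-empty `K_e`, so it has least degree among the nonzero members of `V`; if all `K_e` are empty then `V = ⊥`. -/
theorem minMonic_inr (hp : A.p.Prime) (h : Iso A φ) {U : List Pol}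
    (hU : ∀ x : S → F, ∀ w ∈ sp (poly φ) U, C x * w ∈ sp (poly φ) U) {v : Pol}
    (hv : A.minMonic (Fintype.card F) U = Sum.inr v) :
    (v = [] ∧ sp (poly φ) U = ⊥) ∨ (Mon φ v ∧ poly φ v ∈ sp (poly φ) U ∧
      ∀ w ∈ sp (poly φ) U, w ≠ 0 → v.length - 1 ≤ w.natDegree) := by
  have hl := h.hom.lin
  have hΦ := hl.poly_unflat U.flatten.length
  have hF := Faith.poly_unflat hl h.faith U.flatten.length
  have hlt : ∀ w ∈ sp (poly φ) U, w ≠ 0 → w.natDegree < U.flatten.length := by
    intro w hw hw0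
    have : sp (poly φ) U ≤ (degreeLT (S → F) U.flatten.length).toAddSubgroup :=
      sp_le.2 fun P hP => mem_degreeLT.2
        ((degree_poly_lt φ P).trans_le (by exact_mod_cast a0m_len hP))
    exact (natDegree_lt_iff_degree_lt hw0).2 (mem_degreeLT.1 (this hw))
  have hK := a0m_ker hp h U
  unfold Alg.minMonic at hv
  generalize hKdef : (fun e => kerOn A.p (U.flatten.length * A.dim) (U.flatten.length * A.dim)
        (U.map (flat A.p A.dim U.flatten.length))
        (U.map fun P => flat A.p A.dim U.flatten.length (P.drop (e + 1)))) = K at hv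
  have hK' : ∀ e w, w ∈ sp (fun v => poly φ (unflat A.p A.dim U.flatten.length v)) (K e) ↔
      w ∈ sp (poly φ) U ∧ w.natDegree ≤ e := by rw [← hKdef]; exact hK
  have hne : ∀ w ∈ sp (poly φ) U, w ≠ 0 → K w.natDegree ≠ [] := fun w hw hw0 e => by
    have := (hK' _ w).2 ⟨hw, le_rfl⟩
    rw [e, sp_nil] at this
    exact hw0 (AddSubgroup.mem_bot.1 this)
  rcases a0m_first K [] U.flatten.length with ⟨h1, h2⟩ | ⟨e, -, -, h2, h3⟩
  · have hbot : sp (poly φ) U = ⊥ := by
      refine (AddSubgroup.eq_bot_iff_forall _).2 fun w hw => ?_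
      by_contra hw0
      exact hne w hw hw0 (h1 _ (hlt w hw hw0))
    rw [h2, List.headD_nil] at hv
    rcases monicize_inr h hv with ⟨h3, -⟩ | ⟨h3, -, u, -, h4⟩
    · exact Or.inl ⟨h3, hbot⟩
    · refine Or.inr ⟨h3, ?_, fun w hw hw0 => absurd (AddSubgroup.mem_bot.1 (hbot ▸ hw)) hw0⟩
      rw [h4, hΦ.nil, mul_zero]
      exact zero_mem _
  · generalize ((List.range U.flatten.length).map K).flatten.headD [] = x at hv h2
    obtain ⟨hx1, hx2⟩ := (hK' e _).1 (mem_sp h2)
    have hx0 : poly φ (unflat A.p A.dim U.flatten.length x) ≠ 0 := fun e0 =>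
      (kerOn_mem (by rw [← hKdef] at h2; exact h2)).1 (hF x e0)
    rcases monicize_inr h hv with ⟨-, h4⟩ | ⟨h4, -, u, -, h5⟩
    · exact absurd h4 hx0
    · have : Nontrivial (S → F) := Polynomial.nontrivial_iff.1 ⟨_, _, hx0⟩
      refine Or.inr ⟨h4, h5 ▸ hU u _ hx1, fun w hw hw0 => ?_⟩
      rw [← h4.natDegree_eq, h5]
      refine (natDegree_C_mul_le _ _).trans (hx2.trans ?_)
      by_contra hlt'
      exact hne w hw hw0 (h3 _ (not_le.1 hlt'))

theorem idealMon_inl (h : Iso A φ) {μ : Pol} {U : List Pol} {c : Vec}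
    (hc : A.idealMon (Fintype.card F) μ U = Sum.inl c) : Wit φ c := monicize_inl h hc

omit [Fintype F] in
theorem a0m_const (h : Iso A φ) (x : S → F) (Q : (S → F)[X]) {H : AddSubgroup (S → F)[X]}
    (hH : ∀ e ∈ A.basis, C (φ e) * Q ∈ H) : C x * Q ∈ H := by
  obtain ⟨v, rfl⟩ := h.surj x
  have h1 : sp φ A.basis ≤ H.comap ((AddMonoidHom.mulRight Q).comp (C : (S → F) →+* _).toAddMonoidHom) :=
    sp_le.2 hH
  exact h1 (h.hom.lin.mem_sp_units v)

/-- The span `V` of the list is `J ∩ {degree ≤ deg μ}` (`w = (w %ₘ μ) + C(coeff) μ`), which is closed under constants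
and contains `μ ≠ 0`.  A monic `G ∈ V` of least degree generates `J`: `(w %ₘ G) ∈ J` has smaller degree. -/
theorem idealMon_inr (hp : A.p.Prime) [Nonempty S] (h : Iso A φ) {μ : Pol} (hμ : Mon φ μ) {U : List Pol}
    {J : Ideal (S → F)[X]} (hμJ : poly φ μ ∈ J) (hU : ∀ u ∈ U, poly φ u ∈ J)
    (hJ : ∀ w ∈ J, ∃ u ∈ sp (poly φ) U, poly φ μ ∣ w - u) {G : Pol}
    (hG : A.idealMon (Fintype.card F) μ U = Sum.inr G) :
    Mon φ G ∧ G.length ≤ μ.length ∧ Ideal.span {poly φ G} = J := by
  have hmon := hμ.monic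
  have hdeg := hμ.natDegree_eq
  have hmodJ : ∀ {q : (S → F)[X]}, q ∈ J → ∀ w ∈ J, w %ₘ q ∈ J := fun {q} hq w hw => by
    rw [modByMonic_eq_sub_mul_div]
    exact J.sub_mem hw (J.mul_mem_right _ hq)
  unfold Alg.idealMon at hG
  generalize hW : (U.map fun P => A.pmod P μ) ++ A.basis.map (fun e => A.psmul e μ) = W at hG
  have hV : ∀ w, w ∈ sp (poly φ) W ↔ w ∈ J ∧ w.natDegree ≤ (poly φ μ).natDegree := by
    intro w
    constructor
    · intro hw
      have : sp (poly φ) W ≤ J.toAddSubgroup ⊓ (degreeLE (S → F) (poly φ μ).natDegree).toAddSubgroup := by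
        refine sp_le.2 fun P hP => ?_
        rw [← hW] at hP
        rcases List.mem_append.1 hP with hP | hP
        · obtain ⟨u, hu, rfl⟩ := List.mem_map.1 hP
          rw [h.hom.pmod hμ]
          exact ⟨hmodJ hμJ _ (hU u hu), mem_degreeLE.2
            ((degree_modByMonic_lt _ hmon).le.trans degree_le_natDegree)⟩
        · obtain ⟨e, -, rfl⟩ := List.mem_map.1 hP
          rw [h.hom.psmul]
          exact ⟨J.mul_mem_left _ hμJ, mem_degreeLE.2
            (degree_le_of_natDegree_le (natDegree_C_mul_le _ _))⟩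
      exact ⟨(this hw).1, natDegree_le_of_degree_le (mem_degreeLE.1 (this hw).2)⟩
    · rintro ⟨hw, hwd⟩
      obtain ⟨u, hu, hd⟩ := hJ w hw
      have h1 : (w /ₘ poly φ μ).natDegree = 0 := by rw [natDegree_divByMonic _ hmon]; omega
      rw [← modByMonic_add_div w (poly φ μ), eq_C_of_natDegree_eq_zero h1, mul_comm,
        modByMonic_eq_of_dvd_sub hmon hd]
      refine add_mem ?_ (a0m_const h _ _ fun e he => ?_)
      · have h2 : sp (poly φ) U ≤ (sp (poly φ) W).comap (modByMonicHom (poly φ μ)).toAddMonoidHom := by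
          refine sp_le.2 fun P hP => ?_
          have h3 : A.pmod P μ ∈ W := by
            rw [← hW]
            exact List.mem_append_left _ (List.mem_map.2 ⟨P, hP, rfl⟩)
          have h4 := mem_sp (φ := poly φ) h3
          rw [h.hom.pmod hμ] at h4
          exact h4
        exact h2 hu
      · rw [← h.hom.psmul]
        refine mem_sp ?_
        rw [← hW]
        exact List.mem_append_right _ (List.mem_map.2 ⟨e, he, rfl⟩)
  have hμV : poly φ μ ∈ sp (poly φ) W := (hV _).2 ⟨hμJ, le_rfl⟩
  rcases minMonic_inr hp h (fun x w hw => (hV _).2 ⟨J.mul_mem_left _ ((hV w).1 hw).1,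
    (natDegree_C_mul_le _ _).trans ((hV w).1 hw).2⟩) hG with ⟨-, h1⟩ | ⟨h1, h2, h3⟩
  · rw [h1] at hμV
    exact absurd (AddSubgroup.mem_bot.1 hμV) hmon.ne_zero
  · have h4 := h3 _ hμV hmon.ne_zero
    have h5 := ((hV _).1 h2).1
    refine ⟨h1, by have := hμ.length_pos; omega, le_antisymm
      ((Ideal.span_singleton_le_iff_mem _).2 h5) fun w hw => ?_⟩
    rw [Ideal.mem_span_singleton, ← modByMonic_eq_zero_iff_dvd h1.monic]
    by_contra h0
    have h6 := natDegree_lt_natDegree h0 (degree_modByMonic_lt w h1.monic)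
    have h7 := h3 _ ((hV _).2 ⟨hmodJ h5 w hw, h6.le.trans ((hV _).1 h2).2⟩) h0
    rw [h1.natDegree_eq] at h6
    omega

theorem pgcd_inl (h : Iso A φ) {μ : Pol} {G : List Pol} {c : Vec}
    (hc : A.pgcd (Fintype.card F) μ G = Sum.inl c) : Wit φ c := monicize_inl h hc

/-- `idealMon_inr` for `J = span (μ :: G)`, then `Ideal.map_span` along the evaluation at `a` -/
theorem pgcd_inr (hp : A.p.Prime) [Nonempty S] (h : Iso A φ) {μ : Pol} (hμ : Mon φ μ) {G : List Pol}
    {d : Pol} (hd : A.pgcd (Fintype.card F) μ G = Sum.inr d) :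
    Mon φ d ∧ d.length ≤ μ.length ∧ ∀ a, Ideal.span {poly (pt φ a) d} =
      Ideal.span (poly (pt φ a) '' {P | P ∈ μ :: G}) := by
  have hmon := hμ.monic
  unfold Alg.pgcd at hd
  generalize hU : (G.flatMap fun P => (List.range (μ.length - 1)).flatMap fun j =>
    A.basis.map fun e => A.psmul e (A.pshift j P)) = U at hd
  have hmem : ∀ u, u ∈ U ↔ ∃ P ∈ G, ∃ j < μ.length - 1, ∃ e ∈ A.basis,
      A.psmul e (A.pshift j P) = u := fun u => by
    simp only [← hU, List.mem_flatMap, List.mem_range, List.mem_map]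
  obtain ⟨h1, h2, h3⟩ := idealMon_inr hp h hμ (J := Ideal.span (poly φ '' {P | P ∈ μ :: G}))
    (Ideal.subset_span ⟨μ, List.mem_cons_self, rfl⟩) (fun u hu => by
      obtain ⟨P, hP, j, -, e, -, rfl⟩ := (hmem u).1 hu
      rw [h.hom.psmul, h.hom.pshift, ← mul_assoc]
      exact Ideal.mul_mem_left _ _ (Ideal.subset_span ⟨P, List.mem_cons_of_mem _ hP, rfl⟩))
    (fun w hw => by
      suffices H : ∀ r, ∃ u ∈ sp (poly φ) U, poly φ μ ∣ r * w - u by simpa using H 1
      induction hw using Submodule.span_induction with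
      | mem x hx =>
        intro r
        obtain ⟨P, hP, rfl⟩ := hx
        rcases List.mem_cons.1 hP with rfl | hP
        · exact ⟨0, zero_mem _, by simp⟩
        · refine ⟨r %ₘ poly φ μ * poly φ P, ?_, ?_⟩
          · have e1 : r %ₘ poly φ μ = ∑ j ∈ Finset.range (μ.length - 1),
                C ((r %ₘ poly φ μ).coeff j) * X ^ j := by
              ext1 n
              rw [finsetSum_coeff]
              simp only [coeff_C_mul_X_pow, Finset.sum_ite_eq, Finset.mem_range]
              split_ifs with hn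
              · rfl
              · refine coeff_eq_zero_of_degree_lt ((degree_modByMonic_lt r hmon).trans_le
                  (degree_le_natDegree.trans ?_))
                rw [hμ.natDegree_eq]
                exact_mod_cast not_lt.1 hn
            rw [e1, Finset.sum_mul]
            refine sum_mem fun j hj => ?_
            rw [mul_assoc]
            refine a0m_const h _ _ fun e he => ?_
            rw [← h.hom.pshift, ← h.hom.psmul]
            exact mem_sp ((hmem _).2 ⟨P, hP, j, Finset.mem_range.1 hj, e, he, rfl⟩)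
          · rw [← sub_mul, modByMonic_eq_sub_mul_div, sub_sub_cancel]
            exact (dvd_mul_right _ _).mul_right _
      | zero => exact fun r => ⟨0, zero_mem _, by simp⟩
      | add x y _ _ hx hy =>
        intro r
        obtain ⟨u, hu, hd⟩ := hx r
        obtain ⟨u', hu', hd'⟩ := hy r
        exact ⟨u + u', add_mem hu hu', by
          rw [show r * (x + y) - (u + u') = (r * x - u) + (r * y - u') by ring]
          exact dvd_add hd hd'⟩
      | smul a x _ hx =>
        intro r
        rw [smul_eq_mul, ← mul_assoc]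
        exact hx _) hd
  refine ⟨h1, h2, fun a => ?_⟩
  have h4 := congrArg (Ideal.map (mapRingHom (Pi.evalRingHom (fun _ : S => F) a))) h3
  rw [Ideal.map_span, Ideal.map_span, Set.image_singleton, Set.image_image] at h4
  simpa only [coe_mapRingHom, ← poly_pt] using h4

end Crest.Agent.R312
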