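import Crest.Agent.R312.A0Alg

/-!
# R312 / A0Poly : polynomials over an algebra
Read `A0Defs.lean` first.  Keep the statements; auxiliary lemmas get the prefix `a0p_`.
-/

set_option autoImplicit false

namespace Crest.Agent.R312

open Crest.Agent.Lib.PT Polynomial Crest.PolyFactor

variable {R R' : Type*} [CommRing R] [CommRing R'] {A : Alg} {φ : Vec → R}

theorem a0p_coeff (φ : Vec → R) (P : Pol) (i : ℕ) :
    (poly φ P).coeff i = if i < P.length then φ (P.getD i []) else 0 := by
  simp only [poly, finsetSum_coeff, coeff_monomial, Finset.sum_ite_eq', Finset.mem_range]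

theorem a0p_up (p : ℕ) (f : Vec) {i : ℕ} (hi : i < f.length) :
    bv p ((up f).getD i []) = ((f.getD i 0 : ℕ) : ZMod p) := by
  rw [List.getD_eq_getElem _ _ (by simpa [up] using hi), List.getD_eq_getElem _ _ hi]
  simp [up, bv]

theorem coeff_poly (h0 : φ [] = 0) (P : Pol) (i : ℕ) : (poly φ P).coeff i = φ (P.getD i []) := by
  rw [a0p_coeff]
  split_ifs with hi
  · rfl
  · rw [List.getD_eq_default _ _ (not_lt.1 hi), h0]

@[simp] theorem poly_nil (φ : Vec → R) : poly φ [] = 0 := by simp [poly]

theorem poly_cons (φ : Vec → R) (c : Vec) (P : Pol) : poly φ (c :: P) = C (φ c) + X * poly φ P := by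
  ext i
  cases i with
  | zero => simp [a0p_coeff]
  | succ i => simp [a0p_coeff, coeff_X_mul, coeff_C_succ]

@[simp] theorem poly_singleton (φ : Vec → R) (c : Vec) : poly φ [c] = C (φ c) := by
  rw [poly_cons, poly_nil, mul_zero, add_zero]

theorem poly_append (φ : Vec → R) (P Q : Pol) :
    poly φ (P ++ Q) = poly φ P + X ^ P.length * poly φ Q := by
  induction P with
  | nil => simp
  | cons c P ih =>
    rw [List.cons_append, poly_cons, poly_cons, ih, List.length_cons]
    ring

theorem degree_poly_lt (φ : Vec → R) (P : Pol) : (poly φ P).degree < P.length := by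
  refine (degree_lt_iff_coeff_zero _ _).2 fun i hi => ?_
  rw [a0p_coeff, if_neg hi.not_gt]

theorem natDegree_poly_le (φ : Vec → R) (P : Pol) : (poly φ P).natDegree ≤ P.length - 1 := by
  refine natDegree_le_iff_coeff_eq_zero.2 fun i hi => ?_
  rw [a0p_coeff, if_neg (by omega)]

theorem map_poly (T : R →+* R') (P : Pol) : (poly φ P).map T = poly (fun v => T (φ v)) P := by
  simp only [poly, Polynomial.map_sum, Polynomial.map_monomial]

theorem poly_pt {S : Type*} (φ : Vec → S → R) (a : S) (P : Pol) :
    poly (pt φ a) P = (poly φ P).map (Pi.evalRingHom (fun _ => R) a) :=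
  (map_poly (Pi.evalRingHom (fun _ => R) a) P).symm

theorem poly_map (φ : Vec → R) (f : Vec → Vec) (P : Pol) :
    poly φ (P.map f) = poly (fun v => φ (f v)) P := by
  induction P with
  | nil => simp
  | cons c P ih => rw [List.map_cons, poly_cons, poly_cons, ih]

theorem poly_congr {ψ : Vec → R} {P : Pol} (h : ∀ c ∈ P, φ c = ψ c) : poly φ P = poly ψ P := by
  induction P with
  | nil => simp
  | cons c P ih =>
    rw [poly_cons, poly_cons, h c List.mem_cons_self, ih fun c hc => h c (List.mem_cons_of_mem _ hc)]

theorem poly_take (h0 : φ [] = 0) {P : Pol} {k : ℕ} (hk : (poly φ P).degree < k) :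
    poly φ (P.take k) = poly φ P := by
  ext i
  by_cases hi : i < k
  · rw [coeff_poly h0, coeff_poly h0, List.getD_eq_getElem?_getD, List.getD_eq_getElem?_getD,
      List.getElem?_take_of_lt hi]
  · rw [coeff_eq_zero_of_degree_lt (hk.trans_le (by exact_mod_cast not_lt.1 hi)), a0p_coeff,
      if_neg (by rw [List.length_take]; omega)]

theorem poly_up (p : ℕ) (f : Vec) : poly (bv p) (up f) = ofCoeffList p f := by
  have e : (up f).length = f.length := by simp [up]
  rw [poly, ofCoeffList, e]
  exact Finset.sum_congr rfl fun i hi => by rw [a0p_up p f (Finset.mem_range.1 hi)]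

theorem mon_up {p : ℕ} {f : Vec} : Mon (bv p) (up f) ↔ FMon p f := by
  have e : (up f).length = f.length := by simp [up]
  have e' : up f ≠ [] ↔ f ≠ [] := by simp [up]
  rw [Mon, FMon, e', e]
  refine and_congr_right fun hf => ?_
  rw [a0p_up p f (by have := List.length_pos_iff.2 hf; omega)]

namespace Mon

variable {m m' : Pol}

theorem length_pos (h : Mon φ m) : 0 < m.length :=
  List.length_pos_iff.2 h.1

theorem monic (h : Mon φ m) : (poly φ m).Monic := by
  refine monic_of_natDegree_le_of_coeff_eq_one _ (natDegree_poly_le φ m) ?_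
  rw [a0p_coeff, if_pos (by have := h.length_pos; omega), h.2]

theorem natDegree_eq [Nontrivial R] (h : Mon φ m) : (poly φ m).natDegree = m.length - 1 := by
  refine natDegree_eq_of_le_of_coeff_ne_zero (natDegree_poly_le φ m) ?_
  rw [a0p_coeff, if_pos (by have := h.length_pos; omega), h.2]
  exact one_ne_zero

theorem comp (h : Mon φ m) (T : R →+* R') : Mon (fun v => T (φ v)) m :=
  ⟨h.1, (congrArg T h.2).trans (map_one T)⟩

theorem pt {S : Type*} {φ : Vec → S → R} (h : Mon φ m) (a : S) : Mon (pt φ a) m :=
  ⟨h.1, congrFun h.2 a⟩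

theorem pi {S : Type*} {φ : Vec → S → R} (hm : m ≠ []) (h : ∀ a, Mon (R312.pt φ a) m) : Mon φ m :=
  ⟨hm, funext fun a => (h a).2⟩

end Mon

theorem mon_of_monic (h0 : φ [] = 0) {m : Pol} (hm : (poly φ m).Monic)
    (hl : m.length = (poly φ m).natDegree + 1) : Mon φ m := by
  refine ⟨List.ne_nil_of_length_pos (by omega), ?_⟩
  rw [← coeff_poly h0, hl, Nat.add_sub_cancel]
  exact hm

/-! ### lengths -/

@[simp] theorem length_padd (A : Alg) (P Q : Pol) : (A.padd P Q).length = max P.length Q.length := by
  simp [Alg.padd]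
@[simp] theorem length_psub (A : Alg) (P Q : Pol) : (A.psub P Q).length = max P.length Q.length := by
  simp [Alg.psub]
@[simp] theorem length_pneg (A : Alg) (P : Pol) : (A.pneg P).length = P.length := by
  simp [Alg.pneg]
@[simp] theorem length_psmul (A : Alg) (c : Vec) (P : Pol) : (A.psmul c P).length = P.length := by
  simp [Alg.psmul]
@[simp] theorem length_pmul (A : Alg) (P Q : Pol) :
    (A.pmul P Q).length = P.length + Q.length - 1 := by
  simp [Alg.pmul]
@[simp] theorem length_pshift (A : Alg) (n : ℕ) (P : Pol) : (A.pshift n P).length = n + P.length := by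
  simp [Alg.pshift]
@[simp] theorem length_pderiv (A : Alg) (P : Pol) : (A.pderiv P).length = P.length - 1 := by
  simp [Alg.pderiv]
@[simp] theorem length_pscal (A : Alg) (f : Vec) : (A.pscal f).length = f.length := by
  simp [Alg.pscal]
theorem length_psum_le (A : Alg) {l : List Pol} {n : ℕ} (h : ∀ P ∈ l, P.length ≤ n) :
    (A.psum l).length ≤ n := by
  rw [Alg.psum, List.length_map, List.length_range]
  induction l with
  | nil => simp
  | cons P l ih =>
    exact max_le (h P List.mem_cons_self) (ih fun Q hQ => h Q (List.mem_cons_of_mem _ hQ))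
theorem length_pprod_le (A : Alg) (l : List Pol) :
    (A.pprod l).length ≤ (l.map fun P => P.length - 1).sum + 1 := by
  induction l with
  | nil => simp [Alg.pprod, Alg.pone]
  | cons P l ih =>
    rw [show A.pprod (P :: l) = A.pmul P (A.pprod l) from rfl, length_pmul, List.map_cons, List.sum_cons]
    omega
theorem length_ppow_le (A : Alg) (P : Pol) (n : ℕ) : (A.ppow P n).length ≤ n * (P.length - 1) + 1 := by
  simpa [Alg.ppow] using length_pprod_le A (List.replicate n P)
theorem ptrim_prefix (A : Alg) (P : Pol) : A.ptrim P <+: P := by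
  rw [Alg.ptrim, ← List.reverse_suffix, List.reverse_reverse]
  exact List.dropWhile_suffix _

end Crest.Agent.R312
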