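import Crest.Agent.R312.A0Poly

/-!
# R312 / A0Poly2 : operations on polynomials
Read `A0Defs.lean` first.  Keep the statements; auxiliary lemmas get the prefix `a0q_`.
-/

set_option autoImplicit false

namespace Crest.Agent.R312

open Crest.Agent.Lib.PT Polynomial Crest.PolyFactor

variable {R R' : Type*} [CommRing R] [CommRing R'] {A : Alg} {φ : Vec → R}

theorem a0q_getD {β : Type} (n : ℕ) (f : ℕ → β) (d : β) (i : ℕ) :
    ((List.range n).map f).getD i d = if i < n then f i else d := by
  split_ifs with hi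
  · rw [List.getD_eq_getElem _ _ (by simpa using hi)]
    simp
  · exact List.getD_eq_default _ _ (by simpa using hi)

theorem a0q_nil {P : Pol} {i : ℕ} (hi : P.length ≤ i) : P.getD i [] = [] := List.getD_eq_default _ _ hi

theorem a0q_map (h0 : φ [] = 0) {g : R → R} (hg : g 0 = 0) {f : Vec → Vec} (hf : ∀ c, φ (f c) = g (φ c))
    (P : Pol) (i : ℕ) : φ ((P.map f).getD i []) = g (φ (P.getD i [])) := by
  by_cases hi : i < P.length
  · rw [List.getD_eq_getElem _ _ (by simpa using hi), List.getD_eq_getElem _ _ hi, List.getElem_map, hf]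
  · rw [a0q_nil (by simpa using hi), a0q_nil (not_lt.1 hi), h0, hg]

theorem a0q_le_foldr {l : List ℕ} {x : ℕ} (hx : x ∈ l) : x ≤ l.foldr max 0 := by
  induction l with
  | nil => simp at hx
  | cons a l ih =>
    rcases List.mem_cons.1 hx with rfl | hx
    · exact le_max_left _ _
    · exact (ih hx).trans (le_max_right _ _)

theorem a0q_drop (h : Hom A φ) (L : Pol) :
    poly φ (L.dropWhile fun c => decide (A.IsZ c)).reverse = poly φ L.reverse := by
  induction L with
  | nil => rfl
  | cons c L ih =>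
    rw [List.dropWhile_cons]
    split_ifs with hc
    · rw [ih, List.reverse_cons, poly_append, poly_singleton, h.isZ (of_decide_eq_true hc)]
      simp
    · rfl

namespace Hom

theorem coeff_poly (h : Hom A φ) (P : Pol) (i : ℕ) : (poly φ P).coeff i = φ (P.getD i []) :=
  R312.coeff_poly h.nil P i

theorem padd (h : Hom A φ) (P Q : Pol) : poly φ (A.padd P Q) = poly φ P + poly φ Q := by
  ext i
  rw [coeff_add, h.coeff_poly, h.coeff_poly, h.coeff_poly, Alg.padd, a0q_getD]
  split_ifs with hi
  · exact h.add _ _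
  · rw [a0q_nil (by omega), a0q_nil (by omega), h.nil, add_zero]

theorem psub (h : Hom A φ) (P Q : Pol) : poly φ (A.psub P Q) = poly φ P - poly φ Q := by
  ext i
  rw [coeff_sub, h.coeff_poly, h.coeff_poly, h.coeff_poly, Alg.psub, a0q_getD]
  split_ifs with hi
  · exact h.sub _ _
  · rw [a0q_nil (by omega), a0q_nil (by omega), h.nil, sub_zero]

theorem pneg (h : Hom A φ) (P : Pol) : poly φ (A.pneg P) = -poly φ P := by
  ext i
  rw [coeff_neg, h.coeff_poly, h.coeff_poly]
  exact a0q_map h.nil neg_zero h.neg P i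

theorem psmul (h : Hom A φ) (c : Vec) (P : Pol) : poly φ (A.psmul c P) = C (φ c) * poly φ P := by
  ext i
  rw [coeff_C_mul, h.coeff_poly, h.coeff_poly]
  exact a0q_map h.nil (g := (φ c * ·)) (mul_zero _) (h.mul c) P i

/-- compare coefficients (`coeff_mul`, `Finset.Nat.sum_antidiagonal_eq_sum_range_succ_mk`); beyond the length
both sides vanish -/
theorem pmul (h : Hom A φ) (P Q : Pol) : poly φ (A.pmul P Q) = poly φ P * poly φ Q := by
  ext k
  rw [coeff_mul, Finset.Nat.sum_antidiagonal_eq_sum_range_succ_mk, h.coeff_poly, Alg.pmul, a0q_getD]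
  simp only [h.coeff_poly]
  split_ifs with hk
  · rw [h.sum_range]
    have e1 : ∑ i ∈ Finset.range P.length,
        φ (if i ≤ k then A.mul (P.getD i []) (Q.getD (k - i) []) else []) =
        ∑ i ∈ Finset.range P.length ∩ Finset.range (k + 1),
          φ (P.getD i []) * φ (Q.getD (k - i) []) := by
      rw [← Finset.sum_ite_mem]
      refine Finset.sum_congr rfl fun i _ => ?_
      simp only [Finset.mem_range, Nat.lt_succ_iff]
      split_ifs
      · exact h.mul _ _
      · exact h.nil
    rw [e1]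
    refine Finset.sum_subset Finset.inter_subset_right fun i hi hi' => ?_
    rw [a0q_nil (P := P) (by simp only [Finset.mem_inter, Finset.mem_range] at hi hi'; omega), h.nil,
      zero_mul]
  · rw [h.nil]
    refine (Finset.sum_eq_zero fun i hi => ?_).symm
    by_cases h1 : P.length ≤ i
    · rw [a0q_nil h1, h.nil, zero_mul]
    · rw [a0q_nil (P := Q) (by omega), h.nil, mul_zero]

theorem psum (h : Hom A φ) (l : List Pol) : poly φ (A.psum l) = (l.map (poly φ)).sum := by
  ext i
  have e : ((l.map (poly φ)).sum).coeff i = (l.map fun P => φ (P.getD i [])).sum := by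
    induction l with
    | nil => simp
    | cons P l ih => simp only [List.map_cons, List.sum_cons, coeff_add, ih, h.coeff_poly]
  rw [e, h.coeff_poly, Alg.psum, a0q_getD]
  split_ifs with hi
  · rw [h.sum, List.map_map]
    rfl
  · rw [h.nil]
    refine (List.sum_eq_zero fun x hx => ?_).symm
    obtain ⟨P, hP, rfl⟩ := List.mem_map.1 hx
    rw [a0q_nil ((a0q_le_foldr (List.mem_map_of_mem hP)).trans (not_lt.1 hi)), h.nil]

theorem pone (h : Hom A φ) : poly φ A.pone = 1 := by
  rw [Alg.pone, poly_singleton, h.scal]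
  simp

theorem pX (h : Hom A φ) : poly φ A.pX = X := by
  rw [Alg.pX, poly_cons, poly_singleton, h.scal, h.zero]
  simp

theorem pshift (h : Hom A φ) (n : ℕ) (P : Pol) : poly φ (A.pshift n P) = X ^ n * poly φ P := by
  induction n with
  | zero => simp [Alg.pshift]
  | succ n ih =>
    rw [Alg.pshift, List.replicate_succ, List.cons_append, poly_cons, h.zero, ← Alg.pshift, ih]
    simp only [map_zero, zero_add]
    ring

theorem pprod (h : Hom A φ) (l : List Pol) : poly φ (A.pprod l) = (l.map (poly φ)).prod := by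
  induction l with
  | nil => exact h.pone
  | cons P l ih => rw [List.map_cons, List.prod_cons, ← ih, ← h.pmul]; rfl

theorem ppow (h : Hom A φ) (P : Pol) (n : ℕ) : poly φ (A.ppow P n) = poly φ P ^ n := by
  rw [Alg.ppow, h.pprod, List.map_replicate, List.prod_replicate]

theorem pderiv (h : Hom A φ) (P : Pol) : poly φ (A.pderiv P) = derivative (poly φ P) := by
  ext i
  rw [coeff_derivative, h.coeff_poly, h.coeff_poly, Alg.pderiv, a0q_getD]
  split_ifs with hi
  · rw [h.smul, mul_comm]
    push_cast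
    rfl
  · rw [a0q_nil (by omega), h.nil, zero_mul]

theorem peval (h : Hom A φ) (P : Pol) (x : Vec) : φ (A.peval P x) = (poly φ P).eval (φ x) := by
  induction P with
  | nil => simpa [Alg.peval] using h.zero
  | cons c P ih =>
    rw [poly_cons, eval_add, eval_mul, eval_C, eval_X, ← ih, mul_comm, ← h.mul, ← h.add]
    rfl

theorem pscal {p : ℕ} (h : Hom A φ) (ι : ZMod p →+* R) (f : Vec) :
    poly φ (A.pscal f) = (ofCoeffList p f).map ι := by
  rw [poly, ofCoeffList, length_pscal, Polynomial.map_sum]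
  refine Finset.sum_congr rfl fun i hi => ?_
  have hi' := Finset.mem_range.1 hi
  rw [Polynomial.map_monomial, map_natCast, Alg.pscal, List.getD_eq_getElem _ _ (by simpa using hi'),
    List.getD_eq_getElem _ _ hi', List.getElem_map, h.scal]

theorem pisZ (h : Hom A φ) {P : Pol} (hP : A.PIsZ P) : poly φ P = 0 := by
  ext i
  rw [h.coeff_poly, coeff_zero]
  by_cases hi : i < P.length
  · rw [List.getD_eq_getElem _ _ hi]
    exact h.isZ (hP _ (List.getElem_mem hi))
  · rw [a0q_nil (not_lt.1 hi), h.nil]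

theorem pisZ_iff (h : Hom A φ) (hf : Faith A.p A.dim φ) (P : Pol) : A.PIsZ P ↔ poly φ P = 0 := by
  refine ⟨h.pisZ, fun h0 c hc => ?_⟩
  obtain ⟨i, hi, rfl⟩ := List.getElem_of_mem hc
  refine hf _ ?_
  rw [← List.getD_eq_getElem _ [] hi, ← h.coeff_poly, h0, coeff_zero]

theorem ptrim (h : Hom A φ) (P : Pol) : poly φ (A.ptrim P) = poly φ P := by
  rw [Alg.ptrim, a0q_drop h, List.reverse_reverse]

theorem mon_pone (h : Hom A φ) : Mon φ A.pone :=
  ⟨by simp [Alg.pone], by simpa [Alg.pone] using h.scal 1⟩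

theorem mon_pX (h : Hom A φ) : Mon φ A.pX :=
  ⟨by simp [Alg.pX], by simpa [Alg.pX] using h.scal 1⟩

theorem mon_pshift (h : Hom A φ) (n : ℕ) {m : Pol} (hm : Mon φ m) : Mon φ (A.pshift n m) := by
  have h1 := hm.length_pos
  refine ⟨List.ne_nil_of_length_pos (by rw [length_pshift]; omega), ?_⟩
  rw [← h.coeff_poly, h.pshift, length_pshift, show n + m.length - 1 = m.length - 1 + n by omega,
    coeff_X_pow_mul, h.coeff_poly, hm.2]

theorem mon_pmul (h : Hom A φ) {m m' : Pol} (hm : Mon φ m) (hm' : Mon φ m') : Mon φ (A.pmul m m') := by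
  have h1 := hm.length_pos
  have h2 := hm'.length_pos
  refine ⟨List.ne_nil_of_length_pos (by rw [length_pmul]; omega), ?_⟩
  rw [← h.coeff_poly, h.pmul, length_pmul,
    show m.length + m'.length - 1 - 1 = m.length - 1 + (m'.length - 1) by omega,
    coeff_mul_add_eq_of_natDegree_le (natDegree_poly_le φ m) (natDegree_poly_le φ m'), h.coeff_poly,
    h.coeff_poly, hm.2, hm'.2, one_mul]

theorem mon_pprod (h : Hom A φ) {l : List Pol} (hl : ∀ m ∈ l, Mon φ m) : Mon φ (A.pprod l) := by
  induction l with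
  | nil => exact h.mon_pone
  | cons P l ih =>
    exact h.mon_pmul (hl P List.mem_cons_self) (ih fun m hm => hl m (List.mem_cons_of_mem _ hm))

theorem mon_ppow (h : Hom A φ) {m : Pol} (hm : Mon φ m) (n : ℕ) : Mon φ (A.ppow m n) :=
  h.mon_pprod fun _ h' => List.eq_of_mem_replicate h' ▸ hm

theorem mon_pscal {p : ℕ} (h : Hom A φ) (ι : ZMod p →+* R) {f : Vec} (hf : FMon p f) :
    Mon φ (A.pscal f) := by
  have h1 := List.length_pos_iff.2 hf.1
  refine ⟨List.ne_nil_of_length_pos (by rwa [length_pscal]), ?_⟩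
  have h2 := congrArg ι hf.2
  rw [map_natCast, map_one, List.getD_eq_getElem _ _ (by omega)] at h2
  rw [length_pscal, Alg.pscal, List.getD_eq_getElem _ _ (by simp; omega), List.getElem_map, h.scal, h2]

end Hom

theorem ptrim_last {A : Alg} {P : Pol} (h : A.ptrim P ≠ []) : ¬ A.IsZ ((A.ptrim P).getLastD []) := by
  rw [Alg.ptrim, Ne, List.reverse_eq_nil_iff] at h
  have h1 := List.head_dropWhile_not _ h
  rw [Alg.ptrim, List.getLastD_eq_getLast?, List.getLast?_reverse, List.head?_eq_some_head h]
  simpa using h1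

theorem Iso.pisZ_iff {S F : Type*} [Field F] {φ : Vec → S → F} (h : Iso A φ) (P : Pol) :
    A.PIsZ P ↔ ∀ a, poly (pt φ a) P = 0 := by
  rw [h.hom.pisZ_iff h.faith]
  refine ⟨fun h0 a => by rw [poly_pt, h0, Polynomial.map_zero], fun h0 => ?_⟩
  ext i a
  have h1 := congrArg (coeff · i) (h0 a)
  rw [poly_pt] at h1
  simpa using h1

/-- polynomials of degree `< k` as a space over `F_p` -/
theorem Lin.poly_unflat {p D : ℕ} (h : Lin p D φ) (k : ℕ) :
    Lin p (k * D) fun v => poly φ (R312.unflat p D k v) := by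
  simp only [poly, length_unflat]
  exact Lin.sum h.pos _ fun i _ => (h.unflat k i).comp (monomial i).toAddMonoidHom

theorem Faith.poly_unflat {p D : ℕ} (h : Lin p D φ) (hf : Faith p D φ) (k : ℕ) :
    Faith p (k * D) fun v => poly φ (unflat p D k v) := by
  intro v hv
  refine (isZ_unflat h.pos k v).2 fun i _ => hf _ ?_
  rw [← coeff_poly h.nil, show poly φ (unflat p D k v) = 0 from hv, coeff_zero]

theorem Lin.poly_unflat_flat {p D : ℕ} (h : Lin p D φ) {k : ℕ} {P : Pol}
    (hP : (poly φ P).degree < k) : poly φ (R312.unflat p D k (flat p D k P)) = poly φ P := by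
  ext i
  by_cases hi : i < k
  · rw [coeff_poly h.nil, coeff_poly h.nil, h.unflat_flat P hi]
  · rw [coeff_poly h.nil, a0q_nil (by simpa using hi), h.nil,
      coeff_eq_zero_of_degree_lt (hP.trans_le (by exact_mod_cast not_lt.1 hi))]

/-- every polynomial of degree `< k` is represented -/
theorem exists_poly (hs : Function.Surjective φ) (h0 : φ [] = 0) {k : ℕ} {Q : R[X]} (hQ : Q.degree < k) :
    ∃ P : Pol, P.length = k ∧ poly φ P = Q := by
  refine ⟨(List.range k).map fun i => (hs (Q.coeff i)).choose, by simp, ?_⟩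
  ext i
  rw [coeff_poly h0, a0q_getD]
  split_ifs with hi
  · exact (hs _).choose_spec
  · rw [h0, coeff_eq_zero_of_degree_lt (hQ.trans_le (by exact_mod_cast not_lt.1 hi))]

end Crest.Agent.R312
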