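import Crest.Agent.R312.A0Defs

/-!
# R312 / A0Vec : vectors, spans, `flat` / `unflat`
Read `A0Defs.lean` first.  Keep the statements; auxiliary lemmas get the prefix `a0v_`.
-/

set_option autoImplicit false

namespace Crest.Agent.R312

open Crest.Agent.Lib.PT Polynomial Crest.PolyFactor

variable {M N : Type*} [AddCommGroup M] [AddCommGroup N] {p D : ℕ} {φ : Vec → M}

theorem rd_le (p x : ℕ) : rd p x ≤ p := by
  unfold rd
  split_ifs with h
  · exact Nat.zero_le _
  · exact (Nat.mod_lt _ (Nat.pos_of_ne_zero h)).le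

theorem rd_eq (hp : 0 < p) (x : ℕ) : rd p x = x % p := by
  rw [rd, if_neg hp.ne']

@[simp] theorem length_mkv (p D : ℕ) (f : ℕ → ℕ) : (mkv p D f).length = D := by
  simp [mkv]

theorem getD_mkv (p : ℕ) {D i : ℕ} (f : ℕ → ℕ) (hi : i < D) : (mkv p D f).getD i 0 = rd p (f i) := by
  simp [mkv, List.getD_eq_getElem?_getD, hi]

theorem nrm_mkv (p D : ℕ) (f : ℕ → ℕ) : Nrm p D (mkv p D f) := by
  refine ⟨length_mkv p D f, fun x hx => ?_⟩
  obtain ⟨i, -, rfl⟩ := List.mem_map.1 hx
  exact rd_le _ _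

theorem lt_of_mem_mkv (hp : 0 < p) {f : ℕ → ℕ} {x : ℕ} (hx : x ∈ mkv p D f) : x < p := by
  obtain ⟨i, -, rfl⟩ := List.mem_map.1 hx
  rw [rd_eq hp]
  exact Nat.mod_lt _ hp

theorem a0v_mkv_mod (hp : 0 < p) {i : ℕ} (f : ℕ → ℕ) (hi : i < D) :
    (mkv p D f).getD i 0 ≡ f i [MOD p] := by
  rw [getD_mkv p f hi, rd_eq hp]
  exact Nat.mod_modEq _ _

theorem isZ_mkv (hp : 0 < p) (f : ℕ → ℕ) : IsZ p D (mkv p D f) ↔ ∀ i < D, p ∣ f i := by
  exact forall₂_congr fun i hi => (a0v_mkv_mod hp f hi).dvd_iff dvd_rfl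

/-- Fermat: `ZMod.pow_card_sub_one_eq_one` (for `p = 2` the inverse is `1`) -/
theorem invP_mul (hp : p.Prime) {a : ℕ} (ha : ¬ p ∣ a) : invP p a * a ≡ 1 [MOD p] := by
  have h1 : a ^ (p - 2) * a = a ^ (p - 1) := by
    rw [← pow_succ]
    congr 1
    have := hp.two_le
    omega
  have h2 := Nat.ModEq.pow_totient ((hp.coprime_iff_not_dvd.2 ha).symm)
  rw [Nat.totient_prime hp, ← h1] at h2
  rw [invP, max_eq_left hp.one_le]
  exact ((Nat.mod_modEq _ _).mul_right a).trans h2

theorem invP_lt (hp : 0 < p) (a : ℕ) : invP p a < p := by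
  rw [invP, max_eq_left hp]
  exact Nat.mod_lt _ hp

/-- `x • m` only depends on `x` modulo `p` if `p • m = 0` -/
theorem nsmul_congr {m : M} (hm : p • m = 0) {x y : ℕ} (h : x ≡ y [MOD p]) : x • m = y • m := by
  have key : ∀ z : ℕ, z • m = (z % p) • m := fun z => by
    conv_lhs => rw [← Nat.mod_add_div z p, add_nsmul, mul_nsmul, hm, nsmul_zero, add_zero]
  rw [key x, key y, h]

theorem lin_of (hp : 0 < p) (D : ℕ) (b : ℕ → M) (hb : ∀ i, p • b i = 0) :
    Lin p D fun v => ∑ i ∈ Finset.range D, v.getD i 0 • b i := by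
  refine ⟨hp, fun v => ?_, fun v => Finset.sum_congr rfl fun i hi => ?_⟩
  · rw [Finset.smul_sum]
    exact Finset.sum_eq_zero fun i _ => by rw [smul_comm, hb, nsmul_zero]
  · congr 1
    rw [Finset.sum_eq_single_of_mem i hi fun j hj hji => ?_]
    · rw [unit, nsmul_congr (hb i) (a0v_mkv_mod hp _ (Finset.mem_range.1 hi)), if_pos rfl, one_nsmul]
    · rw [unit, nsmul_congr (hb j) (a0v_mkv_mod hp _ (Finset.mem_range.1 hj)), if_neg hji, zero_nsmul]

namespace Lin

theorem mkv (h : Lin p D φ) (f : ℕ → ℕ) :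
    φ (mkv p D f) = ∑ i ∈ Finset.range D, f i • φ (unit p D i) := by
  rw [h.eq]
  exact Finset.sum_congr rfl fun i hi =>
    nsmul_congr (h.tors _) (a0v_mkv_mod h.pos f (Finset.mem_range.1 hi))

theorem congr (h : Lin p D φ) {u v : Vec} (huv : ∀ i < D, u.getD i 0 ≡ v.getD i 0 [MOD p]) :
    φ u = φ v := by
  rw [h.eq u, h.eq v]
  exact Finset.sum_congr rfl fun i hi => nsmul_congr (h.tors _) (huv i (Finset.mem_range.1 hi))

theorem nil (h : Lin p D φ) : φ [] = 0 := by
  rw [h.eq]
  simp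

theorem nrm (h : Lin p D φ) (v : Vec) : φ (nrm p D v) = φ v := by
  rw [R312.nrm, h.mkv, ← h.eq]

theorem vadd (h : Lin p D φ) (u v : Vec) : φ (vadd p D u v) = φ u + φ v := by
  rw [R312.vadd, h.mkv, h.eq u, h.eq v, ← Finset.sum_add_distrib]
  exact Finset.sum_congr rfl fun i _ => add_nsmul _ _ _

theorem a0v_neg {m : M} (hp : 0 < p) (hm : p • m = 0) : (p - 1) • m = -m := by
  rw [eq_neg_iff_add_eq_zero, ← succ_nsmul, Nat.sub_add_cancel hp, hm]

theorem vsub (h : Lin p D φ) (u v : Vec) : φ (vsub p D u v) = φ u - φ v := by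
  rw [R312.vsub, h.mkv, sub_eq_add_neg, ← a0v_neg h.pos (h.tors v), h.eq u, h.eq v, Finset.smul_sum,
    ← Finset.sum_add_distrib]
  exact Finset.sum_congr rfl fun i _ => by rw [add_nsmul, mul_nsmul']

theorem vsmul (h : Lin p D φ) (c : ℕ) (u : Vec) : φ (vsmul p D c u) = c • φ u := by
  rw [R312.vsmul, h.mkv, h.eq u, Finset.smul_sum]
  exact Finset.sum_congr rfl fun i _ => by rw [mul_nsmul']

theorem vsum (h : Lin p D φ) (G : List Vec) : φ (vsum p D G) = (G.map φ).sum := by
  rw [R312.vsum, h.mkv]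
  induction G with
  | nil => simp [col]
  | cons g G ih =>
    rw [List.map_cons, List.sum_cons, ← ih, h.eq g, ← Finset.sum_add_distrib]
    exact Finset.sum_congr rfl fun i _ => by rw [← add_nsmul]; simp [col]

theorem a0v_dot (c w : Vec) :
    dot c w = ∑ i ∈ Finset.range w.length, c.getD i 0 * w.getD i 0 := by
  unfold dot
  induction w generalizing c with
  | nil => simp
  | cons a w ih =>
    cases c with
    | nil => simp
    | cons b c =>
      rw [List.zipWith_cons_cons, List.sum_cons, ih, List.length_cons, Finset.sum_range_succ', add_comm]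
      simp

theorem a0v_col (G : List Vec) (j i : ℕ) : (col G j).getD i 0 = (G.getD i []).getD j 0 := by
  unfold col
  rw [List.getD_eq_getElem?_getD, List.getD_eq_getElem?_getD (l := G), List.getElem?_map]
  cases G[i]? <;> simp

theorem lc (h : Lin p D φ) (c : Vec) (G : List Vec) :
    φ (lc p D c G) = ∑ i ∈ Finset.range G.length, c.getD i 0 • φ (G.getD i []) := by
  rw [R312.lc, h.mkv]
  simp_rw [a0v_dot, a0v_col]
  have hl : ∀ j, (col G j).length = G.length := fun j => List.length_map _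
  simp_rw [hl, Finset.sum_smul]
  rw [Finset.sum_comm]
  refine Finset.sum_congr rfl fun i _ => ?_
  rw [h.eq (G.getD i []), Finset.smul_sum]
  exact Finset.sum_congr rfl fun j _ => by rw [mul_nsmul']

theorem isZ (h : Lin p D φ) {v : Vec} (hv : IsZ p D v) : φ v = 0 := by
  rw [← h.nil]
  exact h.congr fun i hi => by simpa using (Nat.modEq_zero_iff_dvd).2 (hv i hi)

theorem isZ_iff (h : Lin p D φ) (hf : Faith p D φ) (v : Vec) : IsZ p D v ↔ φ v = 0 := by
  exact ⟨h.isZ, hf v⟩

theorem comp (h : Lin p D φ) (T : M →+ N) : Lin p D fun v => T (φ v) := by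
  refine ⟨h.pos, fun v => by rw [← map_nsmul, h.tors, map_zero], fun v => ?_⟩
  rw [h.eq v, map_sum]
  exact Finset.sum_congr rfl fun i _ => map_nsmul _ _ _

theorem pi {S : Type*} {φ : Vec → S → M} (hp : 0 < p) (h : ∀ a, Lin p D (pt φ a)) : Lin p D φ := by
  refine ⟨hp, fun v => funext fun a => (h a).tors v, fun v => funext fun a => ?_⟩
  rw [Finset.sum_apply]
  exact (h a).eq v

theorem add {ψ : Vec → M} (h : Lin p D φ) (h' : Lin p D ψ) : Lin p D fun v => φ v + ψ v := by
  refine ⟨h.pos, fun v => by rw [nsmul_add, h.tors, h'.tors, add_zero], fun v => ?_⟩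
  rw [h.eq v, h'.eq v, ← Finset.sum_add_distrib]
  exact Finset.sum_congr rfl fun i _ => (nsmul_add _ _ _).symm

theorem sum {ι : Type*} (hp : 0 < p) (s : Finset ι) {φ : ι → Vec → M} (h : ∀ i ∈ s, Lin p D (φ i)) :
    Lin p D fun v => ∑ i ∈ s, φ i v := by
  refine ⟨hp, fun v => ?_, fun v => ?_⟩
  · rw [Finset.smul_sum]
    exact Finset.sum_eq_zero fun i hi => (h i hi).tors v
  · simp_rw [Finset.smul_sum]
    rw [Finset.sum_comm]
    exact Finset.sum_congr rfl fun i hi => (h i hi).eq v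

/-- two linear interpretations that agree on the unit vectors agree -/
theorem ext {ψ : Vec → M} (h : Lin p D φ) (h' : Lin p D ψ)
    (e : ∀ i < D, φ (unit p D i) = ψ (unit p D i)) (v : Vec) : φ v = ψ v := by
  rw [h.eq, h'.eq]
  exact Finset.sum_congr rfl fun i hi => by rw [e i (Finset.mem_range.1 hi)]

end Lin

theorem dot_eq (c w : Vec) : dot c w = ∑ i ∈ Finset.range w.length, c.getD i 0 * w.getD i 0 := by
  exact Lin.a0v_dot c w

theorem a0v_coord (hp : 0 < p) {n : ℕ} (hn : n < D) {m : M} (hm : p • m = 0) :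
    Lin p D fun v => v.getD n 0 • m := by
  have h := lin_of hp D (fun i => if i = n then m else 0) fun i => by split_ifs <;> simp [hm]
  convert h using 2 with v
  rw [Finset.sum_eq_single_of_mem n (Finset.mem_range.2 hn) fun j _ hj => by simp [hj], if_pos rfl]

theorem a0v_zero (hp : 0 < p) (D : ℕ) : Lin p D fun _ => (0 : M) :=
  ⟨hp, fun _ => nsmul_zero _, fun _ => by simp⟩

theorem lin_crd (hp : 0 < p) (D : ℕ) : Lin p D (crd p D) := by
  refine Lin.pi hp fun i => ?_
  by_cases hi : i < D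
  · have h := a0v_coord (M := ZMod p) hp hi (m := 1) (by simp)
    convert h using 2 with v
    simp [crd, hi]
  · convert a0v_zero (M := ZMod p) hp D using 2 with v
    simp [crd, hi]

theorem faith_crd (p D : ℕ) : Faith p D (crd p D) := by
  intro v hv i hi
  have := congrFun hv i
  rw [crd, if_pos hi] at this
  exact (ZMod.natCast_eq_zero_iff _ _).1 this

/-- every finitely supported function is a vector of coordinates (`ZMod.val`) -/
theorem exists_crd (hp : 0 < p) {c : ℕ → ZMod p} (hc : ∀ i, D ≤ i → c i = 0) :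
    ∃ v : Vec, v.length = D ∧ crd p D v = c := by
  have : NeZero p := ⟨hp.ne'⟩
  refine ⟨mkv p D fun i => (c i).val, length_mkv _ _ _, funext fun i => ?_⟩
  unfold crd
  split_ifs with hi
  · rw [(ZMod.natCast_eq_natCast_iff _ _ _).2 (a0v_mkv_mod hp _ hi), ZMod.natCast_zmod_val]
  · exact (hc i (not_lt.1 hi)).symm

/-! ## Spans -/

section sp
variable {ι κ : Type*}

theorem mem_sp {φ : ι → M} {U : List ι} {u : ι} (hu : u ∈ U) : φ u ∈ sp φ U := by
  exact AddSubgroup.subset_closure ⟨u, hu, rfl⟩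

theorem sp_le {φ : ι → M} {U : List ι} {H : AddSubgroup M} : sp φ U ≤ H ↔ ∀ u ∈ U, φ u ∈ H := by
  rw [sp, AddSubgroup.closure_le]
  exact ⟨fun h u hu => h ⟨u, hu, rfl⟩, fun h _ ⟨u, hu, e⟩ => e ▸ h u hu⟩

@[simp] theorem sp_nil (φ : ι → M) : sp φ [] = ⊥ := by
  simp [sp]

theorem sp_append (φ : ι → M) (U U' : List ι) : sp φ (U ++ U') = sp φ U ⊔ sp φ U' := by
  rw [sp, sp, sp, ← AddSubgroup.closure_union, ← Set.image_union]
  congr 2
  ext u
  simp

theorem sp_map (φ : ι → M) (f : κ → ι) (U : List κ) : sp φ (U.map f) = sp (fun x => φ (f x)) U := by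
  refine le_antisymm (sp_le.2 fun u hu => ?_) (sp_le.2 fun u hu => mem_sp (List.mem_map_of_mem hu))
  obtain ⟨x, hx, rfl⟩ := List.mem_map.1 hu
  exact mem_sp (φ := fun x => φ (f x)) hx

theorem sp_congr {φ ψ : ι → M} {U : List ι} (h : ∀ u ∈ U, φ u = ψ u) : sp φ U = sp ψ U := by
  exact le_antisymm (sp_le.2 fun u hu => h u hu ▸ mem_sp hu) (sp_le.2 fun u hu => h u hu ▸ mem_sp hu)

theorem map_sp (φ : ι → M) (T : M →+ N) (U : List ι) :
    (sp φ U).map T = sp (fun u => T (φ u)) U := by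
  rw [sp, sp, AddMonoidHom.map_closure, Set.image_image]

/-- an additive span is contained in the linear span -/
theorem mem_span_of_mem_sp {K : Type*} [Ring K] [Module K M] {φ : ι → M} {U : List ι} {x : M}
    (hx : x ∈ sp φ U) : x ∈ Submodule.span K (φ '' {u | u ∈ U}) := by
  induction hx using AddSubgroup.closure_induction with
  | mem x hx => exact Submodule.subset_span hx
  | zero => exact zero_mem _
  | add x y _ _ hx hy => exact add_mem hx hy
  | neg x _ hx => exact neg_mem hx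

end sp

theorem Lin.lc_mem_sp (h : Lin p D φ) (c : Vec) (U : List Vec) : φ (R312.lc p D c U) ∈ sp φ U := by
  rw [h.lc]
  refine sum_mem fun i hi => nsmul_mem (mem_sp ?_) _
  rw [List.getD_eq_getElem _ _ (Finset.mem_range.1 hi)]
  exact List.getElem_mem _

/-- The right side is an additive subgroup (add coefficient vectors, `-x = (p-1) • x`) containing the
generators (`c = unit`); or induction on `U` with `sp_append`. -/
theorem Lin.mem_sp_iff (h : Lin p D φ) {U : List Vec} {x : M} :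
    x ∈ sp φ U ↔ ∃ c : Vec, c.length = U.length ∧ x = φ (R312.lc p D c U) := by
  refine ⟨fun hx => ?_, fun ⟨c, _, e⟩ => e ▸ h.lc_mem_sp c U⟩
  have key : ∃ c : ℕ → ℕ, x = ∑ i ∈ Finset.range U.length, c i • φ (U.getD i []) := by
    induction hx using AddSubgroup.closure_induction with
    | mem x hx =>
      obtain ⟨u, hu, rfl⟩ := hx
      obtain ⟨i, hi, rfl⟩ := List.getElem_of_mem hu
      refine ⟨fun j => if j = i then 1 else 0, ?_⟩
      rw [Finset.sum_eq_single_of_mem i (Finset.mem_range.2 hi) fun j _ hj => by simp [hj]]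
      beta_reduce
      rw [if_pos rfl, one_nsmul, List.getD_eq_getElem _ _ hi]
    | zero => exact ⟨fun _ => 0, by simp⟩
    | add x y _ _ hx hy =>
      obtain ⟨c, rfl⟩ := hx
      obtain ⟨c', rfl⟩ := hy
      exact ⟨fun i => c i + c' i, by simp_rw [add_nsmul, Finset.sum_add_distrib]⟩
    | neg x _ hx =>
      obtain ⟨c, rfl⟩ := hx
      refine ⟨fun i => c i * (p - 1), ?_⟩
      rw [← Finset.sum_neg_distrib]
      exact Finset.sum_congr rfl fun i _ => by
        rw [mul_nsmul', Lin.a0v_neg h.pos (h.tors _), smul_neg]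
  obtain ⟨c, rfl⟩ := key
  refine ⟨R312.mkv p U.length c, length_mkv _ _ _, ?_⟩
  rw [h.lc]
  exact Finset.sum_congr rfl fun i hi =>
    (nsmul_congr (h.tors _) (a0v_mkv_mod h.pos c (Finset.mem_range.1 hi))).symm

theorem Lin.mem_sp_units (h : Lin p D φ) (v : Vec) : φ v ∈ sp φ (units p D) := by
  rw [h.eq]
  exact sum_mem fun i hi => nsmul_mem (mem_sp (List.mem_map_of_mem (List.mem_range.2 (Finset.mem_range.1 hi)))) _

/-- membership in a span can be read off the coordinates (`mem_sp_iff` for `crd`, then `Lin.congr`) -/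
theorem Lin.mem_sp_of_crd (h : Lin p D φ) {U : List Vec} {v : Vec}
    (hv : crd p D v ∈ sp (crd p D) U) : φ v ∈ sp φ U := by
  obtain ⟨c, -, e⟩ := (lin_crd h.pos D).mem_sp_iff.1 hv
  rw [h.congr (v := R312.lc p D c U) fun i hi => ?_]
  · exact h.lc_mem_sp c U
  · have := congrFun e i
    rw [crd, crd, if_pos hi, if_pos hi] at this
    exact (ZMod.natCast_eq_natCast_iff _ _ _).1 this

/-! ## `flat`, `unflat` -/

@[simp] theorem length_unflat (p D k : ℕ) (v : Vec) : (unflat p D k v).length = k := by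
  simp [unflat]

@[simp] theorem length_flat (p D k : ℕ) (P : List Vec) : (flat p D k P).length = k * D := by
  exact length_mkv _ _ _

theorem getD_unflat (p D : ℕ) {k i : ℕ} (v : Vec) (hi : i < k) :
    (unflat p D k v).getD i [] = mkv p D fun j => v.getD (i * D + j) 0 := by
  simp [unflat, List.getD_eq_getElem?_getD, hi]

theorem a0v_lt {k i j : ℕ} (hi : i < k) (hj : j < D) : i * D + j < k * D := by
  nlinarith

theorem a0v_flat (hp : 0 < p) {k i j : ℕ} (P : List Vec) (hi : i < k) (hj : j < D) :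
    (flat p D k P).getD (i * D + j) 0 ≡ (P.getD i []).getD j 0 [MOD p] := by
  have h := a0v_mkv_mod hp (fun n => (P.getD (n / D) []).getD (n % D) 0) (a0v_lt hi hj)
  have e1 : (i * D + j) / D = i := by
    rw [add_comm, Nat.add_mul_div_right _ _ (by omega), Nat.div_eq_of_lt hj, zero_add]
  have e2 : (i * D + j) % D = j := by
    rw [add_comm, Nat.add_mul_mod_self_right, Nat.mod_eq_of_lt hj]
  rw [e1, e2] at h
  exact h

theorem a0v_forall {k : ℕ} {Q : ℕ → Prop} : (∀ n < k * D, Q n) ↔ ∀ i < k, ∀ j < D, Q (i * D + j) := by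
  refine ⟨fun h i hi j hj => h _ (a0v_lt hi hj), fun h n hn => ?_⟩
  have hD : 0 < D := Nat.pos_of_ne_zero fun h0 => by simp [h0] at hn
  have := h (n / D) ((Nat.div_lt_iff_lt_mul hD).2 hn) (n % D) (Nat.mod_lt _ hD)
  rwa [Nat.div_add_mod'] at this

theorem Lin.unflat_flat (h : Lin p D φ) {k i : ℕ} (P : List Vec) (hi : i < k) :
    φ ((unflat p D k (flat p D k P)).getD i []) = φ (P.getD i []) := by
  rw [getD_unflat p D _ hi]
  exact h.congr fun j hj => (a0v_mkv_mod h.pos _ hj).trans (a0v_flat h.pos P hi hj)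

/-- the `i`-th component is a linear interpretation of `F_p^(k D)` (zero for `i ≥ k`) -/
theorem Lin.unflat (h : Lin p D φ) (k i : ℕ) :
    Lin p (k * D) fun v => φ ((R312.unflat p D k v).getD i []) := by
  by_cases hi : i < k
  · have h1 := Lin.sum h.pos (Finset.range D) (φ := fun j v => v.getD (i * D + j) 0 • φ (unit p D j))
      fun j hj => a0v_coord h.pos (a0v_lt hi (Finset.mem_range.1 hj)) (h.tors _)
    convert h1 using 2 with v
    rw [getD_unflat p D _ hi, h.mkv]
  · convert a0v_zero (M := M) h.pos (k * D) using 2 with v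
    rw [List.getD_eq_default _ _ (by simpa using hi), h.nil]

theorem isZ_unflat (hp : 0 < p) (k : ℕ) (v : Vec) :
    IsZ p (k * D) v ↔ ∀ i < k, IsZ p D ((unflat p D k v).getD i []) := by
  rw [IsZ, a0v_forall]
  refine forall₂_congr fun i hi => ?_
  rw [getD_unflat p D _ hi, isZ_mkv hp]

theorem isZ_flat (hp : 0 < p) (k : ℕ) (P : List Vec) :
    IsZ p (k * D) (flat p D k P) ↔ ∀ i < k, IsZ p D (P.getD i []) := by
  rw [IsZ, a0v_forall]
  exact forall₂_congr fun i hi => forall₂_congr fun j hj => (a0v_flat hp P hi hj).dvd_iff dvd_rfl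

end Crest.Agent.R312
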