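import Crest.Agent.R312.A1Defs

/-!
# R312 / A1Ber : distinct and equal degree factorisation (pure mathematics)

Keep the statements (tell helper77 at once if one looks false); add auxiliary lemmas freely.
Definitions: `A1Defs.lean`; `fun_prop` lemmas for polynomials: `A1Poly.lean`.
-/

set_option autoImplicit false
set_option linter.unusedVariables false

noncomputable section

open scoped Classical

namespace Crest.Agent.R312.A1

open Polynomial Crest.Agent.Lib.PT Crest.PolyFactor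

variable {p : ℕ} [Fact p.Prime]

/-- `d` = least degree of an irreducible factor;
`Irreducible.natDegree_dvd_iff_dvd_X_pow_card_pow_sub_X` (`Nat.card (ZMod p) = p`) -/
theorem exists_deg {f : (ZMod p)[X]} (hf : f.Monic) (h1 : 1 ≤ f.natDegree) :
    ∃ d, 1 ≤ d ∧ d ≤ f.natDegree ∧ ¬ IsCoprime (X ^ p ^ d - X) f ∧
      (f ∣ X ^ p ^ d - X → ∀ g : (ZMod p)[X], Irreducible g → g ∣ f → g.natDegree = d) := by
  have hex : ∃ d, ∃ g : (ZMod p)[X], Irreducible g ∧ g ∣ f ∧ g.natDegree = d := by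
    obtain ⟨g, h2, h3⟩ := exists_irreducible_of_natDegree_pos (f := f) h1
    exact ⟨_, g, h2, h3, rfl⟩
  obtain ⟨g, a1, a2, a3⟩ := Nat.find_spec hex
  have hd : 1 ≤ Nat.find hex := a3 ▸ a1.natDegree_pos
  refine ⟨Nat.find hex, hd, a3 ▸ natDegree_le_of_dvd a2 hf.ne_zero, fun h => ?_,
    fun h g' b1 b2 => le_antisymm (Nat.le_of_dvd hd ?_) (Nat.find_min' hex ⟨g', b1, b2, rfl⟩)⟩
  · refine a1.not_isUnit (h.isUnit_of_dvd' ?_ a2)
    have := (a1.natDegree_dvd_iff_dvd_X_pow_card_pow_sub_X (n := Nat.find hex)).1 a3.dvd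
    rwa [Nat.card_zmod] at this
  · refine b1.natDegree_dvd_of_dvd_X_pow_card_pow_sub_X ?_
    rw [Nat.card_zmod]
    exact b2.trans h

/-- `galois_poly_separable`, `Separable.squarefree` -/
theorem squarefree_of_dvd_gal {f : (ZMod p)[X]} {d : ℕ} (hd : 1 ≤ d) (h : f ∣ X ^ p ^ d - X) :
    Squarefree f := by
  exact ((galois_poly_separable p _ (dvd_pow_self p (by omega))).of_dvd h).squarefree

/-- telescoping (`sum_pow_char`): the difference is `w ^ p ^ d - w`, and `X ^ p ^ d ≡ X` gives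
`w ^ p ^ d ≡ w` for `w = X ^ i` (`sub_dvd_pow_sub_pow`) -/
theorem trace_frob {f : (ZMod p)[X]} {d : ℕ} (h : f ∣ X ^ p ^ d - X) (i : ℕ) :
    f ∣ (∑ j ∈ Finset.range d, (X ^ i) ^ p ^ j) ^ p - ∑ j ∈ Finset.range d, (X ^ i) ^ p ^ j := by
  rw [sum_pow_char, ← Finset.sum_sub_distrib]
  simp only [← pow_mul _ (p ^ _) p, ← pow_succ]
  rw [Finset.sum_range_sub fun j => (X ^ i : (ZMod p)[X]) ^ p ^ j, pow_zero, pow_one,
    pow_right_comm]
  exact h.trans (sub_dvd_pow_sub_pow _ _ _)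

theorem card_adjoinRoot {h : (ZMod p)[X]} (h0 : h ≠ 0) :
    Finite (AdjoinRoot h) ∧ Nat.card (AdjoinRoot h) = p ^ h.natDegree := by
  have := (AdjoinRoot.powerBasis h0).finite
  exact ⟨Module.finite_of_finite (ZMod p), by
    rw [Module.natCard_eq_pow_finrank (K := ZMod p), Nat.card_zmod,
      (AdjoinRoot.powerBasis h0).finrank, AdjoinRoot.powerBasis_dim]⟩

theorem exists_trace_ne {E : Type} [Field E] [Finite E] {d : ℕ} (hd : 1 ≤ d)
    (hE : Nat.card E = p ^ d) : ∃ y : E, ∑ j ∈ Finset.range d, y ^ p ^ j ≠ 0 := by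
  have hp := (Fact.out : p.Prime).one_lt
  have := Fintype.ofFinite E
  by_contra hc
  push Not at hc
  have h := eq_zero_of_natDegree_lt_card_of_eval_eq_zero (∑ j ∈ Finset.range d, X ^ p ^ j : E[X])
    Function.injective_id (fun y => by simpa [eval_finsetSum] using hc y) (by
      rw [Fintype.card_eq_nat_card, hE]
      refine (natDegree_sum_le_of_forall_le _ _ (n := p ^ (d - 1)) fun j hj => ?_).trans_lt
        (Nat.pow_lt_pow_right hp (by omega))
      have := Finset.mem_range.1 hj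
      exact (natDegree_X_pow_le _).trans (Nat.pow_le_pow_right (by omega) (by omega)))
  have h1 := congrArg (coeff · 1) h
  simp only [finsetSum_coeff, coeff_X_pow, coeff_zero] at h1
  rw [Finset.sum_eq_single_of_mem 0 (Finset.mem_range.2 hd) fun j _ hj =>
    if_neg (Nat.one_lt_pow hj hp).ne] at h1
  simp at h1

/-- `T w = ∑_{j<d} w ^ p ^ j` is `ZMod p`-linear and respects congruences.  If all `T (X ^ i)`, `i < n`,
are constants modulo `f`, then so is `T w` for every `w` (`w ≡ w %ₘ f`).  `f` is squarefree and reducible,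
so it has two coprime irreducible factors `π₁, π₂`.  The polynomial `∑ Y ^ p ^ j` of degree
`p ^ (d-1) < p ^ d` has a non-root `y` in the field `AdjoinRoot π₂` with `p ^ d` elements; take
`w ≡ 0 mod π₁`, `w ≡ y mod π₂`. -/
theorem exists_trace {f : (ZMod p)[X]} (hf : f.Monic) (h1 : 1 ≤ f.natDegree)
    (hi : ¬ Irreducible f) {d : ℕ} (hd : 1 ≤ d) (h : f ∣ X ^ p ^ d - X)
    (hdeg : ∀ g : (ZMod p)[X], Irreducible g → g ∣ f → g.natDegree = d) :
    ∃ i < f.natDegree, ∀ c : ZMod p, ¬ f ∣ ∑ j ∈ Finset.range d, (X ^ i) ^ p ^ j - C c := by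
  by_contra hc
  push Not at hc
  set T : (ZMod p)[X] → (ZMod p)[X] := fun w => ∑ j ∈ Finset.range d, w ^ p ^ j with hT
  have hP : ∀ w, ∃ c, f ∣ T w - C c := by
    intro w
    have a1 : ∃ c, f ∣ T (w %ₘ f) - C c := by
      rw [(w %ₘ f).as_sum_range_C_mul_X_pow' (natDegree_modByMonic_lt w hf (by
        rintro rfl
        simp at h1))]
      refine Finset.sum_induction _ (fun w => ∃ c, f ∣ T w - C c) ?_ ⟨0, ?_⟩ fun i hi => ?_
      · rintro a b ⟨c, b1⟩ ⟨c', b2⟩
        refine ⟨c + c', ?_⟩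
        convert dvd_add b1 b2 using 1
        simp only [hT, add_pow_char_pow, Finset.sum_add_distrib, map_add]
        ring
      · simp [hT, (Fact.out : p.Prime).ne_zero]
      · obtain ⟨c, b1⟩ := hc i (Finset.mem_range.1 hi)
        refine ⟨(w %ₘ f).coeff i * c, ?_⟩
        convert b1.mul_left (C ((w %ₘ f).coeff i)) using 1
        simp only [hT, mul_pow, ← C_pow, ZMod.pow_card_pow, map_mul, mul_sub, Finset.mul_sum]
    obtain ⟨c, a2⟩ := a1
    refine ⟨c, ?_⟩
    have a3 : f ∣ T w - T (w %ₘ f) := by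
      rw [hT, ← Finset.sum_sub_distrib]
      refine Finset.dvd_sum fun j _ => Dvd.dvd.trans ?_ (sub_dvd_pow_sub_pow _ _ _)
      exact ⟨w /ₘ f, by rw [sub_eq_iff_eq_add', modByMonic_add_div]⟩
    simpa using dvd_add a3 a2
  obtain ⟨g₁, a1, q, rfl⟩ := exists_irreducible_of_natDegree_pos (f := f) h1
  obtain ⟨g₂, a2, a3⟩ := WfDvdMonoid.exists_irreducible_factor (a := q)
    (fun hq => hi ((irreducible_mul_isUnit hq).2 a1)) (right_ne_zero_of_mul hf.ne_zero)
  have a4 : ¬ g₂ ∣ g₁ := fun h' =>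
    a2.not_isUnit (squarefree_of_dvd_gal hd h g₂ (mul_dvd_mul h' a3))
  have : Fact (Irreducible g₂) := ⟨a2⟩
  obtain ⟨a5, a6⟩ := card_adjoinRoot a2.ne_zero
  rw [hdeg g₂ a2 (a3.mul_left _)] at a6
  obtain ⟨y, hy⟩ := exists_trace_ne hd a6
  obtain ⟨v, hv⟩ := AdjoinRoot.mk_surjective ((AdjoinRoot.mk g₂ g₁)⁻¹ * y)
  obtain ⟨c, a7⟩ := hP (g₁ * v)
  have a8 : g₁ ∣ T (g₁ * v) := Finset.dvd_sum fun j _ =>
    (dvd_mul_right _ _).trans (dvd_pow_self _ (pow_ne_zero _ (Fact.out : p.Prime).ne_zero))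
  have a9 : c = 0 := by
    by_contra h0
    exact a1.not_isUnit (isUnit_of_dvd_unit ((dvd_sub_right a8).1 ((dvd_mul_right _ _).trans a7))
      (isUnit_C.2 (IsUnit.mk0 _ h0)))
  rw [a9, C_0, sub_zero] at a7
  have := AdjoinRoot.mk_eq_zero.2 ((a3.mul_left _).trans a7)
  have a10 : AdjoinRoot.mk g₂ g₁ ≠ 0 := fun e => a4 (AdjoinRoot.mk_eq_zero.1 e)
  simp only [hT, map_sum, map_pow, map_mul, hv, mul_inv_cancel_left₀ a10] at this
  exact hy this

/-- `u ^ p - u = ∏_c (u - C c)` (compose `X ^ p - X = ∏ (X - C c)` with `u`) -/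
theorem frob_eq_prod (u : (ZMod p)[X]) : u ^ p - u = ∏ c : ZMod p, (u - C c) := by
  have h1 := FiniteField.splits_X_pow_card_sub_X p (K := ZMod p)
  rw [Algebra.algebraMap_self, Polynomial.map_id] at h1
  have h2 := h1.eq_prod_roots_of_monic (monic_X_pow_sub (by
    rw [degree_X]
    exact_mod_cast Fintype.one_lt_card))
  rw [FiniteField.roots_X_pow_card_sub_X, ZMod.card] at h2
  have h3 : (X ^ p - X : (ZMod p)[X]) = ∏ c : ZMod p, (X - C c) := h2
  simpa [prod_comp] using congrArg (comp · u) h3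

/-- the values of `u`: `f` divides the product over the values -/
theorem dvd_prod_values {f u : (ZMod p)[X]} (hu : f ∣ u ^ p - u) {S : Finset (ZMod p)}
    (hS : ∀ c, c ∈ S ↔ ¬ IsCoprime (u - C c) f) : f ∣ ∏ c ∈ S, (u - C c) := by
  rw [frob_eq_prod, ← Finset.prod_mul_prod_compl S] at hu
  refine IsCoprime.dvd_of_dvd_mul_right (IsCoprime.prod_right fun c hc => ?_) hu
  exact (not_not.1 (mt (hS c).2 (Finset.mem_compl.1 hc))).symm

theorem two_le_card_values {f u : (ZMod p)[X]} (h1 : 1 ≤ f.natDegree) (hu : f ∣ u ^ p - u)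
    (hc : ∀ c, ¬ f ∣ u - C c) {S : Finset (ZMod p)}
    (hS : ∀ c, c ∈ S ↔ ¬ IsCoprime (u - C c) f) : 2 ≤ S.card := by
  have h := dvd_prod_values hu hS
  by_contra h2
  rcases Nat.le_one_iff_eq_zero_or_eq_one.1 (show S.card ≤ 1 by omega) with e | e
  · rw [Finset.card_eq_zero.1 e, Finset.prod_empty] at h
    have := natDegree_le_of_dvd h one_ne_zero
    rw [natDegree_one] at this
    omega
  · obtain ⟨c, rfl⟩ := Finset.card_eq_one.1 e
    exact hc c (by simpa using h)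

theorem exists_nz_sub {f u : (ZMod p)[X]} (h1 : 1 ≤ f.natDegree) (hu : f ∣ u ^ p - u)
    (hc : ∀ c, ¬ f ∣ u - C c) : ∃ c < p, NZ (u - (c : (ZMod p)[X])) f := by
  have h := two_le_card_values h1 hu hc
    (S := Finset.univ.filter fun c => ¬ IsCoprime (u - C c) f) (by simp)
  obtain ⟨c, h2⟩ := Finset.card_pos.1 (zero_lt_two.trans_le h)
  refine ⟨c.val, c.val_lt, ?_⟩
  rw [← C_eq_natCast, ZMod.natCast_zmod_val]
  exact ⟨hc c, (Finset.mem_filter.1 h2).2⟩

/-- `u - C c ∣ m.comp u - C (m.eval c)` -/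
theorem nz_comp {f u m : (ZMod p)[X]} {a b : ZMod p} (ha : ¬ IsCoprime (u - C a) f)
    (hb : ¬ IsCoprime (u - C b) f) (h0 : m.eval a = 0) (h1 : m.eval b ≠ 0) :
    NZ (m.comp u) f := by
  have h : ∀ c, u - C c ∣ m.comp u - C (m.eval c) := fun c => by
    simpa using map_dvd (compRingHom u) (X_sub_C_dvd_sub_C_eval (p := m) (a := c))
  constructor
  · rintro ⟨w, hw⟩
    obtain ⟨v, hv⟩ := h b
    refine hb ⟨-C (m.eval b)⁻¹ * v, C (m.eval b)⁻¹ * w, ?_⟩
    have : C (m.eval b)⁻¹ * C (m.eval b) = 1 := by rw [← C_mul, inv_mul_cancel₀ h1, C_1]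
    linear_combination this + C (m.eval b)⁻¹ * hv - C (m.eval b)⁻¹ * hw
  · intro hc
    exact ha (hc.of_isCoprime_of_dvd_left (by simpa [h0] using h a))

end Crest.Agent.R312.A1
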