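import Crest.Agent.R312.A1Defs

/-!
# R312 / A1Code : the bit-string codes of the statement

Keep the statements (tell helper77 at once if one looks false); add auxiliary lemmas freely.
Definitions: `A1Defs.lean`; `fun_prop` lemmas for polynomials: `A1Poly.lean`.
-/

set_option autoImplicit false
set_option linter.unusedVariables false

noncomputable section

open scoped Classical

namespace Crest.Agent.R312.A1

open Polynomial Crest.Agent.Lib.PT Crest.PolyFactor

theorem code_ofDigits (l : List Bool) : PolyFactor.ofDigits l = ofBits l := by
  induction l with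
  | nil => rfl
  | cons b l ih => rw [PolyFactor.ofDigits, ih, ofBits_cons, Nat.bit_val, add_comm]

theorem code_digits (b s ds : List Bool) (cur : List ℕ) (done : List (List ℕ)) :
    decodeAux ((b.flatMap fun d => [true, d]) ++ s) ds cur done = decodeAux s (ds ++ b) cur done := by
  induction b generalizing ds with
  | nil => simp
  | cons d b ih => simp [decodeAux, ih]

theorem code_list (l : List ℕ) (s : List Bool) (cur : List ℕ) (done : List (List ℕ)) :
    decodeAux (l.flatMap PolyFactor.encNat ++ false :: true :: s) [] cur done =
      decodeAux s [] [] (done ++ [cur ++ l]) := by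
  induction l generalizing cur with
  | nil => simp [decodeAux]
  | cons n l ih =>
    simp [PolyFactor.encNat, code_digits, decodeAux, code_ofDigits, ih]

theorem code_lists (L done : List (List ℕ)) :
    decodeAux (L.flatMap encNatList) [] [] done = done ++ L := by
  induction L generalizing done with
  | nil => simp [decodeAux]
  | cons l L ih => simp [encNatList, code_list, ih]

/-- prove `decodeAux (l.flatMap encNat ++ false :: true :: s) [] cur done =
decodeAux s [] [] (done ++ [cur ++ l])` by induction (first the digits of one number,
`ofDigits n.bits = n`) -/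
theorem decodeLists_flatMap (L : List (List ℕ)) : decodeLists (L.flatMap encNatList) = L := by
  simpa [decodeLists] using code_lists L []

theorem decodeLists_encNatList (l : List ℕ) : decodeLists (encNatList l) = [l] := by
  simpa using decodeLists_flatMap [l]

@[fun_prop] theorem pt_encNatList {α : Type} [Enc α] {l : α → List ℕ} (hl : PT l) :
    PT fun a => encNatList (l a) := by
  unfold encNatList PolyFactor.encNat
  fun_prop

theorem code_pt : PT fun s : List Bool × List Bool × List ℕ × List (List ℕ) =>
    decodeAux s.1 s.2.1 s.2.2.1 s.2.2.2 := by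
  refine PT.tailrec (cont := fun s => 2 ≤ s.1.length)
    (next := fun s => (s.1.tail.tail, if s.1.headD false = true then
      (s.2.1 ++ [s.1.tail.headD false], s.2.2.1, s.2.2.2) else if s.1.tail.headD false = true then
      ([], [], s.2.2.2 ++ [s.2.2.1]) else ([], s.2.2.1 ++ [ofBits s.2.1], s.2.2.2)))
    (base := fun s => s.2.2.2) (by fun_prop) (by fun_prop) (by fun_prop) ?_ ?_
    (μ := fun s => s.1.length) (ν := fun s => 2 * sz s.1 + 2 * sz s.2.1 + sz s.2.2.1 + sz s.2.2.2 + 3)
    (by fun_prop) (by fun_prop) ?_ ?_ ?_
  · rintro ⟨_ | ⟨_ | _, _ | ⟨b, s⟩⟩, ds, cur, done⟩ h <;> first | rfl | simp at h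
  · rintro ⟨_ | ⟨_ | _, _ | ⟨_ | _, s⟩⟩, ds, cur, done⟩ h <;> simp [decodeAux, code_ofDigits] at h ⊢
  · rintro ⟨s, ds, cur, done⟩ h
    simp only [List.length_tail] at h ⊢
    omega
  · rintro ⟨_ | ⟨a, _ | ⟨b, s⟩⟩, ds, cur, done⟩ h
    · simp at h
    · simp at h
    have h1 := sz_append ds [b]
    have h2 := sz_append done [cur]
    have h3 := sz_append cur [ofBits ds]
    have h4 := sz_nat_le_of_lt (ofBits_lt ds)
    have h5 := length_le_sz ds
    rw [sz_cons, sz_nil] at h1 h2 h3
    cases a <;> cases b <;> simp only [List.headD_cons, List.tail_cons, sz_cons, sz_nil, if_true,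
      Bool.false_eq_true, if_false] <;> omega
  · rintro ⟨s, ds, cur, done⟩
    simp only [sz_mk]
    omega

/-- Write `decodeAux` as the iteration (`s.length` times) of a step on states
`(s, ds, cur, done)` that is the identity when no complete token remains; `ofDigits = ofBits`;
the size of the state grows by at most a polynomial amount in each round, e.g. invariant
`sz ds ≤ …`, or use `PT.iterate_inv` with `s.length + ds.length ≤ n`. -/
@[fun_prop] theorem pt_decodeLists {α : Type} [Enc α] {x : α → List Bool} (hx : PT x) :
    PT fun a => decodeLists (x a) := by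
  exact code_pt.comp (f := fun a => (x a, [], [], [])) (by fun_prop)

end Crest.Agent.R312.A1
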