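import Crest.Agent.R312.A1Poly

/-!
# R312 / A1Defs : the programs of the outer algorithm (owner helper77; do not change)

Polynomials over `ZMod p` are represented by integer polynomials, `fp p : ℤ[X] →+* (ZMod p)[X]`.
A *reducer* `ρ : R → R` keeps sizes bounded; correctness is always expressed through ring
homomorphisms `ψ` with `ψ (ρ c) = ψ c`.  Every search is "try all candidates, take gcds".
-/

set_option autoImplicit false

noncomputable section

open scoped Classical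

namespace Crest.Agent.R312.A1

open Polynomial Crest.Agent.Lib.PT Crest.PolyFactor

section generic

variable {R : Type} [CommRing R]

/-- truncate below `d`, reduce the coefficients -/
def nf (ρ : R → R) (d : ℕ) (w : R[X]) : R[X] := mkP d fun i => ρ (co w i)

/-- one step of long division by `g`; state = (coefficients of the quotient, remainder) -/
def dstep (ρ : R → R) (g : R[X]) (c : R) (s : List R × R[X]) : List R × R[X] :=
  (ρ (co (X * s.2 + cC c) g.natDegree) :: s.1,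
    nf ρ g.natDegree (X * s.2 + cC c - cC (co (X * s.2 + cC c) g.natDegree) * g))

/-- long division of `f` by `g` -/
def dvm (ρ : R → R) (g f : R[X]) : List R × R[X] := (cf f).foldr (dstep ρ g) ([], 0)

def quo (ρ : R → R) (g f : R[X]) : R[X] := ofL (dvm ρ g f).1

def rem (ρ : R → R) (g f : R[X]) : R[X] := (dvm ρ g f).2

/-- power with binary exponent -/
def powR (ρ : R → R) (v : R) (k : ℕ) : R :=
  k.bits.foldr (fun b acc => ρ (acc * acc * cond b v 1)) 1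

/-- the "sign" of `v` (`h = 1/2`, `g` a generator of the 2-Sylow subgroup, `p - 1 = 2 ^ e t`) -/
def sgn (ρ : R → R) (h g : R) (t e : ℕ) (v : R) : R :=
  (rg (e - 1)).foldl (fun w i => ρ (w * (h * (1 + powR ρ w (2 ^ (e - 1 - i.n)) +
    (1 - powR ρ w (2 ^ (e - 1 - i.n))) * powR ρ g (2 ^ i.n))))) (powR ρ v t)

/-- the same without reductions -/
def sgnM (h g : R) (t e : ℕ) (v : R) : R :=
  (List.range (e - 1)).foldl (fun w i => w * (h * (1 + w ^ 2 ^ (e - 1 - i) +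
    (1 - w ^ 2 ^ (e - 1 - i)) * g ^ 2 ^ i))) (v ^ t)

/-- a family of reducers: polynomial time, output of bounded size -/
structure Rd {α : Type} [Enc α] [Enc R] (ρ : α → R → R) : Prop where
  pt : PT fun q : α × R => ρ q.1 q.2
  bd : ∃ B : α → ℕ, PB B ∧ ∀ a c, sz (ρ a c) ≤ B a

end generic

/-! ### arithmetic modulo `p` and `f` -/

/-- reduction modulo `p` -/
def fp (p : ℕ) : ℤ[X] →+* (ZMod p)[X] := mapRingHom (Int.castRingHom (ZMod p))

def rz (p : ℕ) (c : ℤ) : ℤ := if p = 0 then 0 else c % p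

/-- reduced coefficients -/
def Rdc (p : ℕ) (w : ℤ[X]) : Prop := ∀ i, 0 ≤ w.coeff i ∧ w.coeff i < p

/-- the canonical representative -/
def can (p : ℕ) (w : ℤ[X]) : ℤ[X] := nf (rz p) (w.natDegree + 1) w

/-- remainder modulo `p, f` -/
def r1 (p : ℕ) (f w : ℤ[X]) : ℤ[X] := rem (rz p) f w

/-- quotient by `f` modulo `p` -/
def q1 (p : ℕ) (f w : ℤ[X]) : ℤ[X] := quo (rz p) f w

/-- remainder modulo `p, f(x), f(X)` -/
def r2 (p : ℕ) (f : ℤ[X]) (w : ℤ[X][X]) : ℤ[X][X] := rem (r1 p f) (mC f) w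

def pow0 (p : ℕ) (v : ℤ) (k : ℕ) : ℤ := powR (rz p) v k

def pow1 (p : ℕ) (f v : ℤ[X]) (k : ℕ) : ℤ[X] := powR (r1 p f) v k

def pow2 (p : ℕ) (f : ℤ[X]) (v : ℤ[X][X]) (k : ℕ) : ℤ[X][X] := powR (r2 p f) v k

/-- the monic associate (`0` for `0`) -/
def mon (p : ℕ) (b : ℤ[X]) : ℤ[X] := can p (cC (pow0 p (can p b).leadingCoeff (p - 2)) * can p b)

def gstep (p : ℕ) (s : ℤ[X] × ℤ[X]) : ℤ[X] × ℤ[X] :=
  if s.2 = 0 then s else (s.2, r1 p (mon p s.2) s.1)

/-- monic gcd -/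
def gcdP (p : ℕ) (f u : ℤ[X]) : ℤ[X] := mon p ((gstep p)^[u.natDegree + 2] (can p f, can p u)).1

/-- `m(u)` modulo `p, f` -/
def compm (p : ℕ) (f m u : ℤ[X]) : ℤ[X] := (cf m).foldr (fun c acc => r1 p f (acc * u + cC c)) 0

/-- `u` is a non-zero non-unit modulo `f` -/
def NZ {K : Type} [CommRing K] (u f : K) : Prop := ¬ f ∣ u ∧ ¬ IsCoprime u f

/-! ### tournament -/

def sgn2 (p : ℕ) (f : ℤ[X]) (h g : ℤ[X][X]) (t e : ℕ) (v : ℤ[X][X]) : ℤ[X][X] :=
  sgn (r2 p f) h g t e v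

/-- `x ↦ ∑_{f(b) = 0} sgn (x - b)` -/
def tourO (p : ℕ) (f : ℤ[X]) (a e : ℕ) : ℤ[X] :=
  co (r2 p f (sgn2 p f (((p + 1) / 2 : ℕ) : ℤ[X][X]) (pow2 p f (a : ℤ[X][X]) ((p - 1) / 2 ^ e))
    ((p - 1) / 2 ^ e) e (cC (X : ℤ[X]) - (X : ℤ[X][X])) * mC (dv f))) (f.natDegree - 1)

def tourn (p A : ℕ) (f : ℤ[X]) : List ℤ[X] :=
  (rg (A + 1)).flatMap fun a => (rg (p.size + 1)).flatMap fun e =>
    (rg (2 * f.natDegree + 1)).map fun c =>
      tourO p f a.n e.n + (c.n : ℤ[X]) - (f.natDegree : ℤ[X])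

/-! ### the polynomial of the values of an element of the Berlekamp algebra -/

/-- power sums `∑_{f(α) = 0} u(α) ^ k` -/
def psum (p : ℕ) (f u : ℤ[X]) (k : ℕ) : ℤ := co (r1 p f (pow1 p f u k * dv f)) (f.natDegree - 1)

/-- Newton's identities: `a_0, …, a_n` with `∏_α (T - u(α)) = ∑ a_k T^(n-k)` -/
def newt (p : ℕ) (f u : ℤ[X]) : List ℤ :=
  (rg f.natDegree).foldl (fun l k => l ++ [rz p (-pow0 p ((k.n + 1 : ℕ) : ℤ) (p - 2) *
    ((rg (k.n + 1)).map fun i => l.getD i.n 0 * psum p f u (k.n + 1 - i.n)).sum)]) [1]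

def chi (p : ℕ) (f u : ℤ[X]) : ℤ[X] := ofL (newt p f u).reverse

def mu (p : ℕ) (f u : ℤ[X]) : ℤ[X] := gcdP p (chi p f u) (pow1 p (chi p f u) X p - X)

/-- `∑_{j < d} (X^i)^(p^j)` modulo `p, f` -/
def trd (p : ℕ) (f : ℤ[X]) (d i : ℕ) : ℤ[X] :=
  ((rg d).map fun j => pow1 p f (xp ℤ i) (p ^ j.n)).sum

/-! ### factoring with a table -/

/-- the type of `splitOdd` -/
abbrev Sp : Type := ℕ × ℕ × List ℕ × List ℕ × List ℕ → List (List ℕ)

/-- application of `splitOdd` (for `fun_prop`) -/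
def app (sp : Sp) (x : ℕ × ℕ × List ℕ × List ℕ × List ℕ) : List (List ℕ) := sp x

@[fun_prop] theorem pt_app {α : Type} [Enc α] {sp : Sp} [h : Fact (PT sp)]
    {x : α → ℕ × ℕ × List ℕ × List ℕ × List ℕ} (hx : PT x) : PT fun a => app sp (x a) :=
  h.out.comp hx

/-- tables `(r, h, γ)` -/
abbrev Tb : Type := List (ℕ × ℤ[X] × ℤ[X])

def toN (w : ℤ[X]) : List ℕ := (cf w).map Int.toNat

def ofN (l : List ℕ) : ℤ[X] := ofL (l.map fun n : ℕ => (n : ℤ))

/-- candidates for squarefree split `f` -/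
def candS (sp : Sp) (p A : ℕ) (T : Tb) (f : ℤ[X]) : List ℤ[X] :=
  tourn p A f ++ T.flatMap fun t => (app sp (p, t.1, toN t.2.1, toN t.2.2, toN f)).map ofN

/-- candidates from an element `u` of the Berlekamp algebra -/
def candU (sp : Sp) (p A N : ℕ) (T : Tb) (f u : ℤ[X]) : List ℤ[X] :=
  ((rg (N + 1)).map fun c => u - (c.n : ℤ[X])) ++
    (candS sp p A T (mu p f u)).map fun m => compm p f m u

/-- candidates for arbitrary monic `f` -/
def cand (sp : Sp) (p A N : ℕ) (T : Tb) (f : ℤ[X]) : List ℤ[X] :=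
  (rg (f.natDegree + 1)).flatMap fun d => (pow1 p f X (p ^ d.n) - X) ::
    (rg f.natDegree).flatMap fun i => candU sp p A N T f (trd p f d.n i.n)

def split (sp : Sp) (p A N : ℕ) (T : Tb) (f : ℤ[X]) : List ℤ[X] :=
  (((cand sp p A N T f).map (gcdP p f)).find? fun g =>
    decide (0 < g.natDegree ∧ g.natDegree < f.natDegree)).elim [f] fun g => [g, q1 p g f]

def round (sp : Sp) (p A N : ℕ) (T : Tb) (n : ℕ) (L : List ℤ[X]) : List ℤ[X] :=
  ((L.flatMap (split sp p A N T)).take n).map (nf (rz p) (n + 1))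

def factor (sp : Sp) (p A N : ℕ) (T : Tb) (f : ℤ[X]) : List ℤ[X] :=
  (round sp p A N T f.natDegree)^[f.natDegree] ([f].take f.natDegree)

/-! ### the table -/

/-- the Jacobi sum `J(χ, χ^i)`, `χ(g) = z` -/
def jac (l g i : ℕ) : ℤ[X] :=
  ((rg (l - 1)).flatMap fun j => (rg (l - 1)).map fun k =>
    if (g ^ j.n + g ^ k.n) % l = 1 then xp ℤ (j.n + i * k.n) else 0).sum

/-- `l ∏_{i=1}^{r-2} J(χ, χ^i)` -/
def gam (p : ℕ) (h : ℤ[X]) (r l g : ℕ) : ℤ[X] :=
  (rg (r - 2)).foldl (fun acc i => r1 p h (acc * jac l g (i.n + 1))) (r1 p h (l : ℤ[X]))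

def nonres (p L r : ℕ) (h : ℤ[X]) : ℤ[X] :=
  ((r1 p h X :: (rg (L + 1)).flatMap fun l => (rg l.n).map fun g => gam p h r l.n g.n).find?
    fun γ => decide (γ ≠ 0 ∧ r1 p h (pow1 p h γ ((p ^ h.natDegree - 1) / r) - 1) ≠ 0)).getD 0

def phiR (r : ℕ) : ℤ[X] := mkP r fun _ => 1

def entry (sp : Sp) (p A N L : ℕ) (T : Tb) (r : ℕ) : ℕ × ℤ[X] × ℤ[X] :=
  (r, (factor sp p A N T (phiR r)).headD 1, nonres p L r ((factor sp p A N T (phiR r)).headD 1))

def table (sp : Sp) (p A N L : ℕ) : Tb :=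
  (rg (N + 1)).foldl (fun T r => T ++ [entry sp p A N L T r.n]) []

/-! ### the whole program -/

/-- input `p :: coefficients` -/
def mainL (sp : Sp) (C₁ C₂ : ℕ) (l : List ℕ) : List (List ℕ) :=
  (factor sp (l.headD 0) ((l.headD 0).size ^ C₂) (l.length + 3)
    (table sp (l.headD 0) ((l.headD 0).size ^ C₂) (l.length + 3)
      (((l.length + 3) * (l.headD 0).size) ^ C₁)) (mon (l.headD 0) (ofN l.tail))).map toN

def mainB (sp : Sp) (C₁ C₂ : ℕ) (x : List Bool) : List Bool :=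
  (mainL sp C₁ C₂ ((decodeLists x).headD [])).flatMap encNatList

/-! ### specifications -/

/-- the specification of `splitOdd` (`SplitOddSpec ↔ ∃ sp, PT sp ∧ SpOk sp`) -/
def SpOk (sp : Sp) : Prop :=
  ∀ (p : ℕ) [Fact p.Prime] (r : ℕ) (h γ : (ZMod p)[X]) (S : Finset (ZMod p)),
    r.Prime → r ≠ 2 → r ∣ S.card → 0 < S.card → S.card < p →
    h.Monic → Irreducible h → h ∣ ∑ i ∈ Finset.range r, X ^ i → γ.degree < h.degree →
    AdjoinRoot.mk h γ ≠ 0 → AdjoinRoot.mk h γ ^ ((p ^ h.natDegree - 1) / r) ≠ 1 →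
    ∃ u ∈ sp (p, r, clA h, clA γ, clA (∏ a ∈ S, (X - C a))),
      NZ (ofCoeffList p u) (∏ a ∈ S, (X - C a))

/-- a valid entry of the table -/
structure Ent (p r : ℕ) (h γ : ℤ[X]) : Prop where
  monic : h.Monic
  rh : Rdc p h
  rg : Rdc p γ
  irr : Irreducible (fp p h)
  dvd : fp p h ∣ ∑ i ∈ Finset.range r, X ^ i
  deg : γ.degree < h.degree
  ne : AdjoinRoot.mk (fp p h) (fp p γ) ≠ 0
  nr : AdjoinRoot.mk (fp p h) (fp p γ) ^ ((p ^ h.natDegree - 1) / r) ≠ 1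

/-- everything needed to factor polynomials of degree `≤ M` -/
structure Ctx (p A N M : ℕ) (T : Tb) : Prop where
  three : 3 ≤ N
  le : M ≤ N
  nr2 : N < p → ∃ a ≤ A, a ^ ((p - 1) / 2) % p = p - 1
  tb : N < p → ∀ r, r.Prime → r ≠ 2 → r ≤ M → ∃ h γ, (r, h, γ) ∈ T ∧ Ent p r h γ

end Crest.Agent.R312.A1
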