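import Crest.Agent.R312.A1Defs

/-!
# R312 / A1Div : long division, powers, reduction modulo `p`, `f`

Keep the statements (tell helper77 at once if one looks false); add auxiliary lemmas freely.
Definitions: `A1Defs.lean`; `fun_prop` lemmas for polynomials: `A1Poly.lean`.
-/

set_option autoImplicit false
set_option linter.unusedVariables false
set_option linter.unusedSectionVars false

noncomputable section

open scoped Classical

namespace Crest.Agent.R312.A1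

open Polynomial Crest.Agent.Lib.PT Crest.PolyFactor

section generic

variable {R S : Type} [CommRing R] [CommRing S]

theorem coeff_nf (ρ : R → R) (d : ℕ) (w : R[X]) (i : ℕ) :
    (nf ρ d w).coeff i = if i < d then ρ (w.coeff i) else 0 := coeff_mkP _ _ _

theorem degree_nf_lt (ρ : R → R) (d : ℕ) (w : R[X]) : (nf ρ d w).degree < d := degree_mkP_lt _ _

theorem map_nf {ρ : R → R} (φ : R →+* S) (hρ : ∀ c, φ (ρ c) = φ c) {d : ℕ} {w : R[X]}
    (h : w.degree < d) : (nf ρ d w).map φ = w.map φ := by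
  ext i
  rw [coeff_map, coeff_map, coeff_nf]
  split_ifs with hi
  · exact hρ _
  · rw [(degree_lt_iff_coeff_zero _ _).1 h i (not_lt.1 hi)]

theorem rem_eq_nf (ρ : R → R) (g f : R[X]) : ∃ w, rem ρ g f = nf ρ g.natDegree w := by
  rw [rem, dvm, cf, List.range_succ_eq_map, List.map_cons, List.foldr_cons]
  exact ⟨_, rfl⟩

theorem degree_rem_lt (ρ : R → R) (g f : R[X]) : (rem ρ g f).degree < g.natDegree := by
  obtain ⟨w, e⟩ := rem_eq_nf ρ g f
  rw [e]
  exact degree_nf_lt _ _ _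

/-- every coefficient of the remainder (of the quotient) is `0` or a value of `ρ` -/
theorem coeff_rem (ρ : R → R) (g f : R[X]) (i : ℕ) :
    (rem ρ g f).coeff i = 0 ∨ ∃ c, (rem ρ g f).coeff i = ρ c := by
  obtain ⟨w, e⟩ := rem_eq_nf ρ g f
  rw [e, coeff_nf]
  split_ifs
  · exact Or.inr ⟨_, rfl⟩
  · exact Or.inl rfl

theorem coeff_quo (ρ : R → R) (g f : R[X]) (i : ℕ) :
    (quo ρ g f).coeff i = 0 ∨ ∃ c, (quo ρ g f).coeff i = ρ c := by
  have h : ∀ l : List R, ∀ c ∈ (l.foldr (dstep ρ g) ([], 0)).1, ∃ c', c = ρ c' := by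
    intro l
    induction l with
    | nil => simp
    | cons a l ih =>
      intro c hc
      rcases List.mem_cons.1 hc with rfl | hc
      · exact ⟨_, rfl⟩
      · exact ih c hc
  rw [quo, coeff_ofL]
  by_cases hi : i < (dvm ρ g f).1.length
  · rw [List.getD_eq_getElem _ _ hi]
    exact Or.inr (h _ _ (List.getElem_mem hi))
  · exact Or.inl (List.getD_eq_default _ _ (not_lt.1 hi))

/-- Induction on the list `l` in `l.foldr (dstep ρ g) ([], 0)`:
`(ofL l).map φ = g.map φ * (ofL s.1).map φ + s.2.map φ` and `s.2.degree < g.natDegree`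
(`ofL_cons`; `X * s.2 + C c - C lead * g` has degree `< g.natDegree` because `g` is monic). -/
theorem map_dvm {ρ : R → R} (φ : R →+* S) (hρ : ∀ c, φ (ρ c) = φ c) {g : R[X]} (hg : g.Monic)
    (f : R[X]) : f.map φ = g.map φ * (quo ρ g f).map φ + (rem ρ g f).map φ := by
  have h : ∀ l : List R, (ofL l).map φ = g.map φ * (ofL (l.foldr (dstep ρ g) ([], 0)).1).map φ +
      (l.foldr (dstep ρ g) ([], 0)).2.map φ ∧
      (l.foldr (dstep ρ g) ([], 0)).2.degree < g.natDegree := by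
    intro l
    induction l with
    | nil => simp
    | cons c l ih =>
      rw [List.foldr_cons]
      generalize l.foldr (dstep ρ g) ([], 0) = s at ih ⊢
      refine ⟨?_, degree_nf_lt _ _ _⟩
      have hd : (X * s.2 + cC c - cC (co (X * s.2 + cC c) g.natDegree) * g).degree <
          (g.natDegree : WithBot ℕ) := by
        refine (degree_lt_iff_coeff_zero _ _).2 fun m hm => ?_
        rw [coeff_sub, cC_eq (co _ _), coeff_C_mul, co_eq]
        rcases hm.eq_or_lt with rfl | hm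
        · rw [hg.coeff_natDegree, mul_one, sub_self]
        · obtain ⟨m, rfl⟩ : ∃ k, m = k + 1 := ⟨m - 1, by omega⟩
          rw [coeff_eq_zero_of_natDegree_lt hm, coeff_add, coeff_X_mul, cC_eq, coeff_C_succ,
            (degree_lt_iff_coeff_zero _ _).1 ih.2 m (by omega)]
          simp
      simp only [dstep]
      rw [map_nf φ hρ hd, ofL_cons, ofL_cons]
      simp only [cC_eq, Polynomial.map_add, Polynomial.map_mul, Polynomial.map_sub, map_C, map_X,
        hρ, ih.1]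
      ring
  have := (h (cf f)).1
  rwa [ofL_cf] at this

/-- `ψ = eval₂RingHom (ψ.comp C) (ψ X)`; apply `eval (ψ X)` to `map_dvm (ψ.comp C)`. -/
theorem hom_rem {ρ : R → R} (ψ : R[X] →+* S) (hρ : ∀ c, ψ (C (ρ c)) = ψ (C c)) {g : R[X]}
    (hg : g.Monic) (h0 : ψ g = 0) (f : R[X]) : ψ (rem ρ g f) = ψ f := by
  have e : ∀ w : R[X], ψ w = (w.map (ψ.comp C)).eval (ψ X) := fun w => by
    rw [eval_map, ← coe_eval₂RingHom]
    congr 1
    exact ringHom_ext' (by ext; simp) (by simp)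
  rw [e f, map_dvm (ψ.comp C) hρ hg f, eval_add, eval_mul, ← e, ← e, ← e, h0, zero_mul, zero_add]

/-- induction on the list of bits (`ofBits`, `ofBits_bits`, `ofBits_cons`, `Nat.bit_val`) -/
theorem hom_powR {ρ : R → R} (φ : R →+* S) (hρ : ∀ c, φ (ρ c) = φ c) (v : R) (k : ℕ) :
    φ (powR ρ v k) = φ v ^ k := by
  have h : ∀ l : List Bool, φ (l.foldr (fun b acc => ρ (acc * acc * cond b v 1)) 1) =
      φ v ^ ofBits l := by
    intro l
    induction l with
    | nil => simp [ofBits]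
    | cons b l ih =>
      rw [List.foldr_cons, hρ, map_mul, map_mul, ih, ofBits_cons, Nat.bit_val]
      cases b <;> simp <;> ring
  rw [powR, h, ofBits_bits]

variable {α : Type} [Enc α] [Enc R]

theorem pt_nf {ρ : α → R → R} (hρ : PT fun q : α × R => ρ q.1 q.2) {d : α → ℕ} {w : α → R[X]}
    (hd : PT d) (hb : PB d) (hw : PT w) : PT fun a => nf (ρ a) (d a) (w a) := by
  refine pt_mkP (c := fun a i => ρ a (co (w a) i)) hd hb ?_
  exact PT.comp (g := fun q : α × R => ρ q.1 q.2) (f := fun q : α × ℕ => (q.1, co (w q.1) q.2)) hρ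
    (by fun_prop)

theorem sz_nf_le {ρ : R → R} {B : ℕ} (h : ∀ c, sz (ρ c) ≤ B) (d : ℕ) (w : R[X]) :
    sz (nf ρ d w) ≤ (d + 1) * (B + sz (0 : R) + 1) + 1 := by
  exact sz_mkP_le (B := B + sz (0 : R)) (fun i => (h _).trans (by omega)) (by omega)

theorem Rd.comp {β : Type} [Enc β] {ρ : α → R → R} (h : Rd ρ) {e : β → α} (he : PT e) :
    Rd fun b => ρ (e b) := by
  obtain ⟨h1, B, h2, h3⟩ := h
  exact ⟨PT.comp (g := fun q : α × R => ρ q.1 q.2) (f := fun q : β × R => (e q.1, q.2)) h1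
    (by fun_prop), fun b => B (e b), h2.comp he, fun b c => h3 _ _⟩

theorem Rd.app {ρ : α → R → R} (h : Rd ρ) {c : α → R} (hc : PT c) : PT fun a => ρ a (c a) :=
  PT.comp (g := fun q : α × R => ρ q.1 q.2) (f := fun a => (a, c a)) h.pt (PT.id.pair hc)

variable [PTRing R]

/-- `PT.foldr_inv` (or `foldr_grow`): the list grows by one bounded entry, the remainder is an
`nf` -/
theorem pt_dvm {ρ : α → R → R} (hρ : Rd ρ) {g f : α → R[X]} (hg : PT g) (hf : PT f) :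
    PT fun a => dvm (ρ a) (g a) (f a) := by
  obtain ⟨B, hB, hb⟩ := hρ.bd
  have h1 : Rd fun q : α × R × List R × R[X] => ρ q.1 := hρ.comp PT.id.fst
  refine PT.foldr_grow (f := fun a => dstep (ρ a) (g a)) (pt_cf hf) (PT.const _) ?_
    (G := fun q => B q.1 + ((g q.1).natDegree + 1) * (B q.1 + sz (0 : R) + 1) + 2) (by fun_prop)
    fun a c s _ => ?_
  · refine PT.pair (PT.cons (h1.app (by fun_prop)) (by fun_prop)) ?_
    exact pt_nf (ρ := fun q : α × R × List R × R[X] => ρ q.1) h1.pt (by fun_prop) (by fun_prop)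
      (by fun_prop)
  · have h2 := sz_nf_le (hb a) (g a).natDegree
      (X * s.2 + cC c - cC (co (X * s.2 + cC c) (g a).natDegree) * g a)
    have h3 := hb a (co (X * s.2 + cC c) (g a).natDegree)
    simp only [dstep, sz_mk, sz_cons, sz_prod s]
    omega

theorem Rd.rem {ρ : α → R → R} (hρ : Rd ρ) {g : α → R[X]} (hg : PT g) :
    Rd fun a => rem (ρ a) (g a) := by
  obtain ⟨B, hB, hb⟩ := hρ.bd
  refine ⟨(pt_dvm (ρ := fun q : α × R[X] => ρ q.1) (g := fun q => g q.1) (f := fun q => q.2)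
    (hρ.comp PT.id.fst) (by fun_prop) (by fun_prop)).snd,
    fun a => ((g a).natDegree + 1) * (B a + sz (0 : R) + 1) + 1, by fun_prop, fun a w => ?_⟩
  obtain ⟨w, e⟩ := rem_eq_nf (ρ a) (g a) w
  rw [e]
  exact sz_nf_le (hb a) _ _

/-- `pt_foldr_bdd` -/
theorem pt_powR {ρ : α → R → R} (hρ : Rd ρ) {v : α → R} {k : α → ℕ} (hv : PT v) (hk : PT k) :
    PT fun a => powR (ρ a) (v a) (k a) := by
  obtain ⟨B, hB, hb⟩ := hρ.bd
  have h1 : Rd fun q : α × Bool × R => ρ q.1 := hρ.comp PT.id.fst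
  exact pt_foldr_bdd (f := fun a b acc => ρ a (acc * acc * cond b (v a) 1)) (by fun_prop)
    (PT.const _) (h1.app (by fun_prop)) hB fun a _ _ => hb a _

end generic

/-! ### modulo `p` -/

theorem fp_apply (p : ℕ) (w : ℤ[X]) : fp p w = w.map (Int.castRingHom (ZMod p)) := rfl

theorem coeff_fp (p : ℕ) (w : ℤ[X]) (i : ℕ) : (fp p w).coeff i = (w.coeff i : ZMod p) := by
  simp [fp]

theorem cast_rz {T : Type} [CommRing T] {p : ℕ} (h0 : p ≠ 0) (hp : (p : T) = 0) (c : ℤ) :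
    ((rz p c : ℤ) : T) = c := by
  rw [rz, if_neg h0, Int.emod_def]
  simp [hp]

theorem rz_nonneg (p : ℕ) (c : ℤ) : 0 ≤ rz p c := by
  unfold rz
  split_ifs with h
  · exact le_rfl
  · exact Int.emod_nonneg _ (by exact_mod_cast h)

theorem rz_lt {p : ℕ} (h0 : p ≠ 0) (c : ℤ) : rz p c < p := by
  rw [rz, if_neg h0]
  exact Int.emod_lt_of_pos _ (by omega)

theorem Rdc.nf_eq {p d : ℕ} {w : ℤ[X]} (h : Rdc p w) (hd : w.natDegree < d) :
    nf (rz p) d w = w := by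
  ext i
  have := h i
  rw [coeff_nf]
  split_ifs with hi
  · rw [rz, if_neg (by omega), Int.emod_eq_of_lt this.1 this.2]
  · exact (coeff_eq_zero_of_natDegree_lt (by omega)).symm

theorem Rdc.fp_inj {p : ℕ} {w w' : ℤ[X]} (h : Rdc p w) (h' : Rdc p w') (e : fp p w = fp p w') :
    w = w' := by
  ext i
  have e' := congrArg (coeff · i) e
  simp only [coeff_fp] at e'
  have := (ZMod.intCast_eq_intCast_iff' _ _ _).1 e'
  rwa [Int.emod_eq_of_lt (h i).1 (h i).2, Int.emod_eq_of_lt (h' i).1 (h' i).2] at this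

theorem Rdc.cast_eq_zero {p : ℕ} {w : ℤ[X]} (h : Rdc p w) (i : ℕ) :
    ((w.coeff i : ℤ) : ZMod p) = 0 ↔ w.coeff i = 0 := by
  rw [ZMod.intCast_zmod_eq_zero_iff_dvd]
  exact ⟨Int.eq_zero_of_dvd_of_nonneg_of_lt (h i).1 (h i).2, fun e => e ▸ dvd_zero _⟩

theorem Rdc.degree_fp {p : ℕ} {w : ℤ[X]} (h : Rdc p w) : (fp p w).degree = w.degree := by
  have : (fp p w).support = w.support := by
    ext i
    rw [mem_support_iff, mem_support_iff, coeff_fp, Ne, h.cast_eq_zero]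
  rw [degree, this, degree]

theorem Rdc.natDegree_fp {p : ℕ} {w : ℤ[X]} (h : Rdc p w) : (fp p w).natDegree = w.natDegree :=
  natDegree_eq_of_degree_eq h.degree_fp

theorem Rdc.fp_eq_zero {p : ℕ} {w : ℤ[X]} (h : Rdc p w) : fp p w = 0 ↔ w = 0 := by
  rw [← degree_eq_bot, h.degree_fp, degree_eq_bot]

theorem Rdc.monic_of_fp {p : ℕ} [Fact p.Prime] {w : ℤ[X]} (h : Rdc p w) (hm : (fp p w).Monic) :
    w.Monic := by
  have h1 : ((w.coeff w.natDegree : ℤ) : ZMod p) = (1 : ℤ) := by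
    rw [← coeff_fp, ← h.natDegree_fp, hm.coeff_natDegree, Int.cast_one]
  have := (ZMod.intCast_eq_intCast_iff' _ _ _).1 h1
  have h2 := (Fact.out : p.Prime).two_le
  rwa [Int.emod_eq_of_lt (h _).1 (h _).2, Int.emod_eq_of_lt (by omega) (by omega)] at this

theorem natDegree_fp_monic (p : ℕ) [Fact p.Prime] {w : ℤ[X]} (h : w.Monic) :
    (fp p w).natDegree = w.natDegree := h.natDegree_map _

theorem monic_fp (p : ℕ) {w : ℤ[X]} (h : w.Monic) : (fp p w).Monic := h.map _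

theorem rdc_of_coeff {p : ℕ} (h0 : p ≠ 0) {w : ℤ[X]}
    (h : ∀ i, w.coeff i = 0 ∨ ∃ c, w.coeff i = rz p c) : Rdc p w := fun i => by
  rcases h i with e | ⟨c, e⟩ <;> rw [e]
  · omega
  · exact ⟨rz_nonneg _ _, rz_lt h0 _⟩

theorem rdc_nf {p : ℕ} (h0 : p ≠ 0) (d : ℕ) (w : ℤ[X]) : Rdc p (nf (rz p) d w) :=
  rdc_of_coeff h0 fun i => by
    rw [coeff_nf]
    split_ifs
    · exact Or.inr ⟨_, rfl⟩
    · exact Or.inl rfl

theorem rdc_can {p : ℕ} (h0 : p ≠ 0) (w : ℤ[X]) : Rdc p (can p w) := by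
  exact rdc_nf h0 _ _

theorem fp_can {p : ℕ} (h0 : p ≠ 0) (w : ℤ[X]) : fp p (can p w) = fp p w := by
  exact map_nf _ (cast_rz h0 (ZMod.natCast_self p))
    (degree_le_natDegree.trans_lt (by exact_mod_cast Nat.lt_succ_self _))

theorem natDegree_can_le (p : ℕ) (w : ℤ[X]) : (can p w).natDegree ≤ w.natDegree := by
  exact natDegree_mkP_le _ _

theorem rdc_r1 {p : ℕ} (h0 : p ≠ 0) (f w : ℤ[X]) : Rdc p (r1 p f w) := by
  exact rdc_of_coeff h0 (coeff_rem _ _ _)

theorem rdc_q1 {p : ℕ} (h0 : p ≠ 0) (f w : ℤ[X]) : Rdc p (q1 p f w) := by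
  exact rdc_of_coeff h0 (coeff_quo _ _ _)

theorem degree_r1_lt (p : ℕ) (f w : ℤ[X]) : (r1 p f w).degree < f.natDegree := degree_rem_lt _ _ _

theorem fp_div {p : ℕ} (h0 : p ≠ 0) {f : ℤ[X]} (hf : f.Monic) (w : ℤ[X]) :
    fp p w = fp p f * fp p (q1 p f w) + fp p (r1 p f w) := by
  exact map_dvm _ (cast_rz h0 (ZMod.natCast_self p)) hf w

theorem r1_eq_zero {p : ℕ} [Fact p.Prime] {f : ℤ[X]} (hf : f.Monic) (w : ℤ[X]) :
    r1 p f w = 0 ↔ fp p f ∣ fp p w := by
  have h0 := (Fact.out : p.Prime).ne_zero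
  rw [fp_div h0 hf w, dvd_add_right (dvd_mul_right _ _), ← (rdc_r1 h0 f w).fp_eq_zero]
  refine ⟨fun e => e ▸ dvd_zero _, fun h => eq_zero_of_dvd_of_degree_lt h ?_⟩
  rw [(rdc_r1 h0 f w).degree_fp, degree_eq_natDegree (monic_fp p hf).ne_zero,
    natDegree_fp_monic p hf]
  exact degree_r1_lt p f w

/-- the universal specification of `r1` -/
theorem hom_r1 {T : Type} [CommRing T] {p : ℕ} (h0 : p ≠ 0) (hp : (p : T) = 0) (ψ : ℤ[X] →+* T)
    {f : ℤ[X]} (hf : f.Monic) (hψ : ψ f = 0) (w : ℤ[X]) : ψ (r1 p f w) = ψ w := by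
  refine hom_rem ψ (fun c => ?_) hf hψ w
  rw [eq_intCast C, eq_intCast C, map_intCast, map_intCast, cast_rz h0 hp]

theorem hom_pow1 {T : Type} [CommRing T] {p : ℕ} (h0 : p ≠ 0) (hp : (p : T) = 0) (ψ : ℤ[X] →+* T)
    {f : ℤ[X]} (hf : f.Monic) (hψ : ψ f = 0) (v : ℤ[X]) (k : ℕ) : ψ (pow1 p f v k) = ψ v ^ k :=
  hom_powR ψ (hom_r1 h0 hp ψ hf hψ) v k

/-- use `ψ = (AdjoinRoot.mk (fp p f)).comp (fp p)` and `AdjoinRoot.mk_eq_mk` -/
theorem dvd_pow1 {p : ℕ} (h0 : p ≠ 0) {f : ℤ[X]} (hf : f.Monic) (v : ℤ[X]) (k : ℕ) :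
    fp p f ∣ fp p (pow1 p f v k) - fp p v ^ k := by
  have := hom_pow1 h0 (by rw [← map_natCast (AdjoinRoot.of (fp p f)), ZMod.natCast_self, map_zero])
    ((AdjoinRoot.mk (fp p f)).comp (fp p)) hf AdjoinRoot.mk_self v k
  rwa [RingHom.comp_apply, RingHom.comp_apply, ← map_pow, AdjoinRoot.mk_eq_mk] at this

theorem cast_pow0 {T : Type} [CommRing T] {p : ℕ} (h0 : p ≠ 0) (hp : (p : T) = 0) (v : ℤ) (k : ℕ) :
    ((pow0 p v k : ℤ) : T) = (v : T) ^ k :=
  hom_powR (Int.castRingHom T) (cast_rz h0 hp) v k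

/-- the universal specification of `r2` -/
theorem hom_r2 {T : Type} [CommRing T] {p : ℕ} (h0 : p ≠ 0) (hp : (p : T) = 0)
    (Ψ : ℤ[X][X] →+* T) {f : ℤ[X]} (hf : f.Monic) (h1 : Ψ (C f) = 0) (h2 : Ψ (f.map C) = 0)
    (w : ℤ[X][X]) : Ψ (r2 p f w) = Ψ w := by
  exact hom_rem Ψ (hom_r1 h0 hp (Ψ.comp C) hf h1) (hf.map _) h2 w

theorem degree_r2_lt (p : ℕ) {f : ℤ[X]} (hf : f.Monic) (w : ℤ[X][X]) :
    (r2 p f w).degree < f.natDegree := by
  have := degree_rem_lt (r1 p f) (mC f) w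
  rwa [mC_eq, hf.natDegree_map] at this

theorem toN_eq_cl {p : ℕ} (h0 : p ≠ 0) {w : ℤ[X]} (h : Rdc p w) : toN w = clA (fp p w) := by
  have : NeZero p := ⟨h0⟩
  rw [toN, cf, clA, h.natDegree_fp, List.map_map]
  refine List.map_congr_left fun i _ => ?_
  have h1 := ZMod.val_intCast (n := p) (w.coeff i)
  rw [Int.emod_eq_of_lt (h i).1 (h i).2] at h1
  rw [Function.comp_apply, coeff_fp]
  omega

theorem coeff_ofCoeffList (p : ℕ) (l : List ℕ) (i : ℕ) :
    (ofCoeffList p l).coeff i = (l.getD i 0 : ℕ) := by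
  refine (coeff_mkP l.length (fun i => ((l.getD i 0 : ℕ) : ZMod p)) i).trans ?_
  split_ifs with h
  · rfl
  · rw [List.getD_eq_default _ _ (not_lt.1 h), Nat.cast_zero]

theorem fp_ofN (p : ℕ) (l : List ℕ) : fp p (ofN l) = ofCoeffList p l := by
  ext i
  rw [coeff_fp, ofN, coeff_ofL, coeff_ofCoeffList, ← Nat.cast_zero (R := ℤ), List.getD_map,
    Int.cast_natCast]

theorem ofCoeffList_cl {p : ℕ} (h0 : p ≠ 0) (f : (ZMod p)[X]) : ofCoeffList p (clA f) = f := by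
  have : NeZero p := ⟨h0⟩
  ext i
  rw [coeff_ofCoeffList]
  by_cases h : i < f.natDegree + 1
  · simp [clA, List.getD_eq_getElem?_getD, h]
  · rw [List.getD_eq_default _ _ (by simp [clA]; omega), coeff_eq_zero_of_natDegree_lt (by omega),
      Nat.cast_zero]

section pt

variable {α : Type} [Enc α] {p : α → ℕ}

theorem sz_rz_le (p : ℕ) (c : ℤ) : sz (rz p c) ≤ 2 * sz p + 4 := by
  refine sz_int_le_of_le ?_
  by_cases h0 : p = 0
  · simp [rz, h0]
  · have := rz_nonneg p c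
    have := rz_lt h0 c
    omega

theorem rd_rz (hp : PT p) : Rd fun a => rz (p a) := by
  refine ⟨?_, fun a => 2 * sz (p a) + 4, by fun_prop, fun a c => sz_rz_le _ _⟩
  unfold rz
  fun_prop

theorem rd_r1 (hp : PT p) {f : α → ℤ[X]} (hf : PT f) : Rd fun a => r1 (p a) (f a) :=
  (rd_rz hp).rem hf

theorem rd_r2 (hp : PT p) {f : α → ℤ[X]} (hf : PT f) : Rd fun a => r2 (p a) (f a) :=
  (rd_r1 hp hf).rem (pt_mC hf)

@[fun_prop] theorem pt_rz (hp : PT p) {c : α → ℤ} (hc : PT c) : PT fun a => rz (p a) (c a) :=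
  (rd_rz hp).app hc

@[fun_prop] theorem pt_can (hp : PT p) {w : α → ℤ[X]} (hw : PT w) :
    PT fun a => can (p a) (w a) :=
  pt_nf (ρ := fun a => rz (p a)) (d := fun a => (w a).natDegree + 1) (rd_rz hp).pt (by fun_prop)
    (by fun_prop) hw

@[fun_prop] theorem pt_r1 (hp : PT p) {f w : α → ℤ[X]} (hf : PT f) (hw : PT w) :
    PT fun a => r1 (p a) (f a) (w a) := (rd_r1 hp hf).app hw

@[fun_prop] theorem pt_q1 (hp : PT p) {f w : α → ℤ[X]} (hf : PT f) (hw : PT w) :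
    PT fun a => q1 (p a) (f a) (w a) := pt_ofL (pt_dvm (rd_rz hp) hf hw).fst

@[fun_prop] theorem pt_r2 (hp : PT p) {f : α → ℤ[X]} {w : α → ℤ[X][X]} (hf : PT f) (hw : PT w) :
    PT fun a => r2 (p a) (f a) (w a) := (rd_r2 hp hf).app hw

@[fun_prop] theorem pt_pow0 (hp : PT p) {v : α → ℤ} {k : α → ℕ} (hv : PT v) (hk : PT k) :
    PT fun a => pow0 (p a) (v a) (k a) := pt_powR (rd_rz hp) hv hk

@[fun_prop] theorem pt_pow1 (hp : PT p) {f v : α → ℤ[X]} {k : α → ℕ} (hf : PT f) (hv : PT v)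
    (hk : PT k) : PT fun a => pow1 (p a) (f a) (v a) (k a) := pt_powR (rd_r1 hp hf) hv hk

@[fun_prop] theorem pt_pow2 (hp : PT p) {f : α → ℤ[X]} {v : α → ℤ[X][X]} {k : α → ℕ} (hf : PT f)
    (hv : PT v) (hk : PT k) : PT fun a => pow2 (p a) (f a) (v a) (k a) :=
  pt_powR (rd_r2 hp hf) hv hk

@[fun_prop] theorem pt_toN {w : α → ℤ[X]} (hw : PT w) : PT fun a => toN (w a) := by
  unfold toN
  fun_prop

@[fun_prop] theorem pt_ofN {l : α → List ℕ} (hl : PT l) : PT fun a => ofN (l a) := by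
  unfold ofN
  fun_prop

/-- sizes of reduced objects -/
theorem sz_nf_rz_le (p d : ℕ) (w : ℤ[X]) : sz (nf (rz p) d w) ≤ (d + 1) * (2 * sz p + 10) + 1 := by
  have h : sz (0 : ℤ) ≤ 5 := sz_int_le_of_lt (k := 0) (by simp)
  exact (sz_nf_le (sz_rz_le p) d w).trans
    (Nat.succ_le_succ (Nat.mul_le_mul_left _ (by omega)))

theorem sz_r1_le (p : ℕ) (f w : ℤ[X]) : sz (r1 p f w) ≤ (f.natDegree + 1) * (2 * sz p + 10) + 1 := by
  obtain ⟨w, e⟩ := rem_eq_nf (rz p) f w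
  rw [r1, e]
  exact sz_nf_rz_le _ _ _

end pt

end Crest.Agent.R312.A1
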