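import Crest.Agent.R312.A1Newt
import Crest.Agent.R312.A1Ber

/-!
# R312 / A1Fac : candidates, splitting, the factoring loop

Keep the statements (tell helper77 at once if one looks false); add auxiliary lemmas freely.
Definitions: `A1Defs.lean`; `fun_prop` lemmas for polynomials: `A1Poly.lean`.
-/

set_option autoImplicit false
set_option linter.unusedVariables false

noncomputable section

open scoped Classical

namespace Crest.Agent.R312.A1

open Polynomial Crest.Agent.Lib.PT Crest.PolyFactor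

theorem dvd_trd {p : ℕ} (h0 : p ≠ 0) {f : ℤ[X]} (hf : f.Monic) (d i : ℕ) :
    fp p f ∣ fp p (trd p f d i) - ∑ j ∈ Finset.range d, (X ^ i) ^ p ^ j := by
  rw [trd, rg_map d fun j => pow1 p f (xp ℤ i) (p ^ j), sum_map_range, map_sum,
    ← Finset.sum_sub_distrib]
  refine Finset.dvd_sum fun j _ => ?_
  have := dvd_pow1 h0 hf (xp ℤ i) (p ^ j)
  rwa [xp_eq, map_pow, fp_apply p X, map_X] at this

variable {sp : Sp} {p A N M : ℕ} {T : Tb}

/-- even: `tourn_spec`; odd: `r = S.card.minFac`, the table entry, `toN_eq_cl`, `fp_ofN`,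
`Rdc.degree_fp` -/
theorem candS_spec [Fact p.Prime] (hsp : SpOk sp) (hc : Ctx p A N M T) (hN : N < p) {f : ℤ[X]}
    (hf : f.Monic) (hr : Rdc p f) {S : Finset (ZMod p)} (hS : fp p f = ∏ c ∈ S, (X - C c))
    (h2 : 2 ≤ S.card) (hM : S.card ≤ M) : ∃ u ∈ candS sp p A T f, NZ (fp p u) (fp p f) := by
  have h0 := (Fact.out : p.Prime).ne_zero
  have h3 := hc.three
  have h4 := hc.le
  rcases Nat.even_or_odd S.card with he | ho
  · obtain ⟨a, a1, a2⟩ := hc.nr2 hN
    obtain ⟨u, b1, b2⟩ := tourn_spec (by omega) a1 a2 hf hS he (by omega) (by omega)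
    exact ⟨u, List.mem_append_left _ b1, b2⟩
  · have a1 : S.card.minFac.Prime := Nat.minFac_prime (by omega)
    have a2 := Nat.minFac_dvd S.card
    have a3 : S.card.minFac ≠ 2 := fun e => ho.not_two_dvd_nat (e ▸ a2)
    obtain ⟨h, γ, b1, b2⟩ := hc.tb hN _ a1 a3 ((Nat.minFac_le (by omega)).trans hM)
    obtain ⟨u, c1, c2⟩ := hsp p _ (fp p h) (fp p γ) S a1 a3 a2 (by omega) (by omega)
      (monic_fp p b2.monic) b2.irr b2.dvd (by rw [b2.rh.degree_fp, b2.rg.degree_fp]; exact b2.deg)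
      b2.ne (by rw [b2.rh.natDegree_fp]; exact b2.nr)
    refine ⟨ofN u, List.mem_append_right _ (List.mem_flatMap.2 ⟨_, b1, List.mem_map_of_mem ?_⟩), ?_⟩
    · rwa [app, toN_eq_cl h0 b2.rh, toN_eq_cl h0 b2.rg, toN_eq_cl h0 hr, hS]
    · rwa [fp_ofN, hS]

/-- `p ≤ N`: `exists_nz_sub`.  `N < p`: `mu_spec`, `two_le_card_values`, `candS_spec`,
`exists_eval_of_nz`, `nz_comp`, `dvd_compm`, `NZ.congr`. -/
theorem candU_spec [Fact p.Prime] (hsp : SpOk sp) (hc : Ctx p A N M T) {f : ℤ[X]} (hf : f.Monic)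
    (h1 : 1 ≤ f.natDegree) (hM : f.natDegree ≤ M) (hs : Squarefree (fp p f)) {u : ℤ[X]}
    (hu : fp p f ∣ fp p u ^ p - fp p u) (hn : ∀ c, ¬ fp p f ∣ fp p u - C c) :
    ∃ v ∈ candU sp p A N T f u, NZ (fp p v) (fp p f) := by
  have h0 := (Fact.out : p.Prime).ne_zero
  have h1' : 1 ≤ (fp p f).natDegree := by rwa [natDegree_fp_monic p hf]
  rcases le_or_gt p N with hN | hN
  · obtain ⟨c, a1, a2⟩ := exists_nz_sub h1' hu hn
    refine ⟨u - (c : ℤ[X]), List.mem_append_left _
      (List.mem_map.2 ⟨⟨c⟩, mem_rg.2 (show c < N + 1 by omega), rfl⟩), ?_⟩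
    rwa [map_sub, map_natCast]
  · obtain ⟨a1, a2, S, a3, a4, a5⟩ := mu_spec hf (hM.trans_lt (hc.le.trans_lt hN)) hs u
    obtain ⟨m, b1, b2⟩ := candS_spec hsp hc hN a1 a2 a3 (two_le_card_values h1' hu hn a5)
      (a4.trans hM)
    rw [a3] at b2
    obtain ⟨⟨a, c1, c2⟩, b, c3, c4⟩ := exists_eval_of_nz b2
    exact ⟨compm p f m u, List.mem_append_right _ (List.mem_map_of_mem b1),
      (nz_comp ((a5 a).1 c1) ((a5 b).1 c3) c2 c4).congr (dvd_compm h0 hf m u)⟩

/-- `exists_deg`, `dvd_pow1`; then `squarefree_of_dvd_gal`, `exists_trace`, `trace_frob`, `dvd_trd`,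
`candU_spec` -/
theorem cand_spec [Fact p.Prime] (hsp : SpOk sp) (hc : Ctx p A N M T) {f : ℤ[X]} (hf : f.Monic)
    (h1 : 1 ≤ f.natDegree) (hM : f.natDegree ≤ M) (hi : ¬ Irreducible (fp p f)) :
    ∃ v ∈ cand sp p A N T f, NZ (fp p v) (fp p f) := by
  have h0 := (Fact.out : p.Prime).ne_zero
  have hn := natDegree_fp_monic p hf
  obtain ⟨d, a1, a2, a3, a4⟩ := exists_deg (monic_fp p hf) (hn ▸ h1)
  have hd : (⟨d⟩ : Un) ∈ rg (f.natDegree + 1) := mem_rg.2 (show d < _ by omega)
  by_cases h : fp p f ∣ X ^ p ^ d - X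
  · obtain ⟨i, b1, b2⟩ := exists_trace (monic_fp p hf) (hn ▸ h1) hi a1 h (a4 h)
    have b3 := dvd_trd h0 hf d i
    obtain ⟨v, c1, c2⟩ := candU_spec hsp hc hf h1 hM (squarefree_of_dvd_gal a1 h)
      (u := trd p f d i) (by
        convert (dvd_add (b3.trans (sub_dvd_pow_sub_pow _ _ p)) (trace_frob h i)).sub b3 using 1
        ring) fun c hc => b2 c (by convert hc.sub b3 using 1; ring)
    exact ⟨v, List.mem_flatMap.2 ⟨_, hd, List.mem_cons_of_mem _
      (List.mem_flatMap.2 ⟨⟨i⟩, mem_rg.2 (hn ▸ b1), c1⟩)⟩, c2⟩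
  · refine ⟨_, List.mem_flatMap.2 ⟨_, hd, List.mem_cons_self⟩, NZ.congr ⟨h, a3⟩ ?_⟩
    have := dvd_pow1 h0 hf X (p ^ d)
    rw [fp_apply p X, map_X] at this
    rwa [map_sub, fp_apply p X, map_X, sub_sub_sub_cancel_right]

/-- `find? = none`: `cand_spec`, `gcdP_nz`.  `find? = some g`: `gcdP_spec`, `fp_div`, `r1_eq_zero`,
`rdc_q1`, `Rdc.monic_of_fp`. -/
theorem split_spec [Fact p.Prime] (hsp : SpOk sp) (hc : Ctx p A N M T) {f : ℤ[X]} (hf : f.Monic)
    (h1 : 1 ≤ f.natDegree) (hM : f.natDegree ≤ M) :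
    (Irreducible (fp p f) ∧ split sp p A N T f = [f]) ∨
      ∃ g q, split sp p A N T f = [g, q] ∧ g.Monic ∧ q.Monic ∧ Rdc p g ∧ Rdc p q ∧
        1 ≤ g.natDegree ∧ 1 ≤ q.natDegree ∧ g.natDegree + q.natDegree = f.natDegree ∧
        fp p g * fp p q = fp p f := by
  have h0 := (Fact.out : p.Prime).ne_zero
  have hf' := monic_fp p hf
  unfold split
  cases e : ((cand sp p A N T f).map (gcdP p f)).find? fun g =>
      decide (0 < g.natDegree ∧ g.natDegree < f.natDegree) with
  | none =>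
    refine Or.inl ⟨?_, rfl⟩
    by_contra hi
    obtain ⟨v, a1, a2⟩ := cand_spec hsp hc hf h1 hM hi
    exact List.find?_eq_none.1 e _ (List.mem_map_of_mem a1) (decide_eq_true (gcdP_nz hf a2))
  | some g =>
    have a0 := List.find?_some e
    obtain ⟨a1, a2⟩ := of_decide_eq_true a0
    obtain ⟨v, -, rfl⟩ := List.mem_map.1 (List.mem_of_find?_eq_some e)
    obtain ⟨b1, b2, b3⟩ := gcdP_spec hf'.ne_zero v
    have b4 := fp_div h0 b1 f
    rw [(r1_eq_zero b1 f).2 ((b3 _).1 dvd_rfl).1, map_zero, add_zero] at b4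
    have b5 := (rdc_q1 h0 (gcdP p f v) f).monic_of_fp ((monic_fp p b1).of_mul_monic_left (b4 ▸ hf'))
    have b6 := (monic_fp p b1).natDegree_mul (monic_fp p b5)
    rw [← b4, natDegree_fp_monic p hf, natDegree_fp_monic p b1, natDegree_fp_monic p b5] at b6
    exact Or.inr ⟨_, _, rfl, b1, b5, b2, rdc_q1 h0 _ _, a1, by omega, b6.symm, b4.symm⟩

theorem flatMap_split [Fact p.Prime] (hsp : SpOk sp) (hc : Ctx p A N M T) {n k : ℕ} (hM : n ≤ M)
    (L : List ℤ[X]) (h : ∀ g ∈ L, g.Monic ∧ Rdc p g ∧ 1 ≤ g.natDegree ∧ g.natDegree ≤ n ∧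
      (Irreducible (fp p g) ∨ g.natDegree + k ≤ n)) :
    (∀ g ∈ L.flatMap (split sp p A N T), g.Monic ∧ Rdc p g ∧ 1 ≤ g.natDegree ∧ g.natDegree ≤ n ∧
      (Irreducible (fp p g) ∨ g.natDegree + (k + 1) ≤ n)) ∧
    ((L.flatMap (split sp p A N T)).map natDegree).sum = (L.map natDegree).sum ∧
    ((L.flatMap (split sp p A N T)).map (fp p)).prod = (L.map (fp p)).prod := by
  induction L with
  | nil => simp
  | cons g L ih =>
    obtain ⟨a1, a2, a3⟩ := ih fun g hg => h g (List.mem_cons_of_mem _ hg)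
    obtain ⟨b1, b2, b3, b4, b5⟩ := h g List.mem_cons_self
    simp only [List.flatMap_cons, List.map_append, List.sum_append, List.prod_append, a2, a3,
      List.map_cons, List.sum_cons, List.prod_cons, List.forall_mem_append]
    rcases split_spec hsp hc b1 b3 (b4.trans hM) with ⟨c1, c2⟩ |
      ⟨g₁, g₂, c1, c2, c3, c4, c5, c6, c7, c8, c9⟩
    · rw [c2]
      exact ⟨⟨by simpa using ⟨b1, b2, b3, b4, Or.inl c1⟩, a1⟩, by simp, by simp⟩
    · have b6 := b5.resolve_left fun hi => by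
        rcases hi.isUnit_or_isUnit c9.symm with e | e <;> have := natDegree_eq_zero_of_isUnit e
        · rw [natDegree_fp_monic p c2] at this
          omega
        · rw [natDegree_fp_monic p c3] at this
          omega
      rw [c1]
      refine ⟨⟨?_, a1⟩, by simp [c8], by simp [c9]⟩
      simp only [List.forall_mem_cons, List.not_mem_nil, false_imp_iff, implies_true, and_true]
      exact ⟨⟨c2, c4, c6, by omega, Or.inr (by omega)⟩, c3, c5, c7, by omega, Or.inr (by omega)⟩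

/-- Invariant after `k` rounds (`n = f.natDegree`): all members `g` are monic, `Rdc`, of degree `≥ 1`,
`Irreducible (fp p g) ∨ g.natDegree + k ≤ n`, the degrees add up to `n` and the product of the images is
`fp p f`.  Then the length is `≤ n` (`take` does nothing) and `Rdc.nf_eq` applies.  An irreducible member
is not split (a product of two monic polynomials of positive degree is not irreducible). -/
theorem factor_spec [Fact p.Prime] (hsp : SpOk sp) (hc : Ctx p A N M T) {f : ℤ[X]} (hf : f.Monic)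
    (hr : Rdc p f) (hM : f.natDegree ≤ M) :
    (∀ g ∈ factor sp p A N T f, g.Monic ∧ Rdc p g ∧ Irreducible (fp p g)) ∧
      ((factor sp p A N T f).map (fp p)).prod = fp p f := by
  have key : ∀ k, ∀ L, L = (round sp p A N T f.natDegree)^[k] ([f].take f.natDegree) →
      (∀ g ∈ L, g.Monic ∧ Rdc p g ∧ 1 ≤ g.natDegree ∧ g.natDegree ≤ f.natDegree ∧
        (Irreducible (fp p g) ∨ g.natDegree + k ≤ f.natDegree)) ∧
      (L.map natDegree).sum = f.natDegree ∧ (L.map (fp p)).prod = fp p f := by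
    intro k
    induction k with
    | zero =>
      rintro _ rfl
      rcases Nat.eq_zero_or_pos f.natDegree with e | e
      · simp [hf.natDegree_eq_zero.1 e]
      · rw [List.take_of_length_le e]
        simpa using ⟨hf, hr, e⟩
    | succ k ih =>
      rintro _ rfl
      obtain ⟨a1, a2, a3⟩ := ih _ rfl
      obtain ⟨b1, b2, b3⟩ := flatMap_split hsp hc hM _ a1
      rw [Function.iterate_succ_apply', round, List.take_of_length_le,
        List.map_congr_left fun g hg => (b1 g hg).2.1.nf_eq (Nat.lt_succ_of_le (b1 g hg).2.2.2.1),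
        List.map_id']
      · exact ⟨b1, b2.trans a2, b3.trans a3⟩
      · rw [← List.length_map natDegree]
        refine (List.length_le_sum_of_one_le _ fun i hi => ?_).trans (b2.trans a2).le
        obtain ⟨g, hg, rfl⟩ := List.mem_map.1 hi
        exact (b1 g hg).2.2.1
  obtain ⟨a1, -, a3⟩ := key _ _ (rfl : factor sp p A N T f = _)
  refine ⟨fun g hg => ?_, a3⟩
  obtain ⟨b1, b2, b3, -, b5⟩ := a1 g hg
  exact ⟨b1, b2, b5.resolve_right (by omega)⟩

/-- members are values of `nf (rz p) (n + 1)` (the list is empty if `n = 0`) -/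
theorem sz_factor_le (sp : Sp) (p A N : ℕ) (T : Tb) (f : ℤ[X]) : ∀ g ∈ factor sp p A N T f,
    g.natDegree ≤ f.natDegree ∧ sz g ≤ (f.natDegree + 2) * (2 * sz p + 10) + 1 := by
  intro g hg
  unfold factor at hg
  generalize f.natDegree = n at hg ⊢
  cases n with
  | zero => simp at hg
  | succ n =>
    rw [Function.iterate_succ_apply'] at hg
    obtain ⟨w, -, rfl⟩ := List.mem_map.1 hg
    exact ⟨natDegree_mkP_le _ _, sz_nf_rz_le _ _ _⟩

section pt

variable {α : Type} [Enc α] {p A N : α → ℕ} {T : α → Tb}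

@[fun_prop] theorem pt_trd (hp : PT p) {f : α → ℤ[X]} {d i : α → ℕ} (hf : PT f) (hd : PT d)
    (hd' : PB d) (hi : PT i) (hi' : PB i) : PT fun a => trd (p a) (f a) (d a) (i a) := by
  unfold trd
  fun_prop

@[fun_prop] theorem pt_candS [Fact (PT sp)] (hp : PT p) (hA : PT A) (hA' : PB A) (hT : PT T)
    {f : α → ℤ[X]} (hf : PT f) : PT fun a => candS sp (p a) (A a) (T a) (f a) := by
  unfold candS
  fun_prop

@[fun_prop] theorem pt_candU [Fact (PT sp)] (hp : PT p) (hA : PT A) (hA' : PB A) (hN : PT N)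
    (hN' : PB N) (hT : PT T) {f u : α → ℤ[X]} (hf : PT f) (hu : PT u) :
    PT fun a => candU sp (p a) (A a) (N a) (T a) (f a) (u a) := by
  unfold candU
  fun_prop

@[fun_prop] theorem pt_cand [Fact (PT sp)] (hp : PT p) (hA : PT A) (hA' : PB A) (hN : PT N)
    (hN' : PB N) (hT : PT T) {f : α → ℤ[X]} (hf : PT f) :
    PT fun a => cand sp (p a) (A a) (N a) (T a) (f a) := by
  unfold cand
  fun_prop

@[fun_prop] theorem pt_split [Fact (PT sp)] (hp : PT p) (hA : PT A) (hA' : PB A) (hN : PT N)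
    (hN' : PB N) (hT : PT T) {f : α → ℤ[X]} (hf : PT f) :
    PT fun a => split sp (p a) (A a) (N a) (T a) (f a) := by
  unfold split
  fun_prop

/-- `pt_iterate_bdd`, `pt_nf`, `sz_list_le`, `sz_nf_rz_le` -/
@[fun_prop] theorem pt_factor [Fact (PT sp)] (hp : PT p) (hA : PT A) (hA' : PB A) (hN : PT N)
    (hN' : PB N) (hT : PT T) {f : α → ℤ[X]} (hf : PT f) :
    PT fun a => factor sp (p a) (A a) (N a) (T a) (f a) := by
  refine pt_iterate_bdd (f := fun a => round sp (p a) (A a) (N a) (T a) (f a).natDegree)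
    (by fun_prop) (by fun_prop) (by fun_prop) ?_
    (B := fun a => (f a).natDegree * (((f a).natDegree + 2) * (2 * sz (p a) + 10) + 2) + 1)
    (by fun_prop) fun a L => ?_
  · unfold round
    refine PT.map (by fun_prop) ?_
    exact pt_nf (ρ := fun q : (α × List ℤ[X]) × ℤ[X] => rz (p q.1.1)) (by fun_prop) (by fun_prop)
      (by fun_prop) (by fun_prop)
  · refine (sz_list_le (B := ((f a).natDegree + 2) * (2 * sz (p a) + 10) + 1) fun g hg => ?_).trans
      (Nat.succ_le_succ (Nat.mul_le_mul_right _ (by simp [round])))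
    obtain ⟨w, -, rfl⟩ := List.mem_map.1 hg
    exact sz_nf_rz_le _ _ _

end pt

end Crest.Agent.R312.A1
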