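import Crest.Agent.R312.A1Ber

/-!
# R312 / A1Gauss : non-residues from Gauss sums (pure mathematics)

Keep the statements (tell helper77 at once if one looks false); add auxiliary lemmas freely.
Definitions: `A1Defs.lean`; `fun_prop` lemmas for polynomials: `A1Poly.lean`.
-/

set_option autoImplicit false
set_option linter.unusedVariables false

noncomputable section

open scoped Classical

namespace Crest.Agent.R312.A1

open Polynomial Crest.Agent.Lib.PT Crest.PolyFactor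

theorem dvd_card_sub_one {F : Type} [Field F] [Finite F] {q r : ℕ} (hF : Nat.card F = q)
    {z : F} (hz : IsPrimitiveRoot z r) (hr : r.Prime) : r ∣ q - 1 := by
  have := Fintype.ofFinite F
  refine hz.dvd_of_pow_eq_one _ ?_
  rw [← hF, Nat.card_eq_fintype_card]
  exact FiniteField.pow_card_sub_one_eq_one z (hz.ne_zero hr.ne_zero)

theorem exists_pow_gen {l : ℕ} [Fact l.Prime] {g : ZMod l} (hg : IsPrimitiveRoot g (l - 1))
    {x : ZMod l} (hx : x ≠ 0) : ∃ i < l - 1, g ^ i = x := by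
  have := (Fact.out : l.Prime).two_le
  have : NeZero (l - 1) := ⟨by omega⟩
  exact hg.eq_pow_of_pow_eq_one (ZMod.pow_card_sub_one_eq_one hx)

theorem sum_gen {K : Type} [AddCommMonoid K] {l : ℕ} [Fact l.Prime] {g : ZMod l}
    (hg : IsPrimitiveRoot g (l - 1)) {φ : ZMod l → K} (h0 : φ 0 = 0) :
    ∑ x, φ x = ∑ j ∈ Finset.range (l - 1), φ (g ^ j) := by
  refine (Finset.sum_of_injOn (fun j => g ^ j) (fun i hi j hj e => hg.pow_inj ?_ ?_ e)
    (fun _ _ => Finset.mem_coe.2 (Finset.mem_univ _)) (fun x _ hx => ?_) fun _ _ => rfl).symm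
  · simpa using hi
  · simpa using hj
  · by_cases e : x = 0
    · rw [e, h0]
    · obtain ⟨i, h1, h2⟩ := exists_pow_gen hg e
      exact absurd ⟨i, by simpa using h1, h2⟩ hx

theorem jacobiSum_gen {K : Type} [Field K] {l : ℕ} [Fact l.Prime] {g : ZMod l}
    (hg : IsPrimitiveRoot g (l - 1)) (χ : MulChar (ZMod l) K) (i : ℕ) :
    jacobiSum χ (χ ^ (i + 1)) = ∑ j ∈ Finset.range (l - 1), ∑ k ∈ Finset.range (l - 1),
      if (g.val ^ j + g.val ^ k) % l = 1 then χ g ^ (j + (i + 1) * k) else 0 := by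
  rw [jacobiSum, sum_gen hg (by simp [MulChar.map_zero])]
  refine Finset.sum_congr rfl fun j _ => ?_
  have h : χ (g ^ j) * (χ ^ (i + 1)) (1 - g ^ j) =
      ∑ y, if g ^ j + y = 1 then χ (g ^ j) * (χ ^ (i + 1)) y else 0 := by
    simp only [← eq_sub_iff_add_eq', Finset.sum_ite_eq', Finset.mem_univ, if_true]
  rw [h, sum_gen hg (by simp [MulChar.map_zero])]
  refine Finset.sum_congr rfl fun k _ => if_congr ?_ ?_ rfl
  · have := ZMod.natCast_eq_natCast_iff' (g.val ^ j + g.val ^ k) 1 l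
    rw [Nat.mod_eq_of_lt (Fact.out : l.Prime).one_lt] at this
    rw [← this]
    simp
  · rw [χ.pow_apply' (n := i + 1) (by omega), map_pow, map_pow]
    ring

theorem gaussSum_frob_pow {R K : Type} [CommRing R] [Fintype R] [CommRing K] (p : ℕ) [Fact p.Prime]
    [CharP K p] (χ : MulChar R K) (ψ : AddChar R K) (d : ℕ) :
    gaussSum χ ψ ^ p ^ d = gaussSum (χ ^ p ^ d) (ψ ^ p ^ d) := by
  induction d with
  | zero => simp
  | succ d ih => rw [pow_succ, pow_mul, ih, gaussSum_frob, ← pow_mul, ← pow_mul]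

/-- Let `g` generate `(ZMod l)ˣ`, `K = AlgebraicClosure F`, `χ : MulChar (ZMod l) K` with `χ g = z`
(`MulChar.ofRootOfUnity`; `r ∣ l - 1`), of order `r`, `χ (-1) = 1`; `ψ` a primitive additive character
(`AddChar.zmodChar` of a primitive `l`-th root of unity, `l ≠ p`).  The image of `γ` in `K` is
`G ^ r`, `G = gaussSum χ ψ ≠ 0` (`gaussSum_pow_eq_prod_jacobiSum`, `gaussSum_ne_zero_of_nontrivial`;
`jacobiSum χ (χ ^ i) = ∑_{g^j + g^k = 1} z ^ (j + i k)`).  With `q = p ^ d`, `r ∣ q - 1`: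
`G ^ q = gaussSum χ (ψ.mulShift q)` (`sum_pow_char_pow`, `χ a ^ q = χ a`), so `χ q * G ^ q = G`
(`gaussSum_mulShift`) and `γ ^ ((q - 1) / r) = G ^ (q - 1) = (χ p ^ d)⁻¹`.  If `p = g ^ k` in `ZMod l` then
`r ∤ k` (else `p ^ ((l-1)/r) = 1`), so `χ p ^ d = z ^ (k d) ≠ 1`. -/
theorem gauss_nonres {F : Type} [Field F] [Finite F] {p r l d : ℕ} [Fact p.Prime] [CharP F p]
    (hF : Nat.card F = p ^ d) {z : F} (hz : IsPrimitiveRoot z r) (hr : r.Prime) (h2 : r ≠ 2)
    (hd : 1 ≤ d) (hdr : d < r) (hl : l.Prime) (hlp : l ≠ p) (hlr : l % r = 1)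
    (hn : p ^ ((l - 1) / r) % l ≠ 1) :
    ∃ g < l, ∀ γ : F, γ = (l : F) * ∏ i ∈ Finset.range (r - 2), ∑ j ∈ Finset.range (l - 1),
        ∑ k ∈ Finset.range (l - 1), (if (g ^ j + g ^ k) % l = 1 then z ^ (j + (i + 1) * k) else 0) →
      γ ≠ 0 ∧ γ ^ ((p ^ d - 1) / r) ≠ 1 := by
  have hp : p.Prime := Fact.out
  have : Fact l.Prime := ⟨hl⟩
  have : Fact r.Prime := ⟨hr⟩
  set K := AlgebraicClosure F
  have hlK : (l : K) ≠ 0 := fun e =>
    hlp ((Nat.prime_dvd_prime_iff_eq hp hl).1 ((CharP.cast_eq_zero_iff K p l).1 e)).symm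
  have : NeZero (l : K) := ⟨hlK⟩
  obtain ⟨ζ, hζ⟩ := HasEnoughRootsOfUnity.exists_primitiveRoot K l
  have hψ := AddChar.zmodChar_primitive_of_primitive_root l hζ
  set ψ := AddChar.zmodChar l ((IsPrimitiveRoot.iff_def ζ l).mp hζ).left
  obtain ⟨m, hm⟩ : r ∣ l - 1 := (Nat.modEq_iff_dvd' hl.one_le).1 (by
    rw [Nat.ModEq, hlr, Nat.mod_eq_of_lt hr.one_lt])
  obtain ⟨g, hg⟩ := IsCyclic.exists_generator (α := (ZMod l)ˣ)
  have hg' : IsPrimitiveRoot (g : ZMod l) (l - 1) := by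
    rw [IsPrimitiveRoot.coe_units_iff, ← ZMod.card_units l, ← Nat.card_eq_fintype_card,
      ← orderOf_eq_card_of_forall_mem_zpowers hg]
    exact IsPrimitiveRoot.orderOf g
  have hw := hz.map_of_injective (algebraMap F K).injective
  obtain ⟨χ, hχ⟩ : ∃ χ : MulChar (ZMod l) K, χ g = algebraMap F K z :=
    ⟨_, MulChar.ofRootOfUnity_spec (ζ := Units.mk0 _ (hw.ne_zero hr.ne_zero)) (by
      rw [mem_rootsOfUnity, Units.ext_iff, ZMod.card_units, hm, pow_mul]
      simp [hw.pow_eq_one]) hg⟩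
  have h1 : χ ^ r = 1 := (MulChar.eq_iff hg _ _).2 (by
    rw [χ.pow_apply' hr.ne_zero, hχ, hw.pow_eq_one, MulChar.one_apply_coe])
  have h3 : χ ≠ 1 := fun e => hw.ne_one hr.one_lt (by rw [← hχ, e, MulChar.one_apply_coe])
  have h4 := gaussSum_pow_eq_prod_jacobiSum (χ := χ)
    (by rw [orderOf_eq_prime h1 h3]; exact hr.two_le) hψ
  rw [orderOf_eq_prime h1 h3, MulChar.val_neg_one_eq_one_of_odd_order (hr.odd_of_ne_two h2) h1,
    one_mul, ZMod.card, Finset.prod_Ico_eq_prod_range] at h4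
  have h5 := gaussSum_ne_zero_of_nontrivial (by rwa [ZMod.card]) h3 hψ
  refine ⟨(g : ZMod l).val, ZMod.val_lt _, fun γ hγ => ?_⟩
  have h6 : algebraMap F K γ = gaussSum χ ψ ^ r := by
    rw [h4, hγ, map_mul, map_natCast, map_prod, Nat.sub_sub]
    congr 1
    refine Finset.prod_congr rfl fun i _ => ?_
    rw [add_comm 1 i, jacobiSum_gen hg', hχ]
    simp only [map_sum, apply_ite (algebraMap F K), map_pow, map_zero]
  refine ⟨fun e => pow_ne_zero r h5 (by rw [← h6, e, map_zero]), fun e => hn ?_⟩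
  obtain ⟨n, hn'⟩ := dvd_card_sub_one hF hz hr
  have hq : p ^ d = r * n + 1 := by
    have := Nat.one_le_pow d p hp.pos
    omega
  have h7 : gaussSum χ ψ ^ p ^ d = gaussSum χ ψ := by
    rw [hn', Nat.mul_div_cancel_left _ hr.pos] at e
    rw [hq, pow_succ, pow_mul, ← h6, ← map_pow, e, map_one, one_mul]
  have hpl : (p : ZMod l) ≠ 0 := fun e =>
    hlp ((Nat.prime_dvd_prime_iff_eq hl hp).1 ((ZMod.natCast_eq_zero_iff _ _).1 e))
  have h8 := gaussSum_mulShift χ ψ (Units.mk0 _ (pow_ne_zero d hpl))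
  have h9 : χ ^ p ^ d = χ := by rw [hq, pow_succ, pow_mul, h1, one_pow, one_mul]
  rw [gaussSum_frob_pow, h9, AddChar.pow_mulShift, Nat.cast_pow] at h7
  rw [Units.val_mk0, h7, mul_eq_right₀ h5] at h8
  obtain ⟨k, -, hk⟩ := exists_pow_gen hg' hpl
  rw [← hk, ← pow_mul, map_pow, hχ] at h8
  obtain ⟨k, rfl⟩ := (hr.dvd_mul.1 (hw.dvd_of_pow_eq_one _ h8)).resolve_right
    fun h => absurd (Nat.le_of_dvd hd h) (by omega)
  have := (ZMod.natCast_eq_natCast_iff' (p ^ ((l - 1) / r)) 1 l).1 (by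
    rw [Nat.cast_pow, ← hk, ← pow_mul, hm, Nat.mul_div_cancel_left _ hr.pos, mul_right_comm, ← hm,
      pow_mul, hg'.pow_eq_one, one_pow, Nat.cast_one])
  rwa [Nat.mod_eq_of_lt hl.one_lt] at this

/-- the field `F_p[z]/h` for an irreducible factor `h` of `1 + z + … + z ^ (r - 1)`:
`z ^ r = 1` (`geom_sum_mul`/`mul_geom_sum`), `z ≠ 1` because `(r : ZMod p) ≠ 0` -/
theorem root_spec {p r : ℕ} [Fact p.Prime] (hr : r.Prime) (hrp : r < p) {h : (ZMod p)[X]}
    (hm : h.Monic) [Fact (Irreducible h)] (hd : h ∣ ∑ i ∈ Finset.range r, X ^ i) :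
    IsPrimitiveRoot (AdjoinRoot.root h) r ∧ 1 ≤ h.natDegree ∧ h.natDegree < r ∧
      Finite (AdjoinRoot h) ∧ Nat.card (AdjoinRoot h) = p ^ h.natDegree ∧
      CharP (AdjoinRoot h) p := by
  have : Fact r.Prime := ⟨hr⟩
  have hi : Irreducible h := Fact.out
  have hc : CharP (AdjoinRoot h) p :=
    charP_of_injective_algebraMap (algebraMap (ZMod p) (AdjoinRoot h)).injective p
  have h1 : ∑ i ∈ Finset.range r, AdjoinRoot.root h ^ i = 0 := by
    simpa [map_sum] using AdjoinRoot.mk_eq_zero.2 hd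
  have h2 : AdjoinRoot.root h ≠ 1 := fun e => by
    rw [e] at h1
    simp only [one_pow, Finset.sum_const, Finset.card_range, nsmul_eq_mul, mul_one] at h1
    exact absurd (Nat.le_of_dvd hr.pos ((CharP.cast_eq_zero_iff _ p r).1 h1)) (by omega)
  have h3 : AdjoinRoot.root h ^ r = 1 := by rw [← sub_eq_zero, ← geom_sum_mul, h1, zero_mul]
  have h4 : (∑ i ∈ Finset.range r, X ^ i : (ZMod p)[X]).natDegree ≤ r - 1 :=
    natDegree_sum_le_of_forall_le _ _ fun i hi => (natDegree_X_pow_le _).trans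
      (by have := Finset.mem_range.1 hi; omega)
  have h5 := natDegree_le_of_dvd hd (monic_geom_sum_X hr.ne_zero).ne_zero
  have h6 := hr.pos
  refine ⟨?_, hi.natDegree_pos, by omega, (card_adjoinRoot hm.ne_zero).1,
    (card_adjoinRoot hm.ne_zero).2, hc⟩
  rw [← orderOf_eq_prime h3 h2]
  exact IsPrimitiveRoot.orderOf _

/-- `r ∣ q - 1` (Lagrange in `Fˣ`) and `r ∣ (q - 1) / r` -/
theorem sq_dvd_of_pow_eq_one {F : Type} [Field F] [Finite F] {q r : ℕ} (hF : Nat.card F = q)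
    {z : F} (hz : IsPrimitiveRoot z r) (hr : r.Prime) (h : z ^ ((q - 1) / r) = 1) :
    q % r ^ 2 = 1 := by
  obtain ⟨n, hn⟩ := dvd_card_sub_one hF hz hr
  rw [hn, Nat.mul_div_cancel_left _ hr.pos] at h
  obtain ⟨k, rfl⟩ := hz.dvd_of_pow_eq_one _ h
  have h1 : 0 < q := hF ▸ Nat.card_pos
  rw [show q = 1 + r ^ 2 * k by rw [pow_two, mul_assoc]; omega, Nat.add_mul_mod_self_left,
    Nat.mod_eq_of_lt (Nat.one_lt_pow two_ne_zero hr.one_lt)]

end Crest.Agent.R312.A1
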