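import Crest.Agent.R312.A1Div

/-!
# R312 / A1Gcd : monic associate, gcd, composition

Keep the statements (tell helper77 at once if one looks false); add auxiliary lemmas freely.
Definitions: `A1Defs.lean`; `fun_prop` lemmas for polynomials: `A1Poly.lean`.
-/

set_option autoImplicit false
set_option linter.unusedVariables false

noncomputable section

open scoped Classical

namespace Crest.Agent.R312.A1

open Polynomial Crest.Agent.Lib.PT Crest.PolyFactor

theorem rdc_mon {p : ℕ} (h0 : p ≠ 0) (b : ℤ[X]) : Rdc p (mon p b) := rdc_can h0 _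

theorem natDegree_mon_le (p : ℕ) (b : ℤ[X]) : (mon p b).natDegree ≤ b.natDegree := by
  exact (natDegree_can_le _ _).trans ((natDegree_C_mul_le _ _).trans (natDegree_can_le _ _))

/-- `c ^ (p - 2) = c⁻¹` in `ZMod p` for `c ≠ 0` (`ZMod.pow_card_sub_one_eq_one`);
`Rdc.natDegree_fp` identifies the leading coefficients -/
theorem fp_mon {p : ℕ} [Fact p.Prime] {b : ℤ[X]} (hb : fp p b ≠ 0) :
    fp p (mon p b) = C (fp p b).leadingCoeff⁻¹ * fp p b := by
  have hp : p.Prime := Fact.out
  have h0 := hp.ne_zero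
  have h1 : (((can p b).leadingCoeff : ℤ) : ZMod p) = (fp p b).leadingCoeff := by
    rw [← fp_can h0 b, leadingCoeff, leadingCoeff, (rdc_can h0 b).natDegree_fp, coeff_fp]
  rw [mon, fp_can h0, map_mul, fp_can h0, cC_eq, fp_apply p (C _), map_C, eq_intCast,
    cast_pow0 h0 (ZMod.natCast_self p), h1]
  congr 2
  refine eq_inv_of_mul_eq_one_left ?_
  have := hp.two_le
  rw [← pow_succ, show p - 2 + 1 = p - 1 by omega]
  exact ZMod.pow_card_sub_one_eq_one (leadingCoeff_ne_zero.2 hb)

theorem monic_mon {p : ℕ} [Fact p.Prime] {b : ℤ[X]} (hb : fp p b ≠ 0) : (mon p b).Monic := by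
  refine (rdc_mon (Fact.out : p.Prime).ne_zero b).monic_of_fp ?_
  rw [fp_mon hb, mul_comm]
  exact monic_mul_leadingCoeff_inv hb

theorem dvd_fp_mon {p : ℕ} [Fact p.Prime] {b : ℤ[X]} (hb : fp p b ≠ 0) (e : (ZMod p)[X]) :
    e ∣ fp p (mon p b) ↔ e ∣ fp p b := by
  rw [fp_mon hb]
  exact IsUnit.dvd_mul_left
    (isUnit_C.2 (IsUnit.mk0 _ (inv_ne_zero (leadingCoeff_ne_zero.2 hb))))

theorem natDegree_r1_le (p : ℕ) (f w : ℤ[X]) : (r1 p f w).natDegree ≤ f.natDegree :=
  natDegree_le_of_degree_le (degree_r1_lt p f w).le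

/-- Invariant of the loop: both components are `Rdc`, the first is non-zero, the common divisors
of the images under `fp p` do not change, and the second component is `0` or its `natDegree` plus
the number of rounds is `≤ u.natDegree` (so it is `0` after `u.natDegree + 1` rounds). -/
theorem gcdP_spec {p : ℕ} [Fact p.Prime] {f : ℤ[X]} (hf : fp p f ≠ 0) (u : ℤ[X]) :
    (gcdP p f u).Monic ∧ Rdc p (gcdP p f u) ∧
      ∀ e, e ∣ fp p (gcdP p f u) ↔ e ∣ fp p f ∧ e ∣ fp p u := by
  have h0 := (Fact.out : p.Prime).ne_zero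
  have key : ∀ k, ∀ s, s = (gstep p)^[k] (can p f, can p u) → Rdc p s.2 ∧ fp p s.1 ≠ 0 ∧
      (∀ e, e ∣ fp p s.1 ∧ e ∣ fp p s.2 ↔ e ∣ fp p f ∧ e ∣ fp p u) ∧
      (s.2 = 0 ∨ s.2.natDegree + k ≤ u.natDegree) := by
    intro k
    induction k with
    | zero =>
      rintro _ rfl
      simp only [Function.iterate_zero, id, fp_can h0]
      exact ⟨rdc_can h0 _, hf, fun _ => trivial, Or.inr (natDegree_can_le _ _)⟩
    | succ k ih =>
      rintro _ rfl
      rw [Function.iterate_succ_apply']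
      obtain ⟨a1, a2, a3, a4⟩ := ih _ rfl
      generalize (gstep p)^[k] (can p f, can p u) = s at a1 a2 a3 a4
      unfold gstep
      split_ifs with hs
      · exact ⟨a1, a2, a3, Or.inl hs⟩
      · have hb : fp p s.2 ≠ 0 := fun e => hs (a1.fp_eq_zero.1 e)
        refine ⟨rdc_r1 h0 _ _, hb, fun e => ?_, ?_⟩
        · rw [← a3, fp_div h0 (monic_mon hb) s.1]
          constructor
          · rintro ⟨b1, b2⟩
            exact ⟨dvd_add (((dvd_fp_mon hb e).2 b1).mul_right _) b2, b1⟩
          · rintro ⟨b1, b2⟩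
            exact ⟨b2, (dvd_add_right (((dvd_fp_mon hb e).2 b2).mul_right _)).1 b1⟩
        · by_cases hr : r1 p (mon p s.2) s.1 = 0
          · exact Or.inl hr
          · have h1 := (natDegree_lt_iff_degree_lt hr).2 (degree_r1_lt p (mon p s.2) s.1)
            have h2 := natDegree_mon_le p s.2
            have h3 := a4.resolve_left hs
            exact Or.inr (by simp only; omega)
  obtain ⟨-, a2, a3, a4⟩ := key (u.natDegree + 2) _ rfl
  refine ⟨monic_mon a2, rdc_mon h0 _, fun e => ?_⟩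
  rw [gcdP, dvd_fp_mon a2, ← a3, a4.resolve_right (by omega)]
  simp

/-- degree `0` means `gcd = 1` (then `u`, `f` are coprime: `EuclideanDomain.isCoprime_of_dvd` or
`isRelPrime_iff_isCoprime`); degree `f.natDegree` means `gcd = f` -/
theorem gcdP_nz {p : ℕ} [Fact p.Prime] {f u : ℤ[X]} (hf : f.Monic) (h : NZ (fp p u) (fp p f)) :
    0 < (gcdP p f u).natDegree ∧ (gcdP p f u).natDegree < f.natDegree := by
  have hf' := monic_fp p hf
  obtain ⟨a1, a2, a3⟩ := gcdP_spec hf'.ne_zero u
  have a4 := (a3 _).1 dvd_rfl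
  constructor
  · by_contra hd
    have e : gcdP p f u = 1 := a1.natDegree_eq_zero.1 (by omega)
    refine h.2 (IsRelPrime.isCoprime fun d b1 b2 => ?_)
    have := (a3 d).2 ⟨b2, b1⟩
    rw [e, map_one] at this
    exact isUnit_of_dvd_one this
  · by_contra hd
    have e := eq_of_monic_of_dvd_of_natDegree_le (monic_fp p a1) hf' a4.1
      (by rw [natDegree_fp_monic p a1, natDegree_fp_monic p hf]; omega)
    exact h.1 (e ▸ a4.2)

/-- Horner: induction on the list, `ofL_cons`, `ofL_cf`, in `AdjoinRoot (fp p f)` (`hom_r1`) -/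
theorem dvd_compm {p : ℕ} (h0 : p ≠ 0) {f : ℤ[X]} (hf : f.Monic) (m u : ℤ[X]) :
    fp p f ∣ fp p (compm p f m u) - (fp p m).comp (fp p u) := by
  have hp : (p : AdjoinRoot (fp p f)) = 0 := by
    rw [← map_natCast (AdjoinRoot.of (fp p f)), ZMod.natCast_self, map_zero]
  have h : ∀ l : List ℤ, AdjoinRoot.mk (fp p f)
      (fp p (l.foldr (fun c acc => r1 p f (acc * u + cC c)) 0)) =
      AdjoinRoot.mk (fp p f) ((fp p (ofL l)).comp (fp p u)) := by
    intro l
    induction l with
    | nil => simp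
    | cons c l ih =>
      have := hom_r1 h0 hp ((AdjoinRoot.mk (fp p f)).comp (fp p)) hf AdjoinRoot.mk_self
        (l.foldr (fun c acc => r1 p f (acc * u + cC c)) 0 * u + cC c)
      rw [RingHom.comp_apply, RingHom.comp_apply] at this
      rw [List.foldr_cons, this, ofL_cons, map_add, map_add, map_mul, map_mul, ih]
      simp only [map_add, map_mul, cC_eq, fp_apply p (C _), fp_apply p X, map_C, map_X,
        add_comp, mul_comp, C_comp, X_comp]
      ring
  have := h (cf m)
  rwa [ofL_cf, AdjoinRoot.mk_eq_mk] at this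

theorem NZ.congr {K : Type} [CommRing K] {u v f : K} (h : NZ u f) (e : f ∣ v - u) : NZ v f := by
  obtain ⟨w, hw⟩ := e
  have e' : v = u + f * w := by rw [← hw]; ring
  rw [e']
  exact ⟨fun h1 => h.1 ((dvd_add_left (dvd_mul_right _ _)).1 h1),
    fun h1 => h.2 (IsCoprime.add_mul_left_left_iff.1 h1)⟩

/-- a polynomial that vanishes at one root and not at another -/
theorem nz_of_eval {K : Type} [Field K] {S : Finset K} {u : K[X]} {a b : K} (ha : a ∈ S)
    (hb : b ∈ S) (h0 : u.eval a = 0) (h1 : u.eval b ≠ 0) : NZ u (∏ c ∈ S, (X - C c)) := by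
  constructor
  · intro h
    exact h1 (dvd_iff_isRoot.1 ((Finset.dvd_prod_of_mem (fun c => X - C c) hb).trans h))
  · intro h
    exact not_isUnit_X_sub_C a
      (h.isUnit_of_dvd' (dvd_iff_isRoot.2 h0) (Finset.dvd_prod_of_mem (fun c => X - C c) ha))

theorem exists_eval_of_nz {K : Type} [Field K] {S : Finset K} {u : K[X]}
    (h : NZ u (∏ c ∈ S, (X - C c))) : (∃ a ∈ S, u.eval a = 0) ∧ ∃ b ∈ S, u.eval b ≠ 0 := by
  constructor
  · by_contra h1
    push Not at h1
    refine h.2 (IsCoprime.prod_right fun a ha => ?_)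
    exact ((irreducible_X_sub_C a).coprime_iff_not_dvd.2
      fun h2 => h1 a ha (dvd_iff_isRoot.1 h2)).symm
  · by_contra h1
    push Not at h1
    exact h.1 (Finset.prod_dvd_of_coprime
      (fun a _ b _ hab => pairwise_coprime_X_sub_C Function.injective_id hab)
      fun a ha => dvd_iff_isRoot.2 (h1 a ha))

section pt

variable {α : Type} [Enc α] {p : α → ℕ}

@[fun_prop] theorem pt_mon (hp : PT p) {b : α → ℤ[X]} (hb : PT b) :
    PT fun a => mon (p a) (b a) := by
  unfold mon
  fun_prop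

/-- `PT.iterate_inv` with the invariant: both components have `natDegree ≤ D = f.natDegree +
u.natDegree` and size `≤ (D + 2) * (2 * sz p + 10) + 1` (`sz_r1_le`, `sz_nf_rz_le`,
`natDegree_mon_le`, `degree_r1_lt`) -/
@[fun_prop] theorem pt_gcdP (hp : PT p) {f u : α → ℤ[X]} (hf : PT f) (hu : PT u) :
    PT fun a => gcdP (p a) (f a) (u a) := by
  refine pt_mon hp (PT.fst (PT.iterate_inv (f := fun a => gstep (p a))
    (fun a _ s => s.2.natDegree ≤ (u a).natDegree ∧
      sz s.1 ≤ ((f a).natDegree + (u a).natDegree + 2) * (2 * sz (p a) + 10) + 1 ∧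
      sz s.2 ≤ ((f a).natDegree + (u a).natDegree + 2) * (2 * sz (p a) + 10) + 1)
    (by fun_prop) (by fun_prop) (by fun_prop) (fun a => ?_) (fun a _ s _ h => ?_)
    (PT.restrict (f := fun q : α × ℤ[X] × ℤ[X] => gstep (p q.1) q.2) ?_ _)
    (B := fun a => 2 * (((f a).natDegree + (u a).natDegree + 2) * (2 * sz (p a) + 10) + 1) + 1)
    (by fun_prop) fun a _ s _ h => ?_))
  · exact ⟨natDegree_can_le _ _, (sz_nf_rz_le _ _ _).trans (Nat.succ_le_succ (Nat.mul_le_mul_right _ (by omega))),
      (sz_nf_rz_le _ _ _).trans (Nat.succ_le_succ (Nat.mul_le_mul_right _ (by omega)))⟩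
  · unfold gstep
    split_ifs
    · exact h
    · have h1 := natDegree_mon_le (p a) s.2
      exact ⟨(natDegree_r1_le _ _ _).trans (h1.trans h.1), h.2.2,
        (sz_r1_le _ _ _).trans (Nat.succ_le_succ (Nat.mul_le_mul_right _ (by omega)))⟩
  · unfold gstep
    fun_prop
  · rw [sz_prod]
    omega

/-- `pt_foldr_bdd`, `sz_r1_le` -/
@[fun_prop] theorem pt_compm (hp : PT p) {f m u : α → ℤ[X]} (hf : PT f) (hm : PT m) (hu : PT u) :
    PT fun a => compm (p a) (f a) (m a) (u a) := by
  exact pt_foldr_bdd (f := fun a c acc => r1 (p a) (f a) (acc * u a + cC c)) (pt_cf hm)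
    (PT.const _) (by fun_prop)
    (B := fun a => ((f a).natDegree + 1) * (2 * sz (p a) + 10) + 1) (by fun_prop)
    fun a _ _ => sz_r1_le _ _ _

end pt

end Crest.Agent.R312.A1
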