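import Crest.Agent.R312.A3Size

/-!
# R312 / A3PT : polynomial time for the programs of `A3Prog.lean`
-/

set_option autoImplicit false

namespace Crest.Agent.R312

open Crest.Agent.Lib.PT

variable {α β γ ε : Type} [Enc α] [Enc β] [Enc γ] [Enc ε]

@[fun_prop] theorem cm_pt {n j : α → ℕ} (hn : PT n) (hj : PT j) : PT fun a => cm (n a) (j a) := by
  unfold cm; fun_prop

@[fun_prop] theorem cm_pb {n j : α → ℕ} (bn : PB n) : PB fun a => cm (n a) (j a) :=
  bn.mono fun _ => cm_le _ _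

@[fun_prop] theorem bnd_pt {s : α → ε ⊕ β} {f : α → β → ε ⊕ γ} (hs : PT s)
    (hf : PT fun x : α × β => f x.1 x.2) : PT fun a => bnd (s a) (f a) := by
  unfold bnd; fun_prop

@[fun_prop] theorem mapR_pt {n : α → ℕ} {d : α → β} {f : α → ℕ → ε ⊕ β} (hn : PT n) (bn : PB n)
    (hd : PT d) (hf : PT fun x : α × ℕ => f x.1 x.2) : PT fun a => mapR (n a) (d a) (f a) := by
  unfold mapR; fun_prop

@[fun_prop] theorem maxR_pt {n : α → ℕ} {f : α → ℕ → ℕ} (hn : PT n) (bn : PB n)
    (hf : PT fun x : α × ℕ => f x.1 x.2) : PT fun a => maxR (n a) (f a) := by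
  unfold maxR; fun_prop

@[fun_prop] theorem chartG_pt {A : α → Alg} {x f : α → Vec} (hA : PT A) (hx : PT x) (hf : PT f) :
    PT fun a => chartG (A a) (x a) (f a) := by
  unfold chartG; fun_prop

namespace Cx

theorem tuple_pt {c : α → Cx} (hc : PT c) :
    PT fun a => ((c a).A, (c a).ru, (c a).q, (c a).γ0, (c a).x, (c a).g, (c a).gm, (c a).Lu) :=
  hc.of_enc_eq fun _ => rfl

@[fun_prop] theorem A_pt {c : α → Cx} (hc : PT c) : PT fun a => (c a).A := (tuple_pt hc).fst
@[fun_prop] theorem ru_pt {c : α → Cx} (hc : PT c) : PT fun a => (c a).ru := (tuple_pt hc).snd.fst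
@[fun_prop] theorem q_pt {c : α → Cx} (hc : PT c) : PT fun a => (c a).q := (tuple_pt hc).snd.snd.fst
@[fun_prop] theorem γ0_pt {c : α → Cx} (hc : PT c) : PT fun a => (c a).γ0 :=
  (tuple_pt hc).snd.snd.snd.fst
@[fun_prop] theorem x_pt {c : α → Cx} (hc : PT c) : PT fun a => (c a).x :=
  (tuple_pt hc).snd.snd.snd.snd.fst
@[fun_prop] theorem g_pt {c : α → Cx} (hc : PT c) : PT fun a => (c a).g :=
  (tuple_pt hc).snd.snd.snd.snd.snd.fst
@[fun_prop] theorem gm_pt {c : α → Cx} (hc : PT c) : PT fun a => (c a).gm :=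
  (tuple_pt hc).snd.snd.snd.snd.snd.snd.fst
@[fun_prop] theorem Lu_pt {c : α → Cx} (hc : PT c) : PT fun a => (c a).Lu :=
  (tuple_pt hc).snd.snd.snd.snd.snd.snd.snd

@[fun_prop] theorem mk_pt {A : α → Alg} {ru Lu : α → Un} {q : α → ℕ} {g0 x : α → Vec} {g gm : α → Pol}
    (hA : PT A) (hru : PT ru) (hq : PT q) (hg0 : PT g0) (hx : PT x) (hg : PT g) (hgm : PT gm)
    (hLu : PT Lu) : PT fun a => Cx.mk (A a) (ru a) (q a) (g0 a) (x a) (g a) (gm a) (Lu a) :=
  (hA.pair (hru.pair (hq.pair (hg0.pair (hx.pair (hg.pair (hgm.pair hLu))))))).of_enc_eq fun _ => rfl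

@[fun_prop] theorem r_pt {c : α → Cx} (hc : PT c) : PT fun a => (c a).r := by unfold Cx.r; fun_prop
@[fun_prop] theorem r_pb {c : α → Cx} (hc : PT c) : PB fun a => (c a).r := by unfold Cx.r; fun_prop
@[fun_prop] theorem L_pt {c : α → Cx} (hc : PT c) : PT fun a => (c a).L := by unfold Cx.L; fun_prop
@[fun_prop] theorem L_pb {c : α → Cx} (hc : PT c) : PB fun a => (c a).L := by unfold Cx.L; fun_prop
@[fun_prop] theorem ζ_pt {c : α → Cx} (hc : PT c) : PT fun a => (c a).ζ := by unfold Cx.ζ; fun_prop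

@[fun_prop] theorem rmul_pt {c : α → Cx} {u : α → RE} {v : α → RE}
    (hc : PT c) (hu : PT u) (hv : PT v) :
    PT fun a => Cx.rmul (c a) (u a) (v a) := by
  unfold Cx.rmul; fun_prop

@[fun_prop] theorem rsig_pt {c : α → Cx} {i : α → ℕ} {u : α → RE}
    (hc : PT c) (hi : PT i) (hu : PT u) :
    PT fun a => Cx.rsig (c a) (i a) (u a) := by
  unfold Cx.rsig; fun_prop

@[fun_prop] theorem rmod_pt {c : α → Cx} {u : α → RE} {m : α → Pol}
    (hc : PT c) (hu : PT u) (hm : PT m) :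
    PT fun a => Cx.rmod (c a) (u a) (m a) := by
  unfold Cx.rmod; fun_prop

@[fun_prop] theorem rdiv_pt {c : α → Cx} {u : α → RE} {m : α → Pol}
    (hc : PT c) (hu : PT u) (hm : PT m) :
    PT fun a => Cx.rdiv (c a) (u a) (m a) := by
  unfold Cx.rdiv; fun_prop

@[fun_prop] theorem pmono_pt {c : α → Cx} {E : α → ℕ} {e : α → ℕ}
    (hc : PT c) (hE : PT E) (bE : PB E) (he : PT e) :
    PT fun a => Cx.pmono (c a) (E a) (e a) := by
  unfold Cx.pmono; fun_prop

@[fun_prop] theorem rmono_pt {c : α → Cx} {E : α → ℕ} {e : α → ℕ} {b : α → ℕ}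
    (hc : PT c) (hE : PT E) (bE : PB E) (he : PT e) (hb : PT b) :
    PT fun a => Cx.rmono (c a) (E a) (e a) (b a) := by
  unfold Cx.rmono; fun_prop

@[fun_prop] theorem rprod_pt {c : α → Cx} {l : α → List RE}
    (hc : PT c) (hl : PT l) :
    PT fun a => Cx.rprod (c a) (l a) := by
  unfold Cx.rprod
  refine PT.foldr_of_suffix (f := fun a => (c a).rmul) hl (by fun_prop) (by fun_prop)
    (B := fun a => Bdd.c RE * (2 * (sz (c a) + sz (l a)) ^ 2 + (sz (c a) + sz (l a)) + 1 + 1) ^ Bdd.k RE)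
    (by fun_prop) fun a suf hs => Bdd.sz_le (rprod_bd ((sm_sz (c a)).mono (by omega)) ?_ ?_)
  · have := hs.length_le
    have := length_le_sz (l a)
    omega
  · intro u hu P hP
    have h1 := sz_le_of_mem (hs.subset hu)
    have h2 := sz_le_of_mem hP
    have := length_le_sz P
    omega

@[fun_prop] theorem rnorm_pt {c : α → Cx} {u : α → RE}
    (hc : PT c) (hu : PT u) :
    PT fun a => Cx.rnorm (c a) (u a) := by
  unfold Cx.rnorm; fun_prop

@[fun_prop] theorem kron_pt {c : α → Cx} {D : α → ℕ} {J : α → ℕ} {l : α → List Pol}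
    (hc : PT c) (hD : PT D) (bD : PB D) (hJ : PT J) (bJ : PB J) (hl : PT l) :
    PT fun a => Cx.kron (c a) (D a) (J a) (l a) := by
  unfold Cx.kron; fun_prop

@[fun_prop] theorem kerL_pt {c : α → Cx} {M : α → List (List Pol)}
    (hc : PT c) (hM : PT M) :
    PT fun a => Cx.kerL (c a) (M a) := by
  unfold Cx.kerL; fun_prop

@[fun_prop] theorem gcd_pt {c : α → Cx} {m : α → Pol} {G : α → List Pol}
    (hc : PT c) (hm : PT m) (hG : PT G) :
    PT fun a => Cx.gcd (c a) (m a) (G a) := by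
  unfold Cx.gcd; fun_prop

@[fun_prop] theorem mon_pt {c : α → Cx} {P : α → Pol}
    (hc : PT c) (hP : PT P) :
    PT fun a => Cx.mon (c a) (P a) := by
  unfold Cx.mon; fun_prop

@[fun_prop] theorem nrmI_pt {c : α → Cx} {m : α → Pol} {G : α → List RE}
    (hc : PT c) (hm : PT m) (hG : PT G) :
    PT fun a => Cx.nrmI (c a) (m a) (G a) := by
  unfold Cx.nrmI; fun_prop

@[fun_prop] theorem gens_pt {I : α → ID}
    (hI : PT I) :
    PT fun a => Cx.gens (I a) := by
  unfold Cx.gens; fun_prop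

@[fun_prop] theorem imul_pt {c : α → Cx} {I : α → ID} {J : α → ID}
    (hc : PT c) (hI : PT I) (hJ : PT J) :
    PT fun a => Cx.imul (c a) (I a) (J a) := by
  unfold Cx.imul; fun_prop

@[fun_prop] theorem isig_pt {c : α → Cx} {i : α → ℕ} {I : α → ID}
    (hc : PT c) (hi : PT i) (hI : PT I) :
    PT fun a => Cx.isig (c a) (i a) (I a) := by
  unfold Cx.isig; fun_prop

@[fun_prop] theorem ione_pt {c : α → Cx} 
    (hc : PT c)  :
    PT fun a => Cx.ione (c a)  := by
  unfold Cx.ione; fun_prop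

@[fun_prop] theorem iprod_pt {c : α → Cx} {l : α → List ID}
    (hc : PT c) (hl : PT l) :
    PT fun a => Cx.iprod (c a) (l a) := by
  unfold Cx.iprod
  refine PT.foldr_of_suffix (f := fun a => (c a).imul) hl (by fun_prop) (by fun_prop)
    (B := fun a => Bdd.c ID * ((sz (c a) + sz (l a)) ^ 3 + (sz (c a) + sz (l a)) + 1) ^ Bdd.k ID)
    (by fun_prop) fun a suf hs => Bdd.sz_le (iprod_bd ((sm_sz (c a)).mono (by omega)) ?_)
  have h1 := sz_sublist hs.sublist
  have h2 : ∀ l : List ID, (l.map fun I => I.1.length - 1).sum + 1 ≤ sz l := fun l => by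
    induction l with
    | nil => simp
    | cons I l ih =>
      have := length_le_sz I.1
      rw [List.map_cons, List.sum_cons, sz_cons, sz_prod]
      omega
  have := h2 suf
  omega

@[fun_prop] theorem isp_pt {c : α → Cx} {I : α → ID} {k : α → ℕ}
    (hc : PT c) (hI : PT I) (hk : PT k) :
    PT fun a => Cx.isp (c a) (I a) (k a) := by
  unfold Cx.isp; fun_prop

@[fun_prop] theorem ent_pt {c : α → Cx} {T : α → List Ent} {l : α → ℕ}
    (hc : PT c) (hT : PT T) (hl : PT l) :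
    PT fun a => Cx.ent (c a) (T a) (l a) := by
  unfold Cx.ent; fun_prop

@[fun_prop] theorem ipp_pt {c : α → Cx} {T : α → List Ent} {cs : α → Vec}
    (hc : PT c) (hT : PT T) (hcs : PT cs) :
    PT fun a => Cx.ipp (c a) (T a) (cs a) := by
  unfold Cx.ipp; fun_prop

@[fun_prop] theorem comps_pt {c : α → Cx} {G : α → List RE}
    (hc : PT c) (hG : PT G) :
    PT fun a => Cx.comps (c a) (G a) := by
  unfold Cx.comps; fun_prop

@[fun_prop] theorem mkI_pt {c : α → Cx} {m : α → Pol} {G : α → List RE}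
    (hc : PT c) (hm : PT m) (hG : PT G) :
    PT fun a => Cx.mkI (c a) (m a) (G a) := by
  unfold Cx.mkI; fun_prop

@[fun_prop] theorem obTry_pt {c : α → Cx} {gs : α → List Pol} {m : α → Pol} {l : α → ℕ} {o : α → ℕ}
    (hc : PT c) (hgs : PT gs) (hm : PT m) (hl : PT l) (ho : PT o) :
    PT fun a => Cx.obTry (c a) (gs a) (m a) (l a) (o a) := by
  unfold Cx.obTry; fun_prop

@[fun_prop] theorem obl_pt {c : α → Cx} {gs : α → List Pol} {m : α → Pol} {l : α → ℕ}
    (hc : PT c) (hgs : PT gs) (hm : PT m) (hl : PT l) :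
    PT fun a => Cx.obl (c a) (gs a) (m a) (l a) := by
  unfold Cx.obl; fun_prop

@[fun_prop] theorem obs_pt {c : α → Cx} {gs : α → List Pol} {m : α → Pol}
    (hc : PT c) (hgs : PT gs) (hm : PT m) :
    PT fun a => Cx.obs (c a) (gs a) (m a) := by
  unfold Cx.obs; fun_prop

@[fun_prop] theorem dw_pt {c : α → Cx} {m : α → Pol} {k : α → ℕ}
    (hc : PT c) (hm : PT m) (hk : PT k) :
    PT fun a => Cx.dw (c a) (m a) (k a) := by
  unfold Cx.dw; fun_prop

@[fun_prop] theorem dom_pt {c : α → Cx} {m : α → Pol} {k : α → ℕ}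
    (hc : PT c) (hm : PT m) (hk : PT k) :
    PT fun a => Cx.dom (c a) (m a) (k a) := by
  unfold Cx.dom; fun_prop

@[fun_prop] theorem dE_pt {c : α → Cx} {m : α → Pol} {k : α → ℕ}
    (hc : PT c) (hm : PT m) (hk : PT k) :
    PT fun a => Cx.dE (c a) (m a) (k a) := by
  unfold Cx.dE; fun_prop

@[fun_prop] theorem dE_pb {c : α → Cx} {m : α → Pol} {k : α → ℕ}
    (hc : PT c) (hm : PT m) :
    PB fun a => Cx.dE (c a) (m a) (k a) := by
  unfold Cx.dE; fun_prop

@[fun_prop] theorem dpos_pt {c : α → Cx} {m : α → Pol} {B : α → ℕ}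
    (hc : PT c) (hm : PT m) (hB : PT B) :
    PT fun a => Cx.dpos (c a) (m a) (B a) := by
  unfold Cx.dpos; fun_prop

@[fun_prop] theorem dcnd_pt {c : α → Cx} {I : α → ID}
    (hc : PT c) (hI : PT I) :
    PT fun a => Cx.dcnd (c a) (I a) := by
  unfold Cx.dcnd; fun_prop

@[fun_prop] theorem dent_pt {c : α → Cx} {m : α → Pol} {w : α → Pol} {x : α → Pos} {t : α → Cnd}
    (hc : PT c) (hm : PT m) (hw : PT w) (hx : PT x) (ht : PT t) :
    PT fun a => Cx.dent (c a) (m a) (w a) (x a) (t a) := by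
  unfold Cx.dent; fun_prop

@[fun_prop] theorem dker_pt {c : α → Cx} {I : α → ID} {w : α → Pol} {B : α → ℕ}
    (hc : PT c) (hI : PT I) (hw : PT w) (hB : PT B) :
    PT fun a => Cx.dker (c a) (I a) (w a) (B a) := by
  unfold Cx.dker; fun_prop

@[fun_prop] theorem dB_pt {c : α → Cx} {I : α → ID} {w : α → Pol}
    (hc : PT c) (hI : PT I) (hw : PT w) :
    PT fun a => Cx.dB (c a) (I a) (w a) := by
  unfold Cx.dB; fun_prop

@[fun_prop] theorem du_pt {c : α → Cx} {m : α → Pol} {B : α → ℕ} {lam : α → List Vec} {k : α → ℕ}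
    (hc : PT c) (hm : PT m) (hB : PT B) (hlam : PT lam) (hk : PT k) :
    PT fun a => Cx.du (c a) (m a) (B a) (lam a) (k a) := by
  unfold Cx.du; fun_prop

@[fun_prop] theorem dgens_pt {c : α → Cx} {I : α → ID} {B : α → ℕ} {lam : α → List Vec}
    (hc : PT c) (hI : PT I) (hB : PT B) (hlam : PT lam) :
    PT fun a => Cx.dgens (c a) (I a) (B a) (lam a) := by
  unfold Cx.dgens; fun_prop

@[fun_prop] theorem dfin_pt {c : α → Cx} {I : α → ID} {B : α → ℕ} {lam : α → List Vec}
    (hc : PT c) (hI : PT I) (hB : PT B) (hlam : PT lam) :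
    PT fun a => Cx.dfin (c a) (I a) (B a) (lam a) := by
  unfold Cx.dfin; fun_prop

@[fun_prop] theorem divide_pt {c : α → Cx} {I : α → ID} {k : α → ℕ}
    (hc : PT c) (hI : PT I) (hk : PT k) :
    PT fun a => Cx.divide (c a) (I a) (k a) := by
  unfold Cx.divide; fun_prop

@[fun_prop] theorem ones_pt {D : α → ℕ}
    (hD : PT D) (bD : PB D) :
    PT fun a => Cx.ones (D a) := by
  unfold Cx.ones; fun_prop

@[fun_prop] theorem obM_pt {gs : α → List Pol} {T : α → List Ent}
    (hgs : PT gs) (hT : PT T) :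
    PT fun a => Cx.obM (gs a) (T a) := by
  unfold Cx.obM; fun_prop

@[fun_prop] theorem satE_pt {c : α → Cx} {gs : α → List Pol} {l : α → ℕ}
    (hc : PT c) (hgs : PT gs) (hl : PT l) :
    PT fun a => Cx.satE (c a) (gs a) (l a) := by
  unfold Cx.satE; fun_prop

@[fun_prop] theorem satInit_pt {c : α → Cx} {gs : α → List Pol}
    (hc : PT c) (hgs : PT gs) :
    PT fun a => Cx.satInit (c a) (gs a) := by
  unfold Cx.satInit; fun_prop

@[fun_prop] theorem satH_pt {c : α → Cx} {T : α → List Ent} {cs : α → Vec}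
    (hc : PT c) (hT : PT T) (hcs : PT cs) :
    PT fun a => Cx.satH (c a) (T a) (cs a) := by
  unfold Cx.satH; fun_prop

@[fun_prop] theorem satL_pt {c : α → Cx} {T : α → List Ent} {cs : α → Vec}
    (hc : PT c) (hT : PT T) (hcs : PT cs) :
    PT fun a => Cx.satL (c a) (T a) (cs a) := by
  unfold Cx.satL; fun_prop

@[fun_prop] theorem satS_pt {c : α → Cx} {gs : α → List Pol} {T : α → List Ent} {cs : α → Vec}
    (hc : PT c) (hgs : PT gs) (hT : PT T) (hcs : PT cs) :
    PT fun a => Cx.satS (c a) (gs a) (T a) (cs a) := by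
  unfold Cx.satS; fun_prop

@[fun_prop] theorem satUp_pt {c : α → Cx} {gs : α → List Pol} {T : α → List Ent} {cs : α → Vec}
    (hc : PT c) (hgs : PT gs) (hT : PT T) (hcs : PT cs) :
    PT fun a => Cx.satUp (c a) (gs a) (T a) (cs a) := by
  unfold Cx.satUp; fun_prop

@[fun_prop] theorem satStep_pt {c : α → Cx} {gs : α → List Pol} {s : α → Exc ⊕ List Ent}
    (hc : PT c) (hgs : PT gs) (hs : PT s) :
    PT fun a => Cx.satStep (c a) (gs a) (s a) := by
  unfold Cx.satStep; fun_prop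

@[fun_prop] theorem expC_pt {c : α → Cx} {gs : α → List Pol} {T : α → List Ent} {o : α → Vec}
    (hc : PT c) (hgs : PT gs) (hT : PT T) (ho : PT o) :
    PT fun a => Cx.expC (c a) (gs a) (T a) (o a) := by
  unfold Cx.expC; fun_prop

@[fun_prop] theorem expStep_pt {c : α → Cx} {gs : α → List Pol} {T : α → List Ent} {s : α → Exc ⊕ ID × List Vec}
    (hc : PT c) (hgs : PT gs) (hT : PT T) (hs : PT s) :
    PT fun a => Cx.expStep (c a) (gs a) (T a) (s a) := by
  unfold Cx.expStep; fun_prop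

@[fun_prop] theorem expInit_pt {c : α → Cx} 
    (hc : PT c)  :
    PT fun a => Cx.expInit (c a)  := by
  unfold Cx.expInit; fun_prop

@[fun_prop] theorem finH_pt {c : α → Cx} {T : α → List Ent} {cs : α → List Vec}
    (hc : PT c) (hT : PT T) (hcs : PT cs) :
    PT fun a => Cx.finH (c a) (T a) (cs a) := by
  unfold Cx.finH; fun_prop

@[fun_prop] theorem finC_pt {c : α → Cx} {T : α → List Ent} {cs : α → List Vec} {j : α → ℕ}
    (hc : PT c) (hT : PT T) (hcs : PT cs) (hj : PT j) :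
    PT fun a => Cx.finC (c a) (T a) (cs a) (j a) := by
  unfold Cx.finC; fun_prop

@[fun_prop] theorem finR_pt {c : α → Cx} {gs : α → List Pol} {cv : α → Vec} {s : α → ℕ} {j : α → ℕ}
    (hc : PT c) (hgs : PT gs) (hcv : PT cv) (hs : PT s) (hj : PT j) :
    PT fun a => Cx.finR (c a) (gs a) (cv a) (s a) (j a) := by
  unfold Cx.finR; fun_prop

@[fun_prop] theorem finW_pt {c : α → Cx} {gs : α → List Pol} {cv : α → Vec}
    (hc : PT c) (hgs : PT gs) (hcv : PT cv) :
    PT fun a => Cx.finW (c a) (gs a) (cv a) := by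
  unfold Cx.finW; fun_prop

@[fun_prop] theorem sat_pt {c : α → Cx} {gs : α → List Pol}
    (hc : PT c) (hgs : PT gs) :
    PT fun a => Cx.sat (c a) (gs a) := by
  unfold Cx.sat
  refine PT.iterate (f := fun a => (c a).satStep (gs a)) (by fun_prop) (by fun_prop) (by fun_prop)
    (by fun_prop) (B := fun a => Bdd.c (Exc ⊕ List Ent) *
      ((sz (c a) + sz (gs a) + 2) ^ 42 + 1) ^ Bdd.k (Exc ⊕ List Ent)) (by fun_prop) fun a k hk => ?_
  have h0 := (sm_sz (c a)).mono (Nat.le_add_right _ (sz (gs a)))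
  have h1 := length_le_sz (gs a)
  have h2 := Nat.le_self_pow (show 42 ≠ 0 by norm_num) (sz (c a) + sz (gs a) + 2)
  exact Bdd.sz_le ((sat_bd h0 (fun P hP => Bd.mono ((bd_sz_pols (gs a)).2 P hP) (by omega)) le_rfl
    (by omega) (hk.trans h0.L)).bd (by omega) (by omega))

@[fun_prop] theorem expand_pt {c : α → Cx} {gs : α → List Pol} {T : α → List Ent}
    (hc : PT c) (hgs : PT gs) (hT : PT T) :
    PT fun a => Cx.expand (c a) (gs a) (T a) := by
  unfold Cx.expand
  refine PT.iterate (f := fun a => (c a).expStep (gs a) (T a)) (by fun_prop) (by fun_prop) (by fun_prop)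
    (by fun_prop) (B := fun a => Bdd.c (Exc ⊕ ID × List Vec) *
      ((sz (c a) + sz (gs a) + sz (T a) + 2) ^ 42 + 1) ^ Bdd.k (Exc ⊕ ID × List Vec)) (by fun_prop)
    fun a k hk => ?_
  have h0 := (sm_sz (c a)).mono (show _ ≤ sz (c a) + sz (gs a) + sz (T a) by omega)
  have h1 := length_le_sz (gs a)
  have h3 := length_le_sz (T a)
  have h2 := Nat.le_self_pow (show 42 ≠ 0 by norm_num) (sz (c a) + sz (gs a) + sz (T a) + 2)
  exact Bdd.sz_le ((expand_bd h0 (fun P hP => Bd.mono ((bd_sz_pols (gs a)).2 P hP) (by omega)) le_rfl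
    (by omega) (by omega) (hk.trans h0.L)).bd (by omega) (by omega))

@[fun_prop] theorem run_pt {c : α → Cx} {gs : α → List Pol}
    (hc : PT c) (hgs : PT gs) :
    PT fun a => Cx.run (c a) (gs a) := by
  unfold Cx.run; fun_prop

@[fun_prop] theorem outStep_pt {c : α → Cx} {e : α → Exc}
    (hc : PT c) (he : PT e) :
    PT fun a => Cx.outStep (c a) (e a) := by
  unfold Cx.outStep; fun_prop

@[fun_prop] theorem wit_pt {c : α → Cx} 
    (hc : PT c)  :
    PT fun a => Cx.wit (c a) := by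
  unfold Cx.wit
  refine PT.option_getD (PT.getLeft? (γ := List Pol) ?_) (by fun_prop)
  refine PT.iterate (f := fun a => (c a).outStep) (by fun_prop) (by fun_prop) (by fun_prop)
    (by fun_prop) (B := fun a => Bdd.c Exc * (2 * sz (c a) + 1 + 1) ^ Bdd.k Exc) (by fun_prop)
    fun a k hk => ?_
  have h0 := sm_sz (c a)
  have h1 := h0.gm.1
  exact Bdd.sz_le ((out_bd h0 k).bd (by omega) (by omega))

end Cx

@[fun_prop] theorem mkCx_pt {p r : α → ℕ} {h g f : α → Vec} (hp : PT p) (hr : PT r) (hh : PT h)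
    (hg : PT g) (hf : PT f) : PT fun a => mkCx (p a) (r a) (h a) (g a) (f a) := by
  unfold mkCx; fun_prop

theorem splitOdd_pt : PT splitOdd := by
  unfold splitOdd; fun_prop

end Crest.Agent.R312
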