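import Crest.Agent.R312.A3Id

/-!
# R312 / A3Mk : the routine `mkI`
Read `A3Prog.lean` and `A3Defs.lean` first.  Keep the statements; auxiliary lemmas get the prefix `a3k_`.
-/

set_option autoImplicit false

noncomputable section

namespace Crest.Agent.R312

open Crest.Agent.Lib.PT Polynomial Finset

variable {F : Type} [Field F] [Fintype F] {c : Cx} {ψ : Vec → F} {E : Cv F}
  {S : Type} {φ : Vec → S → F} {Es : S → Cv F}

/-- If `J = (ν)` then `ν` generates the ideal of all components of all generators.  `≥`: `Cv.of_dvd_iff`,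
`comp_rel`.  `≤`: let `K` be the right side; the set of `u ∈ R` with all components in `K` is an ideal (the
components of `Y * u` are `g u_(r-1), u_0, …`; or directly: `K = span {k}` as `F[X]` is a PID, and the set is
`span {of k}` by `Cv.of_dvd_iff`), it contains the generators, hence `of ν` (`Cv.of_dvd_of_iff`). -/
theorem span_comps (h : LocA c ψ E) {J : ID} {ν : F[X]} (hJ : E.idl ψ J = Ideal.span {E.of ν}) :
    Ideal.span (poly ψ '' {P | P ∈ J.1 :: c.comps J.2}) = Ideal.span {ν} := by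
  have hm : ∀ P, P ∈ c.comps J.2 ↔ ∃ u ∈ J.2, ∃ b < E.r, u.getD b [] = P := fun P => by
    simp only [Cx.comps, List.mem_flatMap, List.mem_map, List.mem_range, h.r]
  rw [idl_eq] at hJ
  apply le_antisymm
  · rw [Ideal.span_le]
    rintro _ ⟨P, hP, rfl⟩
    rw [SetLike.mem_coe, Ideal.mem_span_singleton]
    rcases List.mem_cons.1 hP with rfl | hP
    · rw [← E.of_dvd_of_iff, ← Ideal.mem_span_singleton, ← hJ]
      exact Ideal.mem_sup_left (Ideal.mem_span_singleton_self _)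
    · obtain ⟨u, hu, b, hb, rfl⟩ := (hm P).1 hP
      rw [← comp_rel ψ u hb]
      refine E.of_dvd_iff.1 ?_ b hb
      rw [← Ideal.mem_span_singleton, ← hJ]
      exact Ideal.mem_sup_right (rel_mem_spn ψ hu)
  · obtain ⟨k, hk⟩ := (IsPrincipalIdealRing.principal
      (Ideal.span (poly ψ '' {P | P ∈ J.1 :: c.comps J.2}))).principal
    have hk' : ∀ P ∈ J.1 :: c.comps J.2, k ∣ poly ψ P := fun P hP => by
      rw [← Ideal.mem_span_singleton, ← Ideal.submodule_span_eq, ← hk]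
      exact Ideal.subset_span ⟨P, hP, rfl⟩
    rw [hk, Ideal.submodule_span_eq, Ideal.span_singleton_le_span_singleton, ← E.of_dvd_of_iff,
      ← Ideal.span_singleton_le_span_singleton, ← hJ, sup_le_iff,
      Ideal.span_singleton_le_span_singleton, E.of_dvd_of_iff, spn_le]
    refine ⟨hk' _ (by simp), fun u hu => Ideal.mem_span_singleton.2 (E.of_dvd_iff.2 fun b hb => ?_)⟩
    rw [comp_rel ψ u hb]
    exact hk' _ (List.mem_cons_of_mem _ ((hm _).2 ⟨u, hu, b, hb, rfl⟩))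

omit [Fintype F] in
theorem a3k_pair (ψ : Vec → F) (P Q : Pol) : poly ψ '' {R | R ∈ [P, Q]} = {poly ψ P, poly ψ Q} := by
  rw [← Set.image_pair]
  congr 1
  ext R
  simp

/-- First `gcd_good` and `m_flat` (`N = μ.length`, `Hom.ppowMod`, `h.g`): `μ' = μ /ₘ e` (`Hom.pdiv`, `Hom.mon_pdiv`)
is coprime to `g`, `μ = μ' e ∣ μ' g^N`.  `I₀ = idl (pdiv μ e, G)` is `Cop` (`cop_of_mem`), so has a norm `ν₀`
(`Cop.exists_isNu`), `idl (isp _ r) = Ik I₀ r = (ν₀)` (`idl_isp`).  By `gcd_good` and `span_comps` the second gcd `ν`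
has `span {poly ν} = span {ν₀}`, both monic, so `poly ν = ν₀`
(`Ideal.span_singleton_eq_span_singleton`, `eq_of_monic_of_associated`).  Finally `idl_nrmI`, `spn_cons`,
`rel_single`, `IsNu.mem` give `idl (nrmI ..) = I₀`. -/
theorem mkI_good (h : Ok c φ Es) (gs : List Pol) {μ : Pol} (hμ : ∀ a, Mon (pt φ a) μ) (G : List RE) :
    Good (GE φ Es gs) (fun I => ∀ a, (Es a).Val (pt φ a) I ∧ ∃ (μ' : F[X]) (N : ℕ),
      IsCoprime μ' (Es a).g ∧ poly (pt φ a) μ ∣ μ' * (Es a).g ^ N ∧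
      (IsCoprime (poly (pt φ a) μ) (Es a).g → μ' = poly (pt φ a) μ) ∧
      (Es a).idl (pt φ a) I = (Es a).spn (pt φ a) G ⊔ Ideal.span {(Es a).of μ'}) (c.mkI μ G) := by
  refine (gcd_good h gs hμ _).bnd fun e he => ?_
  have hm : ∀ a, Mon (pt φ a) (c.A.pdiv μ e) := fun a => (h.loc a).hom.mon_pdiv (he.2 a).1 (hμ a) he.1
  have hs := fun a => idl_isp (h.loc a) (I := (c.A.pdiv μ e, G)) (hm a) (h.loc a).r.ge
  refine (gcd_good h gs (fun a => (hs a).2.1) _).bnd fun ν hν a => ?_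
  have L := h.loc a
  have h1 := (he.2 a).2
  rw [a3k_pair, L.hom.ppowMod (hμ a), L.g] at h1
  obtain ⟨f1, f2, f3, f4⟩ := m_flat (hμ a).monic (he.2 a).1.monic
    ((natDegree_poly_le _ _).trans (Nat.sub_le _ _)) h1
  rw [← L.hom.pdiv (he.2 a).1] at f1 f2
  have hI : (Es a).idl (pt φ a) (c.A.pdiv μ e, G) =
      (Es a).spn (pt φ a) G ⊔ Ideal.span {(Es a).of (poly (pt φ a) (c.A.pdiv μ e))} := by
    rw [idl_eq, sup_comm]
  have hcop : (Es a).Cop ((Es a).idl (pt φ a) (c.A.pdiv μ e, G)) :=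
    (Es a).cop_of_mem (hI ▸ Ideal.mem_sup_right (Ideal.mem_span_singleton_self _)) f2
  obtain ⟨ν₀, hν₀⟩ := hcop.exists_isNu
  have h2 := (hν.2 a).2
  rw [span_comps L (ν := ν₀) (by rw [(hs a).1, ← L.r]; exact hν₀.2),
    Ideal.span_singleton_eq_span_singleton] at h2
  rw [← eq_of_monic_of_associated (hν.2 a).1.monic hν₀.1 h2] at hν₀
  have h3 : (Es a).idl (pt φ a) (c.nrmI ν ([c.A.pdiv μ e] :: G)) =
      (Es a).idl (pt φ a) (c.A.pdiv μ e, G) := by
    rw [idl_nrmI L (hν.2 a).1]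
    exact sup_eq_right.2 ((Ideal.span_singleton_le_iff_mem _).2 hν₀.mem)
  refine ⟨⟨(hν.2 a).1, h3 ▸ hcop, h3 ▸ hν₀⟩, _, μ.length, f2, ?_, fun hc => ?_, h3.trans hI⟩
  · conv_lhs => rw [f1]
    exact mul_dvd_mul_left _ f3
  · rw [f4 hc, mul_one] at f1
    exact f1.symm

/-- the start of the expansion: `mkI_good` with `μ = X` coprime to `g` (`h.g0`), `rel_pair`; `Cv.P` -/
theorem expInit_good (h : Ok c φ Es) (gs : List Pol) (T : List Ent) :
    Good (GE φ Es gs) (fun s => ∀ a, ExpI c (pt φ a) (Es a) T 0 s) c.expInit := by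
  refine (mkI_good h gs (fun a => (h.loc a).hom.mon_pX) _).bnd fun J hJ a => ?_
  obtain ⟨μ', N, -, -, hc, he⟩ := (hJ a).2
  have L := h.loc a
  rw [L.hom.pX] at hc
  have h1 : IsCoprime X (Es a).g := (Es a).isCoprime_g_iff.2 fun α hα h0 => by
    have := ((Es a).g_eval_eq_zero_iff α).2 hα
    rw [eval_X] at h0
    rw [h0, L.g0] at this
    exact one_ne_zero this
  refine ⟨(hJ a).1, rfl, fun i l => (Es a).r_pos, fun _ => (Es a).clA (Es a).P, rfl, ?_,
    fun i hi => absurd hi (Nat.not_lt_zero _)⟩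
  simp only
  rw [he, hc h1, spn_cons, spn_nil, sup_bot_eq, rel_pair, L.hom.pneg, L.hom.pone, map_neg, map_one, one_mul,
    neg_add_eq_sub, Cv.P, Ideal.span_insert, sup_comm]

end Crest.Agent.R312
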