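import Crest.Agent.R312.A3Cnd
import Crest.Agent.R312.A3Mk

/-!
# R312 / A3Div : the routine `divide`
Read `A3Prog.lean` and `A3Defs.lean` first.  Keep the statements; auxiliary lemmas get the prefix `a3d_`.
-/

set_option autoImplicit false

noncomputable section

namespace Crest.Agent.R312

open Crest.Agent.Lib.PT Polynomial Finset

variable {F : Type} [Field F] [Fintype F] {c : Cx} {ψ : Vec → F} {E : Cv F}
  {S : Type} {φ : Vec → S → F} {Es : S → Cv F}

theorem a3d_pos (h : LocA c ψ E) (ν : Pol) (B : ℕ) : ∀ x ∈ (c.dpos ν B).toFinset, x.2.1 < E.r :=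
  fun x hx => by rw [h.r]; exact (mem_dpos.1 (List.mem_toFinset.1 hx)).2.1

/-- `kerL_mem`, `inV_arr_iff`, `rel_du`, `InV.congr`, `arr_eq_zero_iff` -/
theorem dker_mem (h : Ok c φ Es) {I : ID} (hI : ∀ a, Mon (pt φ a) I.1) (ω : Pol) {B : ℕ}
    (hB : B ≤ (c.r - 1) * c.gm.length) {lam : List Vec} (hl : lam ∈ c.dker I ω B) :
    (∀ a, (Es a).InV ((Es a).idl (pt φ a) I) (poly (pt φ a) I.1) (poly (pt φ a) ω) B
      fun k => (Es a).rel (pt φ a) (c.du I.1 B lam k)) ∧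
    ∃ a, ∃ k < (Es a).r, (Es a).rel (pt φ a) (c.du I.1 B lam k) ≠ 0 := by
  obtain ⟨h1, ⟨a, x, hx, h2⟩, h3⟩ := kerL_mem h.prime h.iso (nodup_dpos c I.1 B) hl
  refine ⟨fun a => ((inV_arr_iff (h.loc a) (hI a) ω B _).2 (h3 a)).congr fun k hk =>
    (rel_du (h.loc a) hB h1 hk).symm, a, x.1, ?_, fun h0 => h2 ?_⟩
  · rw [(h.loc a).r]; exact (mem_dpos.1 hx).1
  · rw [rel_du (h.loc a) hB h1 (by rw [(h.loc a).r]; exact (mem_dpos.1 hx).1),
      arr_eq_zero_iff (a3d_pos (h.loc a) I.1 B)] at h0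
    exact h0 x (List.mem_toFinset.2 hx) rfl

/-- `exists_arr`, `InV.congr`, `inV_arr_iff`, `kerL_nil`, `arr_eq_zero_iff` -/
theorem dker_nil (h : Ok c φ Es) {I : ID} (hI : ∀ a, Mon (pt φ a) I.1) (ω : Pol) {B : ℕ}
    (hB : B ≤ (c.r - 1) * c.gm.length) (hl : c.dker I ω B = []) (a : S) {u : ℕ → (Es a).R}
    (hu : (Es a).InV ((Es a).idl (pt φ a) I) (poly (pt φ a) I.1) (poly (pt φ a) ω) B u) :
    ∀ k < (Es a).r, u k = 0 := by
  obtain ⟨μ, hμ⟩ := exists_arr (h.loc a) (hI a) hB hu.inf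
  have h1 := (inV_arr_iff (h.loc a) (hI a) ω B μ).1 (hu.congr fun k hk => (hμ k hk).symm)
  have h2 := kerL_nil h.prime h.iso (nodup_dpos c I.1 B) hl a μ h1
  intro k hk
  rw [← hμ k hk, arr_eq_zero_iff (a3d_pos (h.loc a) I.1 B)]
  exact fun x hx _ => h2 x (List.mem_toFinset.1 hx)

/-- `Cv.div_exists` and `dker_nil` show that the kernel is not empty for `B = (r-1)(m+1)` (`LocA.len`);
`List.findIdx_lt_length`, `List.findIdx_getElem`, `List.not_of_lt_findIdx` -/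
theorem dB_spec (h : Ok c φ Es) {I : ID} (hI : ∀ a, (Es a).Val (pt φ a) I) (ω : Pol) :
    c.dB I ω ≤ (c.r - 1) * c.gm.length ∧ c.dker I ω (c.dB I ω) ≠ [] ∧
      ∀ B < c.dB I ω, c.dker I ω B = [] := by
  obtain ⟨a⟩ := h.ne
  have h1 : c.dker I ω ((c.r - 1) * c.gm.length) ≠ [] := fun h0 => by
    obtain ⟨u, hu, k, hk, hne⟩ := (Es a).div_exists (hI a).nu (poly (pt φ a) ω)
    rw [(h.loc a).r, ← (h.loc a).len] at hu
    exact hne (dker_nil h (fun a => (hI a).mon) ω le_rfl h0 a hu k hk)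
  have h2 : c.dB I ω < (List.range ((c.r - 1) * c.gm.length + 1)).length :=
    List.findIdx_lt_length.2 ⟨_, List.mem_range.2 (Nat.lt_succ_self _), by simpa using h1⟩
  refine ⟨by simpa [Nat.lt_succ_iff] using h2, ?_, fun B hB => ?_⟩
  · have : (!(c.dker I ω ((List.range ((c.r - 1) * c.gm.length + 1))[c.dB I ω])).isEmpty) = true :=
      List.findIdx_getElem (w := h2)
    rw [List.getElem_range] at this
    simpa using this
  · have := List.not_of_lt_findIdx hB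
    simpa using this

/-- Let `lam` be the head of the kernel, `u k = rel (du .. k)`.  At a point `a₀` where some `u k ≠ 0`,
`Cv.div_main` (`dw_spec`, `dker_nil`) gives `u 0 ≠ 0`, so the norm is not zero (`poly_rnorm`, `Cv.nm_ne`) and
`mon_good` applies.  Its value `μ` is monic and associated to `nm (u 0)` at every `a`, so `u 0 ≠ 0` at every `a`
(`nm 0 = 0`: `Cv.nm_of` or `of_nm`) and `div_main` applies everywhere.  `of μ ∈ Jstar` (`dvd_of_nm`,
`mem_Jstar_zero`).  Finish with `mkI_good`, `spn_dgens`, `Cv.φ_cl_drop`. -/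
theorem divide_good (h : Ok c φ Es) (gs : List Pol) {I : ID} (hI : ∀ a, (Es a).Val (pt φ a) I) {k : ℕ}
    (hk : ∀ a, ∀ α ∈ (Es a).S, (φ c.γ0 a ^ k * (poly (pt φ a) I.1).eval α) ^
      ((Fintype.card F - 1) / (Es a).r) = 1) :
    Good (GE φ Es gs) (fun J => ∀ a, (Es a).Val (pt φ a) J ∧
      (Es a).φ ((Es a).clA ((Es a).idl (pt φ a) J)) = (Es a).clA ((Es a).idl (pt φ a) I))
      (c.divide I k) := by
  obtain ⟨hB, hne, hmin⟩ := dB_spec h hI (c.dom I.1 k)
  unfold Cx.divide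
  generalize c.dB I (c.dom I.1 k) = B at hB hne hmin
  have hl : (c.dker I (c.dom I.1 k) B).headD [] ∈ c.dker I (c.dom I.1 k) B := by
    generalize c.dker I (c.dom I.1 k) B = l at hne
    cases l with
    | nil => exact absurd rfl hne
    | cons x l => simp
  generalize (c.dker I (c.dom I.1 k) B).headD [] = lam at hl
  obtain ⟨hV, a₀, hnz⟩ := dker_mem h (fun a => (hI a).mon) _ hB hl
  have key : ∀ a, (∃ j < (Es a).r, (Es a).rel (pt φ a) (c.du I.1 B lam j) ≠ 0) →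
      (Es a).rel (pt φ a) (c.du I.1 B lam 0) ≠ 0 ∧
      (Es a).φ ((Es a).clA ((Es a).Jstar ((Es a).idl (pt φ a) I) (poly (pt φ a) I.1)
        fun j => (Es a).rel (pt φ a) (c.du I.1 B lam j))) = (Es a).clA ((Es a).idl (pt φ a) I) :=
    fun a hj => by
      obtain ⟨hw, hω⟩ := dw_spec (h.loc a) ((hI a).nu.coprime (hI a).cop) (hk a)
      exact (Es a).div_main (hI a).cop (hI a).nu (pow_ne_zero k (h.loc a).res.ne) hw hω (hV a) hj
        fun B' hB' u hu => dker_nil h (fun a => (hI a).mon) _ (hB'.le.trans hB) (hmin B' hB') a hu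
  refine (mon_good h gs ⟨a₀, ?_⟩).bnd fun μ hμ => (mkI_good h gs (fun a => (hμ a).1) _).mono
    fun J hJ a => ⟨(hJ a).1, ?_⟩
  · rw [poly_rnorm (h.loc a₀)]
    exact (Es a₀).nm_ne (key a₀ hnz).1
  · obtain ⟨μ', N, hc, hd, -, he⟩ := (hJ a).2
    have h0 : poly (pt φ a) μ ≠ 0 := (hμ a).1.monic.ne_zero
    have h1 := (hμ a).2
    rw [poly_rnorm (h.loc a)] at h1
    have h2 : (Es a).rel (pt φ a) (c.du I.1 B lam 0) ≠ 0 := fun e => by
      rw [e, ← map_zero (Es a).of, Cv.nm_of, zero_pow (Es a).r_pos.ne'] at h1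
      exact h0 ((associated_zero_iff_eq_zero _).1 h1.symm)
    rw [he, spn_dgens (h.loc a) (hI a).mon (hV a), (Es a).φ_cl_drop h0 ?_ hc hd]
    · exact (key a ⟨0, (Es a).r_pos, h2⟩).2
    · exact Ideal.mem_of_dvd _ (((Es a).dvd_of_nm _).trans (map_dvd _ h1.dvd))
        ((Es a).mem_Jstar_zero _ _ fun j => (Es a).rel (pt φ a) (c.du I.1 B lam j))

end Crest.Agent.R312
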