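import Crest.Agent.R312.A3Sat1
import Crest.Agent.R312.A3Div

/-!
# R312 / A3Sat2 : the saturation loop
Read `A3Prog.lean` and `A3Defs.lean` first.  Keep the statements; auxiliary lemmas get the prefix `a3u_`.
-/

set_option autoImplicit false

noncomputable section

namespace Crest.Agent.R312

open Crest.Agent.Lib.PT Polynomial Finset

variable {F : Type} [Field F] [Fintype F] {c : Cx} {ψ : Vec → F} {E : Cv F}
  {S : Type} {φ : Vec → S → F} {Es : S → Cv F}

omit [Fintype F] in
theorem ent_set (c : Cx) (T : List Ent) {l₀ : ℕ} (h : l₀ < T.length) (t : Ent) (l : ℕ) :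
    c.ent (T.set l₀ t) l = if l = l₀ then t else c.ent T l := by
  unfold Cx.ent
  rw [List.getD_eq_getElem?_getD, List.getD_eq_getElem?_getD, List.getElem?_set]
  split_ifs with h1 h2 h2
  · rfl
  · exact absurd h1.symm h2
  · exact absurd h2.symm h1
  · rfl

omit [Fintype F] in
/-- `maxR_eq`, `le_maxR`, `List.findIdx_lt_length`, `List.findIdx_getElem` -/
theorem satL_spec {T : List Ent} {cs : Vec} (hpos : ∀ l < T.length, 1 ≤ (c.ent T l).2.1)
    (hne : ∃ l < T.length, cs.getD l 0 ≠ 0) :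
    c.satL T cs < T.length ∧ cs.getD (c.satL T cs) 0 ≠ 0 ∧ (c.ent T (c.satL T cs)).2.1 = c.satH T cs ∧
      ∀ l < T.length, cs.getD l 0 ≠ 0 → (c.ent T l).2.1 ≤ c.satH T cs := by
  have h1 : ∀ l < T.length, cs.getD l 0 ≠ 0 → (c.ent T l).2.1 ≤ c.satH T cs := fun l hl h0 => by
    have := le_maxR (fun l => if cs.getD l 0 = 0 then 0 else (c.ent T l).2.1) hl
    rwa [if_neg h0] at this
  obtain ⟨l, hl, h0⟩ := hne
  have h2 : c.satH T cs ≠ 0 := by
    have := h1 l hl h0
    have := hpos l hl
    omega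
  obtain ⟨l', hl', h3⟩ := (maxR_eq _ _).resolve_left h2
  have h4 : (if cs.getD l' 0 = 0 then 0 else (c.ent T l').2.1) = c.satH T cs := h3
  have h5 : c.satL T cs < (List.range T.length).length :=
    List.findIdx_lt_length.2 ⟨l', List.mem_range.2 hl', by
      rw [decide_eq_true_iff]
      split_ifs at h4 with h6
      · exact absurd h4.symm h2
      · exact ⟨h6, h4⟩⟩
  have h6 : decide (cs.getD ((List.range T.length)[c.satL T cs]) 0 ≠ 0 ∧
      (c.ent T ((List.range T.length)[c.satL T cs])).2.1 = c.satH T cs) = true :=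
    List.findIdx_getElem (w := h5)
  rw [List.getElem_range, decide_eq_true_iff] at h6
  exact ⟨by simpa using h5, h6.1, h6.2, h1⟩

omit [Fintype F] in
/-- a relation involves some `t_l` (`ker_mem`, `getD_obM_last` at `j = 0`) -/
theorem ker_obM (hr : c.r.Prime) {gs : List Pol} {T : List Ent} (hlen : T.length + 1 = gs.length)
    {cs : Vec} (hcs : cs ∈ ker c.r gs.length (Cx.obM gs T)) :
    (∀ l, cs.getD l 0 < c.r) ∧ (∃ l < T.length, cs.getD l 0 ≠ 0) ∧
      ∀ j < gs.length, ∑ i ∈ range (Cx.obM gs T).length,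
        ((cs.getD i 0 : ℕ) : ZMod c.r) * ((((Cx.obM gs T).getD i []).getD j 0 : ℕ) : ZMod c.r) = 0 := by
  obtain ⟨h1, h2, ⟨i, hi, h3⟩, h4⟩ := ker_mem hr hcs
  refine ⟨fun l => ?_, by_contra fun hc => ?_, h4⟩
  · rw [List.getD_eq_getElem?_getD]
    cases e : cs[l]? with
    | none => exact hr.pos
    | some y => exact h2 y (List.mem_of_getElem? e)
  · push Not at hc
    have h5 := h4 0 (by omega)
    rw [length_obM] at hi h5
    rw [Finset.sum_range_succ, getD_obM_last gs T (by omega), Finset.sum_eq_zero fun l hl => by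
      rw [hc l (Finset.mem_range.1 hl)]; simp] at h5
    rcases Nat.lt_succ_iff_lt_or_eq.1 hi with hi | rfl
    · exact h3 (by rw [hc i hi]; simp)
    · exact h3 (by simpa using h5)

/-- The update at one root.  `DInv.update` (turn the functions into `Function.update` by `funext` and `ent_set`),
`DInv.update_socle`, then `soc`, `wsum_bw_sum`, `wsum_bw_congr` (`getD_mkv`, `rd_eq`, `Finset.sum_list...`:
`((List.range n).map f).sum = ∑ i ∈ range n, f i` is `Finset.sum_range` / `List.sum_range_succ` / `rfl`-like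
`Finset.sum_list_map_range`). -/
theorem satI_set {gs : List Pol} {T : List Ent} (hr : E.r = c.r) (hT : SatI c ψ E gs T) {cs : Vec}
    (hlt : ∀ l, cs.getD l 0 < E.r) (hne : ∃ l < T.length, cs.getD l 0 ≠ 0) {t : ID} (ht : E.Val ψ t)
    (hφ : E.φ (E.clA (E.idl ψ t)) = ∑ l ∈ range T.length, cs.getD l 0 • E.clA (E.idl ψ (c.ent T l).1))
    {o : Vec} (ho : E.Ob ψ gs t.1 o) :
    SatI c ψ E gs (T.set (c.satL T cs) (t, c.satH T cs + 1, c.satS gs T cs, o)) := by
  obtain ⟨h1, h2, h3, h4⟩ := satL_spec (c := c) hT.dinv.pos hne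
  have hmax : ∀ l < T.length, cs.getD l 0 ≠ 0 → (c.ent T l).2.1 ≤ (c.ent T (c.satL T cs)).2.1 :=
    h3 ▸ h4
  refine ⟨by simpa using hT.len, fun l hl => ?_, fun l hl => ?_, ?_, fun l hl => ?_⟩
  · rw [ent_set c T h1]
    split_ifs
    · exact ht
    · exact hT.val l (by simpa using hl)
  · rw [ent_set c T h1]
    split_ifs
    · exact ho
    · exact hT.ob l (by simpa using hl)
  · have := hT.dinv.update E.hr hφ h1
      (fun hd => absurd (Nat.le_of_dvd (Nat.pos_of_ne_zero h2) hd) (hlt _).not_ge) hmax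
    rw [List.length_set]
    convert this using 2 with l l
    · rw [ent_set c T h1, Function.update_apply]
      split_ifs <;> rfl
    · rw [ent_set c T h1, Function.update_apply, h3]
      split_ifs <;> rfl
  · rw [ent_set c T h1]
    split_ifs
    · have h5 := hT.dinv.update_socle hφ h1 hmax
      simp only [h3] at h5
      simp only [Nat.add_sub_cancel]
      rw [h5, Finset.sum_congr rfl fun l hl => by
        rw [hT.soc l (Finset.mem_range.1 hl), ← natCast_zsmul], wsum_bw_sum]
      refine wsum_bw_congr ψ gs fun j hj => ?_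
      rw [Cx.satS, getD_mkv _ _ hj, rd_eq (hr ▸ E.r_pos), a0a_sum_range, ← hr, Int.natCast_mod]
      refine Int.ModEq.trans ?_ (Int.mod_modEq _ _).symm
      refine Eq.subst (motive := fun z => z ≡ _ [ZMOD _]) ?_ (Int.ModEq.refl _)
      push_cast
      exact Finset.sum_congr rfl fun l _ => by split_ifs <;> simp
    · exact hT.soc l (by simpa using hl)

/-- `val_ipp`, `ob_root` (with `ob_one`), `divide_good`, `obs_good`, `satI_set` -/
theorem satUp_good (h : Ok c φ Es) {gs : List Pol} (hf : ∀ a, (Es a).Fac (pt φ a) gs) {T : List Ent}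
    (hT : ∀ a, SatI c (pt φ a) (Es a) gs T) {cs : Vec} (hcs : cs ∈ ker c.r gs.length (Cx.obM gs T)) :
    Good (GE φ Es gs) (fun T' => (∀ a, SatI c (pt φ a) (Es a) gs T') ∧
      ∑ l ∈ range T'.length, (c.ent T' l).2.1 = ∑ l ∈ range T.length, (c.ent T l).2.1 + 1)
      (c.satUp gs T cs) := by
  obtain ⟨a₀⟩ := h.ne
  obtain ⟨hlt, hne, hrel⟩ := ker_obM (c := c) h.rprime (hT a₀).len hcs
  have hlt' : ∀ a l, cs.getD l 0 < (Es a).r := fun a l => (h.loc a).r ▸ hlt l
  have hp := fun a => val_ipp (h.loc a) (hT a).val (hlt' a)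
  refine (divide_good h gs (fun a => (hp a).1) fun a α hα => ?_).bnd fun t ht =>
    (obs_good h hf fun a => (ht a).1).bnd fun o ho => ⟨fun a => satI_set (h.loc a).r (hT a) (hlt' a) hne
      (ht a).1 ((ht a).2.trans (hp a).2.2) (ho a), ?_⟩
  · have := ob_root (h.loc a) (hf a) (hT a).ob (ob_one (h.loc a) gs) (cs := cs)
      (fun j hj => by simpa using hrel j hj) α hα
    rwa [(h.loc a).hom.pone, one_mul, ← (hp a).2.1] at this
  · obtain ⟨h1, -, h3, -⟩ := satL_spec (c := c) (hT a₀).dinv.pos hne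
    rw [List.length_set, ← Finset.add_sum_erase _ _ (Finset.mem_range.2 h1),
      ← Finset.add_sum_erase _ _ (Finset.mem_range.2 h1), ent_set c T h1, if_pos rfl, h3,
      Finset.sum_congr rfl fun l hl => by rw [ent_set c T h1, if_neg (Finset.ne_of_mem_erase hl)]]
    simp only
    omega

/-- `iter_inv` with the invariant `Good _ (fun T => SatI ∧ (ker = [] ∨ k ≤ ∑ heights))`; at the end `DInv.card` and
`LocA.card` exclude `L ≤ ∑ heights`. -/
theorem sat_good (h : Ok c φ Es) {gs : List Pol} (hf : ∀ a, (Es a).Fac (pt φ a) gs) :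
    Good (GE φ Es gs) (fun T => (∀ a, SatI c (pt φ a) (Es a) gs T) ∧
      ker c.r gs.length (Cx.obM gs T) = []) (c.sat gs) := by
  obtain ⟨a₀⟩ := h.ne
  have h1 := iter_inv (f := c.satStep gs) (s := c.satInit gs)
    (fun k s => Good (GE φ Es gs) (fun T => (∀ a, SatI c (pt φ a) (Es a) gs T) ∧
      (ker c.r gs.length (Cx.obM gs T) = [] ∨ k ≤ ∑ l ∈ range T.length, (c.ent T l).2.1)) s) c.L
    ((satInit_good h hf).mono fun T hT => ⟨hT, Or.inr (Nat.zero_le _)⟩) fun k _ s hs =>
      hs.bnd fun T hT => by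
        cases e : ker c.r gs.length (Cx.obM gs T) with
        | nil => exact ⟨hT.1, Or.inl e⟩
        | cons cs l =>
          refine (satUp_good h hf hT.1 (cs := cs) (by simp [e])).mono fun T' hT' => ⟨hT'.1, Or.inr ?_⟩
          have := hT.2.resolve_left (by simp [e])
          omega
  refine h1.mono fun T hT => ⟨hT.1, hT.2.resolve_right fun hL => ?_⟩
  have h2 := (hT.1 a₀).dinv.card (Es a₀).hr.two_le
  exact absurd ((Nat.pow_le_pow_right (by norm_num) hL).trans h2) (h.loc a₀).card.not_ge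

end Crest.Agent.R312
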