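import Crest.Agent.R312.A3Fin
import Crest.Agent.R312.A3Sat2
import Crest.Agent.R312.A3PT

/-!
# R312 / A3Main : the outer loop, the data of a run, `splitOdd_spec`
-/

set_option autoImplicit false

noncomputable section

namespace Crest.Agent.R312

open Crest.Agent.Lib.PT Polynomial Finset Crest.PolyFactor

section
variable {F : Type} [Field F] [Fintype F] [DecidableEq F] {c : Cx} {S : Type} {φ : Vec → S → F}

theorem run_good (Φ : Fam F) {x : S → F} (hx : ∀ a, x a ∈ Φ.T) (hs : ∀ b ∈ Φ.T, ∃ a, x a = b)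
    (h : Ok c φ fun a => Φ.chart (x a) (hx a)) (hcx : ∀ a, φ c.x a = x a) {gs : List Pol}
    (hf : ∀ a, (Φ.chart (x a) (hx a)).Fac (pt φ a) gs) :
    GE φ (fun a => Φ.chart (x a) (hx a)) gs (c.run gs) := by
  have h1 : Good (GE φ (fun a => Φ.chart (x a) (hx a)) gs) (Wit φ)
      (bnd (c.sat gs) fun T => bnd (c.expand gs T) fun s =>
        Sum.inr (c.finW gs ((List.range gs.length).map (c.finC T s.2)))) :=
    (sat_good h hf).bnd fun T hT => (expand_good h hf hT.1 hT.2).bnd fun s hs' =>
      finW_wit Φ hx hs h hcx hf hT.1 hs'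
  unfold Cx.run
  generalize bnd _ _ = z at h1
  cases z <;> exact h1

theorem wit_good (Φ : Fam F) {x : S → F} (hx : ∀ a, x a ∈ Φ.T) (hs : ∀ b ∈ Φ.T, ∃ a, x a = b)
    (h : Ok c φ fun a => Φ.chart (x a) (hx a)) (hcx : ∀ a, φ c.x a = x a) : Wit φ c.wit := by
  have h1 := iter_inv (f := c.outStep) (s := Sum.inr [c.gm])
    (fun k e => e.elim (Wit φ) fun gs =>
      (∀ a, (Φ.chart (x a) (hx a)).Fac (pt φ a) gs) ∧ gs.length = k + 1) c.gm.length
    ⟨fun a => (h.loc a).fac_gm, rfl⟩ (fun k _ e he => by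
      cases e with
      | inl w => exact he
      | inr gs =>
        have h2 := run_good Φ hx hs h hcx he.1
        show Sum.elim _ _ (c.run gs)
        generalize c.run gs = z at h2
        cases z with
        | inl w => exact h2
        | inr gs' => exact ⟨h2.1, h2.2.trans (by rw [he.2])⟩)
  unfold Cx.wit
  generalize c.outStep^[c.gm.length] (Sum.inr [c.gm]) = z at h1
  cases z with
  | inl w => exact h1
  | inr gs =>
    obtain ⟨a⟩ := h.ne
    have h2 := (h1.1 a).length_le
    have h3 := (h.loc a).len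
    have h4 := h1.2
    omega

end

section
variable {p : ℕ} [Fact p.Prime] {F : Type} [Field F]

theorem a3m_cl (ι : ZMod p →+* F) (f : (ZMod p)[X]) (i : ℕ) :
    (((clA f).getD i 0 : ℕ) : F) = (f.map ι).coeff i := by
  rw [coeff_map]
  by_cases hi : i < f.natDegree + 1
  · rw [List.getD_eq_getElem _ _ (by simpa [clA] using hi)]
    simp only [clA, List.getElem_map, List.getElem_range]
    rw [← map_natCast ι, ZMod.natCast_zmod_val]
  · rw [List.getD_eq_default _ _ (by simpa [clA] using hi), coeff_eq_zero_of_natDegree_lt (by omega)]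
    simp

theorem poly_chartG {A : Alg} {ψ : Vec → F} (h : Hom A ψ) (ι : ZMod p →+* F) (f : (ZMod p)[X]) (x : Vec) :
    poly ψ (chartG A x (clA f)) = ∑ k ∈ range f.natDegree,
      monomial k ((hasseDeriv (f.natDegree - k) (f.map ι)).eval (ψ x)) := by
  have hl : (chartG A x (clA f)).length = f.natDegree := by simp [chartG, length_cl]
  rw [poly, hl]
  refine Finset.sum_congr rfl fun k hk => ?_
  congr 1
  rw [List.getD_eq_getElem _ _ (by rw [hl]; exact Finset.mem_range.1 hk)]
  simp only [chartG, List.getElem_map, List.getElem_range, length_cl, Nat.add_sub_cancel]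
  rw [h.sum_range, eval_eq_sum_range' (n := f.natDegree + 1)
    (((natDegree_hasseDeriv_le _ _).trans ((Nat.sub_le _ _).trans natDegree_map_le)).trans_lt
      (Nat.lt_succ_self _))]
  refine Finset.sum_congr rfl fun j _ => ?_
  rw [h.smul, h.pow, hasseDeriv_coeff, Nat.cast_mul, a3m_cl ι]

theorem a3m_dvd {r : ℕ} (hr : r.Prime) (hrp : r < p) {h : (ZMod p)[X]} [Fact (Irreducible h)]
    [Fintype (AdjoinRoot h)] (hd : h ∣ ∑ i ∈ Finset.range r, X ^ i) :
    r ∣ Fintype.card (AdjoinRoot h) - 1 := by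
  have h1 : ∑ i ∈ Finset.range r, (AdjoinRoot.root h) ^ i = 0 := by
    have := AdjoinRoot.mk_eq_zero.2 hd
    simpa [map_sum] using this
  have h2 : AdjoinRoot.root h ^ r = 1 := by
    have := mul_geom_sum (AdjoinRoot.root h) r
    rw [h1, mul_zero] at this
    exact sub_eq_zero.1 this.symm
  have h3 : AdjoinRoot.root h ≠ 1 := fun e => by
    rw [e] at h1
    have h4 : ((r : ZMod p)) = 0 := by
      apply (AdjoinRoot.of h).injective
      simpa using h1
    exact absurd (Nat.le_of_dvd hr.pos ((ZMod.natCast_eq_zero_iff r p).1 h4)) (by omega)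
  have h5 : AdjoinRoot.root h ≠ 0 := fun e => by
    rw [e, zero_pow hr.ne_zero] at h2
    exact zero_ne_one h2
  have := Fact.mk hr
  rw [← orderOf_eq_prime h2 h3]
  exact orderOf_dvd_of_pow_eq_one (FiniteField.pow_card_sub_one_eq_one _ h5)

theorem a3m_card {q K K' : ℕ} (hK : 0 < K') (h : K ≤ K') (hq : 0 < q) : q ^ K < 2 ^ (K' * q.size) := by
  rw [mul_comm, pow_mul]
  exact (Nat.pow_le_pow_right hq h).trans_lt (Nat.pow_lt_pow_left (Nat.lt_size_self q) hK.ne')

end

theorem splitOdd_spec : SplitOddSpec := by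
  refine ⟨splitOdd, splitOdd_pt, fun p _ r h γ S hr hr2 hrS hS0 hSp hh hirr hd _ hγ0 hγ1 => ?_⟩
  classical
  have := Fact.mk hirr
  have := finite_adjoinRoot hh
  let : Fintype (AdjoinRoot h) := Fintype.ofFinite _
  have hq := card_adjoinRoot hh
  have hrn : r ≤ S.card := Nat.le_of_dvd hS0 hrS
  have hres : NRes (AdjoinRoot h) r (AdjoinRoot.mk h γ) :=
    ⟨hr, a3m_dvd hr (by omega) hd, hγ0, by rwa [hq]⟩
  obtain ⟨φ, hiso, hx, hc⟩ := main_model hh S
  obtain ⟨f, hf⟩ : ∃ f, f = ∏ a ∈ S, (X - C a : (ZMod p)[X]) := ⟨_, rfl⟩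
  have hfn : f.natDegree = S.card := by
    rw [hf, natDegree_prod_of_monic _ _ fun a _ => monic_X_sub_C a]; simp
  have hinj := (AdjoinRoot.of h).injective
  let Φ : Fam (AdjoinRoot h) :=
    { r := r, hr := hr, hr2 := hr2, ζ := _, hζ := hres.zeta, T := S.image (AdjoinRoot.of h)
      hT := by rwa [Finset.card_image_of_injective _ hinj] }
  have hT : Φ.T.card = S.card := Finset.card_image_of_injective _ hinj
  have hfm : f.map (AdjoinRoot.of h) = ∏ b ∈ Φ.T, (X - C b) := by
    rw [hf, Polynomial.map_prod, Finset.prod_image fun a _ b _ e => hinj e]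
    simp
  have hmem : ∀ a : S, AdjoinRoot.of h a ∈ Φ.T := fun a => Finset.mem_image_of_mem _ a.2
  rw [← hf] at hiso hx hc
  have hlen : (clA f).length = S.card + 1 := by rw [length_cl, hfn]
  have hcm : cm (clA f).length r = r := cm_eq (by omega)
  have hqq : p ^ ((clA h).length - 1) = Fintype.card (AdjoinRoot h) := by
    rw [hq, length_cl, Nat.add_sub_cancel]
  have hok : Ok (mkCx p r (clA h) (clA γ) (clA f)) φ fun a => Φ.chart (AdjoinRoot.of h a) (hmem a) := by
    refine ⟨hiso, ?_, fun a => ?_, fun a b => (hc γ a).trans (hc γ b).symm⟩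
    · obtain ⟨a, ha⟩ := Finset.card_pos.1 hS0
      exact ⟨⟨a, ha⟩⟩
    have hom : Hom (mainA p (clA h) (clA f)) (pt φ a) := hiso.hom.pt a
    have hg : poly (pt φ a) (chartG (mainA p (clA h) (clA f)) (mainX p (clA h) (clA f)) (clA f)) =
        (Φ.chart (AdjoinRoot.of h a) (hmem a)).g := by
      rw [poly_chartG hom (AdjoinRoot.of h), hfn, hfm, ← hT]
      exact (congrArg (fun z => ∑ k ∈ range Φ.T.card, monomial k ((hasseDeriv (Φ.T.card - k)
        (∏ b ∈ Φ.T, (X - C b))).eval z)) (hx a)).trans (m_chart Φ.T (hmem a))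
    have hm : (Φ.chart (AdjoinRoot.of h a) (hmem a)).m + 1 = S.card := by
      show ((Φ.T.erase _).image _).card + 1 = _
      rw [Finset.card_image_of_injective _ (fun b b' e => by simpa using e),
        Finset.card_erase_add_one (hmem a), hT]
    obtain ⟨g, hgd⟩ : ∃ g, g = chartG (mainA p (clA h) (clA f)) (mainX p (clA h) (clA f)) (clA f) := ⟨_, rfl⟩
    have hgl : g.length = S.card := by simp [hgd, chartG, hlen]
    have hlast : g.getLastD [] = g.getD (g.length - 1) [] := by
      rw [List.getLastD_eq_getLast?, List.getLast?_eq_getElem?, List.getD_eq_getElem?_getD]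
    have hlc : φ (g.getD (g.length - 1) []) a ≠ 0 := by
      have h1 := hom.coeff_poly g (g.length - 1)
      rw [hgd, hg, ← hgd, show g.length - 1 = (Φ.chart (AdjoinRoot.of h a) (hmem a)).g.natDegree by
        rw [Cv.g_natDegree]; omega] at h1
      rw [show g.length - 1 = (Φ.chart (AdjoinRoot.of h a) (hmem a)).g.natDegree by
        rw [Cv.g_natDegree]; omega]
      exact fun e => leadingCoeff_ne_zero.2 (Cv.g_ne _) (h1.trans e)
    have hinv := hom.inv (c := g.getD (g.length - 1) []) hlc
    have hgm : (mkCx p r (clA h) (clA γ) (clA f)).gm = (mainA p (clA h) (clA f)).psmul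
        ((mainA p (clA h) (clA f)).inv (Fintype.card (AdjoinRoot h)) (g.getD (g.length - 1) [])) g := by
      rw [← hlast, ← hqq, hgd]; rfl
    refine ⟨hom, by simpa [mkCx] using Fact.out, hcm.symm, hqq, ?_, hg,
      Φ.chart_g_eval_zero (hmem a), ?_, ?_, ?_, ?_⟩
    · refine (hom.zeta _ _ _).trans ?_
      show φ (mainC p (clA h) (clA f) (clA γ)) a ^ ((p ^ ((clA h).length - 1) - 1) / cm (clA f).length r) = _
      rw [hc, hqq, hcm]; rfl
    · rw [hgm]
      refine ⟨fun e => ?_, ?_⟩
      · have := congrArg List.length e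
        rw [length_psmul, List.length_nil] at this
        omega
      · rw [length_psmul, Alg.psmul, List.getD_eq_getElem _ _ (by simp; omega), List.getElem_map,
          hom.mul, hinv, ← List.getD_eq_getElem _ [] (by omega)]
        exact inv_mul_cancel₀ hlc
    · rw [hgm, hom.psmul, hinv, hgd, hg, ← hgd]
      exact (associated_isUnit_mul_right_iff (isUnit_C.2 (inv_ne_zero hlc).isUnit)).2 (Associated.refl _)
    · show NRes _ r (φ (mainC p (clA h) (clA f) (clA γ)) a)
      rw [hc]; exact hres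
    · refine (Cv.card_G_le _).trans_lt ?_
      show _ < 2 ^ ((cm (clA f).length r + 1) * (cm (clA f).length r * (clA f).length + 1) *
        (p ^ ((clA h).length - 1)).size)
      rw [hcm, hqq, Nat.card_eq_fintype_card]
      refine a3m_card (by positivity) ?_ Fintype.card_pos
      show (r + 1) * (r * _ + 1) ≤ _
      gcongr
      omega
  have hw := wit_good Φ hmem (fun b hb => by
    obtain ⟨a, ha, rfl⟩ := Finset.mem_image.1 hb
    exact ⟨⟨a, ha⟩, rfl⟩) hok hx
  have := cands_spec (mainA_p p (clA h) (clA f)) hiso (AdjoinRoot.of h) hx hw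
  rw [← hf] at this ⊢
  simpa only [splitOdd, hlen, Nat.add_sub_cancel] using this

end Crest.Agent.R312
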