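import Crest.Agent.R312.A1Tab
import Crest.Agent.R312.A1Code
import Crest.Agent.R312.A3Main

/-!
# R312 / A1Main : the algorithm

Keep the statements (tell helper77 at once if one looks false); add auxiliary lemmas freely.
Definitions: `A1Defs.lean`; `fun_prop` lemmas for polynomials: `A1Poly.lean`.
-/

set_option autoImplicit false
set_option linter.unusedVariables false

noncomputable section

open scoped Classical

namespace Crest.Agent.R312.A1

open Polynomial Crest.Agent.Lib.PT Crest.PolyFactor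

theorem pt_mainB {sp : Sp} [Fact (PT sp)] (C₁ C₂ : ℕ) : PT (mainB sp C₁ C₂) := by
  unfold mainB mainL
  fun_prop

theorem algo_of_spec (hs : SplitOddSpec) (h1 : NR) (h2 : NR2) : Goal := by
  obtain ⟨sp, hpt, hsp⟩ := hs
  obtain ⟨C₁, h1⟩ := h1
  obtain ⟨C₂, h2⟩ := h2
  have : Fact (PT sp) := ⟨hpt⟩
  refine ⟨mainB sp C₁ C₂, (pt_mainB C₁ C₂).polyTime, fun p _ f hf => ?_⟩
  have hp : p.Prime := Fact.out
  have h0 := hp.ne_zero
  have e0 : encodeInst p f = encNatList (p :: clA f) := rfl
  set N := (p :: clA f).length + 3 with hN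
  have hc := table_spec (sp := sp) (p := p) (A := p.size ^ C₂) (N := N) (L := (N * p.size) ^ C₁) hsp
    (by omega) (fun h => h2 p hp (by omega)) fun h r hr hr2 hrN hd => by
      obtain ⟨l, a1, a2, a3⟩ := h1 p r hp hr hr2 (by omega) hd
      exact ⟨l, a1, a2.trans (Nat.pow_le_pow_left (Nat.mul_le_mul_right _ hrN) _), a3⟩
  have e1 : fp p (ofN (clA f)) = f := by rw [fp_ofN, ofCoeffList_cl h0]
  have hb : fp p (ofN (clA f)) ≠ 0 := by rwa [e1]
  have e2 := fp_mon hb
  rw [e1] at e2
  have hM : (mon p (ofN (clA f))).natDegree ≤ N := by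
    rw [← (rdc_mon h0 _).natDegree_fp, e2]
    refine (natDegree_C_mul_le _ _).trans ?_
    simp only [hN, clA, List.length_cons, List.length_map, List.length_range]
    omega
  obtain ⟨k1, k2⟩ := factor_spec hsp hc (monic_mon hb) (rdc_mon h0 _) hM
  have e3 : factorOutput p (mainB sp C₁ C₂ (encodeInst p f)) =
      (factor sp p (p.size ^ C₂) N (table sp p (p.size ^ C₂) N ((N * p.size) ^ C₁))
        (mon p (ofN (clA f)))).map (fp p) := by
    rw [factorOutput, mainB, decodeLists_flatMap, e0, decodeLists_encNatList, List.headD_cons,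
      mainL, List.map_map]
    refine List.map_congr_left fun g hg => ?_
    rw [Function.comp_apply, toN_eq_cl h0 (k1 g hg).2.1, ofCoeffList_cl h0]
  rw [e3, k2, e2]
  refine ⟨fun g hg => ?_, ?_⟩
  · obtain ⟨w, hw, rfl⟩ := List.mem_map.1 hg
    exact ⟨monic_fp p (k1 w hw).1, (k1 w hw).2.2⟩
  · rw [← mul_assoc, ← C_mul, mul_inv_cancel₀ (leadingCoeff_ne_zero.2 hf), C_1, one_mul]

end Crest.Agent.R312.A1

/-- part A of rid 312 -/
theorem Crest.Agent.R312.algo (h1 : Crest.Agent.R312.NR) (h2 : Crest.Agent.R312.NR2) :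
    Crest.Agent.R312.Goal :=
  Crest.Agent.R312.A1.algo_of_spec Crest.Agent.R312.splitOdd_spec h1 h2
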