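import Crest.Agent.R312.A1Sgn

/-!
# R312 / A1Newt : power sums, Newton identities, the polynomial of values

Keep the statements (tell helper77 at once if one looks false); add auxiliary lemmas freely.
Definitions: `A1Defs.lean`; `fun_prop` lemmas for polynomials: `A1Poly.lean`.
-/

set_option autoImplicit false
set_option linter.unusedVariables false

noncomputable section

open scoped Classical

namespace Crest.Agent.R312.A1

open Polynomial Crest.Agent.Lib.PT Crest.PolyFactor

/-- Newton's identities (`MvPolynomial.mul_esymm_eq_sum`, `MvPolynomial.aeval_esymm_eq_multiset_esymm`,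
`Multiset.prod_X_sub_X_eq_sum_esymm` or `Multiset.prod_X_sub_C_coeff`): `a k = (-1) ^ k e_k` by strong
induction. -/
theorem newton_prod {K ι : Type} [Field K] (s : Finset ι) (c : ι → K) (a : ℕ → K) (h0 : a 0 = 1)
    (hk : ∀ k < s.card, ((k + 1 : ℕ) : K) ≠ 0)
    (h : ∀ k < s.card, ((k + 1 : ℕ) : K) * a (k + 1) =
      -∑ i ∈ Finset.range (k + 1), a i * ∑ j ∈ s, c j ^ (k + 1 - i)) :
    ∏ j ∈ s, (X - C (c j)) = ∑ k ∈ Finset.range (s.card + 1), C (a k) * X ^ (s.card - k) := by
  set m : Multiset K := s.val.map c with hm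
  have hN : ∀ k, ((k + 1 : ℕ) : K) * ((-1) ^ (k + 1) * m.esymm (k + 1)) =
      -∑ i ∈ Finset.range (k + 1), ((-1) ^ i * m.esymm i) * ∑ j ∈ s, c j ^ (k + 1 - i) := by
    intro k
    have := congrArg (MvPolynomial.aeval (R := K) fun j : s => c j)
      (MvPolynomial.mul_esymm_eq_sum s K (k + 1))
    have e : (Finset.univ : Finset s).val.map (fun j : s => c j) = m := by
      rw [hm, Finset.univ_eq_attach, Finset.attach_val]
      exact Multiset.attach_map_val' _ _
    have e2 : ∀ n, ∑ j : s, c j ^ n = ∑ j ∈ s, c j ^ n := fun n =>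
      Finset.sum_coe_sort s fun j => c j ^ n
    simp only [map_mul, map_natCast, map_pow, map_neg, map_one, map_sum, MvPolynomial.psum,
      MvPolynomial.aeval_esymm_eq_multiset_esymm, e, MvPolynomial.aeval_X, e2] at this
    rw [Finset.sum_filter, Finset.Nat.sum_antidiagonal_eq_sum_range_succ_mk, Finset.sum_range_succ,
      if_neg (lt_irrefl _), add_zero,
      Finset.sum_congr rfl fun i hi => if_pos (Finset.mem_range.1 hi)] at this
    rw [mul_left_comm, this, ← mul_assoc, ← pow_add, Odd.neg_one_pow ⟨k + 1, by ring⟩, neg_one_mul]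
  have ha : ∀ k ≤ s.card, a k = (-1) ^ k * m.esymm k := by
    intro k
    induction k using Nat.strong_induction_on with
    | _ k ih =>
      intro hk'
      cases k with
      | zero => simp [h0, Multiset.esymm]
      | succ k =>
        refine mul_left_cancel₀ (hk k hk') ?_
        rw [h k hk', hN]
        congr 1
        refine Finset.sum_congr rfl fun i hi => ?_
        have := Finset.mem_range.1 hi
        rw [ih i this (by omega)]
  have := Multiset.prod_X_sub_X_eq_sum_esymm m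
  rw [hm, Multiset.map_map, Multiset.card_map, ← hm] at this
  refine this.trans (Finset.sum_congr rfl fun k hk' => ?_)
  rw [ha k (Nat.lt_succ_iff.1 (Finset.mem_range.1 hk'))]
  simp [mul_assoc]

theorem sum_map_range {M : Type} [AddCommMonoid M] (n : ℕ) (f : ℕ → M) :
    ((List.range n).map f).sum = ∑ i ∈ Finset.range n, f i := rfl

theorem natCast_eq_zero_alg (p : ℕ) (K : Type) [CommRing K] [Algebra (ZMod p) K] : (p : K) = 0 := by
  rw [← map_natCast (algebraMap (ZMod p) K), ZMod.natCast_self, map_zero]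

theorem map_fp (p : ℕ) (K : Type) [CommRing K] [Algebra (ZMod p) K] (w : ℤ[X]) :
    (fp p w).map (algebraMap (ZMod p) K) = w.map (Int.castRingHom K) := by
  rw [fp_apply, Polynomial.map_map, RingHom.ext_int (RingHom.comp _ _)]

theorem card_eq_natDegree {p : ℕ} {K : Type} [Field K] [Algebra (ZMod p) K] {f : ℤ[X]}
    (hf : f.Monic) {S : Finset K}
    (hS : (fp p f).map (algebraMap (ZMod p) K) = ∏ c ∈ S, (X - C c)) : S.card = f.natDegree := by
  rw [← natDegree_prod_X_sub_C, ← hS, map_fp, hf.natDegree_map]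

/-- `coeff_eq_sum_roots` for `(fp p W).map (algebraMap _ K)`, `W = r1 p f (…)`; `hom_r1`, `hom_pow1`
with `ψ = (aeval x).toRingHom.comp (fp p)` -/
theorem cast_psum {p : ℕ} [Fact p.Prime] {K : Type} [Field K] [Algebra (ZMod p) K] {f : ℤ[X]}
    (hf : f.Monic) {S : Finset K}
    (hS : (fp p f).map (algebraMap (ZMod p) K) = ∏ c ∈ S, (X - C c)) (u : ℤ[X]) (k : ℕ) :
    ((psum p f u k : ℤ) : K) = ∑ x ∈ S, aeval x (fp p u) ^ k := by
  have h0 := (Fact.out : p.Prime).ne_zero
  have hp := natCast_eq_zero_alg p K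
  have hn := card_eq_natDegree hf hS
  rw [psum, co_eq, ← eq_intCast (Int.castRingHom K), ← coeff_map, ← hn]
  refine coeff_eq_sum_roots S _ (degree_map_le.trans_lt (hn ▸ degree_r1_lt p f _)) fun x hx => ?_
  set ψ : ℤ[X] →+* K := eval₂RingHom (Int.castRingHom K) x with hψ
  have e1 : ∀ w, ψ w = ((fp p w).map (algebraMap (ZMod p) K)).eval x := fun w => by
    rw [map_fp, eval_map, hψ, coe_eval₂RingHom]
  have e2 : ψ f = 0 := by rw [e1, hS, eval_prod_X_sub_C hx]
  rw [eval_map, ← coe_eval₂RingHom, ← hψ, hom_r1 h0 hp ψ hf e2, map_mul, hom_pow1 h0 hp ψ hf e2,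
    e1, e1, eval_map_algebraMap, ← hS, map_fp, map_fp, derivative_map, dv_eq]

/-- the list has length `n + 1`, starts with `1` and satisfies the recursion -/
theorem newt_spec (p : ℕ) (f u : ℤ[X]) : (newt p f u).length = f.natDegree + 1 ∧
    (newt p f u).getD 0 0 = 1 ∧ ∀ k < f.natDegree, (newt p f u).getD (k + 1) 0 =
      rz p (-pow0 p ((k + 1 : ℕ) : ℤ) (p - 2) * ((List.range (k + 1)).map fun i =>
        (newt p f u).getD i 0 * psum p f u (k + 1 - i)).sum) := by
  simp only [newt, rg, List.foldl_map, List.map_map, Function.comp_def]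
  induction f.natDegree with
  | zero => simp
  | succ n ih =>
    simp only [List.range_succ (n := n), List.foldl_append, List.foldl_cons, List.foldl_nil]
    generalize List.foldl _ _ _ = l at ih ⊢
    obtain ⟨a1, a2, a3⟩ := ih
    refine ⟨by simp [a1], by rw [List.getD_append _ _ _ _ (by omega), a2], fun k hk => ?_⟩
    rw [List.map_congr_left (l := List.range (k + 1))
      (g := fun i => l.getD i 0 * psum p f u (k + 1 - i)) fun i hi => by
        rw [List.getD_append _ _ _ _ (by have := List.mem_range.1 hi; omega)]]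
    rcases (Nat.lt_succ_iff.1 hk).eq_or_lt with rfl | hk
    · rw [List.getD_append_right _ _ _ _ a1.le, a1, Nat.sub_self, List.range_succ]
      rfl
    · rw [List.getD_append _ _ _ _ (by omega), a3 k hk]

theorem chi_eq (p : ℕ) (f u : ℤ[X]) : chi p f u = ∑ k ∈ Finset.range (f.natDegree + 1),
    C ((newt p f u).getD k 0) * X ^ (f.natDegree - k) := by
  have h := (newt_spec p f u).1
  rw [chi, ofL, mkP, List.length_reverse, h, ← Finset.sum_range_reflect]
  refine Finset.sum_congr rfl fun k hk => ?_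
  have := Finset.mem_range.1 hk
  rw [List.getD_reverse _ (by omega), h, C_mul_X_pow_eq_monomial]
  congr 2
  omega

theorem monic_chi (p : ℕ) (f u : ℤ[X]) : (chi p f u).Monic := by
  obtain ⟨h1, h2, -⟩ := newt_spec p f u
  refine monic_of_natDegree_le_of_coeff_eq_one f.natDegree
    ((natDegree_mkP_le _ _).trans (by simp [h1])) ?_
  rw [chi, coeff_ofL, List.getD_reverse _ (by omega), h1, Nat.add_sub_cancel, Nat.sub_self, h2]

theorem map_chi {p : ℕ} [Fact p.Prime] {K : Type} [Field K] [Algebra (ZMod p) K] {f : ℤ[X]}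
    (hf : f.Monic) (hn : f.natDegree < p) {S : Finset K}
    (hS : (fp p f).map (algebraMap (ZMod p) K) = ∏ c ∈ S, (X - C c)) (u : ℤ[X]) :
    (fp p (chi p f u)).map (algebraMap (ZMod p) K) = ∏ x ∈ S, (X - C (aeval x (fp p u))) := by
  have hpp : p.Prime := Fact.out
  have h0 := hpp.ne_zero
  have hp := natCast_eq_zero_alg p K
  have hc := card_eq_natDegree hf hS
  obtain ⟨-, h2, h3⟩ := newt_spec p f u
  have h4 : ∀ k < S.card, ((k + 1 : ℕ) : K) * ((k + 1 : ℕ) : K) ^ (p - 2) = 1 := fun k hk => by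
    have := hpp.two_le
    rw [← pow_succ', show p - 2 + 1 = p - 1 by omega, ← map_natCast (algebraMap (ZMod p) K),
      ← map_pow, ZMod.pow_card_sub_one_eq_one (natCast_ne_zero_of_lt (by omega) (by omega)), map_one]
  rw [newton_prod S (fun x => aeval x (fp p u)) (fun k => (((newt p f u).getD k 0 : ℤ) : K))
    (by rw [h2, Int.cast_one]) (fun k hk => left_ne_zero_of_mul_eq_one (h4 k hk)) fun k hk => ?_,
    map_fp, chi_eq, hc]
  · simp [Polynomial.map_sum]
  · rw [h3 k (hc ▸ hk), cast_rz h0 hp, Int.cast_mul, Int.cast_neg, cast_pow0 h0 hp, Int.cast_natCast,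
      neg_mul, mul_neg, ← mul_assoc, h4 k hk, one_mul, sum_map_range, Int.cast_sum]
    simp only [Int.cast_mul, cast_psum hf hS]

theorem eq_prod_of_splits {K : Type} [Field K] {m : K[X]} (hm : m.Monic) (h1 : m.Separable)
    (h2 : m.Splits) : ∃ S : Finset K, m = ∏ c ∈ S, (X - C c) :=
  ⟨⟨m.roots, nodup_roots h1⟩, h2.eq_prod_roots_of_monic hm⟩

/-- a monic divisor of `X ^ p - X = ∏ (X - C c)` (`FiniteField.roots_X_pow_card_sub_X`,
`Splits`, `Separable`; take `S = m.roots.toFinset`) -/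
theorem eq_prod_of_dvd {p : ℕ} [Fact p.Prime] {m : (ZMod p)[X]} (hm : m.Monic)
    (h : m ∣ X ^ p - X) : ∃ S : Finset (ZMod p), m = ∏ c ∈ S, (X - C c) := by
  have h1 := galois_poly_separable (K := ZMod p) p p dvd_rfl
  have h2 := FiniteField.splits_X_pow_card_sub_X p (K := ZMod p)
  rw [Algebra.algebraMap_self, Polynomial.map_id, ZMod.card] at h2
  exact eq_prod_of_splits hm (h1.of_dvd h) (h2.of_dvd h1.ne_zero h)

/-- Take `K = AlgebraicClosure (ZMod p)`; `fp p f` is separable (`PerfectField.separable_iff_squarefree`),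
so its image is `∏ (X - C x)` over the set of roots.  `mu` is the gcd of `chi` and `X ^ p - X`
(`gcdP_spec`, `dvd_pow1`), so `c ∈ S` iff `chi(c) = 0` iff `c = u(x)` for a root `x` iff `u - C c` and `f`
have a common root (`Polynomial.isCoprime_iff_aeval_ne_zero_of_isAlgClosed` or
`isCoprime_of_aeval_ne_zero_of_isAlgClosed`). -/
theorem mu_spec {p : ℕ} [Fact p.Prime] {f : ℤ[X]} (hf : f.Monic) (hn : f.natDegree < p)
    (hs : Squarefree (fp p f)) (u : ℤ[X]) :
    (mu p f u).Monic ∧ Rdc p (mu p f u) ∧ ∃ S : Finset (ZMod p),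
      fp p (mu p f u) = ∏ c ∈ S, (X - C c) ∧ S.card ≤ f.natDegree ∧
      ∀ c, c ∈ S ↔ ¬ IsCoprime (fp p u - C c) (fp p f) := by
  have h0 := (Fact.out : p.Prime).ne_zero
  set K := AlgebraicClosure (ZMod p)
  obtain ⟨R, hR⟩ := eq_prod_of_splits ((monic_fp p hf).map (algebraMap (ZMod p) K))
    (PerfectField.separable_iff_squarefree.2 hs).map (IsAlgClosed.splits _)
  have h1 := map_chi hf hn hR u
  have h2 := monic_chi p f u
  obtain ⟨a1, a2, a3⟩ := gcdP_spec (monic_fp p h2).ne_zero (pow1 p (chi p f u) X p - X)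
  have a4 : ∀ e, e ∣ fp p (mu p f u) ↔ e ∣ fp p (chi p f u) ∧ e ∣ X ^ p - X := fun e => by
    rw [mu, a3]
    refine and_congr_right fun he => dvd_iff_dvd_of_dvd_sub ?_
    have := he.trans (dvd_pow1 h0 h2 X p)
    rwa [map_sub, fp_apply p X, map_X, sub_sub_sub_cancel_right, ← map_X (Int.castRingHom (ZMod p))]
  obtain ⟨S, hS⟩ := eq_prod_of_dvd (monic_fp p a1) ((a4 _).1 dvd_rfl).2
  refine ⟨a1, a2, S, hS, ?_, fun c => ?_⟩
  · rw [← natDegree_prod_X_sub_C, ← hS, ← card_eq_natDegree hf hR]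
    refine (natDegree_le_of_dvd ((a4 _).1 dvd_rfl).1 (monic_fp p h2).ne_zero).trans ?_
    rw [← natDegree_map (algebraMap (ZMod p) K), h1, natDegree_prod_of_monic _ _
      fun _ _ => monic_X_sub_C _]
    simp
  · have e1 : c ∈ S ↔ X - C c ∣ fp p (mu p f u) := by
      rw [mu, hS, dvd_iff_isRoot, IsRoot.def, eval_prod, Finset.prod_eq_zero_iff]
      simp [sub_eq_zero]
    have e2 : ∀ x : K, aeval x (fp p f) = 0 ↔ x ∈ R := fun x => by
      rw [← eval_map_algebraMap, hR, eval_prod, Finset.prod_eq_zero_iff]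
      simp [sub_eq_zero]
    rw [e1, a4, and_iff_left (dvd_iff_isRoot.2 (by simp)), dvd_iff_isRoot,
      ← isRoot_map_iff (algebraMap (ZMod p) K).injective, h1, IsRoot.def, eval_prod,
      Finset.prod_eq_zero_iff, isCoprime_iff_aeval_ne_zero_of_isAlgClosed (ZMod p) K]
    simp only [eval_sub, eval_X, eval_C, not_forall, not_or, not_not, map_sub, aeval_C, e2,
      sub_eq_zero]
    exact ⟨fun ⟨x, b1, b2⟩ => ⟨x, b2.symm, b1⟩, fun ⟨x, b1, b2⟩ => ⟨x, b2, b1.symm⟩⟩

section pt

variable {α : Type} [Enc α] {p : α → ℕ}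

@[fun_prop] theorem pt_psum (hp : PT p) {f u : α → ℤ[X]} {k : α → ℕ} (hf : PT f) (hu : PT u)
    (hk : PT k) : PT fun a => psum (p a) (f a) (u a) (k a) := by
  unfold psum
  fun_prop

/-- `PT.foldl_grow` (`sz_append`, `sz_rz_le`) -/
@[fun_prop] theorem pt_newt (hp : PT p) {f u : α → ℤ[X]} (hf : PT f) (hu : PT u) :
    PT fun a => newt (p a) (f a) (u a) := by
  refine PT.foldl_grow (f := fun a (l : List ℤ) (k : Un) => l ++ [rz (p a) (-pow0 (p a)
    ((k.n + 1 : ℕ) : ℤ) (p a - 2) * ((rg (k.n + 1)).map fun i =>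
      l.getD i.n 0 * psum (p a) (f a) (u a) (k.n + 1 - i.n)).sum)]) (by fun_prop) (PT.const _)
    (by fun_prop) (G := fun q => 2 * sz (p q.1) + 5) (by fun_prop) fun a l k _ => ?_
  have h1 := sz_append l [rz (p a) (-pow0 (p a) ((k.n + 1 : ℕ) : ℤ) (p a - 2) *
    ((rg (k.n + 1)).map fun i => l.getD i.n 0 * psum (p a) (f a) (u a) (k.n + 1 - i.n)).sum)]
  have h2 := sz_rz_le (p a) (-pow0 (p a) ((k.n + 1 : ℕ) : ℤ) (p a - 2) *
    ((rg (k.n + 1)).map fun i => l.getD i.n 0 * psum (p a) (f a) (u a) (k.n + 1 - i.n)).sum)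
  simp only [sz_cons, sz_nil] at h1 ⊢
  omega

@[fun_prop] theorem pt_chi (hp : PT p) {f u : α → ℤ[X]} (hf : PT f) (hu : PT u) :
    PT fun a => chi (p a) (f a) (u a) := by
  unfold chi
  fun_prop

@[fun_prop] theorem pt_mu (hp : PT p) {f u : α → ℤ[X]} (hf : PT f) (hu : PT u) :
    PT fun a => mu (p a) (f a) (u a) := by
  unfold mu
  fun_prop

end pt

end Crest.Agent.R312.A1
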