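import Crest.Agent.R312.A3Spec

/-!
# R312 / A1Poly : polynomials as inputs and outputs of polynomial-time programs

`Enc R[X]` (coefficient lists), the class `PTRing`, `fun_prop` lemmas for ring operations.
`rg n` is `List.range n` in unary, so that loop indices `i.n` are `PB` automatically.
-/

set_option autoImplicit false

noncomputable section

namespace Crest.Agent.R312.A1

open Polynomial Crest.Agent.Lib.PT

variable {R : Type} [CommRing R] {α : Type} [Enc α]

/-- the coefficient list (length `natDegree + 1`) -/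
def cf (w : R[X]) : List R := (List.range (w.natDegree + 1)).map w.coeff

/-- the polynomial with coefficients `c i`, `i < d` -/
def mkP (d : ℕ) (c : ℕ → R) : R[X] := ∑ i ∈ Finset.range d, monomial i (c i)

/-- the polynomial with a given coefficient list -/
def ofL (l : List R) : R[X] := mkP l.length fun i => l.getD i 0

/-- `List.range` in unary -/
def rg (n : ℕ) : List Un := (List.range n).map Un.mk

theorem coeff_mkP (d : ℕ) (c : ℕ → R) (i : ℕ) : (mkP d c).coeff i = if i < d then c i else 0 := by
  simp [mkP, coeff_monomial]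

theorem coeff_ofL (l : List R) (i : ℕ) : (ofL l).coeff i = l.getD i 0 := by
  rw [ofL, coeff_mkP]
  split_ifs with h
  · rfl
  · rw [List.getD_eq_default _ _ (not_lt.1 h)]

theorem getD_cf (w : R[X]) (i : ℕ) : (cf w).getD i 0 = w.coeff i := by
  by_cases h : i < w.natDegree + 1
  · simp [cf, List.getD_eq_getElem?_getD, h]
  · rw [List.getD_eq_default _ _ (by simp [cf]; omega), coeff_eq_zero_of_natDegree_lt (by omega)]

@[simp] theorem length_cf (w : R[X]) : (cf w).length = w.natDegree + 1 := by simp [cf]

@[simp] theorem ofL_cf (w : R[X]) : ofL (cf w) = w := by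
  ext i
  rw [coeff_ofL, getD_cf]

@[simp] theorem ofL_nil : ofL ([] : List R) = 0 := by simp [ofL, mkP]

theorem ofL_cons (c : R) (l : List R) : ofL (c :: l) = C c + X * ofL l := by
  ext i
  cases i with
  | zero => simp [coeff_ofL]
  | succ i => simp [coeff_ofL, coeff_X_mul, coeff_C_succ]

theorem degree_mkP_lt (d : ℕ) (c : ℕ → R) : (mkP d c).degree < d :=
  (degree_lt_iff_coeff_zero _ _).2 fun m hm => by rw [coeff_mkP, if_neg (not_lt.2 hm)]

theorem natDegree_mkP_le (d : ℕ) (c : ℕ → R) : (mkP d c).natDegree ≤ d - 1 :=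
  natDegree_le_iff_coeff_eq_zero.2 fun m hm => by rw [coeff_mkP, if_neg (by omega)]

theorem mkP_coeff {w : R[X]} {d : ℕ} (h : w.natDegree < d) : mkP d w.coeff = w := by
  ext i
  rw [coeff_mkP]
  split_ifs with hi
  · rfl
  · exact (coeff_eq_zero_of_natDegree_lt (by omega)).symm

theorem cf_inj : Function.Injective (cf : R[X] → List R) := fun a b h => by
  rw [← ofL_cf a, h, ofL_cf]

instance encPoly [Enc R] : Enc R[X] := Enc.ofInj cf cf_inj

theorem mem_rg {n : ℕ} {i : Un} : i ∈ rg n ↔ i.n < n := by
  obtain ⟨i⟩ := i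
  simp [rg]

theorem rg_map {β : Type} (n : ℕ) (f : ℕ → β) :
    (rg n).map (fun i => f i.n) = (List.range n).map f := by
  simp [rg, Function.comp_def]

theorem rg_foldl {β : Type} (n : ℕ) (f : β → ℕ → β) (b : β) :
    (rg n).foldl (fun c i => f c i.n) b = (List.range n).foldl f b := by
  simp [rg, List.foldl_map]

@[simp] theorem length_rg (n : ℕ) : (rg n).length = n := by simp [rg]

@[fun_prop] theorem pt_rg {n : α → ℕ} (hn : PT n) (hb : PB n) : PT fun a => rg (n a) :=
  PT.map_range hn hb (PT.un_mk (by fun_prop) (PB.idx hb))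

/-- loops whose step has bounded output -/
theorem pt_foldl_bdd {β γ : Type} [Enc β] [Enc γ] {l : α → List β} {s : α → γ}
    {f : α → γ → β → γ} (hl : PT l) (hs : PT s) (hf : PT fun q : α × γ × β => f q.1 q.2.1 q.2.2)
    {B : α → ℕ} (hB : PB B) (h : ∀ a c b, sz (f a c b) ≤ B a) :
    PT fun a => (l a).foldl (f a) (s a) :=
  PT.foldl_inv (fun a _ c => sz c ≤ sz (s a) + B a) hl hs (fun a => by omega)
    (fun a _ c b _ _ _ => (h a c b).trans (by omega)) (hf.restrict _)
    (B := fun a => sz (s a) + B a) (by fun_prop) fun _ _ _ _ h => h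

theorem pt_foldr_bdd {β γ : Type} [Enc β] [Enc γ] {l : α → List β} {s : α → γ}
    {f : α → β → γ → γ} (hl : PT l) (hs : PT s) (hf : PT fun q : α × β × γ => f q.1 q.2.1 q.2.2)
    {B : α → ℕ} (hB : PB B) (h : ∀ a b c, sz (f a b c) ≤ B a) :
    PT fun a => (l a).foldr (f a) (s a) :=
  PT.foldr_inv (fun a _ c => sz c ≤ sz (s a) + B a) hl hs (fun a => by omega)
    (fun a _ c b _ _ _ => (h a b c).trans (by omega)) (hf.restrict _)
    (B := fun a => sz (s a) + B a) (by fun_prop) fun _ _ _ _ h => h

theorem pt_iterate_bdd {γ : Type} [Enc γ] {n : α → ℕ} {s : α → γ} {f : α → γ → γ} (hn : PT n)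
    (hb : PB n) (hs : PT s) (hf : PT fun q : α × γ => f q.1 q.2)
    {B : α → ℕ} (hB : PB B) (h : ∀ a c, sz (f a c) ≤ B a) : PT fun a => (f a)^[n a] (s a) :=
  PT.iterate_inv (fun a _ c => sz c ≤ sz (s a) + B a) hn hb hs (fun a => by omega)
    (fun a _ c _ _ => (h a c).trans (by omega)) (hf.restrict _)
    (B := fun a => sz (s a) + B a) (by fun_prop) fun _ _ _ _ h => h

variable [Enc R]

theorem sz_poly (w : R[X]) : sz w = sz (cf w) := rfl

theorem sz_poly_le {w : R[X]} {D B : ℕ} (hD : w.natDegree ≤ D) (h : ∀ i, i ≤ w.natDegree → sz (w.coeff i) ≤ B) :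
    sz w ≤ (D + 1) * (B + 1) + 1 := by
  have h1 := sz_list_le (l := cf w) (B := B) fun a ha => by
    obtain ⟨i, hi, rfl⟩ := List.mem_map.1 ha
    exact h i (by simpa [Nat.lt_succ_iff] using hi)
  rw [length_cf] at h1
  exact h1.trans (by gcongr)

theorem sz_mkP_le {d B : ℕ} {c : ℕ → R} (h : ∀ i, sz (c i) ≤ B) (h0 : sz (0 : R) ≤ B) :
    sz (mkP d c) ≤ (d + 1) * (B + 1) + 1 :=
  sz_poly_le ((natDegree_mkP_le d c).trans (Nat.sub_le _ _)) fun i _ => by
    rw [coeff_mkP]
    split_ifs
    · exact h i
    · exact h0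

@[fun_prop] theorem pt_cf {f : α → R[X]} (hf : PT f) : PT fun a => cf (f a) :=
  hf.of_enc_eq fun _ => rfl

@[fun_prop] theorem pt_natDegree {f : α → R[X]} (hf : PT f) : PT fun a => (f a).natDegree :=
  (PT.nat_sub (pt_cf hf).length (PT.const 1)).of_eq fun a => by simp

@[fun_prop] theorem pb_natDegree {f : α → R[X]} (hf : PT f) : PB fun a => (f a).natDegree :=
  (PB.length (pt_cf hf)).mono fun a => by simp

theorem pt_coeff {f : α → R[X]} {i : α → ℕ} (hf : PT f) (hi : PT i) :
    PT fun a => (f a).coeff (i a) :=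
  (PT.getD (pt_cf hf) hi (PT.const 0)).of_eq fun _ => getD_cf _ _

/-- `coeff` as a plain function (for `fun_prop`) -/
def co (w : R[X]) (i : ℕ) : R := w.coeff i

omit [Enc R] in
@[simp] theorem co_eq (w : R[X]) (i : ℕ) : co w i = w.coeff i := rfl

@[fun_prop] theorem pt_co {f : α → R[X]} {i : α → ℕ} (hf : PT f) (hi : PT i) :
    PT fun a => co (f a) (i a) := pt_coeff hf hi

@[fun_prop] theorem pt_leadingCoeff {f : α → R[X]} (hf : PT f) :
    PT fun a => (f a).leadingCoeff := pt_coeff hf (pt_natDegree hf)

open Classical in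
@[fun_prop] theorem pt_ofL {l : α → List R} (hl : PT l) : PT fun a => ofL (l a) := by
  have h : PT fun l : List R => (List.range
      (((List.range l.length).map fun i => if l.getD i 0 = 0 then 0 else i).foldr max 0 + 1)).map
      fun i => l.getD i 0 := by
    refine PT.map (PT.range (by fun_prop) ?_) (by fun_prop)
    refine (PB.length PT.id).succ.mono fun l => Nat.succ_le_succ ?_
    refine List.max_le_of_forall_le _ _ fun x hx => ?_
    obtain ⟨i, hi, rfl⟩ := List.mem_map.1 hx
    have := List.mem_range.1 hi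
    split_ifs <;> omega
  refine (h.comp hl).of_enc_eq fun a => ?_
  change enc (cf (ofL (l a))) = _
  congr 1
  generalize l a = l
  have e : (ofL l).natDegree =
      ((List.range l.length).map fun i => if l.getD i 0 = 0 then 0 else i).foldr max 0 := by
    refine le_antisymm (natDegree_le_iff_coeff_eq_zero.2 fun m hm => ?_)
      (List.max_le_of_forall_le _ _ fun x hx => ?_)
    · rw [coeff_ofL]
      by_contra h0
      have h1 : m < l.length := by
        by_contra h2
        exact h0 (List.getD_eq_default _ _ (not_lt.1 h2))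
      have h2 := List.le_max_of_le (l := (List.range l.length).map
        fun i => if l.getD i 0 = 0 then 0 else i) 
        (List.mem_map.2 ⟨m, List.mem_range.2 h1, if_neg h0⟩) le_rfl
      exact absurd hm (not_lt.2 h2)
    · obtain ⟨i, -, rfl⟩ := List.mem_map.1 hx
      split_ifs with h0
      · exact Nat.zero_le _
      · exact le_natDegree_of_ne_zero (by rwa [coeff_ofL])
  rw [cf, e]
  exact List.map_congr_left fun i _ => coeff_ofL l i

@[fun_prop] theorem pt_mkP {d : α → ℕ} {c : α → ℕ → R} (hd : PT d) (hb : PB d)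
    (hc : PT fun q : α × ℕ => c q.1 q.2) : PT fun a => mkP (d a) (c a) :=
  (pt_ofL (PT.map (hd.range hb) hc)).of_eq fun a => by
    ext i
    rw [coeff_ofL, coeff_mkP]
    split_ifs with h
    · simp [List.getD_eq_getElem?_getD, h]
    · exact List.getD_eq_default _ _ (by simpa using h)

/-- a polynomial given by a degree bound and its coefficients -/
theorem pt_of_coeff {f : α → R[X]} {d : α → ℕ} (hd : PT d) (hb : PB d)
    (h : ∀ a, (f a).natDegree ≤ d a) (hc : PT fun q : α × ℕ => (f q.1).coeff q.2) : PT f :=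
  (pt_mkP (d := fun a => d a + 1) (c := fun a => (f a).coeff) (by fun_prop) (by fun_prop) hc).of_eq
    fun a => mkP_coeff (Nat.lt_succ_of_le (h a))

/-- `C` as a plain function (for `fun_prop`) -/
def cC (c : R) : R[X] := C c

omit [Enc R] in
@[simp] theorem cC_eq (c : R) : cC c = C c := rfl

@[fun_prop] theorem pt_cC {c : α → R} (hc : PT c) : PT fun a => cC (c a) :=
  (pt_ofL (hc.cons (PT.const []))).of_eq fun a => by simp [ofL_cons]

/-- `X ^ k` as a plain function (for `fun_prop`) -/
def xp (R : Type) [CommRing R] (k : ℕ) : R[X] := X ^ k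

omit [Enc R] in
@[simp] theorem xp_eq (k : ℕ) : xp R k = X ^ k := rfl

@[fun_prop] theorem pt_xp {k : α → ℕ} (hk : PT k) (hb : PB k) : PT fun a => xp R (k a) :=
  pt_of_coeff hk hb (fun a => natDegree_X_pow_le _) (by
    simp only [xp_eq, coeff_X_pow]
    fun_prop)

/-- `map C` as a plain function (for `fun_prop`) -/
def mC (w : R[X]) : R[X][X] := w.map C

omit [Enc R] in
@[simp] theorem mC_eq (w : R[X]) : mC w = w.map C := rfl

@[fun_prop] theorem pt_mC {f : α → R[X]} (hf : PT f) : PT fun a => mC (f a) :=
  pt_of_coeff (pt_natDegree hf) (pb_natDegree hf) (fun a => natDegree_map_le) (by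
    simp only [mC_eq, coeff_map]
    exact pt_cC (pt_coeff (hf.comp PT.id.fst) PT.id.snd))

/-- rings with polynomial-time operations -/
class PTRing (R : Type) [CommRing R] [Enc R] : Prop where
  add : PT fun q : R × R => q.1 + q.2
  mul : PT fun q : R × R => q.1 * q.2
  neg : PT fun c : R => -c
  sum : PT fun l : List R => l.sum
  cast : PT fun n : ℕ => (n : R)

instance : PTRing ℤ := ⟨by fun_prop, by fun_prop, by fun_prop, by fun_prop, by fun_prop⟩

variable [PTRing R]

@[fun_prop] theorem pt_add {f g : α → R} (hf : PT f) (hg : PT g) : PT fun a => f a + g a :=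
  PTRing.add.comp (hf.pair hg)

@[fun_prop] theorem pt_mul {f g : α → R} (hf : PT f) (hg : PT g) : PT fun a => f a * g a :=
  PTRing.mul.comp (hf.pair hg)

@[fun_prop] theorem pt_neg {f : α → R} (hf : PT f) : PT fun a => -f a := PTRing.neg.comp hf

@[fun_prop] theorem pt_sub {f g : α → R} (hf : PT f) (hg : PT g) : PT fun a => f a - g a :=
  (pt_add hf (pt_neg hg)).of_eq fun _ => (sub_eq_add_neg _ _).symm

@[fun_prop] theorem pt_sum {l : α → List R} (hl : PT l) : PT fun a => (l a).sum :=
  PTRing.sum.comp hl

@[fun_prop] theorem pt_cast {n : α → ℕ} (hn : PT n) : PT fun a => ((n a : ℕ) : R) :=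
  PTRing.cast.comp hn

instance : PTRing R[X] where
  add := pt_of_coeff (d := fun q : R[X] × R[X] => q.1.natDegree + q.2.natDegree) (by fun_prop)
    (by fun_prop) (fun q => (natDegree_add_le _ _).trans (by omega)) (by
      simp only [coeff_add]
      simp only [← co_eq]
      fun_prop)
  mul := pt_of_coeff (d := fun q : R[X] × R[X] => q.1.natDegree + q.2.natDegree) (by fun_prop)
    (by fun_prop) (fun q => natDegree_mul_le) (by
      have h : PT fun q : (R[X] × R[X]) × ℕ => ∑ i ∈ Finset.range (q.1.1.natDegree + 1),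
          if i ≤ q.2 then co q.1.1 i * co q.1.2 (q.2 - i) else 0 :=
        PT.sum_range PTRing.sum (by fun_prop) (by fun_prop) (by fun_prop)
      refine h.of_eq fun q => ?_
      conv_rhs => rw [q.1.1.as_sum_range, Finset.sum_mul, finsetSum_coeff]
      refine Finset.sum_congr rfl fun i _ => ?_
      rw [← C_mul_X_pow_eq_monomial, mul_assoc, coeff_C_mul, coeff_X_pow_mul']
      simp)
  neg := pt_of_coeff (d := fun q : R[X] => q.natDegree) (by fun_prop)
    (by fun_prop) (fun q => (natDegree_neg _).le) (by
      simp only [coeff_neg]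
      simp only [← co_eq]
      fun_prop)
  sum := pt_of_coeff (d := fun l : List R[X] => (l.map natDegree).sum) (by fun_prop)
    ((PB.sz PT.id).mono fun l => by
      induction l with
      | nil => simp
      | cons w l ih =>
        have := length_le_sz (cf w)
        rw [length_cf, ← sz_poly] at this
        simp only [List.map_cons, List.sum_cons, sz_cons]
        omega)
    (fun l => by
      induction l with
      | nil => simp
      | cons w l ih =>
        simp only [List.map_cons, List.sum_cons]
        exact (natDegree_add_le _ _).trans (by omega))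
    (by
      have h : PT fun q : List R[X] × ℕ => (q.1.map fun w => co w q.2).sum := by fun_prop
      refine h.of_eq fun q => ?_
      simp only [co_eq]
      exact (map_list_sum (lcoeff R q.2) q.1).symm)
  cast := (pt_cC (R := R) (c := fun n : ℕ => (n : R)) PTRing.cast).of_eq fun n => by simp

/-- `derivative` as a plain function (for `fun_prop`) -/
def dv (w : R[X]) : R[X] := derivative w

omit [Enc R] [PTRing R] in
@[simp] theorem dv_eq (w : R[X]) : dv w = derivative w := rfl

@[fun_prop] theorem pt_dv {f : α → R[X]} (hf : PT f) : PT fun a => dv (f a) :=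
  pt_of_coeff (pt_natDegree hf) (pb_natDegree hf)
    (fun a => (natDegree_derivative_le _).trans (Nat.sub_le _ _)) (by
      simp only [dv_eq, coeff_derivative]
      simp only [← co_eq]
      fun_prop)

example : PT fun q : ℕ × ℤ[X] × ℤ[X][X] => ((rg q.2.1.natDegree).map fun i =>
    (cC (X : ℤ[X]) - (X : ℤ[X][X])) * mC (dv q.2.1) * q.2.2 + cC (xp ℤ (i.n * i.n) + (q.1 ^ i.n : ℕ) - 1)).sum := by
  fun_prop

end Crest.Agent.R312.A1
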