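import Crest.Agent.R312.A1Gcd

/-!
# R312 / A1Sgn : the tournament

Keep the statements (tell helper77 at once if one looks false); add auxiliary lemmas freely.
Definitions: `A1Defs.lean`; `fun_prop` lemmas for polynomials: `A1Poly.lean`.
-/

set_option autoImplicit false
set_option linter.unusedVariables false

noncomputable section

open scoped Classical

namespace Crest.Agent.R312.A1

open Polynomial Crest.Agent.Lib.PT Crest.PolyFactor

theorem hom_sgn {R S : Type} [CommRing R] [CommRing S] {ρ : R → R} (φ : R →+* S)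
    (hρ : ∀ c, φ (ρ c) = φ c) (h g : R) (t e : ℕ) (v : R) :
    φ (sgn ρ h g t e v) = sgnM (φ h) (φ g) t e (φ v) := by
  rw [sgn, rg_foldl (e - 1) fun w i => ρ (w * (h * (1 + powR ρ w (2 ^ (e - 1 - i)) +
    (1 - powR ρ w (2 ^ (e - 1 - i))) * powR ρ g (2 ^ i)))), sgnM, ← hom_powR φ hρ v t]
  generalize powR ρ v t = w
  induction List.range (e - 1) generalizing w with
  | nil => rfl
  | cons i l ih =>
    rw [List.foldl_cons, List.foldl_cons, ih]
    simp only [hρ, map_mul, map_add, map_sub, map_one, hom_powR φ hρ]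

/-- Let `w_i` be the state after `i ≤ e - 1` rounds.  For `v ≠ 0`: `w_i ^ 2 ^ (e - i) = 1`
(`u = w_i ^ 2 ^ (e - 1 - i)` is `1` or `-1`; the factor is `1` or `g ^ 2 ^ i`).
`w_i (-v) = - w_i (v)` because `t` is odd and the exponents `2 ^ (e - 1 - i)`, `i < e - 1`, are
even. -/
theorem sgnM_spec {F : Type} [Field F] {h g : F} {t e : ℕ} (hh : 2 * h = 1) (he : 1 ≤ e)
    (hg : g ^ 2 ^ (e - 1) = -1) (ht : Odd t) (hF : ∀ v : F, v ≠ 0 → (v ^ t) ^ 2 ^ e = 1) (v : F) :
    sgnM h g t e (-v) = -sgnM h g t e v ∧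
      (v ≠ 0 → sgnM h g t e v = 1 ∨ sgnM h g t e v = -1) := by
  set st : F → ℕ → F := fun w i => w * (h * (1 + w ^ 2 ^ (e - 1 - i) +
    (1 - w ^ 2 ^ (e - 1 - i)) * g ^ 2 ^ i)) with hst
  have key : ∀ k ≤ e - 1, (List.range k).foldl st ((-v) ^ t) = -(List.range k).foldl st (v ^ t) ∧
      (v ≠ 0 → (List.range k).foldl st (v ^ t) ^ 2 ^ (e - k) = 1) := by
    intro k
    induction k with
    | zero => exact fun _ => ⟨ht.neg_pow v, hF v⟩
    | succ k ih =>
      intro hk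
      obtain ⟨a1, a2⟩ := ih (by omega)
      simp only [List.range_succ, List.foldl_append, List.foldl_cons, List.foldl_nil, a1]
      generalize (List.range k).foldl st (v ^ t) = w at a2
      constructor
      · have : Even (2 ^ (e - 1 - k)) := (Nat.even_pow' (by omega)).2 even_two
        simp only [hst, this.neg_pow, neg_mul]
      · intro hv
        have e1 : e - (k + 1) = e - 1 - k := by omega
        have a3 : (w ^ 2 ^ (e - 1 - k)) ^ 2 = 1 := by
          rw [← pow_mul, ← pow_succ, show e - 1 - k + 1 = e - k by omega, a2 hv]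
        simp only [hst, e1]
        rcases sq_eq_one_iff.1 a3 with a | a
        · rw [a, show h * (1 + 1 + (1 - 1) * g ^ 2 ^ k) = 1 by linear_combination hh, mul_one, a]
        · rw [a, show h * (1 + -1 + (1 - -1) * g ^ 2 ^ k) = g ^ 2 ^ k by
            linear_combination g ^ 2 ^ k * hh, mul_pow, a, ← pow_mul, ← pow_add,
            show k + (e - 1 - k) = e - 1 by omega, hg]
          ring
  obtain ⟨a1, a2⟩ := key (e - 1) le_rfl
  refine ⟨a1, fun hv => sq_eq_one_iff.1 ?_⟩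
  have := a2 hv
  rwa [show e - (e - 1) = 1 by omega, pow_one] at this

/-- `Lagrange.coeff_eq_sum` (with `v = id`), `Lagrange.nodal`, `eval_nodal_derivative_eval_node_eq`
or `Polynomial.derivative_prod` -/
theorem coeff_eq_sum_roots {K : Type} [Field K] (S : Finset K) {W : K[X]} (s : K → K)
    (hW : W.degree < S.card)
    (h : ∀ b ∈ S, W.eval b = s b * (derivative (∏ c ∈ S, (X - C c))).eval b) :
    W.coeff (S.card - 1) = ∑ b ∈ S, s b := by
  rw [Lagrange.coeff_eq_sum (v := id) (Function.injective_id.injOn) hW]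
  refine Finset.sum_congr rfl fun b hb => ?_
  have e := Lagrange.eval_nodal_derivative_eval_node_eq (v := id) hb
  rw [Lagrange.eval_nodal] at e
  have e' : (derivative (∏ c ∈ S, (X - C c))).eval b = ∏ j ∈ S.erase b, (b - j) := e
  simp only [id]
  rw [h b hb, e', mul_div_cancel_right₀]
  exact Finset.prod_ne_zero_iff.2 fun j hj => sub_ne_zero.2 (Finset.ne_of_mem_erase hj).symm

theorem sum_pm {K ι : Type} [CommRing K] (T : Finset ι) {σ : ι → K}
    (h : ∀ b ∈ T, σ b = 1 ∨ σ b = -1) : ∃ m ≤ T.card, ∑ b ∈ T, σ b = 2 * m - T.card := by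
  induction T using Finset.induction_on with
  | empty => exact ⟨0, le_rfl, by simp⟩
  | insert a T ha ih =>
    obtain ⟨m, h1, h2⟩ := ih fun b hb => h b (Finset.mem_insert_of_mem hb)
    rw [Finset.sum_insert ha, Finset.card_insert_of_notMem ha, h2]
    rcases h a (Finset.mem_insert_self _ _) with e | e
    · exact ⟨m + 1, by omega, by rw [e]; push_cast; ring⟩
    · exact ⟨m, by omega, by rw [e]; push_cast; ring⟩

theorem natCast_ne_zero_of_lt {p n : ℕ} (h0 : 0 < n) (h : n < p) : (n : ZMod p) ≠ 0 := fun e =>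
  absurd (Nat.le_of_dvd h0 ((ZMod.natCast_eq_zero_iff _ _).1 e)) (by omega)

/-- The tournament count.  `o a = ∑_b s (a - b)` is the image of an odd integer of absolute value
`< |S| < p` (an odd number of terms `±1`, `s 0 = 0`), so `o a ≠ 0`; `∑_a o a = 0` by antisymmetry
(`p ≠ 2`), so `o` is not constant. -/
theorem tour_count {p : ℕ} [Fact p.Prime] (hp : p ≠ 2) {S : Finset (ZMod p)} (he : Even S.card)
    (h0 : 0 < S.card) (hS : S.card < p) {s : ZMod p → ZMod p} (h1 : ∀ v, s (-v) = -s v)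
    (h2 : ∀ v, v ≠ 0 → s v = 1 ∨ s v = -1) :
    ∃ c < 2 * S.card + 1, ∃ a ∈ S, ∃ a' ∈ S, ∑ b ∈ S, s (a - b) + (c : ZMod p) - S.card = 0 ∧
      ∑ b ∈ S, s (a' - b) + (c : ZMod p) - S.card ≠ 0 := by
  have hp2 : (2 : ZMod p) ≠ 0 := by
    have := (Fact.out : p.Prime).two_le
    exact_mod_cast natCast_ne_zero_of_lt (p := p) (n := 2) (by omega) (by omega)
  have s0 : s 0 = 0 := by
    have := h1 0
    rw [neg_zero] at this
    exact (mul_eq_zero.1 (by linear_combination this : 2 * s 0 = 0)).resolve_left hp2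
  obtain ⟨a, ha⟩ := Finset.card_pos.1 h0
  obtain ⟨m, hm, e⟩ := sum_pm (S.erase a) (σ := fun b => s (a - b))
    fun b hb => h2 _ (sub_ne_zero.2 (Finset.ne_of_mem_erase hb).symm)
  rw [Finset.card_erase_of_mem ha] at hm e
  rw [Finset.sum_erase _ (by rw [sub_self, s0]), Nat.cast_sub h0] at e
  by_contra hc
  push Not at hc
  have hcast : ((2 * S.card - 1 - 2 * m : ℕ) : ZMod p) = 2 * S.card - 1 - 2 * m := by
    rw [Nat.cast_sub (by omega), Nat.cast_sub (by omega)]
    push_cast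
    ring
  have h4 : ∀ a' ∈ S, ∑ b ∈ S, s (a' - b) = ((2 * m + 1 - S.card : ℤ) : ZMod p) := fun a' ha' => by
    have := hc (2 * S.card - 1 - 2 * m) (by omega) a ha a' ha' (by rw [e, hcast]; push_cast; ring)
    rw [hcast] at this
    push_cast
    linear_combination this
  have h5 : ∑ a ∈ S, ∑ b ∈ S, s (a - b) = -∑ a ∈ S, ∑ b ∈ S, s (a - b) := by
    conv_lhs => rw [Finset.sum_comm]
    simp only [← Finset.sum_neg_distrib, ← h1, neg_sub]
  rw [Finset.sum_congr rfl h4, Finset.sum_const, nsmul_eq_mul] at h5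
  have h7 : ((2 * m + 1 - S.card : ℤ) : ZMod p) = 0 :=
    (mul_eq_zero.1 ((mul_eq_zero.1 (by linear_combination h5)).resolve_left hp2)).resolve_left
      (natCast_ne_zero_of_lt h0 hS)
  have := Int.eq_zero_of_abs_lt_dvd ((ZMod.intCast_zmod_eq_zero_iff_dvd _ _).1 h7)
    (by rw [abs_lt]; omega)
  obtain ⟨k, hk⟩ := he
  omega

theorem natDegree_prod_X_sub_C {K : Type} [Field K] (S : Finset K) :
    (∏ c ∈ S, (X - C c)).natDegree = S.card := Lagrange.natDegree_nodal (v := id)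

theorem eval_prod_X_sub_C {K : Type} [Field K] {S : Finset K} {x : K} (hx : x ∈ S) :
    (∏ c ∈ S, (X - C c)).eval x = 0 := Lagrange.eval_nodal_at_node (v := id) hx

/-- For a root `x ∈ S` let `φ = eval₂RingHom (Int.castRingHom _) x : ℤ[X] →+* ZMod p`, and for
`b ∈ S` let `Ψ = eval₂RingHom φ b`.  Apply `coeff_eq_sum_roots` to `W.map φ`, `W = r2 p f (…)`
(`degree_r2_lt`, `hom_r2`, `hom_sgn`, `hom_powR`). -/
theorem eval_tourO {p : ℕ} [Fact p.Prime] {f : ℤ[X]} (hf : f.Monic) {S : Finset (ZMod p)}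
    (hS : fp p f = ∏ c ∈ S, (X - C c)) (a e : ℕ) {x : ZMod p} (hx : x ∈ S) :
    (fp p (tourO p f a e)).eval x = ∑ b ∈ S, sgnM (((p + 1) / 2 : ℕ) : ZMod p)
      ((a : ZMod p) ^ ((p - 1) / 2 ^ e)) ((p - 1) / 2 ^ e) e (x - b) := by
  have h0 := (Fact.out : p.Prime).ne_zero
  have hp := ZMod.natCast_self p
  have hn : S.card = f.natDegree := by rw [← natDegree_fp_monic p hf, hS, natDegree_prod_X_sub_C]
  set φ : ℤ[X] →+* ZMod p := eval₂RingHom (Int.castRingHom _) x with hφ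
  have e1 : ∀ w, φ w = (fp p w).eval x := fun w => (eval_map _ _).symm
  rw [← e1, tourO, co_eq, ← coeff_map, ← hn]
  refine coeff_eq_sum_roots S _ (degree_map_le.trans_lt (hn ▸ degree_r2_lt p hf _)) fun b hb => ?_
  set Ψ : ℤ[X][X] →+* ZMod p := eval₂RingHom φ b with hΨ
  have e2 : ∀ w, Ψ (C w) = φ w := fun w => eval₂_C _ _
  have e3 : ∀ w : ℤ[X], Ψ (w.map C) = (fp p w).eval b := fun w => by
    rw [hΨ, coe_eval₂RingHom, eval₂_map, fp_apply, eval_map, RingHom.ext_int (φ.comp C)]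
  have e4 := hom_r2 h0 hp Ψ hf (by rw [e2, e1, hS, eval_prod_X_sub_C hx])
    (by rw [e3, hS, eval_prod_X_sub_C hb])
  rw [eval_map, ← coe_eval₂RingHom, ← hΨ, e4, map_mul, mC_eq, e3, dv_eq, ← hS, fp_apply,
    fp_apply, derivative_map, sgn2, hom_sgn Ψ e4, pow2, hom_powR Ψ e4, map_natCast, map_natCast,
    map_sub, cC_eq, e2]
  simp [hΨ, hφ]

/-- Write `p - 1 = 2 ^ e * t`, `t` odd (`Nat.exists_eq_two_pow_mul_odd`), `1 ≤ e ≤ p.size`;
`sgnM_spec`, `tour_count`, `eval_tourO`, `nz_of_eval`. -/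
theorem tourn_spec {p : ℕ} [Fact p.Prime] (hp : p ≠ 2) {A a : ℕ} (ha : a ≤ A)
    (hn : a ^ ((p - 1) / 2) % p = p - 1) {f : ℤ[X]} (hf : f.Monic) {S : Finset (ZMod p)}
    (hS : fp p f = ∏ c ∈ S, (X - C c)) (he : Even S.card) (h0 : 0 < S.card) (hlt : S.card < p) :
    ∃ u ∈ tourn p A f, NZ (fp p u) (fp p f) := by
  have hpp : p.Prime := Fact.out
  have h2 := hpp.two_le
  have ho := hpp.eq_two_or_odd.resolve_left hp
  obtain ⟨e, t, ht, het⟩ := Nat.exists_eq_two_pow_mul_odd (n := p - 1) (by omega)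
  obtain ⟨e, rfl⟩ : ∃ e', e = e' + 1 := by
    refine Nat.exists_eq_succ_of_ne_zero ?_
    rintro rfl
    obtain ⟨k, hk⟩ := ht
    omega
  have e1 : (p - 1) / 2 ^ (e + 1) = t := by rw [het, Nat.mul_div_cancel_left _ (by positivity)]
  have e2 : (p - 1) / 2 = t * 2 ^ e := by
    rw [het, pow_succ, show 2 ^ e * 2 * t = 2 * (t * 2 ^ e) by ring, Nat.mul_div_cancel_left _ two_pos]
  have hsz : e + 1 < p.size + 1 := by
    have := Nat.le_mul_of_pos_right (2 ^ (e + 1)) ht.pos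
    exact Nat.lt_succ_of_lt (Nat.lt_size.2 (by omega))
  have hs := sgnM_spec (F := ZMod p) (h := ((p + 1) / 2 : ℕ)) (g := (a : ZMod p) ^ t) (t := t)
    (e := e + 1) (by
      have : ((2 * ((p + 1) / 2) : ℕ) : ZMod p) = (p + 1 : ℕ) := by congr 1; omega
      simpa using this) (by omega) (by
      rw [← pow_mul, Nat.add_sub_cancel, ← e2, ← Nat.cast_pow, ← ZMod.natCast_mod, hn,
        Nat.cast_sub (by omega)]
      simp) ht fun v hv => by
      rw [← pow_mul, mul_comm, ← het, ZMod.pow_card_sub_one_eq_one hv]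
  obtain ⟨c, hc, x, hx, y, hy, b1, b2⟩ := tour_count hp he h0 hlt (fun v => (hs v).1)
    fun v => (hs v).2
  have hn : S.card = f.natDegree := by rw [← natDegree_fp_monic p hf, hS, natDegree_prod_X_sub_C]
  refine ⟨tourO p f a (e + 1) + (c : ℤ[X]) - (f.natDegree : ℤ[X]), ?_, ?_⟩
  · refine List.mem_flatMap.2 ⟨⟨a⟩, mem_rg.2 (Nat.lt_succ_of_le ha), ?_⟩
    refine List.mem_flatMap.2 ⟨⟨e + 1⟩, mem_rg.2 hsz, ?_⟩
    exact List.mem_map.2 ⟨⟨c⟩, mem_rg.2 (hn ▸ hc), rfl⟩
  · rw [hS]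
    refine nz_of_eval hx hy ?_ ?_ <;>
      simp only [map_sub, map_add, map_natCast, eval_sub, eval_add, eval_natCast]
    · rwa [eval_tourO hf hS _ _ hx, e1, ← hn]
    · rwa [eval_tourO hf hS _ _ hy, e1, ← hn]

section pt

variable {α : Type} [Enc α] {p : α → ℕ}

/-- `pt_foldl_bdd`; for the step use `pt_powR (hρ.comp …)` -/
theorem pt_sgn {R : Type} [CommRing R] [Enc R] [PTRing R] {ρ : α → R → R} (hρ : Rd ρ)
    {h g v : α → R} {t e : α → ℕ} (hh : PT h) (hg : PT g) (ht : PT t) (he : PT e) (hb : PB e)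
    (hv : PT v) : PT fun a => sgn (ρ a) (h a) (g a) (t a) (e a) (v a) := by
  obtain ⟨B, hB, hb'⟩ := hρ.bd
  have h1 : Rd fun q : α × R × Un => ρ q.1 := hρ.comp PT.id.fst
  have h2 : PT fun q : α × R × Un => powR (ρ q.1) q.2.1 (2 ^ (e q.1 - 1 - q.2.2.n)) :=
    pt_powR h1 (by fun_prop) (by fun_prop)
  have h3 : PT fun q : α × R × Un => powR (ρ q.1) (g q.1) (2 ^ q.2.2.n) :=
    pt_powR h1 (by fun_prop) (by fun_prop)
  refine pt_foldl_bdd (f := fun a w (i : Un) => ρ a (w * (h a * (1 + powR (ρ a) w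
    (2 ^ (e a - 1 - i.n)) + (1 - powR (ρ a) w (2 ^ (e a - 1 - i.n))) *
      powR (ρ a) (g a) (2 ^ i.n))))) (by fun_prop) (pt_powR hρ hv ht) (h1.app ?_) hB
    fun a _ _ => hb' a _
  exact pt_mul (by fun_prop) (pt_mul (by fun_prop) (pt_add (pt_add (PT.const _) h2)
    (pt_mul (pt_sub (PT.const _) h2) h3)))

@[fun_prop] theorem pt_sgn2 (hp : PT p) {f : α → ℤ[X]} {h g v : α → ℤ[X][X]} {t e : α → ℕ}
    (hf : PT f) (hh : PT h) (hg : PT g) (ht : PT t) (he : PT e) (hb : PB e) (hv : PT v) :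
    PT fun a => sgn2 (p a) (f a) (h a) (g a) (t a) (e a) (v a) :=
  pt_sgn (rd_r2 hp hf) hh hg ht he hb hv

@[fun_prop] theorem pt_tourO (hp : PT p) {f : α → ℤ[X]} {x e : α → ℕ} (hf : PT f) (hx : PT x)
    (he : PT e) (hb : PB e) : PT fun a => tourO (p a) (f a) (x a) (e a) := by
  unfold tourO
  fun_prop

@[fun_prop] theorem pt_tourn (hp : PT p) {A : α → ℕ} {f : α → ℤ[X]} (hA : PT A) (hb : PB A)
    (hf : PT f) : PT fun a => tourn (p a) (A a) (f a) := by
  unfold tourn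
  fun_prop

end pt

end Crest.Agent.R312.A1
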