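import Crest.Agent.R312.A1Fac
import Crest.Agent.R312.A1Gauss

/-!
# R312 / A1Tab : the table of non-residues

Keep the statements (tell helper77 at once if one looks false); add auxiliary lemmas freely.
Definitions: `A1Defs.lean`; `fun_prop` lemmas for polynomials: `A1Poly.lean`.
-/

set_option autoImplicit false
set_option linter.unusedVariables false

noncomputable section

open scoped Classical

namespace Crest.Agent.R312.A1

open Polynomial Crest.Agent.Lib.PT Crest.PolyFactor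

theorem tab_sum_map {M : Type} [AddCommMonoid M] (n : ℕ) (f : ℕ → M) :
    ((rg n).map fun j => f j.n).sum = ∑ j ∈ Finset.range n, f j := by
  rw [rg_map]
  induction n with
  | zero => simp
  | succ n ih => rw [List.range_succ, List.map_append, List.sum_append, ih, Finset.sum_range_succ]; simp

theorem tab_sum_flatMap {M : Type} [AddCommMonoid M] (n : ℕ) (f : ℕ → List M) :
    ((rg n).flatMap fun j => f j.n).sum = ∑ j ∈ Finset.range n, (f j).sum := by
  rw [rg, List.flatMap_map]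
  induction n with
  | zero => simp
  | succ n ih =>
    rw [List.range_succ, List.flatMap_append, List.sum_append, ih, Finset.sum_range_succ]
    simp

theorem hom_jac {T : Type} [CommRing T] (ψ : ℤ[X] →+* T) (l g i : ℕ) :
    ψ (jac l g i) = ∑ j ∈ Finset.range (l - 1), ∑ k ∈ Finset.range (l - 1),
      if (g ^ j + g ^ k) % l = 1 then ψ X ^ (j + i * k) else 0 := by
  rw [jac, tab_sum_flatMap (l - 1) fun j => (rg (l - 1)).map fun k =>
    if (g ^ j + g ^ k.n) % l = 1 then xp ℤ (j + i * k.n) else 0, map_sum]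
  refine Finset.sum_congr rfl fun j _ => ?_
  rw [tab_sum_map (l - 1) fun k => if (g ^ j + g ^ k) % l = 1 then xp ℤ (j + i * k) else 0, map_sum]
  refine Finset.sum_congr rfl fun k _ => ?_
  split_ifs
  · rw [xp_eq, map_pow]
  · exact map_zero ψ

theorem hom_gam {T : Type} [CommRing T] {p : ℕ} (h0 : p ≠ 0) (hp : (p : T) = 0) (ψ : ℤ[X] →+* T)
    {h : ℤ[X]} (hm : h.Monic) (hψ : ψ h = 0) (r l g : ℕ) :
    ψ (gam p h r l g) = (l : T) * ∏ i ∈ Finset.range (r - 2), ψ (jac l g (i + 1)) := by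
  rw [gam, rg_foldl (r - 2) fun acc i => r1 p h (acc * jac l g (i + 1))]
  induction r - 2 with
  | zero => simp [hom_r1 h0 hp ψ hm hψ]
  | succ n ih =>
    rw [List.range_succ, List.foldl_append, List.foldl_cons, List.foldl_nil, hom_r1 h0 hp ψ hm hψ,
      map_mul, ih, Finset.prod_range_succ, mul_assoc]

theorem gam_eq_r1 (p : ℕ) (h : ℤ[X]) (r l g : ℕ) : ∃ w, gam p h r l g = r1 p h w := by
  rw [gam, rg_foldl (r - 2) fun acc i => r1 p h (acc * jac l g (i + 1))]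
  cases r - 2 with
  | zero => exact ⟨_, rfl⟩
  | succ n =>
    rw [List.range_succ, List.foldl_append]
    exact ⟨_, rfl⟩

theorem tab_cand {p L r : ℕ} {h γ : ℤ[X]}
    (hγ : γ ∈ r1 p h X :: (rg (L + 1)).flatMap fun l => (rg l.n).map fun g => gam p h r l.n g.n) :
    ∃ w, γ = r1 p h w := by
  rcases List.mem_cons.1 hγ with rfl | hγ
  · exact ⟨_, rfl⟩
  · obtain ⟨l, -, hγ⟩ := List.mem_flatMap.1 hγ
    obtain ⟨g, -, rfl⟩ := List.mem_map.1 hγ
    exact gam_eq_r1 _ _ _ _ _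

theorem nonres_eq_r1 (p L r : ℕ) (h : ℤ[X]) :
    nonres p L r h = 0 ∨ ∃ w, nonres p L r h = r1 p h w := by
  unfold nonres
  cases e : List.find? _ _ with
  | none => exact Or.inl rfl
  | some γ => exact Or.inr (tab_cand (List.mem_of_find?_eq_some e))

/-- With `ψ = (AdjoinRoot.mk (fp p h)).comp (fp p)`: for a candidate `γ = r1 p h w` the test says
`ψ γ ≠ 0 ∧ ψ γ ^ k ≠ 1` (`r1_eq_zero`, `AdjoinRoot.mk_eq_zero`, `hom_pow1`, `Rdc.fp_eq_zero`, degrees).  Some
candidate passes: `r1 p h X`, or else `sq_dvd_of_pow_eq_one`, `hL`, `gauss_nonres`, `hom_gam`,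
`hom_jac` (`root_spec`). -/
theorem nonres_spec {p L r : ℕ} [Fact p.Prime] (hr : r.Prime) (h2 : r ≠ 2) (hrp : r < p)
    (hL : (∃ d : ℕ, 1 ≤ d ∧ d < r ∧ p ^ d % r ^ 2 = 1) →
      ∃ l : ℕ, l.Prime ∧ l ≤ L ∧ l ≠ p ∧ l % r = 1 ∧ p ^ ((l - 1) / r) % l ≠ 1)
    {h : ℤ[X]} (hm : h.Monic) (hrd : Rdc p h) (hi : Irreducible (fp p h))
    (hd : fp p h ∣ ∑ i ∈ Finset.range r, X ^ i) : Ent p r h (nonres p L r h) := by
  have hp : p.Prime := Fact.out
  have h0 := hp.ne_zero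
  have : Fact (Irreducible (fp p h)) := ⟨hi⟩
  obtain ⟨hz, hd1, hdr, hfin, hcard, hchar⟩ := root_spec hr hrp (monic_fp p hm) hd
  rw [natDegree_fp_monic p hm] at hd1 hdr hcard
  obtain ⟨ψ, hψ⟩ : ∃ ψ : ℤ[X] →+* AdjoinRoot (fp p h),
      ψ = (AdjoinRoot.mk (fp p h)).comp (fp p) := ⟨_, rfl⟩
  have hψa : ∀ w, ψ w = AdjoinRoot.mk (fp p h) (fp p w) := fun w => by rw [hψ]; rfl
  have hψh : ψ h = 0 := by rw [hψa]; exact AdjoinRoot.mk_self
  have hψX : ψ X = AdjoinRoot.root (fp p h) := by rw [hψa, fp_apply p X, map_X]; rfl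
  have hpz : (p : AdjoinRoot (fp p h)) = 0 := CharP.cast_eq_zero _ p
  have hzero : ∀ w, r1 p h w = 0 ↔ ψ w = 0 := fun w => by
    rw [r1_eq_zero hm, hψa, AdjoinRoot.mk_eq_zero]
  have htest : ∀ γ, (∃ w, γ = r1 p h w) →
      ((γ ≠ 0 ∧ r1 p h (pow1 p h γ ((p ^ h.natDegree - 1) / r) - 1) ≠ 0) ↔
        (ψ γ ≠ 0 ∧ ψ γ ^ ((p ^ h.natDegree - 1) / r) ≠ 1)) := by
    rintro γ ⟨w, rfl⟩
    rw [Ne, Ne, hzero, hzero, map_sub, map_one, hom_pow1 h0 hpz ψ hm hψh, sub_eq_zero,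
      hom_r1 h0 hpz ψ hm hψh]
  unfold nonres
  cases e : List.find? _ _ with
  | some γ =>
    have h1 := tab_cand (List.mem_of_find?_eq_some e)
    have h4 := List.find?_some e
    have h3 := (htest γ h1).1 (of_decide_eq_true h4)
    rw [hψa] at h3
    obtain ⟨w, rfl⟩ := h1
    refine ⟨hm, hrd, rdc_r1 h0 _ _, hi, hd, ?_, h3.1, h3.2⟩
    rw [degree_eq_natDegree hm.ne_zero]
    exact degree_r1_lt p h w
  | none =>
    exfalso
    have hno : ∀ γ ∈ r1 p h X :: (rg (L + 1)).flatMap fun l => (rg l.n).map fun g => gam p h r l.n g.n,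
        ¬ (ψ γ ≠ 0 ∧ ψ γ ^ ((p ^ h.natDegree - 1) / r) ≠ 1) := fun γ hγ hc =>
      List.find?_eq_none.1 e γ hγ (decide_eq_true ((htest γ (tab_cand hγ)).2 hc))
    have h1 := hno _ List.mem_cons_self
    rw [hom_r1 h0 hpz ψ hm hψh, hψX, not_and, not_not] at h1
    obtain ⟨l, hl, hlL, hlp, hlr, hn⟩ := hL ⟨h.natDegree, hd1, hdr,
      sq_dvd_of_pow_eq_one hcard hz hr (h1 (hz.ne_zero hr.ne_zero))⟩
    obtain ⟨g, hgl, hg⟩ := gauss_nonres hcard hz hr h2 hd1 hdr hl hlp hlr hn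
    refine hno (gam p h r l g) (List.mem_cons_of_mem _ (List.mem_flatMap.2
      ⟨⟨l⟩, mem_rg.2 (Nat.lt_succ_of_le hlL), List.mem_map.2 ⟨⟨g⟩, mem_rg.2 hgl, rfl⟩⟩)) (hg _ ?_)
    rw [hom_gam h0 hpz ψ hm hψh]
    simp only [hom_jac, hψX]

theorem phiR_spec {p r : ℕ} [Fact p.Prime] (hr : 1 ≤ r) : (phiR r).Monic ∧ Rdc p (phiR r) ∧
    (phiR r).natDegree = r - 1 ∧ fp p (phiR r) = ∑ i ∈ Finset.range r, X ^ i := by
  have h2 := (Fact.out : p.Prime).two_le
  have hc : ∀ i, (phiR r).coeff i = if i < r then 1 else 0 := fun i => coeff_mkP _ _ _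
  have hd : (phiR r).natDegree = r - 1 := le_antisymm (natDegree_mkP_le _ _)
    (le_natDegree_of_ne_zero (by rw [hc, if_pos (by omega)]; exact one_ne_zero))
  refine ⟨?_, fun i => ?_, hd, ?_⟩
  · rw [Monic, leadingCoeff, hd, hc, if_pos (by omega)]
  · rw [hc]
    split_ifs <;> omega
  · simp [phiR, mkP, fp, map_sum, monomial_one_right_eq_X_pow]

/-- `factor_spec` for `phiR r` (degree `r - 1 ≥ 2`, so the list is not empty), `nonres_spec` -/
theorem entry_spec {sp : Sp} {p A N L r : ℕ} {T : Tb} [Fact p.Prime] (hsp : SpOk sp)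
    (hc : Ctx p A N (r - 1) T) (hr : r.Prime) (h2 : r ≠ 2) (hrp : r < p)
    (hL : (∃ d : ℕ, 1 ≤ d ∧ d < r ∧ p ^ d % r ^ 2 = 1) →
      ∃ l : ℕ, l.Prime ∧ l ≤ L ∧ l ≠ p ∧ l % r = 1 ∧ p ^ ((l - 1) / r) % l ≠ 1) :
    ∃ h γ, entry sp p A N L T r = (r, h, γ) ∧ Ent p r h γ := by
  obtain ⟨hm, hrd, hdg, hfp⟩ := phiR_spec (p := p) hr.one_lt.le
  obtain ⟨h1, h3⟩ := factor_spec hsp hc hm hrd hdg.le
  refine ⟨_, _, rfl, ?_⟩
  cases e : factor sp p A N T (phiR r) with
  | nil =>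
    exfalso
    rw [e, List.map_nil, List.prod_nil] at h3
    have h4 := natDegree_fp_monic p hm
    rw [← h3, natDegree_one, hdg] at h4
    have := hr.two_le
    omega
  | cons h t =>
    rw [e] at h1 h3
    obtain ⟨a1, a2, a3⟩ := h1 h List.mem_cons_self
    refine nonres_spec hr h2 hrp hL a1 a2 a3 ?_
    rw [← hfp, ← h3, List.map_cons, List.prod_cons]
    exact dvd_mul_right _ _

/-- induction on `k ≤ N + 1`: the table built from `List.range k` is valid for the odd primes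
`r < k` (`rg_foldl`, `List.range_succ`, `List.foldl_append`) -/
theorem table_spec {sp : Sp} {p A N L : ℕ} [Fact p.Prime] (hsp : SpOk sp) (h3 : 3 ≤ N)
    (hA : N < p → ∃ a ≤ A, a ^ ((p - 1) / 2) % p = p - 1)
    (hL : N < p → ∀ r, r.Prime → r ≠ 2 → r ≤ N → (∃ d : ℕ, 1 ≤ d ∧ d < r ∧ p ^ d % r ^ 2 = 1) →
      ∃ l : ℕ, l.Prime ∧ l ≤ L ∧ l ≠ p ∧ l % r = 1 ∧ p ^ ((l - 1) / r) % l ≠ 1) :
    Ctx p A N N (table sp p A N L) := by
  refine ⟨h3, le_rfl, hA, fun hN => ?_⟩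
  have key : ∀ k, k ≤ N + 1 → ∀ r, r.Prime → r ≠ 2 → r < k → ∃ h γ, (r, h, γ) ∈
      (List.range k).foldl (fun T r => T ++ [entry sp p A N L T r]) [] ∧ Ent p r h γ := by
    intro k
    induction k with
    | zero => exact fun _ r _ _ h => absurd h (Nat.not_lt_zero r)
    | succ k ih =>
      intro hk r hr h2 hrk
      rw [List.range_succ, List.foldl_append, List.foldl_cons, List.foldl_nil]
      rcases Nat.lt_succ_iff_lt_or_eq.1 hrk with h | rfl
      · obtain ⟨h', γ, a1, a2⟩ := ih (by omega) r hr h2 h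
        exact ⟨h', γ, List.mem_append_left _ a1, a2⟩
      · have := hr.two_le
        obtain ⟨h', γ, a1, a2⟩ := entry_spec (L := L) hsp
          (T := (List.range r).foldl (fun T r => T ++ [entry sp p A N L T r]) [])
          ⟨h3, by omega, hA, fun _ r' b1 b2 b3 => ih (by omega) r' b1 b2 (by omega)⟩ hr h2 (by omega)
          (hL hN r hr h2 (by omega))
        exact ⟨h', γ, List.mem_append_right _ (by rw [a1]; exact List.mem_singleton_self _), a2⟩
  intro r hr h2 hrN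
  rw [table, rg_foldl (N + 1) fun T r => T ++ [entry sp p A N L T r]]
  exact key (N + 1) le_rfl r hr h2 (by omega)

theorem tab_sz_entry (sp : Sp) (p A N L : ℕ) (T : Tb) (r : ℕ) : sz (entry sp p A N L T r) ≤
    4 * r + 2 * ((r + 2) * (2 * sz p + 10)) + (sz (1 : ℤ[X]) + sz (0 : ℤ[X]) + 5) := by
  have hd : (phiR r).natDegree ≤ r := (natDegree_mkP_le _ _).trans (Nat.sub_le _ _)
  obtain ⟨h, e, h1, h2⟩ : ∃ h, (factor sp p A N T (phiR r)).headD 1 = h ∧ h.natDegree ≤ r ∧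
      sz h ≤ (r + 2) * (2 * sz p + 10) + 1 + sz (1 : ℤ[X]) := by
    have h1 := sz_factor_le sp p A N T (phiR r)
    cases e : factor sp p A N T (phiR r) with
    | nil => exact ⟨1, rfl, by simp, by omega⟩
    | cons h t =>
      rw [e] at h1
      obtain ⟨a1, a2⟩ := h1 h List.mem_cons_self
      have := Nat.mul_le_mul_right (2 * sz p + 10) (Nat.add_le_add_right hd 2)
      exact ⟨h, rfl, a1.trans hd, by omega⟩
  have h3 : sz (nonres p L r h) ≤ (r + 2) * (2 * sz p + 10) + 1 + sz (0 : ℤ[X]) := by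
    rcases nonres_eq_r1 p L r h with e | ⟨w, e⟩
    · rw [e]
      omega
    · have a1 := sz_r1_le p h w
      have := Nat.mul_le_mul_right (2 * sz p + 10) (show h.natDegree + 1 ≤ r + 2 by omega)
      rw [e]
      omega
  have h4 := sz_nat_le_self r
  rw [entry, e, sz_prod, sz_prod]
  simp only
  omega

section pt

variable {α : Type} [Enc α] {sp : Sp} {p A N L : α → ℕ}

@[fun_prop] theorem pt_jac {l g i : α → ℕ} (hl : PT l) (hl' : PB l) (hg : PT g) (hi : PT i)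
    (hi' : PB i) : PT fun a => jac (l a) (g a) (i a) := by
  unfold jac
  fun_prop

/-- `pt_foldl_bdd`, `sz_r1_le` -/
@[fun_prop] theorem pt_gam (hp : PT p) {h : α → ℤ[X]} {r l g : α → ℕ} (hh : PT h) (hr : PT r)
    (hr' : PB r) (hl : PT l) (hl' : PB l) (hg : PT g) :
    PT fun a => gam (p a) (h a) (r a) (l a) (g a) := by
  exact pt_foldl_bdd (f := fun a acc (i : Un) => r1 (p a) (h a) (acc * jac (l a) (g a) (i.n + 1)))
    (l := fun a => rg (r a - 2)) (s := fun a => r1 (p a) (h a) (l a : ℤ[X]))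
    (by fun_prop) (by fun_prop) (by fun_prop)
    (B := fun a => ((h a).natDegree + 1) * (2 * sz (p a) + 10) + 1) (by fun_prop)
    fun a _ _ => sz_r1_le _ _ _

@[fun_prop] theorem pt_nonres (hp : PT p) (hL : PT L) (hL' : PB L) {r : α → ℕ} {h : α → ℤ[X]}
    (hr : PT r) (hr' : PB r) (hh : PT h) : PT fun a => nonres (p a) (L a) (r a) (h a) := by
  unfold nonres
  fun_prop

@[fun_prop] theorem pt_phiR {r : α → ℕ} (hr : PT r) (hr' : PB r) : PT fun a => phiR (r a) := by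
  unfold phiR
  fun_prop

@[fun_prop] theorem pt_entry [Fact (PT sp)] (hp : PT p) (hA : PT A) (hA' : PB A) (hN : PT N)
    (hN' : PB N) (hL : PT L) (hL' : PB L) {T : α → Tb} {r : α → ℕ} (hT : PT T) (hr : PT r)
    (hr' : PB r) : PT fun a => entry sp (p a) (A a) (N a) (L a) (T a) (r a) := by
  unfold entry
  fun_prop

/-- `PT.foldl_grow`: an entry has size polynomial in `r` and `sz p` (`sz_factor_le`,
`natDegree_mkP_le`, `nonres_eq_r1`, `sz_r1_le`, `sz_nat_le_self`) -/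
@[fun_prop] theorem pt_table [Fact (PT sp)] (hp : PT p) (hA : PT A) (hA' : PB A) (hN : PT N)
    (hN' : PB N) (hL : PT L) (hL' : PB L) : PT fun a => table sp (p a) (A a) (N a) (L a) := by
  exact PT.foldl_grow (f := fun a (T : Tb) (r : Un) => T ++ [entry sp (p a) (A a) (N a) (L a) T r.n])
    (l := fun a => rg (N a + 1)) (by fun_prop) (PT.const _) (by fun_prop)
    (G := fun q => 4 * q.2.n + 2 * ((q.2.n + 2) * (2 * sz (p q.1) + 10)) +
      (sz (1 : ℤ[X]) + sz (0 : ℤ[X]) + 6)) (by fun_prop) fun a T r _ => by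
      have h1 := sz_append T [entry sp (p a) (A a) (N a) (L a) T r.n]
      have h2 := tab_sz_entry sp (p a) (A a) (N a) (L a) T r.n
      rw [sz_cons, sz_nil] at h1
      simp only
      omega

end pt

end Crest.Agent.R312.A1
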