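import Mathlib

/-!
# R312 / A2Desc : the descent lemma (abstract abelian groups)
-/

set_option autoImplicit false

namespace Crest.Agent.R312

variable {G : Type} [AddCommGroup G]

/-- `t_l` (`l < d`) has height `e_l ≥ 1` and the socles `φ^(e_l - 1) t_l` are independent mod `r` -/
structure DInv (φ : AddMonoid.End G) (r d : ℕ) (t : ℕ → G) (e : ℕ → ℕ) : Prop where
  pos : ∀ l < d, 1 ≤ e l
  top : ∀ l < d, (φ ^ e l) (t l) = 0
  ind : ∀ c : ℕ → ℤ, ∑ l ∈ Finset.range d, c l • (φ ^ (e l - 1)) (t l) = 0 →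
    ∀ l < d, (r : ℤ) ∣ c l

theorem desc_pow_add (φ : AddMonoid.End G) (m n : ℕ) (x : G) :
    (φ ^ (m + n)) x = (φ ^ m) ((φ ^ n) x) := by
  rw [pow_add]; rfl

theorem desc_pow_succ (φ : AddMonoid.End G) (m : ℕ) (x : G) : (φ ^ (m + 1)) x = (φ ^ m) (φ x) := by
  rw [pow_succ]; rfl

theorem desc_zero_of_le {φ : AddMonoid.End G} {x : G} {m n : ℕ} (h : (φ ^ m) x = 0) (hmn : m ≤ n) :
    (φ ^ n) x = 0 := by
  obtain ⟨k, rfl⟩ := Nat.exists_eq_add_of_le' hmn
  rw [desc_pow_add, h, map_zero]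

theorem desc_sum_apply {α : Type} (s : Finset α) (f : α → AddMonoid.End G) (x : G) :
    (∑ i ∈ s, f i) x = ∑ i ∈ s, f i x :=
  AddMonoidHom.finsetSum_apply f s x

/-- If `∑_{l<d} ∑_{i<K} a i l • φ^i t_l` has `a i l = 0` unless `e l ≤ i + (H+1)`, then `φ^H` of it is
`∑_l ∑_{i : e l = i + H + 1} a i l • s_l`. -/
theorem DInv.pow_sum {φ : AddMonoid.End G} {r d : ℕ} {t : ℕ → G} {e : ℕ → ℕ} (h : DInv φ r d t e)
    (K H : ℕ) (a : ℕ → ℕ → ℤ) (ha : ∀ i < K, ∀ l < d, a i l ≠ 0 → e l ≤ i + H + 1) :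
    (φ ^ H) (∑ i ∈ Finset.range K, ∑ l ∈ Finset.range d, a i l • (φ ^ i) (t l)) =
      ∑ l ∈ Finset.range d, (∑ i ∈ Finset.range K, if e l = i + H + 1 then a i l else 0) •
        (φ ^ (e l - 1)) (t l) := by
  simp only [map_sum, map_zsmul, Finset.sum_smul, ← desc_pow_add]
  rw [Finset.sum_comm]
  refine Finset.sum_congr rfl fun l hl => Finset.sum_congr rfl fun i hi => ?_
  rw [Finset.mem_range] at hl hi
  by_cases h0 : a i l = 0
  · simp [h0]
  have h1 := ha i hi l hl h0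
  split_ifs with h2
  · rw [show e l - 1 = H + i by omega]
  · rw [desc_zero_of_le (h.top l hl) (by omega), smul_zero, zero_smul]

/-- (D1)  The map `(Σ l : Fin d, Fin (e l)) → Fin 2` (or `Bool`) `∋ a ↦ ∑ a_{l,i} φ^i t_l` is injective:
if the difference `δ` (entries in `{-1,0,1}`) of two preimages is not zero, take `H + 1` = the maximum of
`e l - i` over `δ_{l,i} ≠ 0`; `pow_sum` and `ind` give `r ∣ ±1`. -/
theorem DInv.card [Finite G] {φ : AddMonoid.End G} {r d : ℕ} {t : ℕ → G} {e : ℕ → ℕ}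
    (h : DInv φ r d t e) (hr : 2 ≤ r) : 2 ^ (∑ l ∈ Finset.range d, e l) ≤ Nat.card G := by
  classical
  set K := ∑ l ∈ Finset.range d, e l with hK
  have hle : ∀ l < d, e l ≤ K := fun l hl =>
    Finset.single_le_sum (f := e) (fun _ _ => Nat.zero_le _) (Finset.mem_range.2 hl)
  set P : Finset (ℕ × ℕ) := (Finset.range K ×ˢ Finset.range d).filter fun p => p.1 < e p.2 with hP
  have hc : P.card = K := by
    rw [hP, Finset.card_filter, Finset.sum_product_right]
    refine Finset.sum_congr rfl fun l hl => ?_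
    rw [← Finset.card_filter]
    have : (Finset.range K).filter (fun i => i < e l) = Finset.range (e l) := by
      ext i
      have := hle l (Finset.mem_range.1 hl)
      simp only [Finset.mem_filter, Finset.mem_range]
      omega
    rw [this, Finset.card_range]
  have := Fintype.ofFinite G
  rw [← hc, ← Finset.card_powerset, Nat.card_eq_fintype_card, ← Finset.card_univ]
  refine Finset.card_le_card_of_injOn (fun S => ∑ i ∈ Finset.range K, ∑ l ∈ Finset.range d,
    (if (i, l) ∈ S then 1 else 0 : ℤ) • (φ ^ i) (t l)) (fun _ _ => Finset.mem_univ _) ?_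
  intro S hS S' hS' hSS
  rw [Finset.mem_coe, Finset.mem_powerset] at hS hS'
  by_contra hne
  obtain ⟨⟨i0, l0⟩, hp, hmax⟩ := Finset.exists_max_image (symmDiff S S') (fun p => e p.2 - p.1)
    (Finset.nonempty_iff_ne_empty.2 fun h => hne (symmDiff_eq_bot.1 h))
  have hp' : (i0, l0) ∈ P := (Finset.mem_symmDiff.1 hp).elim (fun h => hS h.1) fun h => hS' h.1
  simp only [hP, Finset.mem_filter, Finset.mem_product, Finset.mem_range] at hp'
  have h1 := h.pow_sum K (e l0 - i0 - 1)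
    (fun i l => (if (i, l) ∈ S then 1 else 0 : ℤ) - if (i, l) ∈ S' then 1 else 0) (fun i _ l _ ha => by
      have : (i, l) ∈ symmDiff S S' := by
        rw [Finset.mem_symmDiff]
        by_cases h1 : (i, l) ∈ S <;> by_cases h2 : (i, l) ∈ S' <;> simp_all
      have := hmax _ this
      simp only at this
      omega)
  simp only [sub_smul, Finset.sum_sub_distrib] at h1
  rw [sub_eq_zero.2 hSS, map_zero] at h1
  have h2 := h.ind _ h1.symm l0 hp'.1.2
  rw [Finset.sum_eq_single i0 (fun i _ hi => if_neg (by omega))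
    (fun hi => absurd (Finset.mem_range.2 hp'.1.1) hi), if_pos (by omega)] at h2
  have h3 : (r : ℤ) ∣ 1 := by
    rcases Finset.mem_symmDiff.1 hp with ⟨a, b⟩ | ⟨a, b⟩
    · simpa [a, b] using h2
    · simpa [a, b] using h2
  have := Int.le_of_dvd one_pos h3
  omega

/-- the new socle -/
theorem DInv.update_socle {φ : AddMonoid.End G} {r d : ℕ} {t : ℕ → G} {e : ℕ → ℕ}
    (h : DInv φ r d t e) {t' : G} {c : ℕ → ℕ} (ht : φ t' = ∑ l ∈ Finset.range d, c l • t l)
    {l₀ : ℕ} (hl : l₀ < d) (hmax : ∀ l < d, c l ≠ 0 → e l ≤ e l₀) :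
    (φ ^ e l₀) t' = ∑ l ∈ Finset.range d, (if e l = e l₀ then c l else 0) • (φ ^ (e l - 1)) (t l) := by
  have h0 := h.pos l₀ hl
  obtain ⟨m, hm⟩ : ∃ m, e l₀ = m + 1 := ⟨e l₀ - 1, by omega⟩
  rw [hm, desc_pow_succ, ht, map_sum]
  refine Finset.sum_congr rfl fun l hl' => ?_
  rw [Finset.mem_range] at hl'
  rw [map_nsmul]
  by_cases hc : c l = 0
  · simp [hc]
  have h1 := hmax l hl' hc
  split_ifs with h2
  · rw [h2, Nat.add_sub_cancel]
  · rw [desc_zero_of_le (h.top l hl') (by omega), smul_zero, zero_smul]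

/-- (D2) -/
theorem DInv.update {φ : AddMonoid.End G} {r d : ℕ} {t : ℕ → G} {e : ℕ → ℕ}
    (h : DInv φ r d t e) (hr : r.Prime) {t' : G} {c : ℕ → ℕ}
    (ht : φ t' = ∑ l ∈ Finset.range d, c l • t l) {l₀ : ℕ} (hl : l₀ < d) (hc : ¬ r ∣ c l₀)
    (hmax : ∀ l < d, c l ≠ 0 → e l ≤ e l₀) :
    DInv φ r d (Function.update t l₀ t') (Function.update e l₀ (e l₀ + 1)) := by
  refine ⟨fun l hl' => ?_, fun l hl' => ?_, fun a ha => ?_⟩
  · rcases eq_or_ne l l₀ with rfl | hne
    · simp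
    · rw [Function.update_of_ne hne]
      exact h.pos l hl'
  · rcases eq_or_ne l l₀ with rfl | hne
    · rw [Function.update_self, Function.update_self, desc_pow_succ, ht, map_sum]
      refine Finset.sum_eq_zero fun j hj => ?_
      rw [Finset.mem_range] at hj
      by_cases hc : c j = 0
      · simp [hc]
      rw [map_nsmul, desc_zero_of_le (h.top j hj) (hmax j hj hc), smul_zero]
    · rw [Function.update_of_ne hne, Function.update_of_ne hne]
      exact h.top l hl'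
  · have h1 := h.ind (fun l => (if l = l₀ then 0 else a l) + a l₀ * (if e l = e l₀ then c l else 0 : ℕ)) (by
      simp only [add_smul, Finset.sum_add_distrib, mul_smul, natCast_zsmul]
      rw [← Finset.smul_sum, ← h.update_socle ht hl hmax, ← ha,
        ← Finset.sum_erase_add _ _ (Finset.mem_range.2 hl), ← Finset.sum_erase_add _ _ (Finset.mem_range.2 hl),
        if_pos rfl, zero_smul, add_zero, Function.update_self, Function.update_self, Nat.add_sub_cancel]
      refine congrArg (· + _) (Finset.sum_congr rfl fun l hl' => ?_)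
      have hne := Finset.ne_of_mem_erase hl'
      rw [if_neg hne, Function.update_of_ne hne, Function.update_of_ne hne])
    have h2 := h1 l₀ hl
    simp only [if_true, zero_add] at h2
    have h3 : (r : ℤ) ∣ a l₀ :=
      ((Nat.prime_iff_prime_int.1 hr).dvd_or_dvd h2).resolve_right fun h => hc (Int.natCast_dvd_natCast.1 h)
    intro l hl'
    rcases eq_or_ne l l₀ with rfl | hne
    · exact h3
    · have h4 := h1 l hl'
      simp only [if_neg hne] at h4
      exact (dvd_add_left (h3.mul_right _)).1 h4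

/-- a locally nilpotent element is killed by `φ ^ Λ` if `|G| ≤ 2 ^ Λ` -/
theorem desc_nil [Finite G] (φ : AddMonoid.End G) {Λ N : ℕ} (hΛ : Nat.card G ≤ 2 ^ Λ) {y : G}
    (hy : (φ ^ N) y = 0) : (φ ^ Λ) y = 0 := by
  have key : ∀ i : ℕ, (∀ (N : ℕ) (y : G), (φ ^ N) y = 0 → (φ ^ i) y = 0) ∨
      2 ^ i ≤ Nat.card (AddMonoidHom.ker (φ ^ i : AddMonoid.End G)) := by
    intro i
    induction i with
    | zero => exact Or.inr Nat.card_pos
    | succ i ih =>
      rcases ih with ih | ih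
      · exact Or.inl fun N y hy => desc_zero_of_le (ih N y hy) i.le_succ
      have hle : AddMonoidHom.ker (φ ^ i : AddMonoid.End G) ≤ AddMonoidHom.ker (φ ^ (i + 1) : AddMonoid.End G) :=
        fun y hy => desc_zero_of_le hy i.le_succ
      by_cases hc : Nat.card (AddMonoidHom.ker (φ ^ (i + 1) : AddMonoid.End G)) ≤
          Nat.card (AddMonoidHom.ker (φ ^ i : AddMonoid.End G))
      · have he := AddSubgroup.eq_of_le_of_card_ge hle hc
        refine Or.inl fun N => ?_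
        induction N with
        | zero => exact fun y hy => desc_zero_of_le hy (Nat.zero_le _)
        | succ N ihN =>
          intro y hy
          rw [desc_pow_succ] at hy ⊢
          exact he.ge (ihN _ hy)
      · obtain ⟨m, hm⟩ := AddSubgroup.card_dvd_of_le hle
        have h0 : 0 < Nat.card (AddMonoidHom.ker (φ ^ (i + 1) : AddMonoid.End G)) := Nat.card_pos
        refine Or.inr ?_
        rw [hm] at hc h0 ⊢
        have h2 : 2 ≤ m := by
          rcases m with _ | _ | m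
          · simp at h0
          · simp at hc
          · omega
        rw [pow_succ]
        exact Nat.mul_le_mul ih h2
  rcases key Λ with h | h
  · exact h N y hy
  · exact (AddSubgroup.eq_top_of_le_card _ (hΛ.trans h)).ge (AddSubgroup.mem_top y)

/-- `φ = 1 - σ` with `σ^r = 1` is nilpotent on the `r`-power torsion: `(1-σ)^r = r ψ`
(`Commute.exists_add_pow_prime_eq` or `exists_add_pow_prime_eq` in the commutative ring `ℤ[X]` mapped by
`aeval σ`; `r` odd), so `φ^(r k) y = 0` if `r^k y = 0`.  The chain of subgroups `φ^i (H)`,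
`H` = the `r`-power torsion subgroup, decreases strictly until it is `⊥`, the cardinality at least halves
at each step, so `φ^Λ H = ⊥` when `|G| ≤ 2^Λ`. -/
theorem phi_pow_eq_zero [Finite G] {σ : AddMonoid.End G} {r : ℕ} (hr : r.Prime) (hr2 : r ≠ 2)
    (hσ : σ ^ r = 1) {Λ : ℕ} (hΛ : Nat.card G ≤ 2 ^ Λ) {y : G} {k : ℕ} (hy : r ^ k • y = 0) :
    ((1 - σ) ^ Λ) y = 0 := by
  obtain ⟨ψ, hψ⟩ := (Commute.one_left (-σ)).exists_add_pow_prime_eq hr
  rw [(hr.odd_of_ne_two hr2).neg_pow, hσ, one_pow, add_neg_cancel, zero_add, mul_one, mul_assoc,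
    ← sub_eq_add_neg, (Nat.cast_commute r _).eq] at hψ
  refine desc_nil _ (N := r * k) hΛ ?_
  rw [pow_mul, hψ, (Nat.cast_commute r _).symm.mul_pow, ← Nat.cast_pow]
  change ((-σ * ψ) ^ k) (r ^ k • y) = 0
  rw [hy, map_zero]

/-- unrolling `D_i + ∑_l c_{i,l} t_l = φ D_{i+1}` -/
theorem unroll (φ : AddMonoid.End G) (d : ℕ) (t D : ℕ → G) (c : ℕ → ℕ → ℕ) (Λ : ℕ)
    (hD : ∀ i < Λ, D i + ∑ l ∈ Finset.range d, c i l • t l = φ (D (i + 1))) :
    D 0 = (φ ^ Λ) (D Λ) - ∑ i ∈ Finset.range Λ, ∑ l ∈ Finset.range d, (c i l : ℤ) • (φ ^ i) (t l) := by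
  induction Λ with
  | zero => simp
  | succ Λ ih =>
    rw [ih fun i hi => hD i (by omega), desc_pow_succ, ← hD Λ Λ.lt_succ_self, map_add, map_sum,
      Finset.sum_range_succ]
    simp only [map_nsmul, natCast_zsmul]
    abel

/-- (D3), `H = 0` -/
theorem DInv.expand_zero [Finite G] {σ : AddMonoid.End G} {r d : ℕ} {t : ℕ → G} {e : ℕ → ℕ}
    (h : DInv (1 - σ) r d t e) (hr : r.Prime) (hr2 : r ≠ 2) (hσ : σ ^ r = 1) {Λ : ℕ}
    (hΛ : Nat.card G ≤ 2 ^ Λ) {n : ℕ} (hn : ∀ x : G, ∃ k, r ^ k • n • x = 0) {D : ℕ → G}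
    {c : ℕ → ℕ → ℕ} (hD : ∀ i < Λ, D i + ∑ l ∈ Finset.range d, c i l • t l = (1 - σ) (D (i + 1)))
    (hH : ∀ i < Λ, ∀ l < d, c i l ≠ 0 → e l ≤ i) : n • D 0 = 0 := by
  obtain ⟨k, hk⟩ := hn (D Λ)
  rw [unroll _ d t D c Λ hD, smul_sub, ← map_nsmul, phi_pow_eq_zero hr hr2 hσ hΛ hk,
    Finset.sum_eq_zero, smul_zero, sub_zero]
  refine fun i hi => Finset.sum_eq_zero fun l hl => ?_
  rw [Finset.mem_range] at hi hl
  by_cases hc : c i l = 0
  · simp [hc]
  rw [desc_zero_of_le (h.top l hl) (hH i hi l hl hc), smul_zero]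

/-- (D3), height `H + 1 ≥ 1` -/
theorem DInv.expand [Finite G] {σ : AddMonoid.End G} {r d : ℕ} {t : ℕ → G} {e : ℕ → ℕ}
    (h : DInv (1 - σ) r d t e) (hr : r.Prime) (hr2 : r ≠ 2) (hσ : σ ^ r = 1) {Λ : ℕ}
    (hΛ : Nat.card G ≤ 2 ^ Λ) {n : ℕ} (hn : ∀ x : G, ∃ k, r ^ k • n • x = 0) {D : ℕ → G}
    {c : ℕ → ℕ → ℕ} (hD : ∀ i < Λ, D i + ∑ l ∈ Finset.range d, c i l • t l = (1 - σ) (D (i + 1)))
    {H : ℕ} (hH : ∀ i < Λ, ∀ l < d, c i l ≠ 0 → e l ≤ i + H + 1) :
    ((1 - σ) ^ H) (n • D 0) = ∑ l ∈ Finset.range d,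
      (-(n : ℤ) * ∑ i ∈ Finset.range Λ, if e l = i + H + 1 then (c i l : ℤ) else 0) •
        ((1 - σ) ^ (e l - 1)) (t l) := by
  obtain ⟨k, hk⟩ := hn (D Λ)
  rw [unroll _ d t D c Λ hD, smul_sub, ← map_nsmul, phi_pow_eq_zero hr hr2 hσ hΛ hk, zero_sub, map_neg,
    map_nsmul, h.pow_sum Λ H (fun i l => c i l) fun i hi l hl hc => hH i hi l hl (by exact_mod_cast hc),
    Finset.smul_sum, ← Finset.sum_neg_distrib]
  refine Finset.sum_congr rfl fun l _ => ?_
  rw [mul_smul, neg_smul, natCast_zsmul]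

/-- a common multiplier: `n` = the product of the prime-to-`r` parts (`ordCompl[r]`) of the orders -/
theorem exists_common_mult {ι : Type} [Finite ι] (G : ι → Type) [∀ i, AddCommGroup (G i)]
    [∀ i, Finite (G i)] {r : ℕ} (hr : r.Prime) :
    ∃ n : ℕ, ¬ r ∣ n ∧ ∀ i (x : G i), ∃ k, r ^ k • n • x = 0 := by
  classical
  have := Fintype.ofFinite ι
  refine ⟨∏ i, ordCompl[r] (Nat.card (G i)), fun h => ?_, fun i x => ⟨(Nat.card (G i)).factorization r, ?_⟩⟩
  · obtain ⟨i, -, hi⟩ := (Prime.dvd_finsetProd_iff hr.prime _).1 h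
    exact Nat.not_dvd_ordCompl hr Nat.card_pos.ne' hi
  · rw [← Finset.mul_prod_erase _ _ (Finset.mem_univ i), smul_smul, ← mul_assoc,
      Nat.ordProj_mul_ordCompl_eq_self, mul_smul, card_nsmul_eq_zero']

/-- `(1 - σ)^H n` with non-negative coefficients: on a group with `∑_{k<r} σ^k = 0` we
have (apply `σ`) `-σ = ∑_{k<r-1} σ^(k+2)`, so `1 - σ = aeval σ p`, `p = 1 + ∑_{k<r-1} X^(k+2) ∈ ℕ[X]`; take the
coefficients of `n p^H` (`Polynomial.aeval_eq_sum_range`). -/
theorem exists_nonneg_expansion (r H n : ℕ) : ∃ (K : ℕ) (a : ℕ → ℕ),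
    ∀ (G : Type) [AddCommGroup G] (σ : AddMonoid.End G), 1 ≤ r →
      (∀ x : G, ∑ k ∈ Finset.range r, (σ ^ k) x = 0) →
      ∀ x : G, ((1 - σ) ^ H) (n • x) = ∑ k ∈ Finset.range K, a k • (σ ^ k) x := by
  set p : Polynomial ℕ :=
    (n : Polynomial ℕ) * (1 + ∑ k ∈ Finset.range (r - 1), (Polynomial.X : Polynomial ℕ) ^ (k + 2)) ^ H with hp
  refine ⟨p.natDegree + 1, p.coeff, fun G _ σ hr hσ x => ?_⟩
  obtain ⟨r, rfl⟩ : ∃ r', r = r' + 1 := ⟨r - 1, by omega⟩
  have h1 : ∑ k ∈ Finset.range (r + 1), σ ^ k = 0 := by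
    refine DFunLike.ext _ _ fun y => ?_
    rw [desc_sum_apply, hσ]
    rfl
  have h2 : 1 + ∑ k ∈ Finset.range r, σ ^ (k + 2) = 1 - σ := by
    have h3 : ∑ k ∈ Finset.range (r + 1), σ ^ (k + 1) = 0 := by
      simp only [pow_succ, ← Finset.sum_mul] at h1 ⊢
      rw [h1, zero_mul]
    rw [Finset.sum_range_succ', zero_add, pow_one] at h3
    rw [eq_neg_of_add_eq_zero_left h3, sub_eq_add_neg]
  have h3 : Polynomial.aeval σ p = (1 - σ) ^ H * n := by
    rw [hp, map_mul, map_natCast, map_pow, map_add, map_one, map_sum, (Nat.cast_commute n _).eq]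
    simp only [map_pow, Polynomial.aeval_X, Nat.add_sub_cancel, h2]
  have h4 := DFunLike.congr_fun (h3.symm.trans (Polynomial.aeval_eq_sum_range σ)) x
  rw [desc_sum_apply] at h4
  exact h4

end Crest.Agent.R312
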