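import Crest.Agent.R312.A2Cross1
import Crest.Agent.R312.A2Desc

/-!
# R312 / A2Cross2 : the cross-chart theorem
-/

set_option autoImplicit false

open Polynomial WithZero

noncomputable section

namespace Crest.Agent.R312

variable {F : Type} [Field F]

/-- `R[1/Y]` as a subring of `L` -/
def Cv.RS (E : Cv F) : Subring E.L where
  carrier := {x | ∃ (N : ℕ) (u : E.R), x * E.j E.Y ^ N = E.j u}
  mul_mem' := by
    rintro x y ⟨N, u, h⟩ ⟨M, w, h'⟩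
    exact ⟨N + M, u * w, by rw [map_mul, ← h, ← h']; ring⟩
  one_mem' := ⟨0, 1, by simp⟩
  add_mem' := by
    rintro x y ⟨N, u, h⟩ ⟨M, w, h'⟩
    exact ⟨N + M, u * E.Y ^ M + w * E.Y ^ N, by
      rw [map_add, map_mul, map_mul, map_pow, map_pow, ← h, ← h']; ring⟩
  zero_mem' := ⟨0, 0, by simp⟩
  neg_mem' := by
    rintro x ⟨N, u, h⟩
    exact ⟨N, -u, by rw [map_neg, ← h]; ring⟩

/-- `∏_{j<K} (σ^j P)^(n j)` -/
def Cv.Pprod (E : Cv F) (K : ℕ) (n : ℕ → ℕ) : Ideal E.R := ∏ j ∈ Finset.range K, E.sI j E.P ^ n j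

namespace Fam

variable [DecidableEq F] (Φ : Fam F)

omit [DecidableEq F] in
theorem cross2_j_mem (E : Cv F) (u : E.R) : E.j u ∈ E.RS := ⟨0, u, by simp⟩

omit [DecidableEq F] in
theorem cross2_Y_inv_mem (E : Cv F) : (E.j E.Y)⁻¹ ∈ E.RS :=
  ⟨1, 1, by rw [pow_one, inv_mul_cancel₀ (E.j_ne E.Y_ne), map_one]⟩

theorem cross2_ell_inv_mem {a a' : F} (ha : a ∈ Φ.T) (ha' : a' ∈ Φ.T) (haa : a ≠ a') :
    (Φ.ell ha a')⁻¹ ∈ (Φ.chart a ha).RS := by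
  obtain ⟨q, hq⟩ : (1 + C (a - a') * X : F[X]) ∣ (Φ.chart a ha).g :=
    Finset.dvd_prod_of_mem (fun b => (1 + C (a - b) * X : F[X])) (Finset.mem_erase.2 ⟨haa.symm, ha'⟩)
  refine ⟨(Φ.chart a ha).r, (Φ.chart a ha).of q, ?_⟩
  rw [← map_pow, Cv.Y_pow_r, hq, map_mul, map_mul]
  exact inv_mul_cancel_left₀ (Φ.ell_ne ha a') _

theorem cross2_τp_C {a : F} (ha : a ∈ Φ.T) (a' c : F) :
    Φ.τp ha a' (C c) = (Φ.chart a ha).j ((Φ.chart a ha).of (C c)) := aeval_C _ _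

theorem cross2_τp_X {a : F} (ha : a ∈ Φ.T) (a' : F) :
    Φ.τp ha a' X = (Φ.chart a ha).j ((Φ.chart a ha).of X) / Φ.ell ha a' := aeval_X _

theorem cross2_τp_mem {a a' : F} (ha : a ∈ Φ.T) (ha' : a' ∈ Φ.T) (haa : a ≠ a') (p : F[X]) :
    Φ.τp ha a' p ∈ (Φ.chart a ha).RS := by
  induction p using Polynomial.induction_on with
  | C c =>
    rw [cross2_τp_C]
    exact cross2_j_mem _ _
  | add p q hp hq =>
    rw [map_add]
    exact add_mem hp hq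
  | monomial n c h =>
    rw [pow_succ, ← mul_assoc, map_mul, cross2_τp_X, div_eq_mul_inv]
    exact mul_mem h (mul_mem (cross2_j_mem _ _) (Φ.cross2_ell_inv_mem ha ha' haa))

/-- `ℓ ∣ g_a = Y^r` for `a' ≠ a`, so `ℓ⁻¹ ∈ RS`; induction on polynomials / `sum_comp` -/
theorem τ_mem_RS {a a' : F} (ha : a ∈ Φ.T) (ha' : a' ∈ Φ.T) (haa : a ≠ a') (u : (Φ.chart a' ha').R) :
    Φ.τ ha ha' u ∈ (Φ.chart a ha).RS := by
  rw [← (Φ.chart a' ha').sum_comp u, map_sum]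
  refine sum_mem fun b _ => ?_
  rw [map_mul, map_pow, τ_of, τ_Y, div_eq_mul_inv, ← inv_pow]
  exact mul_mem (Φ.cross2_τp_mem ha ha' haa _) (pow_mem (mul_mem (cross2_j_mem _ _)
    (pow_mem (Φ.cross2_ell_inv_mem ha ha' haa) _)) _)

omit [DecidableEq F] in
theorem cross2_map (E : Cv F) {T : Type} [CommRing T] (f : E.R →+* T) (hf : IsUnit (f E.Y)) {K : ℕ}
    {n : ℕ → ℕ} {k : F → ℕ} {z : E.R} (hz : Ideal.span {z} = E.Pprod K n * E.Wprod k) :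
    Ideal.span {f z} = ∏ j ∈ Finset.range K,
      Ideal.span {f (E.of X), f (E.of (C (E.ζ ^ j))) * f E.Y - 1} ^ n j := by
  have h1 : (E.Wprod k).map f = ⊤ :=
    Ideal.eq_top_of_isUnit_mem _ (Ideal.mem_map_of_mem f (E.Y_pow_mem_Wprod k))
      (by rw [map_pow]; exact hf.pow _)
  have h2 := congrArg (Ideal.mapHom f) hz
  rw [map_mul, Cv.Pprod, map_prod] at h2
  simp only [map_pow, Ideal.mapHom_apply] at h2
  rw [h1, Ideal.mul_top, Ideal.map_span, Set.image_singleton] at h2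
  rw [h2]
  refine Finset.prod_congr rfl fun j _ => ?_
  rw [Cv.P, Cv.sI_span, Ideal.map_span, Set.image_pair, Set.image_pair, map_sub, map_one,
    Cv.σ_pow_of, Cv.σ_pow_Y, map_sub, map_one, map_mul]

theorem cross2_span {T : Type} [CommRing T] {x y c l li d : T} (e : ℕ) (h : l * li = 1)
    (hl : l = 1 + d * x) :
    Ideal.span {x * li, c * (y * li ^ e) - 1} = Ideal.span {x, c * y - 1} := by
  obtain ⟨w, hw⟩ : x ∣ l ^ e - 1 := by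
    have h1 := sub_dvd_pow_sub_pow l 1 e
    rw [one_pow] at h1
    exact (Dvd.intro_left d (by rw [hl]; ring)).trans h1
  have he : l ^ e * li ^ e = 1 := by rw [← mul_pow, h, one_pow]
  refine le_antisymm ?_ ?_
  · rw [Ideal.span_le, Set.insert_subset_iff, Set.singleton_subset_iff]
    exact ⟨Ideal.mem_span_pair.2 ⟨li, 0, by ring⟩,
      Ideal.mem_span_pair.2 ⟨-(li ^ e * w), li ^ e, by linear_combination li ^ e * hw - he⟩⟩
  · rw [Ideal.span_le, Set.insert_subset_iff, Set.singleton_subset_iff]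
    exact ⟨Ideal.mem_span_pair.2 ⟨l, 0, by linear_combination x * h⟩,
      Ideal.mem_span_pair.2 ⟨l * w, l ^ e, by linear_combination x * w * h + c * y * he - hw⟩⟩

/-- **The generators differ by a unit of `R_S`.**  Let `T = RS`, `j₀ : R_a →+* T` and `τ₀ : R_{a'} →+* T` the
corestrictions (`RingHom.codRestrict`).  `map j₀ (W α) = ⊤ = map τ₀ (W' β)` (`Y` and `Y/ℓ^(n/r)` are units of
`T`), and `map j₀ (σ^j P) = map τ₀ (σ^j P')`: both are generated by `X` and `ζ^j Y - 1` resp. `X/ℓ` and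
`ζ^j Y/ℓ^(n/r) - 1`, `ℓ` is a unit of `T` and `ℓ^(n/r) - 1 ∈ (X)`.  Hence (`Ideal.map_mul`, `map_prod`,
`map_pow`, `map_span`) `span {j₀ z} = span {τ₀ z'}`. -/
theorem unit_RS {a a' : F} (ha : a ∈ Φ.T) (ha' : a' ∈ Φ.T) (haa : a ≠ a') {K : ℕ} {n : ℕ → ℕ}
    {k k' : F → ℕ} {z : (Φ.chart a ha).R} {z' : (Φ.chart a' ha').R}
    (hz : Ideal.span {z} = (Φ.chart a ha).Pprod K n * (Φ.chart a ha).Wprod k)
    (hz' : Ideal.span {z'} = (Φ.chart a' ha').Pprod K n * (Φ.chart a' ha').Wprod k') :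
    ∃ t ∈ (Φ.chart a ha).RS, t ≠ 0 ∧ t⁻¹ ∈ (Φ.chart a ha).RS ∧
      (Φ.chart a ha).j z = t * Φ.τ ha ha' z' := by
  let E := Φ.chart a ha
  let j₀ : E.R →+* E.RS := E.j.codRestrict E.RS (cross2_j_mem E)
  let τ₀ : (Φ.chart a' ha').R →+* E.RS := (Φ.τ ha ha').codRestrict E.RS (Φ.τ_mem_RS ha ha' haa)
  let li : E.RS := ⟨(Φ.ell ha a')⁻¹, Φ.cross2_ell_inv_mem ha ha' haa⟩
  have hl : j₀ (E.of (1 + C (a - a') * X)) * li = 1 :=
    Subtype.ext (mul_inv_cancel₀ (Φ.ell_ne ha a'))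
  have hY : IsUnit (j₀ E.Y) :=
    IsUnit.of_mul_eq_one ⟨_, cross2_Y_inv_mem E⟩ (Subtype.ext (mul_inv_cancel₀ (E.j_ne E.Y_ne)))
  have e1 : τ₀ (Φ.chart a' ha').Y = j₀ E.Y * li ^ (Φ.T.card / Φ.r) := Subtype.ext (by
    change Φ.τ ha ha' (Φ.chart a' ha').Y = E.j E.Y * (Φ.ell ha a')⁻¹ ^ (Φ.T.card / Φ.r)
    rw [τ_Y, div_eq_mul_inv, inv_pow])
  have e2 : τ₀ ((Φ.chart a' ha').of X) = j₀ (E.of X) * li := Subtype.ext (by
    change Φ.τ ha ha' ((Φ.chart a' ha').of X) = E.j (E.of X) * (Φ.ell ha a')⁻¹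
    rw [τ_of, cross2_τp_X, div_eq_mul_inv])
  have e3 : ∀ c : F, τ₀ ((Φ.chart a' ha').of (C c)) = j₀ (E.of (C c)) := fun c => Subtype.ext (by
    change Φ.τ ha ha' ((Φ.chart a' ha').of (C c)) = E.j (E.of (C c))
    rw [τ_of, cross2_τp_C])
  have hY' : IsUnit (τ₀ (Φ.chart a' ha').Y) := by
    rw [e1]
    exact hY.mul ((IsUnit.of_mul_eq_one_right _ hl).pow _)
  have h1 := cross2_map E j₀ hY hz
  have h2 := cross2_map _ τ₀ hY' hz'
  have h3 : Ideal.span {τ₀ z'} = Ideal.span {j₀ z} := by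
    rw [h1, h2]
    refine Finset.prod_congr rfl fun j _ => ?_
    rw [e1, e2, e3, cross2_span (d := j₀ (E.of (C (a - a')))) _ hl
      (by rw [map_add, map_add, map_one, map_one, map_mul, map_mul])]
    rfl
  obtain ⟨u, hu⟩ := Ideal.span_singleton_eq_span_singleton.1 h3
  have h4 : ((u : E.RS) : E.L) * ((u⁻¹ : E.RSˣ) : E.RS) = 1 := congrArg Subtype.val u.mul_inv
  refine ⟨(u : E.RS), (u : E.RS).2, left_ne_zero_of_mul_eq_one h4, ?_, ?_⟩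
  · rw [← eq_inv_of_mul_eq_one_right h4]
    exact ((u⁻¹ : E.RSˣ) : E.RS).2
  · rw [mul_comm]
    exact (congrArg Subtype.val hu).symm

theorem cross2_cop {a : F} (ha : a ∈ Φ.T) (K : ℕ) (n : ℕ → ℕ) :
    (Φ.chart a ha).Cop ((Φ.chart a ha).Pprod K n) :=
  Cv.cop_prod _ _ _ fun j _ => ((Cv.cop_P _ (Φ.chart_g_eval_zero ha)).sI j).pow _

theorem cross2_ne {a : F} (ha : a ∈ Φ.T) {K : ℕ} {n : ℕ → ℕ} {k : F → ℕ} {z : (Φ.chart a ha).R}
    (hz : Ideal.span {z} = (Φ.chart a ha).Pprod K n * (Φ.chart a ha).Wprod k) : z ≠ 0 := by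
  rw [Ne, ← Ideal.span_singleton_eq_bot, hz]
  exact mul_ne_zero (Φ.cross2_cop ha K n).ne_bot (Cv.Wprod_ne_bot _ k)

theorem cross2_log {a b : F} (ha : a ∈ Φ.T) (hb : b ∈ Φ.T) (hab : b ≠ a) {K : ℕ} {n : ℕ → ℕ}
    {k : F → ℕ} {z : (Φ.chart a ha).R}
    (hz : Ideal.span {z} = (Φ.chart a ha).Pprod K n * (Φ.chart a ha).Wprod k) :
    log ((Φ.pl ha hb).VR z) = -(k (b - a)⁻¹ : ℤ) := by
  rw [pl, dif_neg hab, Cv.V_of_span_eq _ (Φ.cross2_cop ha K n) hz, log_exp]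

/-- `unit_RS`, `sunit_eig`, `V_eig`, `V_τ` -/
theorem pair {a a' : F} (ha : a ∈ Φ.T) (ha' : a' ∈ Φ.T) (haa : a ≠ a') {K : ℕ} {n : ℕ → ℕ}
    {k k' : F → ℕ} {z : (Φ.chart a ha).R} {z' : (Φ.chart a' ha').R}
    (hz : Ideal.span {z} = (Φ.chart a ha).Pprod K n * (Φ.chart a ha).Wprod k)
    (hz' : Ideal.span {z'} = (Φ.chart a' ha').Pprod K n * (Φ.chart a' ha').Wprod k') :
    ∃ μ : ℤ, ∀ b (hb : b ∈ Φ.T),
      log ((Φ.pl ha hb).VR z) - log ((Φ.pl ha' hb).VR z') ≡ μ [ZMOD Φ.r] := by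
  obtain ⟨t, ⟨N, u, h1⟩, ht, ⟨M, w, h2⟩, h3⟩ := Φ.unit_RS ha ha' haa hz hz'
  obtain ⟨b₀, -, hb₀⟩ := (Φ.chart a ha).sunit_eig ht (N := N + M) (u := u * (Φ.chart a ha).Y ^ M)
    (u' := w * (Φ.chart a ha).Y ^ N) (by rw [map_mul, map_pow, ← h1]; ring)
    (by rw [map_mul, map_pow, ← h2]; ring)
  refine ⟨-b₀, fun b hb => ?_⟩
  have h4 := (Φ.pl ha hb).V_ne ht
  have h5 := (Φ.pl ha hb).V_eig hb₀ (exp_log h4).symm
  rw [← PlA.V_j, h3, map_mul, Φ.V_τ ha ha' hb haa,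
    log_mul h4 ((Φ.pl ha' hb).VR_ne (Φ.cross2_ne ha' hz')), add_sub_cancel_right]
  refine (Int.modEq_iff_dvd.2 ?_).symm
  rwa [sub_neg_eq_add]

/-- **(α)** -/
theorem cross_alpha (hT : Φ.T.Nonempty) {n : ℕ} (hn : ¬ Φ.r ∣ n) :
    ¬ ∀ a (ha : a ∈ Φ.T), n • (Φ.chart a ha).clA (Φ.chart a ha).P = 0 := by
  intro h
  have key : ∀ a (ha : a ∈ Φ.T), ∃ z : (Φ.chart a ha).R,
      Ideal.span {z} = (Φ.chart a ha).Pprod 1 (fun _ => n) * (Φ.chart a ha).Wprod (fun _ => 0) ∧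
        log ((Φ.pl ha ha).VR z) = n := by
    intro a ha
    have hP := Cv.cop_P _ (Φ.chart_g_eval_zero ha)
    obtain ⟨z, hz⟩ := (Cv.cl_eq_zero_iff _ (hP.pow n).ne_bot).1
      ((Cv.cl_pow _ hP.ne_bot n).trans (h a ha))
    have hz' : Ideal.span {z} =
        (Φ.chart a ha).Pprod 1 (fun _ => n) * (Φ.chart a ha).Wprod (fun _ => 0) := by
      rw [← hz, Cv.Pprod, Cv.Wprod, Finset.prod_range_one, Cv.sI_zero]
      simp only [pow_zero, Finset.prod_const_one, mul_one]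
    refine ⟨z, hz', ?_⟩
    have h1 := ((Cv.isNu_P _ (Φ.chart_g_eval_zero ha)).pow n).2
    rw [hz, Cv.Ik_span_singleton, Ideal.span_singleton_eq_span_singleton] at h1
    have h2 : Associated ((Φ.chart a ha).nm z) (X ^ n) :=
      associated_of_dvd_dvd ((Cv.of_dvd_of_iff _).1 h1.dvd) ((Cv.of_dvd_of_iff _).1 h1.symm.dvd)
    rw [pl, dif_pos rfl, Cv.pInf_VR_eq _ (Φ.cross2_ne ha hz'), log_exp,
      natDegree_eq_of_degree_eq (degree_eq_degree_of_associated h2), natDegree_X_pow]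
  obtain ⟨a₀, ha₀⟩ := hT
  obtain ⟨a, ha, a', ha', b, hb, h1, h2, h3⟩ := Finset.two_lt_card.1 (Φ.three_le_card ha₀)
  obtain ⟨z, hz, hz1⟩ := key a ha
  obtain ⟨z', hz', -⟩ := key a' ha'
  obtain ⟨μ, hμ⟩ := Φ.pair ha ha' h1 hz hz'
  have h4 := hμ a ha
  have h5 := hμ b hb
  rw [hz1, Φ.cross2_log ha' ha h1 hz'] at h4
  rw [Φ.cross2_log ha hb h2.symm hz, Φ.cross2_log ha' hb h3.symm hz'] at h5
  have h6 := (h5.trans h4.symm).dvd
  apply hn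
  simpa [Int.natCast_dvd_natCast] using h6

/-- **(β)**  (`c a` is indexed by the roots `(b - a)⁻¹` of `g_a`) -/
theorem cross_beta {H n : ℕ} {c : F → F → ℤ}
    (h : ∀ a (ha : a ∈ Φ.T), ((Φ.chart a ha).φ ^ H) (n • (Φ.chart a ha).clA (Φ.chart a ha).P) =
      (Φ.chart a ha).Wsum (c a)) :
    ∃ cs lam : F → ℤ, ∀ a ∈ Φ.T, ∀ b ∈ Φ.T, b ≠ a → c a (b - a)⁻¹ ≡ cs b + lam a [ZMOD Φ.r] := by
  rcases Φ.T.eq_empty_or_nonempty with hT | ⟨a₀, ha₀⟩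
  · exact ⟨0, 0, fun a ha => absurd ha (by simp [hT])⟩
  obtain ⟨K, α, hα⟩ := exists_nonneg_expansion Φ.r H n
  have hr : (Φ.r : ℤ) ≠ 0 := by exact_mod_cast Φ.hr.ne_zero
  have hk : ∀ x : ℤ, ((((-x) % Φ.r).toNat : ℕ) : ℤ) ≡ -x [ZMOD Φ.r] := fun x => by
    rw [Int.toNat_of_nonneg (Int.emod_nonneg _ hr)]
    exact Int.mod_modEq _ _
  have key : ∀ a (ha : a ∈ Φ.T), ∃ z : (Φ.chart a ha).R, Ideal.span {z} =
      (Φ.chart a ha).Pprod K α * (Φ.chart a ha).Wprod fun β => ((-c a β) % Φ.r).toNat := by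
    intro a ha
    have hP := Cv.cop_P _ (Φ.chart_g_eval_zero ha)
    have h1 : (Φ.chart a ha).clA ((Φ.chart a ha).Pprod K α) = (Φ.chart a ha).Wsum (c a) := by
      rw [← h a ha, Cv.φ, hα _ (Φ.chart a ha).σG Φ.hr.pos (Φ.chart a ha).sum_σG_pow, Cv.Pprod,
        Cv.cl_prod _ _ _ fun j _ => ((hP.sI j).pow _).ne_bot]
      exact Finset.sum_congr rfl fun j _ => by rw [Cv.cl_pow _ (hP.sI j).ne_bot, Cv.σG_pow_cl]
    obtain ⟨z, hz⟩ := (Cv.cl_eq_zero_iff _ (mul_ne_zero (Φ.cross2_cop ha K α).ne_bot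
      (Cv.Wprod_ne_bot _ fun β => ((-c a β) % Φ.r).toNat))).1 (by
        rw [Cv.cl_mul _ (Φ.cross2_cop ha K α).ne_bot (Cv.Wprod_ne_bot _ _), h1, Cv.cl_Wprod,
          Cv.Wsum_congr _ (c := fun β => (((-c a β) % Φ.r).toNat : ℕ)) (c' := -c a)
            fun β _ => hk (c a β), Cv.Wsum_neg, add_neg_cancel])
    exact ⟨z, hz.symm⟩
  choose z hz using key
  have key2 : ∀ a, ∃ μ : ℤ, ∀ (ha : a ∈ Φ.T) b (hb : b ∈ Φ.T),
      log ((Φ.pl ha hb).VR (z a ha)) - log ((Φ.pl ha₀ hb).VR (z a₀ ha₀)) ≡ μ [ZMOD Φ.r] := by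
    intro a
    by_cases ha : a ∈ Φ.T
    · by_cases h0 : a = a₀
      · subst h0
        exact ⟨0, fun _ b hb => by rw [sub_self]⟩
      · obtain ⟨μ, hμ⟩ := Φ.pair ha ha₀ h0 (hz a ha) (hz a₀ ha₀)
        exact ⟨μ, fun _ => hμ⟩
    · exact ⟨0, fun h => absurd h ha⟩
  choose μ hμ using key2
  refine ⟨fun b => if hb : b ∈ Φ.T then log ((Φ.pl ha₀ hb).VR (z a₀ ha₀)) else 0, μ,
    fun a ha b hb hab => ?_⟩
  have h1 := (hμ a ha b hb).add_left (log ((Φ.pl ha₀ hb).VR (z a₀ ha₀)))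
  rw [add_sub_cancel, Φ.cross2_log ha hb hab (hz a ha)] at h1
  have h2 := (hk (c a (b - a)⁻¹)).neg
  rw [neg_neg] at h2
  simp only [dif_pos hb]
  exact h2.symm.trans h1

theorem Wsum_chart {a : F} (ha : a ∈ Φ.T) (c : F → ℤ) :
    (Φ.chart a ha).Wsum c =
      ∑ b ∈ Φ.T.erase a, c (b - a)⁻¹ • (Φ.chart a ha).clA ((Φ.chart a ha).W (b - a)⁻¹) :=
  Finset.sum_image (fun b _ b' _ h => by simpa using h)

/-- **(β)** with `c a` indexed by `b` -/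
theorem cross_beta' {H n : ℕ} {c : F → F → ℤ}
    (h : ∀ a (ha : a ∈ Φ.T), ((Φ.chart a ha).φ ^ H) (n • (Φ.chart a ha).clA (Φ.chart a ha).P) =
      ∑ b ∈ Φ.T.erase a, c a b • (Φ.chart a ha).clA ((Φ.chart a ha).W (b - a)⁻¹)) :
    ∃ cs lam : F → ℤ, ∀ a ∈ Φ.T, ∀ b ∈ Φ.T, b ≠ a → c a b ≡ cs b + lam a [ZMOD Φ.r] := by
  obtain ⟨cs, lam, h'⟩ := Φ.cross_beta (H := H) (n := n) (c := fun a α => c a (α⁻¹ + a))
    (fun a ha => by rw [h a ha, Wsum_chart]; simp)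
  exact ⟨cs, lam, fun a ha b hb hab => by simpa using h' a ha b hb hab⟩

end Fam

end Crest.Agent.R312
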