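import Crest.Agent.R312.A2Div
import Crest.Agent.R312.A2Cross2

/-!
# R312 / A2 : all of section A2.  Interface for A3:

* `A2Defs`: `Cv`, `R`, `comp`, `σ`, `nm`, `Le`, `sI`, `Ik`, `W`, `P`, `Cop`, `IsNu`, `InV`, `Jstar`, `Fam.chart`.
* `A2Basic`, `A2Val` (`IsDomain`, `nm_ne`, `le_iff_nm`), `A2W` (`strip_coprime`, `drop`), `A2Nu` (`IsNu.*`,
  `isNu_P`, `Cop.isNu_of_min`), `A2Cl` (`G`, `clA`, `σG`, `φ`, `Wsum`, `Wsum_eq_zero_iff`, `φ_cl_drop`,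
  `cl_drop_Y_add`), `A2Count` (`Finite G`, `card_G_le`), `A2Dim` (`div_exists`), `A2Div` (`div_main`),
  `A2Desc` (`DInv.*`, `exists_common_mult`), `A2Cross2` (`cross_alpha`, `cross_beta`).
-/
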