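import Crest.Agent.R312.A2Defs

/-!
# R312 / A2Basic : components, `σ`, the norm
-/

set_option autoImplicit false

open Polynomial

noncomputable section

namespace Crest.Agent.R312.Cv

variable {F : Type} [Field F] (E : Cv F)

theorem three_le_r : 3 ≤ E.r := by
  have := E.hr.two_le; have := E.hr2; omega

theorem r_pos : 0 < E.r := E.hr.pos

theorem r_odd : Odd E.r := E.hr.odd_of_ne_two E.hr2

theorem r_ne_zero : (E.r : F) ≠ 0 := by
  have : NeZero E.r := ⟨E.hr.ne_zero⟩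
  exact E.hζ.neZero'.out

theorem two_le_m : 2 ≤ E.m := by
  have h := Nat.le_of_dvd (Nat.succ_pos _) E.hdiv
  have := E.three_le_r
  show 2 ≤ E.S.card
  omega

theorem S_nonempty : E.S.Nonempty := Finset.card_pos.1 (by have := E.two_le_m; show 0 < E.m; omega)

theorem g_ne : E.g ≠ 0 := by
  rw [E.hg]
  exact mul_ne_zero (C_ne_zero.2 E.hlc) (monic_prod_of_monic _ _ fun α _ => monic_X_sub_C α).ne_zero

theorem g_natDegree : E.g.natDegree = E.m := by
  rw [E.hg, natDegree_C_mul E.hlc, natDegree_prod_of_monic _ _ fun α _ => monic_X_sub_C α]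
  simp

theorem g_eval_eq_zero_iff (α : F) : E.g.eval α = 0 ↔ α ∈ E.S := by
  rw [E.hg]
  simp [E.hlc, eval_prod, Finset.prod_eq_zero_iff, sub_eq_zero]

theorem g_squarefree : Squarefree E.g := by
  rw [E.hg]
  refine (Associated.squarefree_iff (associated_isUnit_mul_left_iff (isUnit_C.2 E.hlc.isUnit) |>.2
    (Associated.refl _))).2 ?_
  exact (separable_prod_X_sub_C_iff'.2 (fun a _ b _ h => h)).squarefree

theorem g_rootMultiplicity {α : F} (hα : α ∈ E.S) : E.g.rootMultiplicity α = 1 := by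
  classical
  have h1 : (X - C α) ^ 1 ∣ E.g := by
    rw [pow_one, dvd_iff_isRoot]; exact (E.g_eval_eq_zero_iff α).2 hα
  have h2 : ¬ (X - C α) ^ 2 ∣ E.g := fun h => by
    have := E.g_squarefree (X - C α) (by rwa [← sq])
    exact not_isUnit_X_sub_C α this
  rw [← le_rootMultiplicity_iff E.g_ne] at h1 h2
  omega

/-- a polynomial divisible by `(X - α)^k` for all roots `α` of `g` is divisible by `g^k` -/
theorem g_pow_dvd {p : F[X]} {k : ℕ} (h : ∀ α ∈ E.S, (X - C α) ^ k ∣ p) : E.g ^ k ∣ p := by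
  rw [E.hg, mul_pow, ← C_pow, IsUnit.mul_left_dvd (isUnit_C.2 (E.hlc.isUnit.pow k)),
    ← Finset.prod_pow]
  refine Finset.prod_dvd_of_coprime (fun a _ b _ hab => ?_) h
  exact ((pairwise_coprime_X_sub_C (s := id) Function.injective_id) hab).pow

theorem g_dvd_iff {p : F[X]} : E.g ∣ p ↔ ∀ α ∈ E.S, p.eval α = 0 := by
  constructor
  · rintro ⟨q, rfl⟩ α hα
    rw [eval_mul, (E.g_eval_eq_zero_iff α).2 hα, zero_mul]
  · intro h
    have := E.g_pow_dvd (p := p) (k := 1) fun α hα => by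
      rw [pow_one, dvd_iff_isRoot]; exact h α hα
    rwa [pow_one] at this

theorem isCoprime_g_iff {p : F[X]} : IsCoprime p E.g ↔ ∀ α ∈ E.S, p.eval α ≠ 0 := by
  constructor
  · rintro ⟨s, t, h⟩ α hα h0
    have := congrArg (eval α) h
    simp [h0, (E.g_eval_eq_zero_iff α).2 hα] at this
  · intro h
    rw [E.hg, isCoprime_mul_unit_left_right (isUnit_C.2 E.hlc.isUnit)]
    refine IsCoprime.prod_right fun α hα => ?_
    exact ((irreducible_X_sub_C α).coprime_iff_not_dvd.2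
      (fun hd => h α hα (dvd_iff_isRoot.1 hd))).symm

theorem pol_natDegree : E.pol.natDegree = E.r := natDegree_X_pow_sub_C

theorem of_injective : Function.Injective E.of := by
  refine AdjoinRoot.of.injective_of_degree_ne_zero ?_
  rw [pol, degree_X_pow_sub_C E.r_pos]
  exact_mod_cast E.hr.ne_zero

theorem comp_mk (p : F[X][X]) (b : ℕ) :
    E.comp b (AdjoinRoot.mk E.pol p) = (p %ₘ E.pol).coeff b := by
  simp [comp]

theorem comp_mk_of_lt {p : F[X][X]} (hp : p.natDegree < E.r) (b : ℕ) :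
    E.comp b (AdjoinRoot.mk E.pol p) = p.coeff b := by
  rw [comp_mk, (modByMonic_eq_self_iff E.pol_monic).2]
  rw [degree_eq_natDegree E.pol_monic.ne_zero, pol_natDegree]
  exact lt_of_le_of_lt degree_le_natDegree (by exact_mod_cast hp)

theorem comp_of_le {b : ℕ} (hb : E.r ≤ b) (u : E.R) : E.comp b u = 0 := by
  obtain ⟨p, rfl⟩ := AdjoinRoot.mk_surjective u
  rw [comp_mk]
  apply coeff_eq_zero_of_degree_lt
  refine (degree_modByMonic_lt p E.pol_monic).trans_le ?_
  rw [degree_eq_natDegree E.pol_monic.ne_zero, pol_natDegree]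
  exact_mod_cast hb

theorem sum_comp (u : E.R) : ∑ b ∈ Finset.range E.r, E.of (E.comp b u) * E.Y ^ b = u := by
  obtain ⟨p, rfl⟩ := AdjoinRoot.mk_surjective u
  have hd : (p %ₘ E.pol).natDegree < E.r := by
    by_cases h0 : p %ₘ E.pol = 0
    · rw [h0]; simpa using E.r_pos
    · have := degree_modByMonic_lt p E.pol_monic
      rw [degree_eq_natDegree E.pol_monic.ne_zero, pol_natDegree] at this
      exact (natDegree_lt_iff_degree_lt h0).2 this
  have h1 : AdjoinRoot.mk E.pol (p %ₘ E.pol) = AdjoinRoot.mk E.pol p :=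
    AdjoinRoot.mk_leftInverse E.pol_monic (AdjoinRoot.mk E.pol p)
  conv_rhs => rw [← h1, (p %ₘ E.pol).as_sum_range' _ hd, map_sum]
  refine Finset.sum_congr rfl fun b _ => ?_
  rw [comp_mk, ← C_mul_X_pow_eq_monomial, map_mul, map_pow, AdjoinRoot.mk_C, AdjoinRoot.mk_X]

theorem comp_of_mul (p : F[X]) (u : E.R) (b : ℕ) : E.comp b (E.of p * u) = p * E.comp b u := by
  rw [← smul_eq_mul p, ← map_smul, Algebra.smul_def]; rfl

theorem comp_smul (a : F) (u : E.R) (b : ℕ) : E.comp b (a • u) = C a * E.comp b u := by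
  rw [Algebra.smul_def, ← comp_of_mul]; rfl

theorem comp_Y_pow {s : ℕ} (hs : s < E.r) (b : ℕ) : E.comp b (E.Y ^ s) = if b = s then 1 else 0 := by
  have : E.Y ^ s = AdjoinRoot.mk E.pol (X ^ s) := by rw [map_pow, AdjoinRoot.mk_X]
  rw [this, comp_mk_of_lt _ (by simpa using hs), coeff_X_pow]

theorem comp_of_mul_Y_pow (p : F[X]) {s : ℕ} (hs : s < E.r) (b : ℕ) :
    E.comp b (E.of p * E.Y ^ s) = if b = s then p else 0 := by
  rw [comp_of_mul, comp_Y_pow _ hs]; split_ifs <;> simp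

theorem comp_of (p : F[X]) (b : ℕ) : E.comp b (E.of p) = if b = 0 then p else 0 := by
  simpa using E.comp_of_mul_Y_pow p E.r_pos b

theorem comp_sum (p : ℕ → F[X]) {b : ℕ} (hb : b < E.r) :
    E.comp b (∑ s ∈ Finset.range E.r, E.of (p s) * E.Y ^ s) = p b := by
  rw [map_sum, Finset.sum_congr rfl fun s hs => E.comp_of_mul_Y_pow (p s) (Finset.mem_range.1 hs) b]
  simp [hb]

theorem ext_comp {u v : E.R} (h : ∀ b < E.r, E.comp b u = E.comp b v) : u = v := by
  rw [← E.sum_comp u, ← E.sum_comp v]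
  exact Finset.sum_congr rfl fun b hb => by rw [h b (Finset.mem_range.1 hb)]

theorem of_dvd_iff {p : F[X]} {u : E.R} : E.of p ∣ u ↔ ∀ b < E.r, p ∣ E.comp b u := by
  constructor
  · rintro ⟨v, rfl⟩ b _
    rw [comp_of_mul]; exact dvd_mul_right _ _
  · intro h
    rw [← E.sum_comp u]
    exact Finset.dvd_sum fun b hb => (map_dvd E.of (h b (Finset.mem_range.1 hb))).mul_right _

theorem of_dvd_of_iff {p q : F[X]} : E.of p ∣ E.of q ↔ p ∣ q := by
  refine ⟨fun h => ?_, map_dvd E.of⟩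
  simpa [comp_of] using E.of_dvd_iff.1 h 0 E.r_pos

theorem algebraMap_F (a : F) : algebraMap F E.R a = E.of (C a) := rfl

theorem σ_pow_of (k : ℕ) (p : F[X]) : (E.σ ^ k) (E.of p) = E.of p := (E.σ ^ k).commutes p

theorem σ_of (p : F[X]) : E.σ (E.of p) = E.of p := E.σ.commutes p

theorem σ_pow_Y (k : ℕ) : (E.σ ^ k) E.Y = E.of (C (E.ζ ^ k)) * E.Y := by
  induction k with
  | zero => simp
  | succ k ih =>
    rw [pow_succ', AlgEquiv.mul_apply, ih, map_mul, σ_of, σ_Y, ← mul_assoc, ← map_mul, ← C_mul,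
      ← pow_succ]

theorem σ_pow_r : E.σ ^ E.r = 1 := by
  apply AlgEquiv.coe_toAlgHom_injective
  apply AdjoinRoot.algHom_ext
  have := E.σ_pow_Y E.r
  rw [E.hζ.pow_eq_one] at this
  simpa using this

theorem comp_σ_pow (k b : ℕ) (u : E.R) :
    E.comp b ((E.σ ^ k) u) = C (E.ζ ^ (k * b)) * E.comp b u := by
  by_cases hb : b < E.r
  · conv_lhs => rw [← E.sum_comp u, map_sum]
    have : ∀ s ∈ Finset.range E.r, (E.σ ^ k) (E.of (E.comp s u) * E.Y ^ s) =
        E.of (C (E.ζ ^ (k * s)) * E.comp s u) * E.Y ^ s := fun s _ => by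
      rw [map_mul, map_pow, σ_pow_of, σ_pow_Y, mul_pow, ← map_pow, ← C_pow, ← pow_mul, map_mul]; ring
    rw [Finset.sum_congr rfl this, E.comp_sum (fun s => C (E.ζ ^ (k * s)) * E.comp s u) hb]
  · rw [E.comp_of_le (not_lt.1 hb), E.comp_of_le (not_lt.1 hb), mul_zero]

theorem comp_σ (b : ℕ) (u : E.R) : E.comp b (E.σ u) = C (E.ζ ^ b) * E.comp b u := by
  simpa using E.comp_σ_pow 1 b u

/-- `σ`-fixed elements are polynomials in `X` -/
theorem eq_of_σ_fixed {u : E.R} (h : E.σ u = u) : u = E.of (E.comp 0 u) := by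
  refine E.ext_comp fun b hb => ?_
  rw [comp_of]
  split_ifs with h0
  · rw [h0]
  · have h1 := E.comp_σ b u
    rw [h] at h1
    have h2 : C (E.ζ ^ b - 1) * E.comp b u = 0 := by rw [C_sub, sub_mul, ← h1]; simp
    refine (mul_eq_zero.1 h2).resolve_left ?_
    rw [C_eq_zero, sub_eq_zero]
    exact E.hζ.pow_ne_one_of_pos_of_lt h0 hb

/-- `∑_{k<r} ζ^(k j) = r` or `0` -/
theorem sum_ζ_zpow (j : ℤ) :
    ∑ k ∈ Finset.range E.r, E.ζ ^ ((k : ℤ) * j) = if (E.r : ℤ) ∣ j then (E.r : F) else 0 := by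
  have h1 : ∀ k ∈ Finset.range E.r, E.ζ ^ ((k : ℤ) * j) = (E.ζ ^ j) ^ k := fun k _ => by
    rw [mul_comm, zpow_mul, zpow_natCast]
  rw [Finset.sum_congr rfl h1]
  split_ifs with h
  · rw [(E.hζ.zpow_eq_one_iff_dvd j).2 h]; simp
  · have hne : E.ζ ^ j ≠ 1 := fun h' => h ((E.hζ.zpow_eq_one_iff_dvd j).1 h')
    have h2 := mul_geom_sum (E.ζ ^ j) E.r
    rw [← zpow_natCast, ← zpow_mul, mul_comm j, zpow_mul, zpow_natCast, E.hζ.pow_eq_one, one_zpow,
      sub_self] at h2
    exact (mul_eq_zero.1 h2).resolve_left (sub_ne_zero.2 hne)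

/-- the projection to the `b`-th component -/
theorem sum_σ_pow {b : ℕ} (hb : b < E.r) (u : E.R) :
    ∑ k ∈ Finset.range E.r, E.of (C (E.ζ⁻¹ ^ (k * b))) * (E.σ ^ k) u =
      E.of (C (E.r : F)) * (E.of (E.comp b u) * E.Y ^ b) := by
  refine E.ext_comp fun s hs => ?_
  rw [map_sum, comp_of_mul, comp_of_mul_Y_pow _ _ hb]
  have : ∀ k ∈ Finset.range E.r, E.comp s (E.of (C (E.ζ⁻¹ ^ (k * b))) * (E.σ ^ k) u) =
      C (E.ζ ^ ((k : ℤ) * ((s : ℤ) - b))) * E.comp s u := fun k _ => by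
    rw [comp_of_mul, comp_σ_pow, ← mul_assoc, ← C_mul, mul_sub, zpow_sub₀ E.ζ_ne, inv_pow,
      div_eq_inv_mul]
    norm_cast
  rw [Finset.sum_congr rfl this, ← Finset.sum_mul, ← map_sum, sum_ζ_zpow]
  by_cases hsb : s = b
  · simp [hsb]
  · rw [if_neg hsb, if_neg]
    · simp
    · intro hd
      have := Int.eq_zero_of_abs_lt_dvd hd (by rw [abs_lt]; constructor <;> omega)
      omega

theorem of_nm (u : E.R) : E.of (E.nm u) = ∏ k ∈ Finset.range E.r, (E.σ ^ k) u := by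
  refine (E.eq_of_σ_fixed ?_).symm
  rw [map_prod]
  have h1 : ∀ k ∈ Finset.range E.r, E.σ ((E.σ ^ k) u) = (E.σ ^ (k + 1)) u := fun k _ => by
    rw [pow_succ', AlgEquiv.mul_apply]
  rw [Finset.prod_congr rfl h1]
  obtain ⟨n, hn⟩ : ∃ n, E.r = n + 1 := ⟨E.r - 1, by have := E.r_pos; omega⟩
  have h2 := E.σ_pow_r
  rw [hn] at h2 ⊢
  rw [Finset.prod_range_succ, Finset.prod_range_succ' (fun k => (E.σ ^ k) u), h2, pow_zero]

theorem nm_mul (u v : E.R) : E.nm (u * v) = E.nm u * E.nm v := by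
  apply E.of_injective
  rw [map_mul, of_nm, of_nm, of_nm, ← Finset.prod_mul_distrib]
  simp only [map_mul]

theorem nm_one : E.nm 1 = 1 := by
  apply E.of_injective
  rw [of_nm]; simp

theorem nm_pow (u : E.R) (n : ℕ) : E.nm (u ^ n) = E.nm u ^ n := by
  induction n with
  | zero => simp [nm_one]
  | succ n ih => rw [pow_succ, nm_mul, ih, pow_succ]

theorem nm_of (p : F[X]) : E.nm (E.of p) = p ^ E.r := by
  apply E.of_injective
  rw [of_nm]; simp [σ_pow_of]

theorem nm_Y : E.nm E.Y = E.g := by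
  apply E.of_injective
  rw [of_nm]
  simp only [σ_pow_Y]
  rw [Finset.prod_mul_distrib, Finset.prod_const, Finset.card_range, Y_pow_r, ← map_prod, ← map_prod,
    Finset.prod_pow_eq_pow_sum]
  obtain ⟨s, hs⟩ := E.r_odd
  have h1 : ∑ i ∈ Finset.range E.r, i = E.r * s := by
    have := Finset.sum_range_id_mul_two E.r
    have h2 : E.r - 1 = 2 * s := by omega
    rw [h2] at this
    nlinarith
  rw [h1, pow_mul, E.hζ.pow_eq_one]; simp

theorem nm_σ_pow (k : ℕ) (u : E.R) : E.nm ((E.σ ^ k) u) = E.nm u := by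
  induction k with
  | zero => simp
  | succ k ih =>
    rw [← ih]
    apply E.of_injective
    rw [pow_succ', AlgEquiv.mul_apply, of_nm]
    generalize (E.σ ^ k) u = v
    have : ∀ j ∈ Finset.range E.r, (E.σ ^ j) (E.σ v) = E.σ ((E.σ ^ j) v) := fun j _ => by
      rw [← AlgEquiv.mul_apply, ← AlgEquiv.mul_apply, ← pow_succ, ← pow_succ']
    rw [Finset.prod_congr rfl this, ← map_prod, ← of_nm, σ_of]

theorem dvd_of_nm (u : E.R) : u ∣ E.of (E.nm u) := by
  rw [of_nm]
  simpa using Finset.dvd_prod_of_mem (fun k => (E.σ ^ k) u) (Finset.mem_range.2 E.r_pos)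

/-- `N (Y + h) = g + h^r` (`r` odd) -/
theorem nm_Y_add (h : F[X]) : E.nm (E.Y + E.of h) = E.g + h ^ E.r := by
  apply E.of_injective
  rw [of_nm]
  have hζ : IsPrimitiveRoot (C (C E.ζ) : F[X][X]) E.r :=
    (E.hζ.map_of_injective (C_injective (R := F))).map_of_injective (C_injective (R := F[X]))
  have h1 := congrArg (fun q => AdjoinRoot.mk E.pol (eval (C h) q))
    (X_pow_sub_C_eq_prod hζ E.r_pos (α := -X) (a := -X ^ E.r) (E.r_odd.neg_pow (X : F[X][X])))
  simp only [eval_sub, eval_pow, eval_X, eval_C, eval_prod, map_sub, map_pow, map_prod, map_neg,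
    map_mul, AdjoinRoot.mk_C, AdjoinRoot.mk_X, eval_mul, eval_neg] at h1
  rw [map_add E.of, map_pow E.of, ← Y_pow_r, add_comm (E.Y ^ E.r), ← sub_neg_eq_add (E.of h ^ E.r), h1]
  refine Finset.prod_congr rfl fun k _ => ?_
  rw [map_add, σ_pow_of, σ_pow_Y, C_pow, map_pow]
  ring

/-! ### `σ^k I`, `I_k` -/

theorem mem_sI {k : ℕ} {I : Ideal E.R} {u : E.R} : u ∈ E.sI k I ↔ ∃ v ∈ I, (E.σ ^ k) v = u := by
  exact Ideal.mem_map_of_equiv (E.σ ^ k) u

theorem sI_zero (I : Ideal E.R) : E.sI 0 I = I := by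
  simp only [sI, pow_zero]
  exact Ideal.map_id I

theorem sI_add (j k : ℕ) (I : Ideal E.R) : E.sI (j + k) I = E.sI j (E.sI k I) := by
  ext u
  simp only [mem_sI]
  constructor
  · rintro ⟨v, hv, rfl⟩
    exact ⟨_, ⟨v, hv, rfl⟩, by rw [pow_add, AlgEquiv.mul_apply]⟩
  · rintro ⟨_, ⟨v, hv, rfl⟩, rfl⟩
    exact ⟨v, hv, by rw [pow_add, AlgEquiv.mul_apply]⟩

theorem sI_r (I : Ideal E.R) : E.sI E.r I = I := by
  rw [sI, σ_pow_r]
  exact Ideal.map_id I

theorem sI_mul (k : ℕ) (I J : Ideal E.R) : E.sI k (I * J) = E.sI k I * E.sI k J := by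
  exact Ideal.map_mul _ I J

theorem sI_sup (k : ℕ) (I J : Ideal E.R) : E.sI k (I ⊔ J) = E.sI k I ⊔ E.sI k J := by
  exact Ideal.map_sup _ I J

theorem sI_top (k : ℕ) : E.sI k ⊤ = ⊤ := by
  exact Ideal.map_top _

theorem sI_pow (k n : ℕ) (I : Ideal E.R) : E.sI k (I ^ n) = E.sI k I ^ n := by
  induction n with
  | zero => simp [sI_top]
  | succ n ih => rw [pow_succ, sI_mul, ih, pow_succ]

theorem sI_prod {ι : Type} (k : ℕ) (s : Finset ι) (I : ι → Ideal E.R) :
    E.sI k (∏ i ∈ s, I i) = ∏ i ∈ s, E.sI k (I i) := by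
  classical
  induction s using Finset.induction_on with
  | empty => simp [sI_top]
  | insert a s ha ih => rw [Finset.prod_insert ha, Finset.prod_insert ha, sI_mul, ih]

theorem sI_span (k : ℕ) (T : Set E.R) : E.sI k (Ideal.span T) = Ideal.span ((E.σ ^ k) '' T) := by
  exact Ideal.map_span _ T

theorem sI_span_singleton (k : ℕ) (u : E.R) :
    E.sI k (Ideal.span {u}) = Ideal.span {(E.σ ^ k) u} := by
  rw [sI_span, Set.image_singleton]

theorem sI_eq_bot {k : ℕ} {I : Ideal E.R} : E.sI k I = ⊥ ↔ I = ⊥ := by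
  exact Ideal.map_eq_bot_iff_of_injective (E.σ ^ k).injective

theorem sI_W (k : ℕ) (α : F) : E.sI k (E.W α) = E.W α := by
  rw [W, sI_span, Set.image_pair, σ_pow_of, σ_pow_Y, Ideal.span_insert, Ideal.span_insert,
    Ideal.span_singleton_mul_left_unit]
  exact (isUnit_C.2 (pow_ne_zero k E.ζ_ne).isUnit).map E.of

theorem Ik_zero (I : Ideal E.R) : E.Ik I 0 = ⊤ := by
  simp [Ik]

theorem Ik_succ (I : Ideal E.R) (k : ℕ) : E.Ik I (k + 1) = E.Ik I k * E.sI k I := by
  exact Finset.prod_range_succ _ _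

theorem Ik_add (I : Ideal E.R) (j k : ℕ) : E.Ik I (j + k) = E.Ik I j * E.sI j (E.Ik I k) := by
  rw [Ik, Finset.prod_range_add, Ik, Ik, sI_prod]
  simp only [sI_add]

theorem Ik_mul (I J : Ideal E.R) (k : ℕ) : E.Ik (I * J) k = E.Ik I k * E.Ik J k := by
  simp only [Ik, sI_mul, Finset.prod_mul_distrib]

theorem sI_Ik_r (j : ℕ) (I : Ideal E.R) : E.Ik (E.sI j I) E.r = E.Ik I E.r := by
  induction j with
  | zero => rw [sI_zero]
  | succ j ih =>
    rw [← ih, add_comm j, sI_add]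
    generalize E.sI j I = J
    obtain ⟨n, hn⟩ : ∃ n, E.r = n + 1 := ⟨E.r - 1, by have := E.r_pos; omega⟩
    have h2 := E.sI_r J
    simp only [Ik, ← sI_add]
    rw [hn] at h2 ⊢
    rw [Finset.prod_range_succ, Finset.prod_range_succ' (fun k => E.sI k J), h2, sI_zero]

theorem Ik_span_singleton (u : E.R) :
    E.Ik (Ideal.span {u}) E.r = Ideal.span {E.of (E.nm u)} := by
  simp only [Ik, sI_span_singleton]
  rw [Ideal.prod_span_singleton, of_nm]

/-! ### coprimality to `g` -/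

theorem Cop.mul {E : Cv F} {I J : Ideal E.R} (hI : E.Cop I) (hJ : E.Cop J) : E.Cop (I * J) := by
  unfold Cop at *
  rw [← Ideal.isCoprime_iff_sup_eq] at *
  exact hI.mul_left hJ

theorem Cop.mono {E : Cv F} {I J : Ideal E.R} (hI : E.Cop I) (h : I ≤ J) : E.Cop J := by
  unfold Cop at *
  exact top_le_iff.1 (hI ▸ sup_le_sup_right h _)

theorem cop_top : E.Cop ⊤ := by
  simp [Cop]

theorem Cop.pow {E : Cv F} {I : Ideal E.R} (hI : E.Cop I) (n : ℕ) : E.Cop (I ^ n) := by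
  induction n with
  | zero => simpa using E.cop_top
  | succ n ih => rw [pow_succ]; exact ih.mul hI

theorem cop_prod {ι : Type} (s : Finset ι) (I : ι → Ideal E.R) (h : ∀ i ∈ s, E.Cop (I i)) :
    E.Cop (∏ i ∈ s, I i) := by
  exact Finset.prod_induction _ _ (fun _ _ => Cop.mul) (by simpa using E.cop_top) h

theorem Cop.sI {E : Cv F} {I : Ideal E.R} (hI : E.Cop I) (k : ℕ) : E.Cop (E.sI k I) := by
  have := congrArg (E.sI k) hI
  rwa [sI_sup, sI_span_singleton, σ_pow_of, sI_top] at this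

theorem Cop.Ik {E : Cv F} {I : Ideal E.R} (hI : E.Cop I) (k : ℕ) : E.Cop (E.Ik I k) := by
  exact E.cop_prod _ _ fun j _ => hI.sI j

theorem Cop.ne_bot {E : Cv F} {I : Ideal E.R} (hI : E.Cop I) : I ≠ ⊥ := by
  rintro rfl
  rw [Cop, bot_sup_eq, Ideal.span_singleton_eq_top, isUnit_iff_dvd_one, ← map_one E.of,
    of_dvd_of_iff, ← isUnit_iff_dvd_one] at hI
  have h1 := natDegree_eq_zero_of_isUnit hI
  rw [g_natDegree] at h1
  have := E.two_le_m
  omega

theorem cop_of_mem {I : Ideal E.R} {p : F[X]} (hp : E.of p ∈ I) (h : IsCoprime p E.g) : E.Cop I := by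
  obtain ⟨s, t, hst⟩ := h
  rw [Cop, Ideal.eq_top_iff_one, ← map_one E.of, ← hst, map_add, map_mul, map_mul]
  exact Submodule.add_mem_sup (I.mul_mem_left _ hp)
    (Ideal.mul_mem_left _ _ (Ideal.mem_span_singleton_self _))

theorem cop_span_of {p : F[X]} : E.Cop (Ideal.span {E.of p}) ↔ IsCoprime p E.g := by
  refine ⟨fun h => ?_, E.cop_of_mem (Ideal.mem_span_singleton_self _)⟩
  rw [Cop, Ideal.eq_top_iff_one, ← Ideal.span_insert, Ideal.mem_span_pair] at h
  obtain ⟨s, t, hst⟩ := h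
  have := congrArg (E.comp 0) hst
  rw [map_add, mul_comm s, mul_comm t, comp_of_mul, comp_of_mul, ← map_one E.of, comp_of,
    if_pos rfl] at this
  exact ⟨E.comp 0 s, E.comp 0 t, by rw [← this]; ring⟩

/-- generators of `J*` from generators of the `I_k` -/
theorem Jstar_eq_span {I : Ideal E.R} {ν ω : F[X]} {B : ℕ} {c : ℕ → E.R} (hν : ν ≠ 0)
    (hc : E.InV I ν ω B c) (T : ℕ → Set E.R) (hT : ∀ k < E.r, E.Ik I k = Ideal.span (T k)) :
    E.Jstar I ν c = Ideal.span {u | ∃ k < E.r, ∃ v ∈ T k, E.of (ν ^ k) * u = c k * v} := by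
  have hcan : ∀ (k : ℕ) (u v : E.R), E.of (ν ^ k) * u = E.of (ν ^ k) * v → u = v := by
    intro k u v h
    refine E.ext_comp fun b _ => ?_
    have := congrArg (E.comp b) h
    rw [comp_of_mul, comp_of_mul] at this
    exact mul_left_cancel₀ (pow_ne_zero k hν) this
  apply le_antisymm
  · rw [Jstar, Ideal.span_le]
    rintro u ⟨k, hk, v, hv, huv⟩
    have key : ∀ v ∈ Ideal.span (T k), ∀ u, E.of (ν ^ k) * u = c k * v → u ∈ Ideal.span
        {u | ∃ k < E.r, ∃ v ∈ T k, E.of (ν ^ k) * u = c k * v} := by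
      intro v hv
      induction hv using Submodule.span_induction with
      | mem x hx => exact fun u hu => Ideal.subset_span ⟨k, hk, x, hx, hu⟩
      | zero =>
        intro u hu
        rw [hcan k u 0 (by simpa using hu)]; exact Ideal.zero_mem _
      | add x y hx hy ihx ihy =>
        intro u hu
        obtain ⟨a, ha⟩ := Ideal.mem_span_singleton'.1 (hc.mem k hk x (hT k hk ▸ hx))
        obtain ⟨b, hb⟩ := Ideal.mem_span_singleton'.1 (hc.mem k hk y (hT k hk ▸ hy))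
        rw [hcan k u (a + b) (by rw [hu, mul_add, mul_add, ← ha, ← hb]; ring)]
        exact Ideal.add_mem _ (ihx a (by rw [← ha]; ring)) (ihy b (by rw [← hb]; ring))
      | smul s x hx ihx =>
        intro u hu
        obtain ⟨a, ha⟩ := Ideal.mem_span_singleton'.1 (hc.mem k hk x (hT k hk ▸ hx))
        rw [hcan k u (s * a) (by rw [hu, smul_eq_mul, mul_left_comm, ← ha]; ring)]
        exact Ideal.mul_mem_left _ _ (ihx a (by rw [← ha]; ring))
    exact key v (hT k hk ▸ hv) u huv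
  · refine Ideal.span_mono ?_
    rintro u ⟨k, hk, v, hv, huv⟩
    exact ⟨k, hk, v, hT k hk ▸ Ideal.subset_span hv, huv⟩

theorem mem_Jstar_zero (I : Ideal E.R) (ν : F[X]) (c : ℕ → E.R) : c 0 ∈ E.Jstar I ν c := by
  exact Ideal.subset_span ⟨0, E.r_pos, 1, by simp [Ik_zero], by simp⟩

end Crest.Agent.R312.Cv
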