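import Crest.Agent.R312.A2Nu

/-!
# R312 / A2Cl : the class group `G`, `σ` on `G`, `φ = 1 - σ`, the classes of the `W_α`
-/

set_option autoImplicit false

open Polynomial WithZero
open scoped nonZeroDivisors

noncomputable section

namespace Crest.Agent.R312.Cv

variable {F : Type} [Field F] (E : Cv F)

/-- the class group, written additively -/
abbrev G : Type := Additive (ClassGroup E.R)

open Classical in
/-- the class of an ideal (`0` for `I = ⊥`) -/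
def clA (I : Ideal E.R) : E.G :=
  if h : I = ⊥ then 0 else Additive.ofMul (ClassGroup.mk0 ⟨I, mem_nonZeroDivisors_of_ne_zero h⟩)

theorem cl_of_ne {I : Ideal E.R} (h : I ≠ ⊥) :
    E.clA I = Additive.ofMul (ClassGroup.mk0 ⟨I, mem_nonZeroDivisors_of_ne_zero h⟩) := by
  unfold clA; rw [dif_neg h]

theorem cl_bot : E.clA ⊥ = 0 := by
  unfold clA; rw [dif_pos rfl]

theorem cl_mul {I J : Ideal E.R} (hI : I ≠ ⊥) (hJ : J ≠ ⊥) : E.clA (I * J) = E.clA I + E.clA J := by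
  have hIJ : I * J ≠ ⊥ := mul_ne_zero hI hJ
  rw [E.cl_of_ne hI, E.cl_of_ne hJ, E.cl_of_ne hIJ, ← ofMul_mul, ← map_mul]
  rfl

theorem cl_eq_iff {I J : Ideal E.R} (hI : I ≠ ⊥) (hJ : J ≠ ⊥) : E.clA I = E.clA J ↔
    ∃ x y : E.R, x ≠ 0 ∧ y ≠ 0 ∧ Ideal.span {x} * I = Ideal.span {y} * J := by
  rw [E.cl_of_ne hI, E.cl_of_ne hJ, Additive.ofMul.injective.eq_iff, ClassGroup.mk0_eq_mk0_iff]
  constructor
  · rintro ⟨x, y, hx, hy, h⟩; exact ⟨x, y, hx, hy, h⟩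
  · rintro ⟨x, y, hx, hy, h⟩; exact ⟨x, y, hx, hy, h⟩

theorem cl_eq_zero_iff {I : Ideal E.R} (hI : I ≠ ⊥) : E.clA I = 0 ↔ ∃ z, I = Ideal.span {z} := by
  rw [E.cl_of_ne hI, ofMul_eq_zero, ClassGroup.mk0_eq_one_iff]
  constructor
  · rintro ⟨z, hz⟩; exact ⟨z, hz⟩
  · rintro ⟨z, hz⟩; exact ⟨z, hz⟩

theorem cl_span (z : E.R) : E.clA (Ideal.span {z}) = 0 := by
  by_cases h : Ideal.span {z} = (⊥ : Ideal E.R)
  · rw [h, cl_bot]
  · exact (E.cl_eq_zero_iff h).2 ⟨z, rfl⟩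

theorem cl_top : E.clA ⊤ = 0 := by
  rw [← Ideal.span_singleton_one]; exact E.cl_span 1

theorem cl_pow {I : Ideal E.R} (hI : I ≠ ⊥) (n : ℕ) : E.clA (I ^ n) = n • E.clA I := by
  induction n with
  | zero => rw [pow_zero, Ideal.one_eq_top, cl_top, zero_smul]
  | succ n ih => rw [pow_succ, E.cl_mul (pow_ne_zero n hI) hI, ih, succ_nsmul]

theorem cl_prod {ι : Type} (s : Finset ι) (I : ι → Ideal E.R) (h : ∀ i ∈ s, I i ≠ ⊥) :
    E.clA (∏ i ∈ s, I i) = ∑ i ∈ s, E.clA (I i) := by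
  classical
  induction s using Finset.induction_on with
  | empty => rw [Finset.prod_empty, Finset.sum_empty, Ideal.one_eq_top, cl_top]
  | insert a s ha ih =>
    have h1 : ∀ i ∈ s, I i ≠ ⊥ := fun i hi => h i (Finset.mem_insert_of_mem hi)
    rw [Finset.prod_insert ha, Finset.sum_insert ha,
      E.cl_mul (h a (Finset.mem_insert_self a s)) (Finset.prod_ne_zero_iff.2 h1), ih h1]

theorem exists_cl (x : E.G) : ∃ I : Ideal E.R, I ≠ ⊥ ∧ E.clA I = x := by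
  obtain ⟨⟨I, hI⟩, h⟩ := ClassGroup.mk0_surjective (Additive.toMul x)
  have hI' : I ≠ ⊥ := nonZeroDivisors.ne_zero hI
  refine ⟨I, hI', ?_⟩
  rw [E.cl_of_ne hI', h]; rfl

/-- the class of `σ I` only depends on the class of `I` -/
theorem cl_sI_congr {I J : Ideal E.R} (hI : I ≠ ⊥) (hJ : J ≠ ⊥) (h : E.clA I = E.clA J) (k : ℕ) :
    E.clA (E.sI k I) = E.clA (E.sI k J) := by
  obtain ⟨x, y, hx, hy, h⟩ := (E.cl_eq_iff hI hJ).1 h
  refine (E.cl_eq_iff (fun h => hI (E.sI_eq_bot.1 h)) (fun h => hJ (E.sI_eq_bot.1 h))).2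
    ⟨(E.σ ^ k) x, (E.σ ^ k) y, (map_ne_zero_iff _ (E.σ ^ k).injective).2 hx,
      (map_ne_zero_iff _ (E.σ ^ k).injective).2 hy, ?_⟩
  rw [← sI_span_singleton, ← sI_span_singleton, ← sI_mul, ← sI_mul, h]

/-- `σ` on the class group -/
def σG : AddMonoid.End E.G := AddMonoidHom.mk'
  (fun x => E.clA (E.sI 1 (E.exists_cl x).choose)) (by
    intro x y
    obtain ⟨hx, hx'⟩ := (E.exists_cl x).choose_spec
    obtain ⟨hy, hy'⟩ := (E.exists_cl y).choose_spec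
    obtain ⟨hz, hz'⟩ := (E.exists_cl (x + y)).choose_spec
    rw [← E.cl_mul (fun h => hx (E.sI_eq_bot.1 h)) (fun h => hy (E.sI_eq_bot.1 h)), ← sI_mul]
    refine E.cl_sI_congr hz (mul_ne_zero hx hy) ?_ 1
    rw [E.cl_mul hx hy, hx', hy', hz'])

/-- `φ = 1 - σ` -/
def φ : AddMonoid.End E.G := 1 - E.σG

theorem φ_apply (x : E.G) : E.φ x = x - E.σG x := rfl

theorem σG_cl (I : Ideal E.R) : E.σG (E.clA I) = E.clA (E.sI 1 I) := by
  by_cases h : I = ⊥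
  · rw [h, E.sI_eq_bot.2 rfl, cl_bot, map_zero]
  · obtain ⟨hx, hx'⟩ := (E.exists_cl (E.clA I)).choose_spec
    exact E.cl_sI_congr hx h hx' 1

theorem σG_pow_cl (k : ℕ) (I : Ideal E.R) : (E.σG ^ k) (E.clA I) = E.clA (E.sI k I) := by
  induction k with
  | zero => rw [pow_zero, sI_zero]; rfl
  | succ k ih =>
    rw [pow_succ']
    show E.σG ((E.σG ^ k) (E.clA I)) = _
    rw [ih, σG_cl, ← sI_add, add_comm]

theorem σG_pow_r : E.σG ^ E.r = 1 := by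
  refine AddMonoidHom.ext fun x => ?_
  obtain ⟨I, -, rfl⟩ := E.exists_cl x
  show (E.σG ^ E.r) (E.clA I) = E.clA I
  rw [σG_pow_cl, sI_r]

theorem φ_cl_of_stable {I : Ideal E.R} (h : E.sI 1 I = I) : E.φ (E.clA I) = 0 := by
  rw [φ_apply, σG_cl, h, sub_self]

/-- `∑_α c_α [W_α]` -/
def Wsum (c : F → ℤ) : E.G := ∑ α ∈ E.S, c α • E.clA (E.W α)

theorem Wsum_add (c c' : F → ℤ) : E.Wsum (c + c') = E.Wsum c + E.Wsum c' := by
  simp only [Wsum, Pi.add_apply, add_smul, Finset.sum_add_distrib]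

theorem Wsum_smul (n : ℤ) (c : F → ℤ) : E.Wsum (n • c) = n • E.Wsum c := by
  simp only [Wsum, Pi.smul_apply, smul_eq_mul, mul_smul, Finset.smul_sum]

theorem Wsum_neg (c : F → ℤ) : E.Wsum (-c) = -E.Wsum c := by
  simp only [Wsum, Pi.neg_apply, neg_smul, Finset.sum_neg_distrib]

theorem Wsum_sum {ι : Type} (s : Finset ι) (c : ι → F → ℤ) :
    E.Wsum (∑ i ∈ s, c i) = ∑ i ∈ s, E.Wsum (c i) := by
  simp only [Wsum, Finset.sum_apply, Finset.sum_smul]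
  exact Finset.sum_comm

theorem cl_Wprod (k : F → ℕ) : E.clA (E.Wprod k) = E.Wsum fun α => k α := by
  unfold Wprod Wsum
  rw [E.cl_prod _ _ fun α _ => pow_ne_zero _ (E.W_ne_bot α)]
  refine Finset.sum_congr rfl fun α _ => ?_
  rw [E.cl_pow (E.W_ne_bot α), natCast_zsmul]

theorem σG_Wsum (c : F → ℤ) : E.σG (E.Wsum c) = E.Wsum c := by
  unfold Wsum
  rw [map_sum]
  refine Finset.sum_congr rfl fun α _ => ?_
  rw [map_zsmul, σG_cl, sI_W]

theorem φ_Wsum (c : F → ℤ) : E.φ (E.Wsum c) = 0 := by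
  rw [φ_apply, σG_Wsum, sub_self]

/-- `W_pow_r` -/
theorem Wsum_congr {c c' : F → ℤ} (h : ∀ α ∈ E.S, c α ≡ c' α [ZMOD E.r]) :
    E.Wsum c = E.Wsum c' := by
  unfold Wsum
  refine Finset.sum_congr rfl fun α hα => ?_
  obtain ⟨t, ht⟩ := (h α hα).dvd
  have h0 : (E.r : ℤ) • E.clA (E.W α) = 0 := by
    rw [natCast_zsmul, ← E.cl_pow (E.W_ne_bot α), E.W_pow_r hα, cl_span]
  have : c' α = c α + t * E.r := by linarith
  rw [this, add_smul, mul_smul, h0, smul_zero, add_zero]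

/-- **independence of the `W_α`.**  `←`: `span_Y`, `Wsum_congr`.  `→`: with `k α = (c α % r).toNat`,
`Wprod k = (z)`; `z ∣ Y^N` (`Y_pow_mem_Wprod`), so `sunit_eig` and `V_eig` give `b` with
`r ∣ -k α + b` for all `α` (`V_of_span_eq` with `I = ⊤`). -/
theorem Wsum_eq_zero_iff {c : F → ℤ} :
    E.Wsum c = 0 ↔ ∃ t : ℤ, ∀ α ∈ E.S, c α ≡ t [ZMOD E.r] := by
  have hr : (0 : ℤ) < E.r := by exact_mod_cast E.r_pos
  constructor
  · intro h
    set k : F → ℕ := fun α => (c α % E.r).toNat with hk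
    have hk' : ∀ α, ((k α : ℕ) : ℤ) = c α % E.r := fun α =>
      Int.toNat_of_nonneg (Int.emod_nonneg _ hr.ne')
    have h1 : E.clA (E.Wprod k) = 0 := by
      rw [cl_Wprod, ← h]
      refine E.Wsum_congr fun α _ => ?_
      rw [hk']
      exact Int.mod_modEq _ _
    obtain ⟨z, hz⟩ := (E.cl_eq_zero_iff (E.Wprod_ne_bot k)).1 h1
    have hz0 : z ≠ 0 := by
      rintro rfl
      exact E.Wprod_ne_bot k (by rw [hz, Ideal.span_singleton_eq_bot])
    have hY := E.Y_pow_mem_Wprod k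
    rw [hz, Ideal.mem_span_singleton] at hY
    obtain ⟨w, hw⟩ := hY
    have hjz := E.j_ne hz0
    obtain ⟨b, -, hb⟩ := E.sunit_eig hjz (N := ∑ α ∈ E.S, k α) (u := z * E.Y ^ (∑ α ∈ E.S, k α))
      (u' := w) (by rw [map_mul, map_pow])
      (by rw [← map_pow, hw, map_mul, ← mul_assoc, inv_mul_cancel₀ hjz, one_mul])
    refine ⟨b, fun α hα => ?_⟩
    have hv := E.V_of_span_eq (z := z) (I := ⊤) (k := k) E.cop_top (by rw [← hz, Ideal.top_mul]) hα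
    have hd := (E.pAt α hα).V_eig hb (n := -(k α : ℤ)) (by rw [PlA.V_j, hv])
    rw [hk'] at hd
    have h2 : c α % E.r ≡ b [ZMOD E.r] := Int.modEq_iff_dvd.2 (by
      have : (b : ℤ) - c α % E.r = -(c α % E.r) + b := by ring
      rw [this]; exact hd)
    exact (Int.mod_modEq _ _).symm.trans h2
  · rintro ⟨t, ht⟩
    have h1 : E.Wsum (fun _ => 1) = 0 := by
      have := E.cl_Wprod fun _ => 1
      rw [← span_Y, cl_span] at this
      simpa using this.symm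
    have h2 : E.Wsum c = E.Wsum (t • fun _ => (1 : ℤ)) :=
      E.Wsum_congr fun α hα => by simpa using ht α hα
    rw [h2, Wsum_smul, h1, smul_zero]

/-- `∑_k σ^k = 0` on `G`: for `I = I' Wprod k` (`exists_factor`), `∏ σ^j I' = (ν)` and
`r [W_α] = 0` -/
theorem sum_σG_pow (x : E.G) : ∑ k ∈ Finset.range E.r, (E.σG ^ k) x = 0 := by
  obtain ⟨I, hI, rfl⟩ := E.exists_cl x
  obtain ⟨J, k, hJ, rfl⟩ := E.exists_factor hI
  rw [E.cl_mul hJ.ne_bot (E.Wprod_ne_bot k)]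
  simp only [map_add, Finset.sum_add_distrib, σG_pow_cl, sI_Wprod]
  obtain ⟨ν, -, hν⟩ := hJ.exists_isNu
  have h1 : ∑ j ∈ Finset.range E.r, E.clA (E.sI j J) = 0 := by
    rw [← E.cl_prod _ _ fun j _ h => hJ.ne_bot (E.sI_eq_bot.1 h)]
    have : E.clA (E.Ik J E.r) = 0 := by rw [hν, cl_span]
    exact this
  rw [h1, zero_add, Finset.sum_const, Finset.card_range, cl_Wprod, ← natCast_zsmul, ← Wsum_smul]
  refine E.Wsum_eq_zero_iff.2 ⟨0, fun α _ => ?_⟩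
  simp only [Pi.smul_apply, smul_eq_mul]
  exact Int.modEq_zero_iff_dvd.2 (dvd_mul_right _ _)

/-- `drop` does not change `φ [J]` -/
theorem φ_cl_drop {J : Ideal E.R} {μ μ' : F[X]} {N : ℕ} (hμ0 : μ ≠ 0) (hμ : E.of μ ∈ J)
    (hc : IsCoprime μ' E.g) (hd : μ ∣ μ' * E.g ^ N) :
    E.φ (E.clA (J ⊔ Ideal.span {E.of μ'})) = E.φ (E.clA J) := by
  obtain ⟨hC, k, hk⟩ := E.drop hμ0 hμ hc hd
  conv_rhs => rw [hk]
  rw [E.cl_mul hC.ne_bot (E.Wprod_ne_bot k), map_add, cl_Wprod, φ_Wsum, add_zero]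

open Classical in
/-- the class of `drop (Y + h)` is `-∑_{h(α) = 0} [W_α]` (`drop`, `V_of_span_eq`, `V_Y_add`) -/
theorem cl_drop_Y_add (h : F[X]) {μ μ' : F[X]} {N : ℕ} (hμ0 : μ ≠ 0)
    (hμ : E.of μ ∈ Ideal.span {E.Y + E.of h}) (hc : IsCoprime μ' E.g) (hd : μ ∣ μ' * E.g ^ N) :
    E.clA (Ideal.span {E.Y + E.of h} ⊔ Ideal.span {E.of μ'}) =
      E.Wsum fun α => if h.eval α = 0 then -1 else 0 := by
  obtain ⟨hC, k, hk⟩ := E.drop hμ0 hμ hc hd
  have h1 := congrArg E.clA hk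
  rw [cl_span, E.cl_mul hC.ne_bot (E.Wprod_ne_bot k), cl_Wprod] at h1
  rw [eq_neg_of_add_eq_zero_left h1.symm, ← Wsum_neg]
  refine E.Wsum_congr fun α hα => ?_
  have h2 := E.V_of_span_eq hC hk hα
  rw [E.V_Y_add h hα, exp_inj, neg_inj] at h2
  simp only [Pi.neg_apply]
  rw [← h2]
  split_ifs <;> simp

/-- from fractional ideals -/
theorem cl_eq_of_frac {I J : Ideal E.R} {z : E.L} (hz : z ≠ 0) (hJ : J ≠ ⊥)
    (h : (I : FractionalIdeal E.R⁰ E.L) = FractionalIdeal.spanSingleton E.R⁰ z * J) :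
    I ≠ ⊥ ∧ E.clA I = E.clA J := by
  have hI : I ≠ ⊥ := by
    rintro rfl
    rw [FractionalIdeal.coeIdeal_bot, eq_comm, mul_eq_zero, FractionalIdeal.spanSingleton_eq_zero_iff,
      FractionalIdeal.coeIdeal_eq_zero] at h
    exact h.elim hz hJ
  refine ⟨hI, ?_⟩
  rw [E.cl_of_ne hI, E.cl_of_ne hJ, Additive.ofMul.injective.eq_iff, eq_comm,
    ClassGroup.mk0_eq_mk0_iff_exists_fraction_ring E.L]
  exact ⟨z, hz, h.symm⟩

end Crest.Agent.R312.Cv
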