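import Crest.Agent.R312.A2Cl

/-!
# R312 / A2Count : `dim {‖u‖ ≤ B} ≥ B + 1 - g₀` and the class number bound
-/

set_option autoImplicit false

open Polynomial WithZero

noncomputable section

namespace Crest.Agent.R312

theorem cnt_sum_mod (r B : ℕ) : ∑ b ∈ Finset.range r, (B + b) % r = ∑ b ∈ Finset.range r, b := by
  induction B with
  | zero => exact Finset.sum_congr rfl fun b hb => by rw [zero_add, Nat.mod_eq_of_lt (Finset.mem_range.1 hb)]
  | succ B ih =>
    have h1 := Finset.sum_range_succ (fun b => (B + b) % r) r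
    have h2 := Finset.sum_range_succ' (fun b => (B + b) % r) r
    simp only [Nat.add_mod_right, add_zero] at h1 h2
    simp only [add_assoc, add_comm 1]
    omega

/-- Pure counting.  `r = 2s+1`, `r ∣ m + 1`.  In `ℤ`: the `b`-th term is
`≥ (B - m b) / r + 1` (floor division, also when `m b > B`), `r ((B - mb)/r) = B - m b - (B - mb) % r`,
and `b ↦ (B - m b) % r = (B + b) % r` permutes `range r`, so `∑ (B - mb) % r = ∑ b = r s`. -/
theorem count_terms (r s m B : ℕ) (hr : r = 2 * s + 1) (hm : r ∣ m + 1) :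
    B + 1 ≤ (∑ b ∈ Finset.range r, if m * b ≤ B then (B - m * b) / r + 1 else 0) + s * (m - 1) := by
  obtain ⟨t, ht⟩ := hm
  have hr0 : 0 < r := by omega
  have h1 : ∀ b, B + r ≤ r * (if m * b ≤ B then (B - m * b) / r + 1 else 0) + m * b + (B + b) % r := by
    intro b
    have e : m * b + b = r * (t * b) := by rw [← mul_assoc, ← ht]; ring
    split_ifs with h
    · have e1 : B + b = (B - m * b) + r * (t * b) := by omega
      have e2 := Nat.div_add_mod (B - m * b) r
      rw [e1, Nat.add_mul_mod_self_left, mul_add]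
      omega
    · have e1 : r * (t * b) = r * ((B + b) / r) + ((B + b) % r + (m * b - B)) := by
        have := Nat.div_add_mod (B + b) r
        omega
      have e2 : r ∣ (B + b) % r + (m * b - B) :=
        (Nat.dvd_add_right (dvd_mul_right r _)).1 (e1 ▸ dvd_mul_right r (t * b))
      have := Nat.le_of_dvd (by omega) e2
      omega
  have h2 := Finset.sum_le_sum fun b (_ : b ∈ Finset.range r) => h1 b
  have h3 : ∑ b ∈ Finset.range r, b = r * s := by
    have := Finset.sum_range_id_mul_two r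
    rw [show r - 1 = s * 2 by omega, ← mul_assoc] at this
    omega
  rw [Finset.sum_const, Finset.sum_add_distrib, Finset.sum_add_distrib, ← Finset.mul_sum, ← Finset.mul_sum,
    cnt_sum_mod, h3, Finset.card_range, smul_eq_mul, mul_left_comm m r s, ← mul_add, ← mul_add] at h2
  have h4 := Nat.le_of_mul_le_mul_left h2 hr0
  rcases m with _ | m
  · have : r = 1 := Nat.eq_one_of_mul_eq_one_right ht.symm
    have : s = 0 := by omega
    subst this
    omega
  · rw [Nat.add_sub_cancel, mul_comm s m]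
    rw [add_mul] at h4
    omega

namespace Cv

variable {F : Type} [Field F] (E : Cv F)

/-- the genus -/
def g0 : ℕ := (E.r - 1) / 2 * (E.m - 1)

theorem cnt_le_iff {u : E.R} {B : ℕ} : E.Le u B ↔
    ∀ b < E.r, E.comp b u ∈ degreeLT F (if E.m * b ≤ B then (B - E.m * b) / E.r + 1 else 0) := by
  refine forall₂_congr fun b _ => ?_
  by_cases h : E.comp b u = 0
  · simp [h]
  · rw [mem_degreeLT, ← natDegree_lt_iff_degree_lt h, imp_iff_right h]
    split_ifs with h1
    · rw [Nat.lt_succ_iff, Nat.le_div_iff_mul_le E.r_pos, mul_comm E.r]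
      omega
    · omega

/-- `{u : ‖u‖ ≤ B}` -/
def LeS (B : ℕ) : Submodule F E.R where
  carrier := {u | E.Le u B}
  add_mem' hu hv := (E.cnt_le_iff).2 fun b hb => by
    rw [map_add]
    exact add_mem (E.cnt_le_iff.1 hu b hb) (E.cnt_le_iff.1 hv b hb)
  zero_mem' := fun b _ h => (h (map_zero _)).elim
  smul_mem' a _ hu := (E.cnt_le_iff).2 fun b hb => by
    rw [comp_smul, ← smul_eq_C_mul]
    exact Submodule.smul_mem _ a (E.cnt_le_iff.1 hu b hb)

theorem mem_LeS {B : ℕ} {u : E.R} : u ∈ E.LeS B ↔ E.Le u B := Iff.rfl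

/-- `u ↦ (comp b u)_{b<r}` is an `F`-linear equivalence of `LeS B` with `∏_b degreeLT F (n_b)`,
`n_b = if m b ≤ B then (B - m b)/r + 1 else 0`  (`Polynomial.degreeLTEquiv`, `comp_sum`). -/
theorem finrank_LeS (B : ℕ) : Module.Finite F (E.LeS B) ∧ Module.finrank F (E.LeS B) =
    ∑ b ∈ Finset.range E.r, if E.m * b ≤ B then (B - E.m * b) / E.r + 1 else 0 := by
  let n : ℕ → ℕ := fun b => if E.m * b ≤ B then (B - E.m * b) / E.r + 1 else 0
  let φ : E.LeS B →ₗ[F] ((b : Fin E.r) → degreeLT F (n b)) :=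
    { toFun := fun u b => ⟨E.comp b u.1, E.cnt_le_iff.1 u.2 b b.2⟩
      map_add' := fun u v => funext fun b => Subtype.ext (map_add _ _ _)
      map_smul' := fun a u => funext fun b => Subtype.ext ((E.comp_smul a u.1 b).trans (smul_eq_C_mul a).symm) }
  have hφ : Function.Bijective φ := by
    constructor
    · intro u v h
      exact Subtype.ext (E.ext_comp fun b hb => congrArg Subtype.val (congrFun h ⟨b, hb⟩))
    · intro p
      let q : ℕ → F[X] := fun b => if h : b < E.r then (p ⟨b, h⟩ : F[X]) else 0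
      have hq : ∀ b (hb : b < E.r), E.comp b (∑ s ∈ Finset.range E.r, E.of (q s) * E.Y ^ s) = p ⟨b, hb⟩ :=
        fun b hb => (E.comp_sum q hb).trans (dif_pos hb)
      exact ⟨⟨_, E.cnt_le_iff.2 fun b hb => hq b hb ▸ (p ⟨b, hb⟩).2⟩, funext fun b => Subtype.ext (hq b b.2)⟩
  let e := LinearEquiv.ofBijective φ hφ
  refine ⟨Module.Finite.equiv e.symm, ?_⟩
  rw [e.finrank_eq, Module.finrank_pi_fintype, Finset.sum_range]
  refine Finset.sum_congr rfl fun b _ => ?_
  rw [Module.finrank_eq_card_basis (degreeLT.basis F _), Fintype.card_fin]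

instance (B : ℕ) : Module.Finite F (E.LeS B) := (E.finrank_LeS B).1

theorem le_finrank_LeS (B : ℕ) : B + 1 ≤ Module.finrank F (E.LeS B) + E.g0 := by
  obtain ⟨s, hs⟩ := E.r_odd
  have h : (E.r - 1) / 2 = s := by omega
  rw [(E.finrank_LeS B).2, g0, h]
  exact count_terms E.r s E.m B hs E.hdiv

theorem cnt_ker {I : Ideal E.R} (hI : I ≠ ⊥) {V : Type} [AddCommGroup V] [Module F V] [Module.Finite F V]
    (f : V →ₗ[F] E.R) (h : E.cod I < Module.finrank F V) : ∃ v, v ≠ 0 ∧ f v ∈ I := by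
  have := E.finite_quot hI
  obtain ⟨v, hv, h0⟩ := Submodule.exists_mem_ne_zero_of_ne_bot
    (LinearMap.ker_ne_bot_of_finrank_lt (f := (Ideal.Quotient.mkₐ F I).toLinearMap ∘ₗ f) h)
  exact ⟨v, h0, Ideal.Quotient.eq_zero_iff_mem.1 hv⟩

/-- the map `LeS (cod I + g0) → R/I` is not injective -/
theorem exists_small {I : Ideal E.R} (hI : I ≠ ⊥) :
    ∃ u ∈ I, u ≠ 0 ∧ E.Le u (E.cod I + E.g0) := by
  obtain ⟨v, hv, h⟩ := E.cnt_ker hI (E.LeS (E.cod I + E.g0)).subtype
    (by have := E.le_finrank_LeS (E.cod I + E.g0); omega)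
  exact ⟨v, h, fun h0 => hv (Subtype.ext h0), v.2⟩

/-- write `x = -[I]`, `(u) = I J`; `cod J = deg nm u - cod I ≤ g0` -/
theorem exists_cl_small (x : E.G) : ∃ J : Ideal E.R, J ≠ ⊥ ∧ E.clA J = x ∧ E.cod J ≤ E.g0 := by
  obtain ⟨I, hI, hx⟩ := E.exists_cl (-x)
  obtain ⟨u, hu, h0, hle⟩ := E.exists_small hI
  obtain ⟨J, hJ⟩ := Ideal.dvd_iff_le.2 ((Ideal.span_singleton_le_iff_mem I).2 hu)
  have hJ0 : J ≠ ⊥ := by
    rintro rfl
    rw [Ideal.mul_bot, Ideal.span_singleton_eq_bot] at hJ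
    exact h0 hJ
  have h1 := E.cl_span u
  have h2 := E.cod_span h0
  rw [hJ, E.cl_mul hI hJ0, hx, neg_add_eq_zero] at h1
  rw [hJ, E.cod_mul hI hJ0] at h2
  have h3 := E.le_iff_nm.1 hle
  exact ⟨J, hJ0, h1.symm, by omega⟩

/-- an ideal of codimension `≤ n` is `(μ, v)` with `0 ≠ μ`, `deg μ ≤ n`, `deg v^(b) ≤ n`:
`degreeLT (n+1) → R/J` is not injective; `IsDedekindDomain.exists_eq_span_pair`; reduce the components of
`v` modulo `μ`. -/
theorem exists_pair {J : Ideal E.R} (hJ : J ≠ ⊥) {n : ℕ} (hn : E.cod J ≤ n) :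
    ∃ (μ : F[X]) (v : ℕ → F[X]), μ.natDegree ≤ n ∧ (∀ b, (v b).natDegree ≤ n) ∧
      J = Ideal.span {E.of μ, ∑ b ∈ Finset.range E.r, E.of (v b) * E.Y ^ b} := by
  obtain ⟨μ, hμ, hm⟩ := E.cnt_ker hJ
    ((IsScalarTower.toAlgHom F F[X] E.R).toLinearMap ∘ₗ (degreeLT F (n + 1)).subtype)
    (by rw [Module.finrank_eq_card_basis (degreeLT.basis F _), Fintype.card_fin]; omega)
  have hμ0 : (μ : F[X]) ≠ 0 := fun h => hμ (Subtype.ext h)
  have hm' : E.of μ ∈ J := hm
  have hd : (μ : F[X]).natDegree ≤ n :=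
    Nat.lt_succ_iff.1 ((natDegree_lt_iff_degree_lt hμ0).2 (mem_degreeLT.1 μ.2))
  obtain ⟨y, hy⟩ := IsDedekindDomain.exists_eq_span_pair hm' ((map_ne_zero_iff _ E.of_injective).2 hμ0)
  refine ⟨μ, fun b => E.comp b y % μ, hd,
    fun b => (natDegree_le_natDegree (degree_mod_lt _ hμ0).le).trans hd, ?_⟩
  have e : y = (∑ b ∈ Finset.range E.r, E.of (E.comp b y % μ) * E.Y ^ b) +
      E.of μ * ∑ b ∈ Finset.range E.r, E.of (E.comp b y / μ) * E.Y ^ b := by
    rw [Finset.mul_sum, ← Finset.sum_add_distrib]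
    refine (E.sum_comp y).symm.trans (Finset.sum_congr rfl fun b _ => ?_)
    rw [← mul_assoc, ← add_mul, ← map_mul, ← map_add, EuclideanDomain.mod_add_div]
  rw [hy]
  conv_lhs => rw [e]
  rw [Ideal.span_pair_add_left_mul]

/-- **class number bound**: `G` is the image of `degreeLT (g0+1) × (Fin r → degreeLT (g0+1))`;
`g0 ≤ r m`. -/
theorem finite_G [Finite F] :
    Finite E.G ∧ Nat.card E.G ≤ Nat.card F ^ ((E.r + 1) * (E.r * E.m + 1)) := by
  let D := degreeLT F (E.r * E.m + 1)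
  have hf : Finite D := Finite.of_equiv _ (degreeLTEquiv F _).toEquiv.symm
  have hD : Nat.card D = Nat.card F ^ (E.r * E.m + 1) := by
    rw [Nat.card_congr (degreeLTEquiv F _).toEquiv, Nat.card_fun, Nat.card_eq_fintype_card (α := Fin _),
      Fintype.card_fin]
  let φ : D × (Fin E.r → D) → E.G := fun p =>
    E.clA (Ideal.span {E.of p.1, ∑ b : Fin E.r, E.of (p.2 b) * E.Y ^ (b : ℕ)})
  have hφ : Function.Surjective φ := by
    intro x
    obtain ⟨J, hJ, hx, hc⟩ := E.exists_cl_small x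
    have hg : E.g0 ≤ E.r * E.m := Nat.mul_le_mul (by omega) (by omega)
    obtain ⟨μ, v, h1, h2, h3⟩ := E.exists_pair hJ (hc.trans hg)
    have hm : ∀ {p : F[X]}, p.natDegree ≤ E.r * E.m → p ∈ D := fun h =>
      mem_degreeLT.2 (degree_le_natDegree.trans_lt (Nat.cast_lt.2 (Nat.lt_succ_of_le h)))
    refine ⟨(⟨μ, hm h1⟩, fun b => ⟨v b, hm (h2 b)⟩), ?_⟩
    rw [← hx, h3, Finset.sum_range]
  refine ⟨Finite.of_surjective φ hφ, (Nat.card_le_card_of_surjective φ hφ).trans (le_of_eq ?_)⟩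
  rw [Nat.card_prod, Nat.card_fun, hD, Nat.card_eq_fintype_card (α := Fin _), Fintype.card_fin]
  ring

instance [Finite F] : Finite E.G := E.finite_G.1

theorem card_G_le [Finite F] : Nat.card E.G ≤ Nat.card F ^ ((E.r + 1) * (E.r * E.m + 1)) :=
  E.finite_G.2

end Cv

end Crest.Agent.R312
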