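import Crest.Agent.R312.A2Cl

/-!
# R312 / A2Cross1 : the change of charts `τ : R_{a'} → L_a`, comparison of the places
-/

set_option autoImplicit false

open Polynomial WithZero

noncomputable section

namespace Crest.Agent.R312.Fam

variable {F : Type} [Field F] [DecidableEq F] (Φ : Fam F)

theorem three_le_card {a : F} (ha : a ∈ Φ.T) : 3 ≤ Φ.T.card := by
  exact (Φ.chart a ha).three_le_r.trans (Nat.le_of_dvd (Finset.card_pos.2 ⟨a, ha⟩) Φ.hT)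

theorem chart_g_eval_zero {a : F} (ha : a ∈ Φ.T) : (Φ.chart a ha).g.eval 0 = 1 := by
  simp [chart, eval_prod]

theorem inv_mem_S {a b : F} (ha : a ∈ Φ.T) (hb : b ∈ Φ.T) (hab : b ≠ a) :
    (b - a)⁻¹ ∈ (Φ.chart a ha).S := by
  exact Finset.mem_image_of_mem (fun b => (b - a)⁻¹) (Finset.mem_erase.2 ⟨hab, hb⟩)

/-- the place of chart `a` above `x = b` -/
def pl {a : F} (ha : a ∈ Φ.T) {b : F} (hb : b ∈ Φ.T) : PlA (Φ.chart a ha) :=
  if h : b = a then (Φ.chart a ha).pInf else (Φ.chart a ha).pAt (b - a)⁻¹ (Φ.inv_mem_S ha hb h)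

/-- `ℓ = 1 + (a - a') X` in `L_a` -/
def ell {a : F} (ha : a ∈ Φ.T) (a' : F) : (Φ.chart a ha).L :=
  (Φ.chart a ha).j ((Φ.chart a ha).of (1 + C (a - a') * X))

theorem ell_ne {a : F} (ha : a ∈ Φ.T) (a' : F) : Φ.ell ha a' ≠ 0 := by
  refine (Φ.chart a ha).j_ne ((map_ne_zero_iff _ (Φ.chart a ha).of_injective).2 fun h => ?_)
  simpa using congrArg (eval 0) h

/-- `F[X'] → L_a`, `X' ↦ X / ℓ` -/
def τp {a : F} (ha : a ∈ Φ.T) (a' : F) : F[X] →+* (Φ.chart a ha).L :=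
  (aeval ((Φ.chart a ha).j ((Φ.chart a ha).of X) / Φ.ell ha a') : F[X] →ₐ[F] _).toRingHom

theorem a2c1_τp_X {a : F} (ha : a ∈ Φ.T) (a' : F) :
    Φ.τp ha a' X = (Φ.chart a ha).j ((Φ.chart a ha).of X) / Φ.ell ha a' := aeval_X _

theorem a2c1_τp_C {a : F} (ha : a ∈ Φ.T) (a' c : F) :
    Φ.τp ha a' (C c) = (Φ.chart a ha).j ((Φ.chart a ha).of (C c)) := aeval_C _ _

theorem a2c1_τp_lin {a : F} (ha : a ∈ Φ.T) (a' s t : F) :
    Φ.τp ha a' (C s * X + C t) =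
      (Φ.chart a ha).j ((Φ.chart a ha).of (C (s + t * (a - a')) * X + C t)) / Φ.ell ha a' := by
  have h := Φ.ell_ne ha a'
  rw [map_add, map_mul, a2c1_τp_X, a2c1_τp_C, a2c1_τp_C, eq_div_iff h, add_mul, mul_assoc,
    div_mul_cancel₀ _ h]
  simp only [ell, map_add, map_mul, map_one]
  ring

/-- `g_{a'}(X/ℓ) = ∏_{b ≠ a'} (1 + (a-b) X) / ℓ`.  Both `∏_{b ∈ T \ a'} (1 + (a-b)X) * ℓ` and `g_a` equal
`∏_{b ∈ T} (1 + (a-b) X)` (`Finset.mul_prod_erase`; the factor `b = a` is `1`). -/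
theorem τp_g {a a' : F} (ha : a ∈ Φ.T) (ha' : a' ∈ Φ.T) :
    Φ.τp ha a' (Φ.chart a' ha').g =
      ((Φ.chart a ha).j (Φ.chart a ha).Y / Φ.ell ha a' ^ (Φ.T.card / Φ.r)) ^ Φ.r := by
  set φ : F → (Φ.chart a ha).L :=
    fun b => (Φ.chart a ha).j ((Φ.chart a ha).of (1 + C (a - b) * X)) with hφ
  have hl := Φ.ell_ne ha a'
  have h1 : Φ.τp ha a' (Φ.chart a' ha').g = ∏ b ∈ Φ.T.erase a', φ b / Φ.ell ha a' := by
    change Φ.τp ha a' (∏ b ∈ Φ.T.erase a', (1 + C (a' - b) * X)) = _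
    rw [map_prod]
    refine Finset.prod_congr rfl fun b _ => ?_
    rw [add_comm, ← C_1, a2c1_τp_lin, show a' - b + 1 * (a - a') = a - b by ring, C_1, add_comm]
  have h2 : (Φ.chart a ha).j (Φ.chart a ha).Y ^ Φ.r = ∏ b ∈ Φ.T, φ b := by
    rw [← map_pow, show (Φ.chart a ha).Y ^ Φ.r = _ from (Φ.chart a ha).Y_pow_r,
      ← Finset.mul_prod_erase _ _ ha]
    change (Φ.chart a ha).j ((Φ.chart a ha).of (∏ b ∈ Φ.T.erase a, (1 + C (a - b) * X))) = _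
    rw [map_prod, map_prod]
    simp [hφ]
  rw [h1, div_pow, h2, ← pow_mul, Nat.div_mul_cancel Φ.hT, Finset.prod_div_distrib, Finset.prod_const,
    ← Finset.mul_prod_erase _ _ ha', ← Finset.card_erase_add_one ha', pow_succ']
  exact (mul_div_mul_left _ _ hl).symm

/-- `τ : R_{a'} → L_a`, `X' ↦ X/ℓ`, `Y' ↦ Y/ℓ^(n/r)` -/
def τ {a a' : F} (ha : a ∈ Φ.T) (ha' : a' ∈ Φ.T) : (Φ.chart a' ha').R →+* (Φ.chart a ha).L :=
  AdjoinRoot.lift (Φ.τp ha a')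
    ((Φ.chart a ha).j (Φ.chart a ha).Y / Φ.ell ha a' ^ (Φ.T.card / Φ.r)) (by
      show eval₂ _ _ (X ^ Φ.r - C (Φ.chart a' ha').g : F[X][X]) = 0
      rw [eval₂_sub, eval₂_X_pow, eval₂_C, τp_g, sub_self])

theorem τ_of {a a' : F} (ha : a ∈ Φ.T) (ha' : a' ∈ Φ.T) (p : F[X]) :
    Φ.τ ha ha' ((Φ.chart a' ha').of p) = Φ.τp ha a' p := AdjoinRoot.lift_of _

theorem τ_Y {a a' : F} (ha : a ∈ Φ.T) (ha' : a' ∈ Φ.T) :
    Φ.τ ha ha' (Φ.chart a' ha').Y =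
      (Φ.chart a ha).j (Φ.chart a ha).Y / Φ.ell ha a' ^ (Φ.T.card / Φ.r) := AdjoinRoot.lift_root _

/-- `AdjoinRoot.ringHom_ext`, `Polynomial.ringHom_ext` -/
theorem τ_σ_pow {a a' : F} (ha : a ∈ Φ.T) (ha' : a' ∈ Φ.T) (k : ℕ) (u : (Φ.chart a' ha').R) :
    Φ.τ ha ha' (((Φ.chart a' ha').σ ^ k) u) = ((Φ.chart a ha).σL ^ k) (Φ.τ ha ha' u) := by
  have h0 : ∀ p, ((Φ.chart a ha).σL ^ k) (Φ.τp ha a' p) = Φ.τp ha a' p := fun p => by
    have : (((Φ.chart a ha).σL ^ k : _ ≃ₐ[F[X]] _) : (Φ.chart a ha).L →+* (Φ.chart a ha).L).comp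
        (Φ.τp ha a') = Φ.τp ha a' := by
      refine Polynomial.ringHom_ext (fun c => ?_) ?_
      · rw [RingHom.comp_apply, a2c1_τp_C]; exact Cv.σL_pow_of _ _ _
      · rw [RingHom.comp_apply, a2c1_τp_X, map_div₀]
        exact congrArg₂ _ (Cv.σL_pow_of _ _ _) (Cv.σL_pow_of _ _ _)
    exact RingHom.congr_fun this p
  have h1 : ((Φ.chart a ha).σL ^ k) (Φ.ell ha a') = Φ.ell ha a' := Cv.σL_pow_of _ _ _
  conv_lhs => rw [← (Φ.chart a' ha').sum_comp u]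
  conv_rhs => rw [← (Φ.chart a' ha').sum_comp u]
  simp only [map_sum, map_mul, map_pow, Cv.σ_pow_of, Cv.σ_pow_Y, τ_of, τ_Y, h0, map_div₀, h1,
    Cv.σL_pow_j, a2c1_τp_C, mul_div_assoc]
  rfl

/-- On `F[X']` apply `eq_vAt_pow` / `eq_vInf_pow` (with `k = r`) to `w = V.comap τp`.  Cases:
`b ≠ a, a'`: `τp (X - (b-a')⁻¹) = (b-a)(b-a')⁻¹ (X - (b-a)⁻¹) / ℓ` and `ℓ((b-a)⁻¹) ≠ 0`;
`b = a`: `τp (X - (a-a')⁻¹) = -(a-a')⁻¹ / ℓ`, `deg ℓ = 1`;
`b = a'`: `ℓ = (a-a') (X - (a'-a)⁻¹)`, so `V (X/ℓ) = exp r`. -/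
theorem V_τp {a a' b : F} (ha : a ∈ Φ.T) (ha' : a' ∈ Φ.T) (hb : b ∈ Φ.T) (haa : a ≠ a') (p : F[X]) :
    (Φ.pl ha hb).V (Φ.τp ha a' p) = (Φ.pl ha' hb).v p ^ Φ.r := by
  have hr : 0 < Φ.r := Φ.hr.pos
  have hC : ∀ c : F, c ≠ 0 → ((Φ.pl ha hb).V.comap (Φ.τp ha a')) (C c) = 1 := fun c hc => by
    rw [Valuation.comap_apply, a2c1_τp_C]
    exact (Φ.pl ha hb).V_algebraMap hc
  have hlin : ∀ s t : F, ((Φ.pl ha hb).V.comap (Φ.τp ha a')) (C s * X + C t) =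
      ((Φ.pl ha hb).v (C (s + t * (a - a')) * X + C t) / (Φ.pl ha hb).v (1 + C (a - a') * X)) ^ Φ.r :=
    fun s t => by
      rw [Valuation.comap_apply, a2c1_τp_lin, map_div₀, ell, PlA.V_of, PlA.V_of, div_pow]
      rfl
  have haa' : a - a' ≠ 0 := sub_ne_zero.2 haa
  by_cases h1 : b = a'
  · subst h1
    have h2 : (Φ.pl ha' hb).v = vInf F := by rw [pl, dif_pos rfl]; rfl
    have h3 : (Φ.pl ha hb).v = vAt (b - a)⁻¹ := by rw [pl, dif_neg haa.symm]; rfl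
    have hba : b - a ≠ 0 := sub_ne_zero.2 haa.symm
    rw [h2]
    refine eq_vInf_pow ((Φ.pl ha hb).V.comap (Φ.τp ha b)) hC hr ?_ p
    have e := hlin 1 0
    have e1 : (1 + C (a - b) * X : F[X]) = C (a - b) * (X - C (b - a)⁻¹) := by
      rw [mul_sub, ← C_mul, show (a - b) * (b - a)⁻¹ = -1 by field_simp; ring]
      simp [add_comm]
    have e2 : vAt (b - a)⁻¹ (X : F[X]) = 1 := vAt_eq_one_iff.2 (by simpa using hba)
    simp only [zero_mul, add_zero, map_one, one_mul, map_zero] at e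
    rw [e, h3, e1, map_mul, vAt_C _ haa', vAt_X_sub, e2, one_mul, one_div, ← exp_neg, ← exp_nsmul]
    simp
  · have h2 : (Φ.pl ha' hb).v = vAt (b - a')⁻¹ := by rw [pl, dif_neg h1]; rfl
    have hba' : b - a' ≠ 0 := sub_ne_zero.2 h1
    rw [h2]
    refine eq_vAt_pow ((Φ.pl ha hb).V.comap (Φ.τp ha a')) hC _ hr ?_ p
    have e := hlin 1 (-(b - a')⁻¹)
    rw [show (C 1 * X + C (-(b - a')⁻¹) : F[X]) = X - C (b - a')⁻¹ by simp [sub_eq_add_neg]] at e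
    rw [e]
    by_cases h3 : b = a
    · subst h3
      have h4 : (Φ.pl ha hb).v = vInf F := by rw [pl, dif_pos rfl]; rfl
      have e1 : (1 + C (b - a') * X : F[X]).natDegree = 1 := by
        rw [add_comm, ← C_1]; exact natDegree_linear haa'
      have e2 : (1 + C (b - a') * X : F[X]) ≠ 0 := fun h => by rw [h] at e1; simp at e1
      rw [h4, show 1 + -(b - a')⁻¹ * (b - a') = 0 by field_simp; ring, C_0, zero_mul, zero_add,
        vInf_C (neg_ne_zero.2 (inv_ne_zero hba')), vInf_of_ne e2, e1, one_div, ← exp_neg, ← exp_nsmul]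
      simp
    · have h4 : (Φ.pl ha hb).v = vAt (b - a)⁻¹ := by rw [pl, dif_neg h3]; rfl
      have hba : b - a ≠ 0 := sub_ne_zero.2 h3
      have e1 : (C (1 + -(b - a')⁻¹ * (a - a')) * X + C (-(b - a')⁻¹) : F[X]) =
          C ((b - a) * (b - a')⁻¹) * (X - C (b - a)⁻¹) := by
        rw [mul_sub (C _), ← C_mul, show 1 + -(b - a')⁻¹ * (a - a') = (b - a) * (b - a')⁻¹ by
          field_simp; ring, show (b - a) * (b - a')⁻¹ * (b - a)⁻¹ = (b - a')⁻¹ by field_simp, C_neg,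
          ← sub_eq_add_neg]
      have e2 : vAt (b - a)⁻¹ (1 + C (a - a') * X : F[X]) = 1 := by
        refine vAt_eq_one_iff.2 ?_
        have : 1 + (a - a') * (b - a)⁻¹ = (b - a') * (b - a)⁻¹ := by field_simp; ring
        rw [eval_add, eval_one, eval_mul, eval_C, eval_X, this]
        exact mul_ne_zero hba' (inv_ne_zero hba)
      rw [h4, e1, e2, map_mul, vAt_C _ (mul_ne_zero hba (inv_ne_zero hba')), vAt_X_sub, one_mul,
        div_one, ← exp_nsmul]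
      simp

/-- `(V (τ u))^r = V (τ (of (nm u))) = (v (nm u))^r = (VR u)^r` (`of_nm`, `τ_σ_pow`, `V_σL_pow`, `v_nm`) -/
theorem V_τ {a a' b : F} (ha : a ∈ Φ.T) (ha' : a' ∈ Φ.T) (hb : b ∈ Φ.T) (haa : a ≠ a')
    (u : (Φ.chart a' ha').R) : (Φ.pl ha hb).V (Φ.τ ha ha' u) = (Φ.pl ha' hb).VR u := by
  refine (pow_left_inj₀ zero_le zero_le Φ.hr.ne_zero).1 ?_
  rw [← PlA.v_nm, ← Φ.V_τp ha ha' hb haa, ← Φ.τ_of ha ha', Cv.of_nm, map_prod, map_prod]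
  simp only [τ_σ_pow, PlA.V_σL_pow, Finset.prod_const, Finset.card_range]
  rfl

end Crest.Agent.R312.Fam
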