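import Crest.Agent.R312.A2L

/-!
# R312 / A2Ded : `R` is a Dedekind domain
-/

set_option autoImplicit false

open Polynomial

noncomputable section

namespace Crest.Agent.R312.Cv

variable {F : Type} [Field F] (E : Cv F)

instance : Module.Finite F[X] E.R := E.pol_monic.finite_adjoinRoot

instance : Module.Free F[X] E.R := E.pol_monic.free_adjoinRoot

instance : IsNoetherianRing E.R := IsNoetherianRing.of_finite F[X] E.R

instance : Ring.DimensionLEOne E.R := Ring.DimensionLEOne.of_isIntegral F[X] E.R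

/-- `q^r ∣ p^r g^b` with `b < r`, `g` squarefree, implies `q ∣ p`.  (Cancel `gcd p q`, so `p, q`
coprime and `q^r ∣ g^b`; an irreducible `π ∣ q` has `π^r ∣ g^b`, `π ∣ g`, `g = π g'` with `π ∤ g'`,
so `π^r ∣ π^b`, impossible; so `q` is a unit.) -/
theorem dvd_of_pow_dvd {p q g : F[X]} (hg : Squarefree g) {r b : ℕ} (hb : b < r) (hq : q ≠ 0)
    (h : q ^ r ∣ p ^ r * g ^ b) : q ∣ p := by
  classical
  obtain ⟨p', q', d, hc, rfl, rfl⟩ : ∃ p' q' d : F[X], IsCoprime p' q' ∧ p = d * p' ∧ q = d * q' := by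
    obtain ⟨p', q', hp, hq', hc⟩ := extract_gcd p q
    exact ⟨p', q', gcd p q, (gcd_isUnit_iff _ _).1 hc, hp, hq'⟩
  have hd : d ≠ 0 := left_ne_zero_of_mul hq
  rw [mul_pow, mul_pow, mul_assoc, mul_dvd_mul_iff_left (pow_ne_zero _ hd)] at h
  have h1 : q' ^ r ∣ g ^ b := (hc.symm.pow).dvd_of_dvd_mul_left h
  have hu : IsUnit q' := by
    by_contra hu
    obtain ⟨π, hπ, hπq⟩ := WfDvdMonoid.exists_irreducible_factor hu (right_ne_zero_of_mul hq)
    have h2 : π ^ r ∣ g ^ b := (pow_dvd_pow_of_dvd hπq r).trans h1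
    have h3 : π ∣ g := hπ.prime.dvd_of_dvd_pow ((dvd_pow_self π (by omega)).trans h2)
    obtain ⟨g', rfl⟩ := h3
    have h4 : IsCoprime π g' := hπ.coprime_iff_not_dvd.2 fun h4 =>
      hπ.not_isUnit (hg π (mul_dvd_mul_left π h4))
    rw [mul_pow] at h2
    have h5 : π ^ r ∣ π ^ b := (h4.pow).dvd_of_dvd_mul_right h2
    rw [pow_dvd_pow_iff hπ.ne_zero hπ.not_isUnit] at h5
    omega
  exact mul_dvd_mul_left d hu.dvd

/-- Let `x ∈ L` be integral over `R`, hence over `F[X]` (`isIntegral_trans`, `R` is finite over `F[X]`).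
`σL` is an `F[X]`-algebra map, so every `π_b x` is integral over `F[X]`.  By `eig_form`,
`π_b x * q = p Y^b`; then `(π_b x)^r = p^r g^b / q^r` is integral over `F[X]` and lies in the image of
`FractionRing F[X]` (or `RatFunc F`), so `q^r ∣ p^r g^b` (`IsIntegrallyClosed F[X]`;
e.g. `IsIntegrallyClosed.isIntegral_iff` after `isIntegral_algebraMap_iff`/`IsIntegral.tower_bot` for the
injective map `IsFractionRing.lift : FractionRing F[X] →+* L`), so `q ∣ p` and `π_b x ∈ R`; sum over `b`
(`sum_π`).  Finish with `isIntegrallyClosed_iff E.L`. -/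
instance : IsIntegrallyClosed E.R := by
  rw [isIntegrallyClosed_iff E.L]
  intro x hx
  have hx' : IsIntegral F[X] x := isIntegral_trans x hx
  have hinj : Function.Injective (algebraMap F[X] E.L) := E.j_injective.comp E.of_injective
  have key : ∀ b ∈ Finset.range E.r, E.π b x ∈ E.j.range := by
    intro b hb
    have hb' := Finset.mem_range.1 hb
    have h1 : IsIntegral F[X] (E.π b x) := by
      simp only [π, smul_eq, ← algebraMap_pol]
      refine isIntegral_algebraMap.mul (IsIntegral.sum _ fun k _ => isIntegral_algebraMap.mul ?_)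
      exact hx'.map (E.σL ^ k)
    obtain ⟨p, q, hq, h2⟩ := E.eig_form hb' (E.σL_π b x)
    have hq' : E.j (E.of q) ≠ 0 := E.j_ne ((map_ne_zero_iff _ E.of_injective).2 hq)
    let ι : FractionRing F[X] →ₐ[F[X]] E.L :=
      IsFractionRing.liftAlgHom (g := Algebra.ofId F[X] E.L) hinj
    have h3 : E.π b x ^ E.r = ι (algebraMap _ _ (p ^ E.r * E.g ^ b) / algebraMap _ _ (q ^ E.r)) := by
      rw [map_div₀, AlgHom.commutes, AlgHom.commutes, eq_div_iff (by
        rw [map_pow]; exact pow_ne_zero _ hq'), map_pow, algebraMap_pol, ← mul_pow, h2,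
        algebraMap_pol, ← map_pow, mul_pow, ← pow_mul, mul_comm b, pow_mul, Y_pow_r]
      simp only [map_mul, map_pow]
    have h4 := h1.pow E.r
    rw [h3, isIntegral_algHom_iff ι ι.toRingHom.injective, IsIntegrallyClosed.isIntegral_iff] at h4
    obtain ⟨y, hy⟩ := h4
    rw [eq_div_iff (by simpa using fun h => (hq h).elim), ← map_mul,
      (IsFractionRing.injective F[X] (FractionRing F[X])).eq_iff] at hy
    obtain ⟨t, rfl⟩ := dvd_of_pow_dvd E.g_squarefree hb' hq ⟨y, by rw [← hy, mul_comm]⟩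
    refine ⟨E.of t * E.Y ^ b, mul_right_cancel₀ hq' ?_⟩
    rw [h2, ← map_mul, map_mul E.of]
    congr 1; ring
  have := sum_mem key
  rwa [sum_π] at this

instance : IsDedekindDomain E.R where

end Crest.Agent.R312.Cv
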