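import Mathlib

/-!
# R312 / A2Defs : the curve `Y^r = g(X)` (definitions; section A2 of `ReadA.lean`; sub-lead helper18)

`E : Cv F` is the curve, `E.R = F[X][Y]/(Y^r - g)`, `E.comp b u` the coefficient of `Y^b`,
`E.σ` the automorphism `Y ↦ ζ Y`, `E.nm` the norm to `F[X]`.
-/

set_option autoImplicit false

open Polynomial

noncomputable section

namespace Crest.Agent.R312

/-- the curve `Y^r = g(X)`, `g = lc ∏_{α ∈ S} (X - α)`, `r ∣ |S| + 1` -/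
structure Cv (F : Type) [Field F] where
  r : ℕ
  hr : r.Prime
  hr2 : r ≠ 2
  ζ : F
  hζ : IsPrimitiveRoot ζ r
  S : Finset F
  lc : F
  hlc : lc ≠ 0
  g : F[X]
  hg : g = C lc * ∏ α ∈ S, (X - C α)
  hdiv : r ∣ S.card + 1

namespace Cv

variable {F : Type} [Field F] (E : Cv F)

/-- the number of roots of `g` (`= deg g`) -/
abbrev m : ℕ := E.S.card

/-- `Y^r - g` -/
def pol : F[X][X] := X ^ E.r - C E.g

theorem pol_monic : E.pol.Monic := monic_X_pow_sub_C _ E.hr.ne_zero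

/-- the coordinate ring -/
abbrev R : Type := AdjoinRoot E.pol

/-- `F[X] → R` -/
abbrev of : F[X] →+* E.R := AdjoinRoot.of E.pol

abbrev Y : E.R := AdjoinRoot.root E.pol

/-- the coefficient of `Y^b` (zero for `b ≥ r`) -/
def comp (b : ℕ) : E.R →ₗ[F[X]] F[X] :=
  (Polynomial.lcoeff F[X] b).comp (AdjoinRoot.modByMonicHom E.pol_monic)

theorem Y_pow_r : E.Y ^ E.r = E.of E.g := by
  have h := AdjoinRoot.eval₂_root E.pol
  rw [pol, eval₂_sub, eval₂_X_pow, eval₂_C, sub_eq_zero] at h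
  exact h

/-- `Y ↦ η Y` for `η^r = 1` -/
def σh (η : F) (hη : η ^ E.r = 1) : E.R →ₐ[F[X]] E.R :=
  AdjoinRoot.liftAlgHom E.pol (Algebra.ofId F[X] E.R) (E.of (C η) * E.Y) (by
    show eval₂ _ _ (X ^ E.r - C E.g : F[X][X]) = 0
    rw [eval₂_sub, eval₂_X_pow, eval₂_C, mul_pow, Y_pow_r, ← map_pow, ← C_pow, hη]
    simp)

theorem σh_Y (η : F) (hη : η ^ E.r = 1) : E.σh η hη E.Y = E.of (C η) * E.Y :=
  AdjoinRoot.liftAlgHom_root _ _ _ _

theorem σh_of (η : F) (hη : η ^ E.r = 1) (p : F[X]) : E.σh η hη (E.of p) = E.of p :=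
  (E.σh η hη).commutes p

theorem ζ_ne : E.ζ ≠ 0 := E.hζ.ne_zero E.hr.ne_zero

/-- the automorphism `Y ↦ ζ Y` of `R` over `F[X]` -/
def σ : E.R ≃ₐ[F[X]] E.R :=
  AlgEquiv.ofAlgHom (E.σh E.ζ E.hζ.pow_eq_one) (E.σh E.ζ⁻¹ (by rw [inv_pow, E.hζ.pow_eq_one, inv_one]))
    (AdjoinRoot.algHom_ext (by
      rw [AlgHom.comp_apply, σh_Y, map_mul, σh_of, σh_Y, ← mul_assoc, ← map_mul, ← C_mul,
        inv_mul_cancel₀ E.ζ_ne]
      simp))
    (AdjoinRoot.algHom_ext (by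
      rw [AlgHom.comp_apply, σh_Y, map_mul, σh_of, σh_Y, ← mul_assoc, ← map_mul, ← C_mul,
        mul_inv_cancel₀ E.ζ_ne]
      simp))

theorem σ_Y : E.σ E.Y = E.of (C E.ζ) * E.Y := E.σh_Y _ E.hζ.pow_eq_one

/-- the norm `∏_{k<r} σ^k u ∈ F[X]` -/
def nm (u : E.R) : F[X] := E.comp 0 (∏ k ∈ Finset.range E.r, (E.σ ^ k) u)

/-- `u = 0` or `‖u‖ ≤ B`, where `‖u‖ = max_b (r deg u^(b) + m b)` -/
def Le (u : E.R) (B : ℕ) : Prop :=
  ∀ b < E.r, E.comp b u ≠ 0 → E.r * (E.comp b u).natDegree + E.m * b ≤ B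

/-- `σ^k I` -/
def sI (k : ℕ) (I : Ideal E.R) : Ideal E.R := I.map (E.σ ^ k)

/-- `I_k = I σI ⋯ σ^(k-1) I` -/
def Ik (I : Ideal E.R) (k : ℕ) : Ideal E.R := ∏ j ∈ Finset.range k, E.sI j I

/-- the prime `W_α = (X - α, Y)` -/
def W (α : F) : Ideal E.R := Ideal.span {E.of (X - C α), E.Y}

/-- the prime `P = (X, Y - 1)` (used when `g(0) = 1`) -/
def P : Ideal E.R := Ideal.span {E.of X, E.Y - 1}

/-- `I` is coprime to `g` -/
def Cop (I : Ideal E.R) : Prop := I ⊔ Ideal.span {E.of E.g} = ⊤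

/-- `ν = ν(I)` -/
def IsNu (I : Ideal E.R) (ν : F[X]) : Prop := ν.Monic ∧ E.Ik I E.r = Ideal.span {E.of ν}

/-- `c ∈ V_B` (only the values `c k`, `k < r`, matter) -/
structure InV (I : Ideal E.R) (ν ω : F[X]) (B : ℕ) (c : ℕ → E.R) : Prop where
  mem : ∀ k < E.r, ∀ v ∈ E.Ik I k, c k * v ∈ Ideal.span {E.of (ν ^ k)}
  loc : ∀ b < E.r, ∀ s < b,
    E.g ∣ ∑ k ∈ Finset.range E.r, C (E.ζ⁻¹ ^ (k * b)) * ω ^ k * E.comp s (c k)
  inf : ∀ k < E.r, E.Le (c k) (B + (E.r - 1) * k * ν.natDegree)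

/-- `J* = ∑_k ν^(-k) c_k I_k` -/
def Jstar (I : Ideal E.R) (ν : F[X]) (c : ℕ → E.R) : Ideal E.R :=
  Ideal.span {u | ∃ k < E.r, ∃ v ∈ E.Ik I k, E.of (ν ^ k) * u = c k * v}

end Cv

/-- a family of charts: `T` = the roots of `f`, `r ∣ |T|` -/
structure Fam (F : Type) [Field F] where
  r : ℕ
  hr : r.Prime
  hr2 : r ≠ 2
  ζ : F
  hζ : IsPrimitiveRoot ζ r
  T : Finset F
  hT : r ∣ T.card

/-- the chart at `a ∈ T`: `g_a = ∏_{b ≠ a} (1 + (a - b) X)` with roots `(b - a)⁻¹` -/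
def Fam.chart {F : Type} [Field F] [DecidableEq F] (Φ : Fam F) (a : F) (ha : a ∈ Φ.T) : Cv F where
  r := Φ.r
  hr := Φ.hr
  hr2 := Φ.hr2
  ζ := Φ.ζ
  hζ := Φ.hζ
  S := (Φ.T.erase a).image fun b => (b - a)⁻¹
  lc := ∏ b ∈ Φ.T.erase a, (a - b)
  hlc := Finset.prod_ne_zero_iff.2 fun b hb => sub_ne_zero.2 (Finset.ne_of_mem_erase hb).symm
  g := ∏ b ∈ Φ.T.erase a, (1 + C (a - b) * X)
  hg := by
    rw [Finset.prod_image (fun b _ b' _ h => by simpa using h), map_prod, ← Finset.prod_mul_distrib]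
    refine Finset.prod_congr rfl fun b hb => ?_
    have hb' : b - a ≠ 0 := sub_ne_zero.2 (Finset.ne_of_mem_erase hb)
    have : (a - b) * (b - a)⁻¹ = -1 := by field_simp; ring
    rw [mul_sub, ← C_mul, this]
    simp [add_comm]
  hdiv := by
    rw [Finset.card_image_of_injective _ (fun b b' h => by simpa using h),
      Finset.card_erase_add_one ha]
    exact Φ.hT

end Crest.Agent.R312
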