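import Mathlib

/-!
# R312 / A2Norm : cyclic algebras (abstract): Chevalley–Warning, the matrix `M(c)`, the norm lemma
-/

set_option autoImplicit false

noncomputable section

namespace Crest.Agent.R312

/-- **Chevalley–Warning for determinants.**  Take a basis `b` of `V` indexed by `ι`.  The determinant
`Δ` of the matrix `∑_i X_i • C (M (b i))` over `MvPolynomial ι A` has total degree `≤ card n`
(`Matrix.det_apply`, `totalDegree_finset_sum`, `totalDegree_finset_prod`), and
`P_e = ∑_{s ∈ supp Δ} monomial s (ℓ e (coeff s Δ))` satisfies `eval x P_e = ℓ e (det (M (∑ x_i b_i)))`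
(`RingHom.map_det`).  `x = 0` is a common zero, so by `char_dvd_card_solutions_of_fintype_sum_lt`
(`p = ringChar F`) there is another one. -/
theorem cw_det {F A V n ε : Type} [Field F] [Finite F] [CommRing A] [Algebra F A] [AddCommGroup V]
    [Module F V] [Module.Finite F V] [Fintype n] [DecidableEq n] [Nonempty n] [Fintype ε]
    (M : V →ₗ[F] Matrix n n A) (ℓ : ε → A →ₗ[F] F)
    (h : Fintype.card ε * Fintype.card n < Module.finrank F V) :
    ∃ v : V, v ≠ 0 ∧ ∀ e, ℓ e (M v).det = 0 := by
  classical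
  have := Fintype.ofFinite F
  set d := Module.finrank F V with hd
  set b := Module.finBasis F V with hb
  set N : Matrix n n (MvPolynomial (Fin d) A) :=
    Matrix.of fun s t => ∑ i, MvPolynomial.C (M (b i) s t) * MvPolynomial.X i with hN
  have hdeg : N.det.totalDegree ≤ Fintype.card n := by
    rw [Matrix.det_apply]
    refine MvPolynomial.totalDegree_finsetSum_le fun τ _ => ?_
    refine le_trans (b := (∏ i, N (τ i) i).totalDegree) ?_ ?_
    · rcases Int.units_eq_one_or (Equiv.Perm.sign τ) with h1 | h1 <;> simp [h1]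
    refine le_trans (MvPolynomial.totalDegree_finsetProd (R := A) Finset.univ fun i => N (τ i) i) ?_
    refine le_trans (Finset.sum_le_card_nsmul _ _ 1 fun s _ => ?_) (by simp)
    simp only [hN, Matrix.of_apply]
    refine MvPolynomial.totalDegree_finsetSum_le fun i _ => ?_
    rw [MvPolynomial.C_mul_X_eq_monomial]
    exact (MvPolynomial.totalDegree_monomial_le _ _).trans (by simp)
  set P : ε → MvPolynomial (Fin d) F := fun e =>
    ∑ s ∈ N.det.support, MvPolynomial.monomial s (ℓ e (N.det.coeff s)) with hP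
  have hPdeg : ∀ e, (P e).totalDegree ≤ Fintype.card n := fun e =>
    MvPolynomial.totalDegree_finsetSum_le fun s hs =>
      (MvPolynomial.totalDegree_monomial_le _ _).trans ((MvPolynomial.le_totalDegree hs).trans hdeg)
  have hev : ∀ (x : Fin d → F) e, MvPolynomial.eval x (P e) = ℓ e (M (b.equivFun.symm x)).det := by
    intro x e
    have h1 : (M (b.equivFun.symm x)).det =
        MvPolynomial.eval (fun i => algebraMap F A (x i)) N.det := by
      rw [RingHom.map_det]
      congr 1
      ext s t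
      simp only [Module.Basis.equivFun_symm_apply, map_sum, map_smul, Matrix.sum_apply,
        Matrix.smul_apply]
      simp [hN, Algebra.smul_def, mul_comm]
    rw [h1, MvPolynomial.eval_eq _ N.det, hP]
    simp only [map_sum, MvPolynomial.eval_monomial]
    refine Finset.sum_congr rfl fun s _ => ?_
    rw [mul_comm, ← smul_eq_mul, ← map_smul, Algebra.smul_def, mul_comm, Finsupp.prod, map_prod]
    simp only [map_pow]
  have hp := CharP.char_is_prime F (ringChar F)
  have hdvd := char_dvd_card_solutions_of_fintype_sum_lt (ringChar F) (f := P) (by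
    refine (Finset.sum_le_card_nsmul _ _ _ fun e _ => hPdeg e).trans_lt ?_
    simpa using h)
  have h0 : ∀ e, MvPolynomial.eval (0 : Fin d → F) (P e) = 0 := fun e => by
    rw [hev, map_zero, map_zero, Matrix.det_zero, map_zero]
  have hpos : 0 < Fintype.card {x : Fin d → F // ∀ e, MvPolynomial.eval x (P e) = 0} :=
    Fintype.card_pos_iff.2 ⟨⟨0, h0⟩⟩
  obtain ⟨⟨x, hx⟩, hne⟩ := Fintype.exists_ne_of_one_lt_card
    (hp.one_lt.trans_le (Nat.le_of_dvd hpos hdvd)) ⟨0, h0⟩
  refine ⟨b.equivFun.symm x, fun h1 => hne (Subtype.ext ?_), fun e => by rw [← hev, hx]⟩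
  exact b.equivFun.symm.map_eq_zero_iff.1 h1

variable {K L : Type} [CommRing K] [Field L] [Algebra K L]

/-- **semilinear lemma.**  With a basis `e` of `N`, `Θ e_j = ∑_i A_{ij} e_i`, the matrix `A_n` of the
vectors `Θ^[n] e_j` satisfies `A_{n+1} = A * A_n.map σ`, so `det A_n = ∏_{k<n} σ^k (det A)`;
`A_r = a • 1`. -/
theorem semilinear_norm (σ : L ≃ₐ[K] L) {N : Type} [AddCommGroup N] [Module L N] [Module.Finite L N]
    (Θ : N →+ N) (hΘ : ∀ (x : L) (v : N), Θ (x • v) = σ x • Θ v) {r : ℕ} {a : L}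
    (hr : ∀ v, Θ^[r] v = a • v) :
    ∃ δ : L, ∏ k ∈ Finset.range r, (σ ^ k) δ = a ^ Module.finrank L N := by
  classical
  set e := Module.finBasis L N with he
  set A : ℕ → Matrix (Fin (Module.finrank L N)) (Fin (Module.finrank L N)) L :=
    fun n => Matrix.of fun i j => e.repr (Θ^[n] (e j)) i with hA
  have hs : ∀ n, A (n + 1) = A 1 * (A n).map σ := fun n => by
    ext i j
    simp only [hA, Matrix.of_apply, Matrix.mul_apply, Matrix.map_apply, Function.iterate_succ_apply',
      Function.iterate_zero_apply]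
    conv_lhs => rw [← e.sum_repr (Θ^[n] (e j))]
    simp only [map_sum, hΘ, map_smul, Finsupp.coe_finsetSum, Finset.sum_apply, Finsupp.smul_apply,
      smul_eq_mul, mul_comm]
  have hd : ∀ n, (A n).det = ∏ k ∈ Finset.range n, (σ ^ k) (A 1).det := fun n => by
    induction n with
    | zero =>
      have : A 0 = 1 := by
        ext i j
        simp [hA, Matrix.one_apply, Finsupp.single_apply, eq_comm]
      simp [this]
    | succ n ih =>
      have h1 : ((A n).map σ).det = σ (A n).det := (AlgEquiv.map_det σ (A n)).symm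
      rw [hs, Matrix.det_mul, h1, ih, Finset.prod_range_succ', map_prod, mul_comm]
      simp only [pow_succ', AlgEquiv.mul_apply, pow_zero, AlgEquiv.one_apply]
  have hr' : A r = a • (1 : Matrix _ _ L) := by
    ext i j
    simp [hA, hr, Matrix.one_apply, Finsupp.single_apply, eq_comm]
  exact ⟨(A 1).det, by rw [← hd, hr', Matrix.det_smul, Matrix.det_one, mul_one, Fintype.card_fin]⟩

/-- the matrix `M(c)` of the cyclic algebra `(L, σ, a)` -/
def cyc (r : ℕ) (σ : L ≃ₐ[K] L) (a : L) (c : ℕ → L) : Matrix (Fin r) (Fin r) L := fun i j =>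
  if i ≤ j then (σ ^ (i : ℕ)) (c (j - i)) else a * (σ ^ (i : ℕ)) (c (r + j - i))

/-- With `s = finRotate` (`i ↦ i + 1 mod r`):
`σ (M i j) * (if j = last then a else 1) = (if i = last then a else 1) * M (s i) (s j)`. -/
theorem cyc_shift {n : ℕ} (σ : L ≃ₐ[K] L) (hσ : σ ^ (n + 1) = 1) {a : L} (ha : σ a = a) (c : ℕ → L)
    (i j : Fin (n + 1)) :
    σ (cyc (n + 1) σ a c i j) * (if j = Fin.last n then a else 1) =
      (if i = Fin.last n then a else 1) * cyc (n + 1) σ a c (i + 1) (j + 1) := by
  have h1 : ∀ (k : ℕ) (x : L), σ ((σ ^ k) x) = (σ ^ (k + 1)) x := fun k x => by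
    rw [pow_succ', AlgEquiv.mul_apply]
  have hi := i.2
  have hj := j.2
  simp only [cyc, Fin.le_iff_val_le_val, Fin.val_add_one]
  by_cases h2 : i = Fin.last n <;> by_cases h3 : j = Fin.last n
  · subst h2; subst h3
    simp only [le_refl, if_true, h1, Fin.val_last, hσ, pow_zero, Nat.sub_self, mul_comm]
  · have h4 : (j : ℕ) ≠ n := fun h => h3 (Fin.ext h)
    subst h2
    rw [if_neg (by simp only [Fin.val_last]; omega)]
    simp only [if_neg h3, if_true, Nat.zero_le, map_mul, ha, h1, Fin.val_last, hσ, mul_one, pow_zero,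
      Nat.sub_zero]
    rw [show n + 1 + j - n = j + 1 by omega]
  · have h4 : (i : ℕ) ≠ n := fun h => h2 (Fin.ext h)
    subst h3
    rw [if_pos (by simp only [Fin.val_last]; omega)]
    simp only [if_neg h2, if_true, h1, Fin.val_last, one_mul]
    rw [if_neg (by omega), show n + 1 + 0 - (i + 1) = n - i by omega, mul_comm]
  · simp only [if_neg h2, if_neg h3, mul_one, one_mul, Nat.add_le_add_iff_right]
    split_ifs with h4
    · rw [h1, show (j : ℕ) + 1 - (i + 1) = j - i by omega]
    · rw [map_mul, ha, h1, show n + 1 + ((j : ℕ) + 1) - (i + 1) = n + 1 + j - i by omega]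

/-- `RingHom.map_det`/`AlgEquiv.map_det`, `cyc_shift`, `det_mul_row`/`det_mul_column`,
`Matrix.det_submatrix_equiv_self` -/
theorem cyc_det_fixed {r : ℕ} (hr : 0 < r) (σ : L ≃ₐ[K] L) (hσ : σ ^ r = 1) {a : L} (ha : σ a = a)
    (ha0 : a ≠ 0) (c : ℕ → L) : σ (cyc r σ a c).det = (cyc r σ a c).det := by
  obtain ⟨n, rfl⟩ : ∃ n, r = n + 1 := ⟨r - 1, by omega⟩
  set M := cyc (n + 1) σ a c with hM
  set d : Fin (n + 1) → L := fun j => if j = Fin.last n then a else 1 with hd
  have h1 : M.map σ * Matrix.diagonal d =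
      Matrix.diagonal d * M.submatrix (Equiv.addRight 1) (Equiv.addRight 1) := by
    ext i j
    rw [Matrix.mul_diagonal, Matrix.diagonal_mul]
    exact cyc_shift σ hσ ha c i j
  have h2 := congrArg Matrix.det h1
  have h3 : (M.map σ).det = σ M.det := (AlgEquiv.map_det σ M).symm
  have h4 : (Matrix.diagonal d).det ≠ 0 := by
    rw [Matrix.det_diagonal]
    exact Finset.prod_ne_zero_iff.2 fun j _ => by simp only [hd]; split_ifs <;> simp [ha0]
  rw [Matrix.det_mul, Matrix.det_mul, h3, Matrix.det_submatrix_equiv_self, mul_comm] at h2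
  exact mul_left_cancel₀ h4 h2

/-- **norm lemma.**  `N = ker (M.mulVecLin)` has dimension `0 < ρ < r` (`Matrix.exists_mulVec_eq_zero_iff`;
row `0` of `M` is `c ≠ 0`) and is stable under `Θ x = (j ↦ (if j = 0 then a⁻¹ else 1) * σ (x (j - 1)))`
(`cyc_shift`), `Θ^[r] x = a⁻¹ • x` (by induction `Θ^[k] x j = (if j < k then a⁻¹ else 1) * σ^k (x (j - k))`
for `k ≤ r`).  `semilinear_norm` gives `N δ = a^(-ρ)`; with `ρ ρ' = 1 + r s` (integers, `r` prime),
`h = δ^(-ρ') a^(-s)` has norm `a`. -/
theorem norm_of_det {r : ℕ} (hr : r.Prime) (σ : L ≃ₐ[K] L) (hσ : σ ^ r = 1) {a : L} (ha : σ a = a)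
    (ha0 : a ≠ 0) {c : ℕ → L} (hc : ∃ k < r, c k ≠ 0) (hdet : (cyc r σ a c).det = 0) :
    ∃ h : L, ∏ k ∈ Finset.range r, (σ ^ k) h = a := by
  obtain ⟨n, rfl⟩ : ∃ n, r = n + 1 := ⟨r - 1, by have := hr.pos; omega⟩
  set M := cyc (n + 1) σ a c with hM
  set N := LinearMap.ker M.mulVecLin with hN
  have hai : σ a⁻¹ = a⁻¹ := by rw [map_inv₀, ha]
  set T : (Fin (n + 1) → L) → Fin (n + 1) → L :=
    fun x j => (if j = 0 then a⁻¹ else 1) * σ (x (j - 1)) with hT
  have hTN : ∀ x ∈ N, T x ∈ N := fun x hx => by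
    have hx : M.mulVec x = 0 := hx
    change M.mulVec (T x) = 0
    funext i
    obtain ⟨i, rfl⟩ : ∃ i', i = i' + 1 := ⟨i - 1, (sub_add_cancel i 1).symm⟩
    have h1 : (if i = Fin.last n then a else 1) ≠ 0 := by split_ifs <;> simp [ha0]
    refine mul_left_cancel₀ h1 ?_
    have h2 := congrArg σ (congrFun hx i)
    rw [Pi.zero_apply, map_zero] at h2
    rw [Pi.zero_apply, mul_zero, ← h2]
    simp only [Matrix.mulVec, dotProduct, map_sum, map_mul, Finset.mul_sum]
    refine (Fintype.sum_equiv (Equiv.addRight 1) _ _ fun j => ?_).symm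
    rw [Equiv.coe_addRight, ← mul_assoc, ← cyc_shift σ hσ ha c i j]
    simp only [hT, add_sub_cancel_right]
    have h3 : j + 1 = 0 ↔ j = Fin.last n := by
      rw [← Fin.last_add_one n, add_left_inj]
    simp only [h3, ← hM]
    split_ifs
    · field_simp
    · ring
  set Θ : N →+ N :=
    { toFun := fun v => ⟨T v, hTN v v.2⟩
      map_zero' := Subtype.ext (funext fun j => by simp [hT])
      map_add' := fun v w => Subtype.ext (funext fun j => by
        simp only [hT, Submodule.coe_add, Pi.add_apply, map_add, mul_add]) } with hΘ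
  have hit : ∀ k ≤ n + 1, ∀ (v : N) (j : Fin (n + 1)), (Θ^[k] v : Fin (n + 1) → L) j =
      (if (j : ℕ) < k then a⁻¹ else 1) * (σ ^ k) ((v : Fin (n + 1) → L) (j - k • 1)) := by
    intro k
    induction k with
    | zero => intro _ v j; simp
    | succ k ih =>
      intro hk v j
      rw [Function.iterate_succ_apply']
      change (if j = 0 then a⁻¹ else 1) * σ ((Θ^[k] v : Fin (n + 1) → L) (j - 1)) = _
      rw [ih (by omega), map_mul, ← mul_assoc, pow_succ', AlgEquiv.mul_apply, succ_nsmul', sub_sub,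
        Fin.coe_sub_one]
      congr 1
      by_cases hj : j = 0
      · subst hj
        simp [show ¬ n < k by omega]
      · have : (j : ℕ) ≠ 0 := fun h => hj (Fin.ext h)
        simp only [if_neg hj, one_mul, show (j : ℕ) - 1 < k ↔ (j : ℕ) < k + 1 by omega]
        split_ifs
        · exact hai
        · exact map_one σ
  obtain ⟨δ, hδ⟩ := semilinear_norm σ Θ
    (fun x v => Subtype.ext (funext fun j => by simp [hΘ, hT, mul_left_comm])) (r := n + 1) (a := a⁻¹)
    (fun v => Subtype.ext (funext fun j => by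
      have h1 : (n + 1) • (1 : Fin (n + 1)) = 0 := by
        simpa using card_nsmul_eq_zero (G := Fin (n + 1)) (x := 1)
      rw [hit _ le_rfl, if_pos j.2, hσ, h1, sub_zero]
      rfl))
  have hpos : 0 < Module.finrank L N := by
    obtain ⟨v, hv, hv0⟩ := Matrix.exists_mulVec_eq_zero_iff.2 hdet
    exact Module.finrank_pos_iff_exists_ne_zero.2 ⟨⟨v, hv0⟩, fun h => hv (congrArg Subtype.val h)⟩
  have hlt : Module.finrank L N < n + 1 := by
    obtain ⟨k, hk, hck⟩ := hc
    have h1 : N ≠ ⊤ := fun h => by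
      have h2 : Pi.single (⟨k, hk⟩ : Fin (n + 1)) (1 : L) ∈ N := h ▸ Submodule.mem_top
      have h3 : M.mulVec (Pi.single (⟨k, hk⟩ : Fin (n + 1)) (1 : L)) = 0 := h2
      have h4 := congrFun h3 0
      simp [hM, cyc] at h4
      exact hck h4
    simpa using Submodule.finrank_lt h1
  have hcop : IsCoprime (Module.finrank L N : ℤ) ((n + 1 : ℕ) : ℤ) :=
    Nat.isCoprime_iff_coprime.2 ((Nat.coprime_of_lt_prime hpos.ne' hlt hr).symm)
  obtain ⟨u, v, huv⟩ := hcop
  have hak : ∀ k : ℕ, (σ ^ k) a = a := fun k => by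
    induction k with
    | zero => rfl
    | succ k ih => rw [pow_succ', AlgEquiv.mul_apply, ih, ha]
  refine ⟨δ ^ (-u) * a ^ v, ?_⟩
  simp only [map_mul, map_zpow₀, hak, Finset.prod_mul_distrib, Finset.prod_zpow, hδ, Finset.prod_const,
    Finset.card_range]
  rw [inv_pow, inv_zpow', neg_neg, ← zpow_natCast, ← zpow_natCast, ← zpow_mul, ← zpow_mul,
    ← zpow_add₀ ha0, mul_comm _ u, mul_comm _ v, huv, zpow_one]

end Crest.Agent.R312
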