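import Crest.Agent.R312.A2Nu
import Crest.Agent.R312.A2Norm

/-!
# R312 / A2Det : `D(c) = det M(c)` is a polynomial of degree `≤ B`
-/

set_option autoImplicit false

open Polynomial WithZero
open scoped nonZeroDivisors

noncomputable section

namespace Crest.Agent.R312.Cv

variable {F : Type} [Field F] (E : Cv F)

/-- `c_k = c'_k / ν^k` -/
def cL (ν : F[X]) (c : ℕ → E.R) (k : ℕ) : E.L := E.j (c k) / E.j (E.of ν) ^ k

/-- the matrix `M(c)` for `a = κ ν` -/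
def Mat (κ : F) (ν : F[X]) (c : ℕ → E.R) : Matrix (Fin E.r) (Fin E.r) E.L :=
  cyc E.r E.σL (E.j (E.of (C κ * ν))) (E.cL ν c)

theorem a2det_ne {I : Ideal E.R} {ν : F[X]} (hν : E.IsNu I ν) (i k : ℕ) :
    (E.sI i (E.Ik I k) : FractionalIdeal E.R⁰ E.L) ≠ 0 :=
  FractionalIdeal.coeIdeal_ne_zero.2 (E.sI_eq_bot.not.2 (E.Ik_ne_bot hν.ne_bot k))

theorem a2det_ne' {I : Ideal E.R} {ν : F[X]} (hν : E.IsNu I ν) (k : ℕ) :
    (E.Ik I k : FractionalIdeal E.R⁰ E.L) ≠ 0 :=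
  FractionalIdeal.coeIdeal_ne_zero.2 (E.Ik_ne_bot hν.ne_bot k)

theorem a2det_j_ne {I : Ideal E.R} {ν : F[X]} (hν : E.IsNu I ν) : E.j (E.of ν) ≠ 0 :=
  E.j_ne ((map_ne_zero_iff _ E.of_injective).2 hν.monic.ne_zero)

theorem a2det_inv {I : Ideal E.R} {ν ω : F[X]} (hν : E.IsNu I ν) {B : ℕ} {c : ℕ → E.R}
    (hc : E.InV I ν ω B c) (i : ℕ) {k : ℕ} (hk : k < E.r) :
    (E.σL ^ i) (E.cL ν c k) ∈ (1 / (E.sI i (E.Ik I k) : FractionalIdeal E.R⁰ E.L)) := by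
  rw [FractionalIdeal.mem_div_iff_of_ne_zero (E.a2det_ne hν i k)]
  intro y hy
  obtain ⟨_, hw, rfl⟩ := (FractionalIdeal.mem_coeIdeal _).1 hy
  obtain ⟨v, hv, rfl⟩ := E.mem_sI.1 hw
  obtain ⟨t, ht⟩ := Ideal.mem_span_singleton'.1 (hc.mem k hk v hv)
  have h1 : E.cL ν c k * E.j v = E.j t := by
    rw [cL, div_mul_eq_mul_div, ← map_mul, ← ht, map_mul, map_pow, map_pow,
      mul_div_cancel_right₀ _ (pow_ne_zero _ (E.a2det_j_ne hν))]
  rw [← E.σL_pow_j, ← map_mul, h1, E.σL_pow_j]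
  exact (FractionalIdeal.mem_one_iff _).2 ⟨_, rfl⟩

theorem a2det_prod {ι : Type} (s : Finset ι) {x : ι → E.L} {J : ι → FractionalIdeal E.R⁰ E.L}
    (h : ∀ i, x i ∈ J i) : ∏ i ∈ s, x i ∈ ∏ i ∈ s, J i :=
  Finset.prod_hom_rel (r := fun a (b : FractionalIdeal E.R⁰ E.L) => a ∈ b)
    ((FractionalIdeal.mem_one_iff _).2 ⟨1, map_one _⟩) fun i _ _ hb => FractionalIdeal.mul_mem_mul (h i) hb

theorem a2det_V {I : Ideal E.R} {ν ω : F[X]} (hν : E.IsNu I ν) {B : ℕ} {c : ℕ → E.R}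
    (hc : E.InV I ν ω B c) (i : ℕ) {k : ℕ} (hk : k < E.r) :
    E.pInf.V ((E.σL ^ i) (E.cL ν c k)) ≤ exp ((B : ℤ) - k * ν.natDegree) := by
  have h1 := E.le_iff_VR.1 (hc.inf k hk)
  rw [PlA.V_σL_pow, cL, map_div₀, map_pow, PlA.V_j, pInf_V_of, vInf_of_ne hν.monic.ne_zero, ← exp_nsmul,
    ← exp_nsmul, div_le_iff₀ exp_pos, ← exp_add]
  refine h1.trans_eq (congrArg exp ?_)
  push_cast [Nat.cast_sub E.r_pos, nsmul_eq_mul]
  ring

/-- The entry `(i,j)` maps `I_j` into `I_i`.  For `i ≤ j`: `I_j = I_i σ^i(I_{j-i})` (`Ik_add`) and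
`σ^i c_{j-i}` maps `σ^i I_{j-i}` into `R`.  For `j < i`: `I_i σ^i(I_{r+j-i}) = I_{r+j} = (ν) I_j`;
it suffices (cancellation in the Dedekind domain; e.g. work with fractional ideals, where
`x ∈ I_i / I_j`) to see `κ ν σ^i(c_{r+j-i}) I_j σ^i(I_{r+j-i}) ⊆ I_i σ^i(I_{r+j-i})`; the left side lies in
`(ν) I_j`. -/
theorem Mat_mem {I : Ideal E.R} {ν ω : F[X]} (hν : E.IsNu I ν) (κ : F) {B : ℕ} {c : ℕ → E.R}
    (hc : E.InV I ν ω B c) (i j : Fin E.r) :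
    E.Mat κ ν c i j ∈ ((E.Ik I i : FractionalIdeal E.R⁰ E.L) / (E.Ik I j : FractionalIdeal E.R⁰ E.L)) := by
  rw [Mat, cyc]
  split_ifs with h
  · have e : E.Ik I j = E.Ik I i * E.sI i (E.Ik I (j - i)) := by
      rw [← Ik_add, Nat.add_sub_cancel' h]
    rw [e, FractionalIdeal.coeIdeal_mul, div_mul_cancel_left₀ (E.a2det_ne' hν i), ← one_div]
    exact E.a2det_inv hν hc i (by omega)
  · have hi := i.2
    have hj : (j : ℕ) < i := not_le.1 h
    have e : E.Ik I i * E.sI i (E.Ik I (E.r + j - i)) = Ideal.span {E.of ν} * E.Ik I j := by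
      rw [← Ik_add, show i + (E.r + j - i) = E.r + j by omega, Ik_add, sI_r, hν.2]
    have e' := congrArg (fun J : Ideal E.R => (J : FractionalIdeal E.R⁰ E.L)) e
    simp only [FractionalIdeal.coeIdeal_mul] at e'
    rw [(div_eq_div_iff (E.a2det_ne' hν j) (E.a2det_ne hν i _)).2 e', div_eq_mul_one_div]
    refine FractionalIdeal.mul_mem_mul (FractionalIdeal.mem_coeIdeal_of_mem _ ?_)
      (E.a2det_inv hν hc i (by omega))
    rw [map_mul]
    exact Ideal.mul_mem_left _ _ (Ideal.mem_span_singleton_self _)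

/-- every term of the determinant lies in `∏_i I_{τ i} / I_i = 1` -/
theorem det_mem_R {I : Ideal E.R} {ν ω : F[X]} (hν : E.IsNu I ν) (κ : F) {B : ℕ} {c : ℕ → E.R}
    (hc : E.InV I ν ω B c) : ∃ u : E.R, (E.Mat κ ν c).det = E.j u := by
  suffices h : (E.Mat κ ν c).det ∈ E.j.range from h.imp fun _ => Eq.symm
  rw [Matrix.det_apply']
  refine Subring.sum_mem _ fun τ _ => Subring.mul_mem _ (intCast_mem _ _) ?_
  have h := E.a2det_prod Finset.univ fun i => E.Mat_mem hν κ hc (τ i) i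
  rw [Finset.prod_div_distrib, Equiv.prod_comp τ fun i => (E.Ik I i : FractionalIdeal E.R⁰ E.L),
    div_self (Finset.prod_ne_zero_iff.2 fun (i : Fin E.r) _ => E.a2det_ne' hν i)] at h
  exact (FractionalIdeal.mem_one_iff _).1 h

/-- `V∞ (M i j) ≤ exp (B + i d) * exp (- j d)` (`le_iff_VR`, `pInf_V_of`), `val_det_le` -/
theorem det_V_inf {I : Ideal E.R} {ν ω : F[X]} (hν : E.IsNu I ν) (κ : F) {B : ℕ} {c : ℕ → E.R}
    (hc : E.InV I ν ω B c) : E.pInf.V (E.Mat κ ν c).det ≤ exp ((E.r : ℤ) * B) := by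
  refine (val_det_le _ _ (fun i : Fin E.r => exp ((B : ℤ) + (i : ℕ) * ν.natDegree))
    (fun j : Fin E.r => exp (-((j : ℕ) * ν.natDegree : ℤ))) fun i j => ?_).trans_eq ?_
  · have hi := i.2
    have hj := j.2
    rw [Mat, cyc, ← exp_add]
    split_ifs with h
    · refine (E.a2det_V hν hc i (by omega)).trans_eq (congrArg exp ?_)
      rw [Nat.cast_sub h]
      ring
    · have h' : (j : ℕ) < i := not_le.1 h
      have h1 : vInf F (C κ * ν) ≤ exp (ν.natDegree : ℤ) := vInf_le_iff.2 (natDegree_C_mul_le κ ν)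
      rw [map_mul, pInf_V_of]
      refine (mul_le_mul' (pow_le_pow_left' h1 _) (E.a2det_V hν hc i (by omega))).trans_eq ?_
      rw [← exp_nsmul, ← exp_add, Nat.cast_sub (by omega)]
      congr 1
      push_cast [nsmul_eq_mul]
      ring
  · rw [← Finset.prod_mul_distrib]
    simp only [← exp_add, add_neg_cancel_right, Finset.prod_const, Finset.card_univ, Fintype.card_fin,
      ← exp_nsmul, nsmul_eq_mul]

/-- `det_mem_R`, `cyc_det_fixed`, `eq_of_σ_fixed`, `det_V_inf` -/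
theorem det_poly {I : Ideal E.R} {ν ω : F[X]} (hν : E.IsNu I ν) {κ : F} (hκ : κ ≠ 0) {B : ℕ}
    {c : ℕ → E.R} (hc : E.InV I ν ω B c) :
    ∃ D : F[X], D.natDegree ≤ B ∧ (E.Mat κ ν c).det = E.j (E.of D) := by
  obtain ⟨u, hu⟩ := E.det_mem_R hν κ hc
  have h1 : E.σL (E.Mat κ ν c).det = (E.Mat κ ν c).det :=
    cyc_det_fixed E.r_pos E.σL E.σL_pow_r (by rw [σL_j, σ_of]) (E.j_ne ((map_ne_zero_iff _
      E.of_injective).2 (mul_ne_zero (C_ne_zero.2 hκ) hν.monic.ne_zero))) _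
  rw [hu, σL_j] at h1
  rw [E.eq_of_σ_fixed (E.j_injective h1)] at hu
  refine ⟨_, vInf_le_iff.1 ?_, hu⟩
  have h2 := E.det_V_inf hν κ hc
  rw [hu, pInf_V_of, ← nsmul_eq_mul, exp_nsmul] at h2
  exact le_of_pow_le_pow_left₀ E.hr.ne_zero zero_le h2

end Crest.Agent.R312.Cv
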