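import Crest.Agent.R312.A2Det

/-!
# R312 / A2Det2 : `g^(r-1) ∣ D(c)`
-/

set_option autoImplicit false

open Polynomial WithZero

noncomputable section

namespace Crest.Agent.R312

variable {F : Type} [Field F]

namespace PlA

variable {E : Cv F} (P : PlA E)

theorem a2d_binom {t : E.L} {c : ℤᵐ⁰} (ht : P.V t ≤ c) (hc : c ≤ 1) (n : ℕ) :
    P.V ((1 + t) ^ n - 1 - n * t) ≤ c * c := by
  induction n with
  | zero => simp
  | succ n ih =>
    have e : (1 + t) ^ (n + 1) - 1 - ((n + 1 : ℕ) : E.L) * t =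
        (1 + t) * ((1 + t) ^ n - 1 - n * t) + n * (t * t) := by push_cast; ring
    have h1 : P.V (1 + t) ≤ 1 := P.V.map_add_le (by rw [map_one]) (ht.trans hc)
    have h2 : P.V (n : E.L) ≤ 1 := by
      rw [← map_natCast (algebraMap F E.L)]; exact P.V_algebraMap_le _
    rw [e]
    refine P.V.map_add_le ?_ ?_
    · rw [map_mul]; simpa using mul_le_mul' h1 ih
    · rw [map_mul, map_mul]; simpa using mul_le_mul' h2 (mul_le_mul' ht ht)

theorem a2d_pow_sub {x y : E.L} {c : ℤᵐ⁰} (hx : P.V x ≤ 1) (hy : P.V y ≤ 1) (h : P.V (x - y) ≤ c)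
    (k : ℕ) : P.V (x ^ k - y ^ k) ≤ c := by
  induction k with
  | zero => simp
  | succ k ih =>
    rw [show x ^ (k + 1) - y ^ (k + 1) = x * (x ^ k - y ^ k) + (x - y) * y ^ k by ring]
    refine P.V.map_add_le ?_ ?_
    · rw [map_mul]; simpa using mul_le_mul' hx ih
    · rw [map_mul, map_pow]; simpa using mul_le_mul' h (pow_le_one' hy k)

theorem a2d_exp_sum {ι : Type} (s : Finset ι) (f : ι → ℤ) :
    ∏ i ∈ s, exp (f i) = exp (∑ i ∈ s, f i) := by
  classical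
  induction s using Finset.induction_on with
  | empty => simp
  | insert a s ha ih => rw [Finset.prod_insert ha, Finset.sum_insert ha, ih, exp_add]

/-- Newton step.  With `ε = a / w^r - 1`, `w₁ = w (1 + r⁻¹ • ε)`.  For `V t ≤ c ≤ 1`:
`V ((1+t)^n - 1 - n t) ≤ c²` (induction on `n`). -/
theorem exists_lift {a w : E.L} (ha : E.σL a = a) (hw : E.σL w = w) (hw1 : P.V w = 1) {n : ℕ}
    (hn : 0 < n) (h : P.V (a - w ^ E.r) ≤ exp (-(n : ℤ))) :
    ∃ w₁ : E.L, E.σL w₁ = w₁ ∧ P.V (w₁ - w) ≤ exp (-(n : ℤ)) ∧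
      P.V (a - w₁ ^ E.r) ≤ exp (-(2 * n : ℤ)) := by
  have hw0 : w ≠ 0 := fun h0 => by rw [h0, map_zero] at hw1; exact zero_ne_one hw1
  have hwr : w ^ E.r ≠ 0 := pow_ne_zero _ hw0
  set ε := a / w ^ E.r - 1 with hε
  set t := (E.r : F)⁻¹ • ε with ht
  have h1 : P.V ε ≤ exp (-(n : ℤ)) := by
    rw [hε, div_sub_one hwr, map_div₀, map_pow, hw1, one_pow, div_one]; exact h
  have h2 : P.V t ≤ exp (-(n : ℤ)) := (P.V_smul_le _ _).trans h1
  have h3 : (E.r : E.L) * t = ε := by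
    rw [ht, ← map_natCast (algebraMap F E.L), ← Algebra.smul_def, smul_smul,
      mul_inv_cancel₀ E.r_ne_zero, one_smul]
  refine ⟨w * (1 + t), ?_, ?_, ?_⟩
  · have h4 := E.σL_pow_smul 1 (E.r : F)⁻¹ ε
    rw [pow_one] at h4
    rw [map_mul, map_add, map_one, hw, ht, h4, hε, map_sub, map_div₀, map_pow, ha, hw, map_one]
  · rw [show w * (1 + t) - w = w * t by ring, map_mul, hw1, one_mul]; exact h2
  · have h4 := P.a2d_binom h2 (by rw [← exp_zero, exp_le_exp]; omega) E.r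
    have e : a - (w * (1 + t)) ^ E.r = -(w ^ E.r * ((1 + t) ^ E.r - 1 - E.r * t)) := by
      rw [h3, hε, mul_pow]; field_simp; ring
    rw [e, Valuation.map_neg, map_mul, map_pow, hw1, one_pow, one_mul]
    refine h4.trans (le_of_eq ?_)
    rw [← exp_add]; congr 1; ring

/-- **The local determinant estimate** (for a place with `V Y = exp (-1)`).
Let `e k` (`k < r`) be integral with `V (∑_k ζ^(-kb) e_k) ≤ exp (-b)`, and let `a = 1 + ε`,
`V ε ≤ exp (-2r)`.  `N = cyc r σ a e`, `N i j = σ^i e_{(j-i) mod r} + O(ε)`.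
`U s i = ζ^(-is)`, `W j b = ζ^(-jb) Y^(-b)`.  `(U N W) s b = r π_s(T_b) + O(exp (b - 2r))`,
`T_b = Y^(-b) ∑_k ζ^(-kb) e_k` (reindex `j = i + k` in `Fin r`; `σ^i Y^(-b) = ζ^(-ib) Y^(-b)`),
`V T_b ≤ 1`, so `V (π_s T_b) ≤ exp (-s)` (`V_π_le`, `σL_π`, `V_eig_le`).  `val_det_le` gives
`V det (U N W) ≤ exp (-∑ s)`.  `V (det U) = 1` (`U` is the image of an invertible matrix over `F`:
Vandermonde `Matrix.det_vandermonde_ne_zero_iff` with the nodes `ζ^(-s)`), and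
`W = U * diagonal (Y^(-b))`, `V (det W) = exp (∑ b)`; `2 ∑_{b<r} b = r (r-1)`. -/
theorem cyc_det_le (hP : P.m0 = -1) {a : E.L} (ha : P.V (a - 1) ≤ exp (-(2 * E.r : ℤ)))
    {e : ℕ → E.L} (he : ∀ k < E.r, P.V (e k) ≤ 1)
    (hb : ∀ b < E.r, P.V (∑ k ∈ Finset.range E.r, E.ζ⁻¹ ^ (k * b) • e k) ≤ exp (-(b : ℤ))) :
    P.V (cyc E.r E.σL a e).det ≤ exp (-((E.r : ℤ) * (E.r - 1))) := by
  have hr := E.r_pos
  have : NeZero E.r := ⟨hr.ne'⟩
  set y := E.j E.Y with hy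
  have hVy : ∀ b : ℕ, P.V (y ^ b)⁻¹ = exp (b : ℤ) := fun b => by
    rw [map_inv₀, map_pow, hy, P.V_Y, hP, ← exp_nsmul, ← exp_neg]; simp
  have hσy : ∀ i b : ℕ, (E.σL ^ i) (y ^ b)⁻¹ = E.ζ⁻¹ ^ (i * b) • (y ^ b)⁻¹ := fun i b => by
    rw [map_inv₀, E.σL_pow_eig (b := b) (by rw [map_pow, hy, E.σL_Y, _root_.smul_pow]), smul_inv₀,
      inv_pow]
  have hζ1 : E.ζ⁻¹ ^ E.r = 1 := by rw [inv_pow, E.hζ.pow_eq_one, inv_one]
  set U : Matrix (Fin E.r) (Fin E.r) E.L :=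
    (Matrix.vandermonde fun s : Fin E.r => E.ζ⁻¹ ^ (s : ℕ)).map (algebraMap F E.L) with hU
  have hUa : ∀ s i : Fin E.r, U s i = algebraMap F E.L (E.ζ⁻¹ ^ ((s : ℕ) * i)) := fun s i => by
    rw [hU, Matrix.map_apply, Matrix.vandermonde_apply, pow_mul]
  have hUd : P.V U.det = 1 := by
    rw [hU, ← RingHom.mapMatrix_apply, ← RingHom.map_det]
    exact P.V_algebraMap (Matrix.det_vandermonde_ne_zero_iff.2 fun s s' h =>
      Fin.ext (E.hζ.inv.pow_inj s.2 s'.2 h))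
  set N := cyc E.r E.σL a e with hN
  set δ : Fin E.r → Fin E.r → E.L := fun i j => N i j - (E.σL ^ (i : ℕ)) (e (j - i : Fin E.r)) with hδ
  have hδV : ∀ i j, P.V (δ i j) ≤ exp (-(2 * E.r : ℤ)) := fun i j => by
    simp only [hδ, hN, cyc]
    split_ifs with h
    · rw [Fin.coe_sub_iff_le.2 h, sub_self, map_zero]; exact zero_le
    · rw [Fin.coe_sub_iff_lt.2 (not_le.1 h), ← sub_one_mul, map_mul, P.V_σL_pow]
      have := i.2
      have : (j : ℕ) < i := not_le.1 h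
      simpa using mul_le_mul' ha (he (E.r + j - i) (by omega))
  set T : ℕ → E.L := fun b => (∑ k ∈ Finset.range E.r, E.ζ⁻¹ ^ (k * b) • e k) * (y ^ b)⁻¹ with hT
  have hTV : ∀ b < E.r, P.V (T b) ≤ exp (0 : ℤ) := fun b hb' => by
    rw [hT]; simp only
    rw [map_mul, hVy]
    refine (mul_le_mul_left (hb b hb') _).trans (le_of_eq ?_)
    rw [← exp_add]; simp
  have hmain : ∀ i b : Fin E.r, ∑ j : Fin E.r, (E.σL ^ (i : ℕ)) (e (j - i : Fin E.r)) *
      (U j b * (y ^ (b : ℕ))⁻¹) = (E.σL ^ (i : ℕ)) (T b) := fun i b => by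
    rw [hT]; simp only
    rw [map_mul, hσy, map_sum, Finset.sum_mul, Finset.sum_range]
    refine (Fintype.sum_equiv (Equiv.addRight i) _ _ fun k => ?_).symm
    rw [Equiv.coe_addRight, add_sub_cancel_right, hUa, E.σL_pow_smul, Fin.val_add, pow_mul _ (_ % _),
      ← pow_eq_pow_mod _ hζ1, ← pow_mul, add_mul, pow_add, map_mul, Algebra.smul_def, Algebra.smul_def]
    ring
  have hent : ∀ s b : Fin E.r,
      P.V ((U * N * (U * Matrix.diagonal fun b : Fin E.r => (y ^ (b : ℕ))⁻¹)) s b) ≤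
        exp (-(s : ℤ)) * 1 := fun s b => by
    have e1 : (U * N * (U * Matrix.diagonal fun b : Fin E.r => (y ^ (b : ℕ))⁻¹)) s b =
        (E.r : F) • E.π s (T b) +
          ∑ i : Fin E.r, U s i * ∑ j : Fin E.r, δ i j * (U j b * (y ^ (b : ℕ))⁻¹) := by
      rw [Matrix.mul_assoc, Matrix.mul_apply, ← E.r_smul_π, Finset.sum_range, ← Finset.sum_add_distrib]
      refine Finset.sum_congr rfl fun i _ => ?_
      rw [Algebra.smul_def, mul_comm (i : ℕ), ← hUa, ← mul_add, ← hmain, ← Finset.sum_add_distrib,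
        Matrix.mul_apply]
      congr 1
      refine Finset.sum_congr rfl fun j _ => ?_
      rw [Matrix.mul_diagonal, hδ]
      ring
    have hs := s.2
    have hb' := b.2
    rw [e1, mul_one]
    refine P.V.map_add_le ((P.V_smul_le _ _).trans (P.V_eig_le (E.σL_π s _)
      ((P.V_π_le _ _).trans (hTV b b.2)) (by simp) (by omega))) (P.V.map_sum_le fun i _ => ?_)
    rw [map_mul, hUa]
    refine (mul_le_mul' (P.V_algebraMap_le _) (P.V.map_sum_le (g := exp (-(s : ℤ))) fun j _ => ?_)).trans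
      (by rw [one_mul])
    rw [map_mul, map_mul, hUa, hVy]
    refine (mul_le_mul' (hδV i j) (mul_le_mul_left (P.V_algebraMap_le _) _)).trans ?_
    rw [one_mul, ← exp_add, exp_le_exp]
    omega
  have h1 := val_det_le P.V _ (fun s : Fin E.r => exp (-(s : ℤ))) (fun _ => 1) hent
  rw [Matrix.det_mul, Matrix.det_mul, Matrix.det_mul, map_mul, map_mul, map_mul, hUd, one_mul, one_mul,
    Matrix.det_diagonal, map_prod] at h1
  simp only [hVy, a2d_exp_sum, Finset.prod_const_one, mul_one, Finset.sum_neg_distrib] at h1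
  have h2 : (∑ i : Fin E.r, ((i : ℕ) : ℤ)) * 2 = (E.r : ℤ) * (E.r - 1) := by
    have := Finset.sum_range_id_mul_two E.r
    rw [Finset.sum_range fun i => i] at this
    have h3 := congrArg (Nat.cast : ℕ → ℤ) this
    push_cast [Nat.cast_sub hr] at h3
    exact h3
  rw [← le_mul_inv_iff₀ (zero_lt_iff.2 exp_ne_zero), ← exp_neg, ← exp_add] at h1
  rw [← h2]
  refine h1.trans (le_of_eq ?_)
  congr 1; ring

end PlA

/-- conjugation by `diag (w^i)`: `cyc (a / w^r) (w^k c_k) i j = w^j * cyc a c i j * (w^i)⁻¹` -/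
theorem cyc_det_scale {K L : Type} [CommRing K] [Field L] [Algebra K L] (r : ℕ) (σ : L ≃ₐ[K] L)
    (a : L) (c : ℕ → L) {w : L} (hw : σ w = w) (hw0 : w ≠ 0) :
    (cyc r σ (a / w ^ r) fun k => w ^ k * c k).det = (cyc r σ a c).det := by
  have hk : ∀ k : ℕ, (σ ^ k) w = w := fun k => by
    induction k with
    | zero => rfl
    | succ k ih => rw [pow_succ', AlgEquiv.mul_apply, ih, hw]
  have h1 : (cyc r σ (a / w ^ r) fun k => w ^ k * c k) =
      Matrix.diagonal (fun i : Fin r => (w ^ (i : ℕ))⁻¹) * cyc r σ a c *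
        Matrix.diagonal fun j : Fin r => w ^ (j : ℕ) := by
    ext i j
    rw [Matrix.mul_diagonal, Matrix.diagonal_mul]
    simp only [cyc, map_mul, map_pow, hk]
    split_ifs with h
    · rw [pow_sub₀ w hw0 h]; ring
    · rw [pow_sub₀ w hw0 (by have := i.2; omega), pow_add]; field_simp
  rw [h1, Matrix.det_mul, Matrix.det_mul, Matrix.det_diagonal, Matrix.det_diagonal, mul_right_comm,
    ← Finset.prod_mul_distrib, Finset.prod_eq_one fun i _ => inv_mul_cancel₀ (pow_ne_zero _ hw0),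
    one_mul]

namespace Cv

variable (E : Cv F)

/-- Condition (ii) in terms of valuations: for `u ∈ R`, `b ≤ r`,
`(∀ α, V_α u ≤ exp (-b)) ↔ ∀ s < b, g ∣ comp s u`  (`VR_le_iff`, `g_dvd_iff`, `vAt_eq_one_iff`). -/
theorem V_le_iff_dvd {u : E.R} {b : ℕ} (hb : b ≤ E.r) :
    (∀ α (hα : α ∈ E.S), (E.pAt α hα).VR u ≤ exp (-(b : ℤ))) ↔ ∀ s < b, E.g ∣ E.comp s u := by
  have htm : ∀ α (hα : α ∈ E.S) s, (E.pAt α hα).tm u s =
      vAt α (E.comp s u) ^ E.r * exp (-1 * (s : ℤ)) := fun _ _ _ => rfl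
  simp only [PlA.VR_le_iff, htm, g_dvd_iff]
  constructor
  · intro h s hs α hα
    by_contra h0
    have := h α hα s (by omega)
    rw [vAt_eq_one_iff.2 h0, one_pow, one_mul, exp_le_exp] at this
    omega
  · intro h α hα s _
    by_cases hs : s < b
    · refine (mul_le_mul_left (pow_le_pow_left' (vAt_le_of_eval (h s hs α hα)) _) _).trans ?_
      rw [← exp_nsmul, ← exp_add, exp_le_exp, nsmul_eq_mul]
      omega
    · refine (mul_le_mul_left (pow_le_one' (vAt_le_one _ _) _) _).trans ?_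
      rw [one_mul, exp_le_exp]
      omega

/-- (ii) for the element `∑_k ζ^(-kb) ω^k c_k` -/
theorem loc_iff {ω : F[X]} {c : ℕ → E.R} {b : ℕ} (hb : b < E.r) :
    (∀ s < b, E.g ∣ ∑ k ∈ Finset.range E.r, C (E.ζ⁻¹ ^ (k * b)) * ω ^ k * E.comp s (c k)) ↔
      ∀ α (hα : α ∈ E.S), (E.pAt α hα).V
        (∑ k ∈ Finset.range E.r, E.ζ⁻¹ ^ (k * b) • (E.j (E.of ω) ^ k * E.j (c k))) ≤ exp (-(b : ℤ)) := by
  have h := E.V_le_iff_dvd (u := ∑ k ∈ Finset.range E.r, E.of (C (E.ζ⁻¹ ^ (k * b)) * ω ^ k) * c k) hb.le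
  simp only [← PlA.V_j, map_sum E.j, map_sum (E.comp _), comp_of_mul] at h
  rw [← h]
  simp only [map_mul, map_pow E.of, map_pow E.j, smul_eq, mul_assoc]

/-- At `α`: `ν(α) ≠ 0`, `w(α) ≠ 0`; `exists_lift` with `n = r` gives `w₁`; `cyc_det_scale`, then
`cyc_det_le` for `e_k = w₁^k c_k / ν^k`, where `V (w₁/ν - ω) ≤ exp (-r)`, so
`V ((w₁/ν)^k - ω^k) ≤ exp (-r)`, and `loc_iff`. -/
theorem det_V_at {I : Ideal E.R} {ν ω w : F[X]} (hc0 : IsCoprime ν E.g) {κ : F} (hκ : κ ≠ 0)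
    (hw : E.g ∣ w ^ E.r - C κ * ν) (hω : E.g ∣ ω * ν - w) {B : ℕ} {c : ℕ → E.R}
    (hc : E.InV I ν ω B c) {α : F} (hα : α ∈ E.S) :
    (E.pAt α hα).V (E.Mat κ ν c).det ≤ exp (-((E.r : ℤ) * (E.r - 1))) := by
  set P := E.pAt α hα with hP
  have hr := E.r_pos
  have hν : ν.eval α ≠ 0 := E.isCoprime_g_iff.1 hc0 α hα
  have hw1 := E.g_dvd_iff.1 hw α hα
  have hw0 : w.eval α ≠ 0 := fun h => by
    simp [h, hr.ne', hκ, hν] at hw1
  have hone : ∀ p : F[X], p.eval α ≠ 0 → P.V (E.j (E.of p)) = 1 := fun p hp => by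
    rw [hP, pAt_V_of, vAt_eq_one_iff.2 hp, one_pow]
  have hsm : ∀ p : F[X], p.eval α = 0 → P.V (E.j (E.of p)) ≤ exp (-(E.r : ℤ)) := fun p hp => by
    rw [hP, pAt_V_of]
    refine (pow_le_pow_left' (vAt_le_of_eval hp) _).trans (le_of_eq ?_)
    rw [← exp_nsmul]; simp
  have hfix : ∀ p : F[X], E.σL (E.j (E.of p)) = E.j (E.of p) := fun p => E.σL.commutes p
  obtain ⟨w₁, h1, h2, h3⟩ := P.exists_lift (hfix (C κ * ν)) (hfix w) (hone w hw0) hr (by
    rw [Valuation.map_sub_swap, ← map_pow, ← map_pow, ← map_sub, ← map_sub]; exact hsm _ hw1)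
  have hV1 : P.V w₁ = 1 := by
    rw [← add_sub_cancel (E.j (E.of w)) w₁, P.V.map_add_eq_of_lt_left, hone w hw0]
    rw [hone w hw0]
    exact h2.trans_lt (by rw [← exp_zero, exp_lt_exp]; omega)
  have hw₁ : w₁ ≠ 0 := fun h0 => by rw [h0, map_zero] at hV1; exact zero_ne_one hV1
  have hν0 : E.j (E.of ν) ≠ 0 := fun h0 => by
    have := hone ν hν; rw [h0, map_zero] at this; exact zero_ne_one this
  have hcle : ∀ k, P.V (E.j (c k)) ≤ 1 := fun k => E.pAt_V_le_one α hα _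
  rw [Mat, ← cyc_det_scale _ _ _ _ h1 hw₁]
  refine P.cyc_det_le rfl ?_ (fun k _ => ?_) fun b hb => ?_
  · rw [div_sub_one (pow_ne_zero _ hw₁), map_div₀, map_pow, hV1, one_pow, div_one]; exact h3
  · rw [cL, map_mul, map_div₀, map_pow, map_pow, hV1, hone ν hν]
    simpa using hcle k
  · have h4 : P.V (w₁ / E.j (E.of ν) - E.j (E.of ω)) ≤ exp (-(E.r : ℤ)) := by
      rw [div_sub' hν0, map_div₀, hone ν hν, div_one,
        show w₁ - E.j (E.of ν) * E.j (E.of ω) = (w₁ - E.j (E.of w)) - E.j (E.of (ω * ν - w)) by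
          simp only [map_sub, map_mul]; ring]
      exact P.V.map_sub_le h2 (hsm _ (E.g_dvd_iff.1 hω α hα))
    have e : ∑ k ∈ Finset.range E.r, E.ζ⁻¹ ^ (k * b) • (w₁ ^ k * E.cL ν c k) =
        ∑ k ∈ Finset.range E.r, E.ζ⁻¹ ^ (k * b) • (E.j (E.of ω) ^ k * E.j (c k)) +
          ∑ k ∈ Finset.range E.r, E.ζ⁻¹ ^ (k * b) •
            (((w₁ / E.j (E.of ν)) ^ k - E.j (E.of ω) ^ k) * E.j (c k)) := by
      rw [← Finset.sum_add_distrib]
      refine Finset.sum_congr rfl fun k _ => ?_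
      rw [← smul_add, cL, div_pow]
      congr 1; ring
    rw [e]
    refine P.V.map_add_le ((E.loc_iff hb).1 (hc.loc b hb) α hα) (P.V.map_sum_le fun k _ => ?_)
    refine (P.V_smul_le _ _).trans ?_
    rw [map_mul]
    refine (mul_le_mul' (P.a2d_pow_sub ?_ (E.pAt_V_le_one α hα _) h4 k) (hcle k)).trans ?_
    · rw [map_div₀, hV1, hone ν hν, div_one]
    · rw [mul_one, exp_le_exp]; omega

end Cv

end Crest.Agent.R312
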