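import Crest.Agent.R312.A2Count

/-!
# R312 / A2Dim : the dimension of `V_B`, `B = (r-1)(m+1)`
-/

set_option autoImplicit false

open Polynomial

noncomputable section

namespace Crest.Agent.R312.Cv

variable {F : Type} [Field F] (E : Cv F)

/-- the ideal `K_k = ν^k I_k⁻¹`: `ν^k ∈ I_k` (for `k = 0` trivial, else `IsNu.mem_Ik`), so
`(ν^k) = I_k K` (`Ideal.dvd_iff_le`), `cod K = r k d - k d` (`cod_mul`, `IsNu.Ik`, `IsNu.cod_eq`). -/
theorem exists_K {I : Ideal E.R} {ν : F[X]} (hν : E.IsNu I ν) {k : ℕ} (hk : k < E.r) :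
    ∃ K : Ideal E.R, K ≠ ⊥ ∧ E.Ik I k * K = Ideal.span {E.of (ν ^ k)} ∧
      E.cod K = (E.r - 1) * k * ν.natDegree := by
  obtain ⟨K, hK⟩ : E.Ik I k ∣ Ideal.span {E.of (ν ^ k)} :=
    Ideal.dvd_iff_le.2 ((Ideal.span_singleton_le_iff_mem _).2 (hν.Ik k).mem)
  have h0 : ν ^ k ≠ 0 := (hν.Ik k).monic.ne_zero
  have hK0 : K ≠ ⊥ := by
    rintro rfl
    rw [Ideal.mul_bot, Ideal.span_singleton_eq_bot, map_eq_zero_iff _ E.of_injective] at hK
    exact h0 hK
  refine ⟨K, hK0, hK.symm, ?_⟩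
  have h1 := E.cod_mul (hν.Ik k).ne_bot hK0
  rw [← hK, (E.finite_cod_span_of h0).2, (hν.Ik k).cod_eq, natDegree_pow] at h1
  obtain ⟨t, ht⟩ : ∃ t, E.r = t + 1 := ⟨E.r - 1, by have := E.r_pos; omega⟩
  rw [ht] at h1 ⊢
  rw [Nat.add_sub_cancel, mul_assoc]
  rw [add_mul, one_mul] at h1
  omega

/-- extension by zero -/
def dimExt (n : ℕ → ℕ) : (∀ k : Fin E.r, E.LeS (n k)) →ₗ[F] (ℕ → E.R) where
  toFun c k := if h : k < E.r then (c ⟨k, h⟩ : E.R) else 0
  map_add' c c' := by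
    funext k
    simp only [Pi.add_apply]
    split_ifs <;> simp
  map_smul' a c := by
    funext k
    simp only [Pi.smul_apply, RingHom.id_apply]
    split_ifs <;> simp

theorem dimExt_apply (n : ℕ → ℕ) (c : ∀ k : Fin E.r, E.LeS (n k)) {k : ℕ} (h : k < E.r) :
    E.dimExt n c k = c ⟨k, h⟩ := dif_pos h

theorem dimExt_injective (n : ℕ → ℕ) : Function.Injective (E.dimExt n) := by
  intro c c' h
  funext k
  have := congrFun h k
  rw [E.dimExt_apply n c k.2, E.dimExt_apply n c' k.2] at this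
  exact Subtype.ext this

/-- the conditions (i), (ii) -/
def dimPsi (K : Fin E.r → Ideal E.R) (ω : F[X]) : (ℕ → E.R) →ₗ[F]
    (∀ k, E.R ⧸ K k) × ((Σ b : Fin E.r, Fin b) → F[X] ⧸ Ideal.span {E.g}) :=
  LinearMap.prod
    (LinearMap.pi fun k => (Ideal.Quotient.mkₐ F (K k)).toLinearMap ∘ₗ LinearMap.proj (k : ℕ))
    (LinearMap.pi fun p => (Ideal.Quotient.mkₐ F (Ideal.span {E.g})).toLinearMap ∘ₗ
      ∑ k ∈ Finset.range E.r, LinearMap.mulLeft F (C (E.ζ⁻¹ ^ (k * p.1)) * ω ^ k) ∘ₗ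
        (E.comp p.2).restrictScalars F ∘ₗ LinearMap.proj k)

theorem dimPsi_eq_zero {K : Fin E.r → Ideal E.R} {ω : F[X]} {c : ℕ → E.R} (h : E.dimPsi K ω c = 0) :
    (∀ k : Fin E.r, c k ∈ K k) ∧ ∀ b < E.r, ∀ s < b,
      E.g ∣ ∑ k ∈ Finset.range E.r, C (E.ζ⁻¹ ^ (k * b)) * ω ^ k * E.comp s (c k) := by
  refine ⟨fun k => Ideal.Quotient.eq_zero_iff_mem.1 (congrFun (congrArg Prod.fst h) k), fun b hb s hs => ?_⟩
  have h1 := congrFun (congrArg Prod.snd h) ⟨⟨b, hb⟩, ⟨s, hs⟩⟩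
  rw [← Ideal.mem_span_singleton, ← Ideal.Quotient.eq_zero_iff_mem]
  simpa [dimPsi, LinearMap.sum_apply, mul_assoc] using h1

/-- Let `D = ∏_{k : Fin r} LeS (B + (r-1) k d)` and let `Ψ : D → (∏_k R/K_k) × ({(b,s) : s < b < r} → F[X]/(g))`
be the `F`-linear map given by the conditions (i), (ii).  With `r = 2 s₀ + 1`:
`dim D ≥ ∑_k (B + (r-1) k d + 1 - g0)`, the target has dimension `∑_k (r-1) k d + r s₀ m`
(index the pairs by `Σ b : Fin r, Fin b`), `g0 = s₀ (m-1)`, `B = 2 s₀ (m+1)`, so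
`dim ker Ψ ≥ r (3 s₀ + 1) > r²`.  `V` is the image of `ker Ψ` under the injective extension by zero
`D → (ℕ → R)`. -/
theorem exists_VB {I : Ideal E.R} {ν : F[X]} (hν : E.IsNu I ν) (ω : F[X]) :
    ∃ V : Submodule F (ℕ → E.R), Module.Finite F V ∧ E.r * E.r < Module.finrank F V ∧
      ∀ c ∈ V, E.InV I ν ω ((E.r - 1) * (E.m + 1)) c ∧ ∀ k, E.r ≤ k → c k = 0 := by
  choose K hK0 hK hcod using fun k : Fin E.r => E.exists_K hν k.2
  set B := (E.r - 1) * (E.m + 1) with hB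
  let n : ℕ → ℕ := fun k => B + (E.r - 1) * k * ν.natDegree
  have := fun k => E.finite_quot (hK0 k)
  have : Module.Finite F (F[X] ⧸ Ideal.span {E.g}) := (AdjoinRoot.powerBasis E.g_ne).finite
  let Ψ := E.dimPsi K ω ∘ₗ E.dimExt n
  refine ⟨(LinearMap.ker Ψ).map (E.dimExt n), inferInstance, ?_, ?_⟩
  · rw [← (Submodule.equivMapOfInjective _ (E.dimExt_injective n) _).finrank_eq]
    have h1 := LinearMap.finrank_range_add_finrank_ker Ψ
    have h2 := Submodule.finrank_le (LinearMap.range Ψ)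
    rw [Module.finrank_pi_fintype] at h1
    rw [Module.finrank_prod, Module.finrank_pi_fintype, Module.finrank_pi_fintype, Finset.sum_const,
      finrank_quotient_span_eq_natDegree, g_natDegree, Finset.card_univ, Fintype.card_sigma, smul_eq_mul] at h2
    simp only [Fintype.card_fin] at h2
    have h3 : ∑ k : Fin E.r, Module.finrank F (E.R ⧸ K k) = ∑ k : Fin E.r, (E.r - 1) * k * ν.natDegree :=
      Finset.sum_congr rfl fun k _ => hcod k
    have h4 : ∑ k : Fin E.r, (n k + 1) ≤ ∑ k : Fin E.r, (Module.finrank F (E.LeS (n k)) + E.g0) :=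
      Finset.sum_le_sum fun k _ => E.le_finrank_LeS (n k)
    have h5 := Finset.sum_range_id_mul_two E.r
    rw [← Fin.sum_univ_eq_sum_range (fun i => i)] at h5
    rw [Finset.sum_add_distrib, Finset.sum_add_distrib, Finset.sum_add_distrib, ← h1] at h4
    simp only [Finset.sum_const, Finset.card_univ, Fintype.card_fin,
      smul_eq_mul] at h4
    rw [h3] at h2
    obtain ⟨s, hs⟩ := E.r_odd
    obtain ⟨m, hm⟩ : ∃ m, E.m = m + 1 := ⟨E.m - 1, by have := E.two_le_m; omega⟩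
    have hg : E.g0 = s * m := by
      rw [g0, hs, hm, Nat.add_sub_cancel, Nat.add_sub_cancel, Nat.mul_div_cancel_left _ two_pos]
    have hr1 : E.r - 1 = 2 * s := by omega
    have h6 : ∑ k : Fin E.r, (k : ℕ) = E.r * s := by
      rw [hr1, ← mul_assoc, mul_right_comm _ 2] at h5
      omega
    have h7 : 1 ≤ s := by have := E.three_le_r; omega
    rw [h6, hm] at h2
    have hB' : B = 2 * s * (m + 1 + 1) := by rw [hB, hm, hr1]
    rw [hg] at h4
    have h8 : E.r * E.r < E.r * (3 * s + 1) := Nat.mul_lt_mul_of_pos_left (by omega) E.r_pos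
    have h9 : E.r * B + E.r * 1 = E.r * (s * m) + E.r * s * (m + 1) + E.r * (3 * s + 1) := by
      rw [hB']
      ring
    omega
  · rintro _ ⟨c, hc, rfl⟩
    obtain ⟨h1, h2⟩ := E.dimPsi_eq_zero (c := E.dimExt n c) hc
    refine ⟨⟨fun k hk v hv => ?_, h2, fun k hk => ?_⟩, fun k hk => dif_neg hk.not_gt⟩
    · rw [← hK ⟨k, hk⟩, mul_comm (E.dimExt n c k)]
      exact Ideal.mul_mem_mul hv (h1 ⟨k, hk⟩)
    · rw [E.dimExt_apply n c hk]
      exact (c ⟨k, hk⟩).2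

/-- **division theorem, existence** -/
theorem div_exists {I : Ideal E.R} {ν : F[X]} (hν : E.IsNu I ν) (ω : F[X]) :
    ∃ c : ℕ → E.R, E.InV I ν ω ((E.r - 1) * (E.m + 1)) c ∧ ∃ k < E.r, c k ≠ 0 := by
  obtain ⟨V, -, h1, h2⟩ := E.exists_VB hν ω
  have h0 : V ≠ ⊥ := by
    rintro rfl
    rw [finrank_bot] at h1
    exact Nat.not_lt_zero _ h1
  obtain ⟨c, hc, hc0⟩ := Submodule.exists_mem_ne_zero_of_ne_bot h0
  obtain ⟨k, hk⟩ := Function.ne_iff.1 hc0
  exact ⟨c, (h2 c hc).1, k, lt_of_not_ge fun h => hk ((h2 c hc).2 k h), hk⟩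

end Crest.Agent.R312.Cv
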