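import Crest.Agent.R312.A2W

/-!
# R312 / A2Nu : `ν(I)` and the codimension `dim_F R/I`
-/

set_option autoImplicit false

open Polynomial

noncomputable section

namespace Crest.Agent.R312.Cv

variable {F : Type} [Field F] (E : Cv F)

/-- A `σ`-stable ideal coprime to `g` is generated by a polynomial: let `p` generate
`I.comap of` (PID).  For `u ∈ I` every `of (u_b) Y^b ∈ I` (`sum_σ_pow`, `r ≠ 0` in `F`), so
`of (u_b) * of g ∈ I`, so `of u_b ∈ I` (coprime), so `p ∣ u_b`. -/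
theorem exists_eq_span_of_stable {I : Ideal E.R} (hs : E.sI 1 I = I) (hI : E.Cop I) :
    ∃ p : F[X], p.Monic ∧ I = Ideal.span {E.of p} := by
  classical
  have hk : ∀ k, E.sI k I = I := fun k => by
    induction k with
    | zero => exact E.sI_zero I
    | succ k ih => rw [add_comm, sI_add, ih, hs]
  have hcomp : ∀ u ∈ I, ∀ b < E.r, E.of (E.comp b u) ∈ I := by
    intro u hu b hb
    have h1 : E.of (C (E.r : F)) * (E.of (E.comp b u) * E.Y ^ b) ∈ I := by
      rw [← E.sum_σ_pow hb]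
      exact Ideal.sum_mem _ fun k _ => I.mul_mem_left _ (hk k ▸ E.mem_sI.2 ⟨u, hu, rfl⟩)
    rw [Ideal.unit_mul_mem_iff_mem _ ((isUnit_C.2 E.r_ne_zero.isUnit).map E.of)] at h1
    refine hI.mem_of_mul_g_pow (N := 1) ?_
    have h2 := I.mul_mem_right (E.Y ^ (E.r - b)) h1
    rwa [mul_assoc, ← pow_add, Nat.add_sub_cancel' hb.le, Y_pow_r, ← pow_one (E.of E.g)] at h2
  obtain ⟨p, hp⟩ := (IsPrincipalIdealRing.principal (I.comap E.of)).principal
  have h1 : I = Ideal.span {E.of p} := by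
    apply le_antisymm
    · intro u hu
      rw [Ideal.mem_span_singleton, of_dvd_iff]
      intro b hb
      rw [← Ideal.mem_span_singleton]
      have : E.comp b u ∈ I.comap E.of := hcomp u hu b hb
      rwa [hp] at this
    · rw [Ideal.span_singleton_le_iff_mem]
      have : p ∈ I.comap E.of := by rw [hp]; exact Ideal.mem_span_singleton_self p
      exact this
  have hp0 : p ≠ 0 := by
    rintro rfl
    exact hI.ne_bot (by simpa using h1)
  refine ⟨normalize p, monic_normalize hp0, ?_⟩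
  rw [h1, Ideal.span_singleton_eq_span_singleton]
  exact (associated_normalize p).map E.of

theorem Cop.exists_isNu {E : Cv F} {I : Ideal E.R} (hI : E.Cop I) : ∃ ν, E.IsNu I ν := by
  refine E.exists_eq_span_of_stable ?_ (hI.Ik _)
  rw [← E.sI_Ik_r 1 I]
  conv_lhs => rw [E.sI_Ik_r 1 I]
  simp only [Cv.Ik, sI_prod, ← sI_add, add_comm]

theorem isNu_top : E.IsNu ⊤ 1 := by
  refine ⟨monic_one, ?_⟩
  simp only [Ik, sI_top]
  simp [← Ideal.one_eq_top]

theorem Ik_ne_bot {I : Ideal E.R} (hI : I ≠ ⊥) (k : ℕ) : E.Ik I k ≠ ⊥ :=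
  Finset.prod_ne_zero_iff.2 fun _ _ => E.sI_eq_bot.not.2 hI

variable {E}

theorem IsNu.monic {I : Ideal E.R} {ν : F[X]} (h : E.IsNu I ν) : ν.Monic := h.1

theorem IsNu.mem_iff {I : Ideal E.R} {ν : F[X]} (h : E.IsNu I ν) (p : F[X]) :
    E.of p ∈ E.Ik I E.r ↔ ν ∣ p := by
  rw [h.2, Ideal.mem_span_singleton, of_dvd_of_iff]

theorem IsNu.unique {I : Ideal E.R} {ν ν' : F[X]} (h : E.IsNu I ν) (h' : E.IsNu I ν') : ν = ν' := by
  exact eq_of_monic_of_associated h.1 h'.1 (associated_of_dvd_dvd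
    ((h.mem_iff _).1 ((h'.mem_iff _).2 dvd_rfl)) ((h'.mem_iff _).1 ((h.mem_iff _).2 dvd_rfl)))

theorem IsNu.mul {I J : Ideal E.R} {ν ν' : F[X]} (h : E.IsNu I ν) (h' : E.IsNu J ν') :
    E.IsNu (I * J) (ν * ν') := by
  refine ⟨h.1.mul h'.1, ?_⟩
  rw [Ik_mul, h.2, h'.2, Ideal.span_singleton_mul_span_singleton, map_mul]

theorem IsNu.pow {I : Ideal E.R} {ν : F[X]} (h : E.IsNu I ν) (n : ℕ) : E.IsNu (I ^ n) (ν ^ n) := by
  induction n with
  | zero => simpa using E.isNu_top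
  | succ n ih => rw [pow_succ, pow_succ]; exact ih.mul h

theorem IsNu.sI {I : Ideal E.R} {ν : F[X]} (h : E.IsNu I ν) (k : ℕ) : E.IsNu (E.sI k I) ν := by
  exact ⟨h.1, by rw [sI_Ik_r, h.2]⟩

theorem IsNu.Ik {I : Ideal E.R} {ν : F[X]} (h : E.IsNu I ν) (k : ℕ) :
    E.IsNu (E.Ik I k) (ν ^ k) := by
  induction k with
  | zero => rw [Ik_zero, pow_zero]; exact E.isNu_top
  | succ k ih => rw [Ik_succ, pow_succ]; exact ih.mul (h.sI k)

theorem IsNu.mem_Ik {I : Ideal E.R} {ν : F[X]} (h : E.IsNu I ν) {k : ℕ} (hk : k ≤ E.r) :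
    E.of ν ∈ E.Ik I k := by
  obtain ⟨n, hn⟩ := Nat.exists_eq_add_of_le hk
  have := (h.mem_iff ν).2 dvd_rfl
  rw [hn, Ik_add] at this
  exact Ideal.mul_le_left this

theorem IsNu.mem {I : Ideal E.R} {ν : F[X]} (h : E.IsNu I ν) : E.of ν ∈ I := by
  have := h.mem_Ik (k := 1) E.r_pos
  rwa [Ik_succ, Ik_zero, sI_zero, Ideal.top_mul] at this

theorem IsNu.ne_bot {I : Ideal E.R} {ν : F[X]} (h : E.IsNu I ν) : I ≠ ⊥ := by
  intro h0
  have := h.mem
  rw [h0, Ideal.mem_bot, map_eq_zero_iff _ E.of_injective] at this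
  exact h.1.ne_zero this

theorem IsNu.coprime {I : Ideal E.R} {ν : F[X]} (h : E.IsNu I ν) (hI : E.Cop I) :
    IsCoprime ν E.g := by
  rw [← cop_span_of, ← h.2]
  exact hI.Ik _

theorem IsNu.cop {I : Ideal E.R} {ν : F[X]} (h : E.IsNu I ν) (hc : IsCoprime ν E.g) : E.Cop I := by
  exact E.cop_of_mem h.mem hc

theorem IsNu.dvd_nm {I : Ideal E.R} {ν : F[X]} (h : E.IsNu I ν) {u : E.R} (hu : u ∈ I) :
    ν ∣ E.nm u := by
  rw [← h.mem_iff, of_nm]
  exact Ideal.prod_mem_prod fun k _ => E.mem_sI.2 ⟨u, hu, rfl⟩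

theorem IsNu.dvd_pow {I : Ideal E.R} {ν : F[X]} (h : E.IsNu I ν) {p : F[X]} (hp : E.of p ∈ I) :
    ν ∣ p ^ E.r := by
  rw [← nm_of]; exact h.dvd_nm hp

/-- characterisation used by `mkIdeal`: a monic generator of `(∏ σ^k I) ∩ F[X]` is `ν(I)` -/
theorem Cop.isNu_of_mem_iff {I : Ideal E.R} (hI : E.Cop I) {ν : F[X]} (hν : ν.Monic)
    (h : ∀ p : F[X], E.of p ∈ E.Ik I E.r ↔ ν ∣ p) : E.IsNu I ν := by
  obtain ⟨ν', h'⟩ := hI.exists_isNu
  rwa [eq_of_monic_of_associated hν h'.1 (associated_of_dvd_dvd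
    ((h _).1 ((h'.mem_iff _).2 dvd_rfl)) ((h'.mem_iff _).1 ((h _).2 dvd_rfl)))]

/-- a monic element of least degree of `(∏ σ^k I) ∩ F[X]` is `ν(I)` -/
theorem Cop.isNu_of_min {I : Ideal E.R} (hI : E.Cop I) {ν : F[X]} (hν : ν.Monic)
    (hm : E.of ν ∈ E.Ik I E.r)
    (h : ∀ p : F[X], p ≠ 0 → E.of p ∈ E.Ik I E.r → ν.natDegree ≤ p.natDegree) : E.IsNu I ν := by
  obtain ⟨ν', h'⟩ := hI.exists_isNu
  rwa [eq_of_monic_of_dvd_of_natDegree_le h'.1 hν ((h'.mem_iff _).1 hm)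
    (h _ h'.1.ne_zero ((h'.mem_iff _).2 dvd_rfl))]

variable (E)

theorem isNu_prod {ι : Type} (s : Finset ι) (I : ι → Ideal E.R) (ν : ι → F[X])
    (h : ∀ i ∈ s, E.IsNu (I i) (ν i)) : E.IsNu (∏ i ∈ s, I i) (∏ i ∈ s, ν i) := by
  classical
  induction s using Finset.induction_on with
  | empty => simpa using E.isNu_top
  | insert a s ha ih =>
    rw [Finset.prod_insert ha, Finset.prod_insert ha]
    exact (h a (Finset.mem_insert_self _ _)).mul (ih fun i hi => h i (Finset.mem_insert_of_mem hi))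

theorem isNu_span_of {p : F[X]} (hp : p.Monic) : E.IsNu (Ideal.span {E.of p}) (p ^ E.r) := by
  exact ⟨hp.pow _, by rw [Ik_span_singleton, nm_of]⟩

theorem cop_P (hg : E.g.eval 0 = 1) : E.Cop E.P := by
  refine E.cop_of_mem (p := X) (Ideal.subset_span (by simp)) (E.isCoprime_g_iff.2 fun α hα h => ?_)
  rw [eval_X] at h
  rw [← E.g_eval_eq_zero_iff, h, hg] at hα
  exact one_ne_zero hα

/-- `P ≠ ⊤` (it lies in the kernel of `AdjoinRoot.lift (evalRingHom 0) 1 _ : R →+* F`), so `ν ≠ 1`;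
the `σ^k P = (X, ζ^k Y - 1)` are pairwise coprime (`ζ^l (ζ^k Y - 1) - ζ^k (ζ^l Y - 1) = ζ^k - ζ^l`), so
their product is their intersection (`Ideal.prod_eq_iInf_of_pairwise_isCoprime`) and contains `X`;
so `ν ∣ X`. -/
theorem isNu_P (hg : E.g.eval 0 = 1) : E.IsNu E.P X := by
  obtain ⟨ν, hν⟩ := (E.cop_P hg).exists_isNu
  have hP : ∀ k, E.sI k E.P = Ideal.span {E.of X, E.of (C (E.ζ ^ k)) * E.Y - 1} := fun k => by
    rw [P, sI_span, Set.image_pair, σ_pow_of, map_sub, σ_pow_Y, map_one]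
  have h1 : ν ∣ X := by
    rw [← hν.mem_iff, Ik, Ideal.prod_eq_iInf_of_pairwise_isCoprime]
    · simp only [Ideal.mem_iInf, hP]
      exact fun k _ => Ideal.subset_span (by simp)
    · intro k hk l hl hkl
      rw [Function.onFun, Ideal.isCoprime_iff_sup_eq]
      have h2 : E.ζ ^ k - E.ζ ^ l ≠ 0 := sub_ne_zero.2 fun h =>
        hkl (E.hζ.pow_inj (Finset.mem_range.1 hk) (Finset.mem_range.1 hl) h)
      refine Ideal.eq_top_of_isUnit_mem _ ?_ ((isUnit_C.2 h2.isUnit).map E.of)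
      have h3 : E.of (C (E.ζ ^ k - E.ζ ^ l)) =
          E.of (C (E.ζ ^ l)) * (E.of (C (E.ζ ^ k)) * E.Y - 1) +
            -E.of (C (E.ζ ^ k)) * (E.of (C (E.ζ ^ l)) * E.Y - 1) := by
        rw [C_sub, map_sub]; ring
      rw [h3, hP, hP]
      exact Submodule.add_mem_sup (Ideal.mul_mem_left _ _ (Ideal.subset_span (by simp)))
        (Ideal.mul_mem_left _ _ (Ideal.subset_span (by simp)))
  have h2 : ¬ IsUnit ν := by
    intro hu
    let ev : E.R →+* F := AdjoinRoot.lift (evalRingHom 0) 1 (by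
      show eval₂ _ _ (X ^ E.r - C E.g : F[X][X]) = 0
      rw [eval₂_sub, eval₂_X_pow, eval₂_C]; simp [hg])
    have h3 : E.P ≤ RingHom.ker ev := by
      rw [P, Ideal.span_le]
      rintro x (rfl | rfl)
      · simp [ev]
      · simp [ev]
    exact ((hu.map E.of).map ev).ne_zero (h3 hν.mem)
  rwa [← eq_of_monic_of_associated hν.1 monic_X
    ((irreducible_X.dvd_iff.1 h1).resolve_left h2).symm]

/-! ### codimension -/

/-- `dim_F R/I` -/
def cod (I : Ideal E.R) : ℕ := Module.finrank F (E.R ⧸ I)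

/-- `R/(p)` has the basis `X^i Y^b`: e.g. the `F`-linear map `u ↦ (b ↦ AdjoinRoot.mk p (comp b u))`,
`R → (Fin r → F[X]/(p))`, is onto with kernel `(p)` (`of_dvd_iff`, `comp_sum`);
`finrank_quotient_span_eq_natDegree`. -/
theorem finite_cod_span_of {p : F[X]} (hp : p ≠ 0) :
    Module.Finite F (E.R ⧸ Ideal.span {E.of p}) ∧ E.cod (Ideal.span {E.of p}) = E.r * p.natDegree := by
  have h0 : E.of p ≠ 0 := (map_ne_zero_iff _ E.of_injective).2 hp
  let b := (AdjoinRoot.powerBasis' E.pol_monic).basis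
  constructor
  · exact Module.Finite.equiv (Ideal.quotientEquivDirectSum F b
      (I := Ideal.span {E.of p}) (by simpa using h0)).symm
  · rw [cod, finrank_quotient_span_eq_natDegree_norm b h0]
    have := Algebra.norm_algebraMap_of_basis b p
    rw [AdjoinRoot.algebraMap_eq] at this
    rw [this, natDegree_pow]
    simp [pol_natDegree]

/-- `I ∋ u ≠ 0`, so `I ⊇ (nm u)` -/
theorem finite_quot {I : Ideal E.R} (hI : I ≠ ⊥) : Module.Finite F (E.R ⧸ I) := by
  exact Module.Finite.equiv (Ideal.quotientEquivDirectSum F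
    (AdjoinRoot.powerBasis' E.pol_monic).basis hI).symm

/-- `IsDedekindDomain.exists_sup_span_eq` gives `y` with `I J ⊔ (y) = J`.  The `F`-linear map
`R/I → R/IJ`, `x ↦ x y`, is injective (`x y ∈ IJ ⇒ (x) J ≤ I J ⇒ x ∈ I` by cancellation) with range the
kernel of `R/IJ → R/J`; rank-nullity. -/
theorem cod_mul {I J : Ideal E.R} (hI : I ≠ ⊥) (hJ : J ≠ ⊥) : E.cod (I * J) = E.cod I + E.cod J := by
  have hIJ : I * J ≠ ⊥ := mul_ne_zero hI hJ
  obtain ⟨y, hy⟩ := IsDedekindDomain.exists_sup_span_eq (I := I * J) (J := J) Ideal.mul_le_right hIJ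
  have hyJ : y ∈ J := hy ▸ Ideal.mem_sup_right (Ideal.mem_span_singleton_self y)
  have := E.finite_quot hIJ
  let f : (E.R ⧸ I) →ₗ[F] E.R ⧸ (I * J) :=
    (Submodule.mapQ I (I * J) (LinearMap.mulRight E.R y)
      (fun x hx => Ideal.mul_mem_mul hx hyJ)).restrictScalars F
  have hf : ∀ x, f (Ideal.Quotient.mk I x) = Ideal.Quotient.mk (I * J) (x * y) := fun x => rfl
  let g : (E.R ⧸ (I * J)) →ₗ[F] E.R ⧸ J :=
    (Ideal.Quotient.factorₐ F (Ideal.mul_le_right : I * J ≤ J)).toLinearMap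
  have hg : ∀ x, g (Ideal.Quotient.mk (I * J) x) = Ideal.Quotient.mk J x := fun x => rfl
  have hinj : Function.Injective f := by
    rw [injective_iff_map_eq_zero]
    intro x hx
    obtain ⟨x, rfl⟩ := Ideal.Quotient.mk_surjective x
    rw [hf, Ideal.Quotient.eq_zero_iff_mem] at hx
    rw [Ideal.Quotient.eq_zero_iff_mem, ← Ideal.span_singleton_le_iff_mem, ← Ideal.dvd_iff_le,
      ← mul_dvd_mul_iff_right hJ, Ideal.dvd_iff_le]
    conv_lhs => rw [← hy, Ideal.mul_sup, Ideal.span_singleton_mul_span_singleton]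
    exact sup_le Ideal.mul_le_right ((Ideal.span_singleton_le_iff_mem _).2 hx)
  have hsurj : Function.Surjective g := by
    intro x
    obtain ⟨x, rfl⟩ := Ideal.Quotient.mk_surjective x
    exact ⟨_, hg x⟩
  have hex : LinearMap.ker g = LinearMap.range f := by
    ext x
    obtain ⟨x, rfl⟩ := Ideal.Quotient.mk_surjective x
    rw [LinearMap.mem_ker, hg, Ideal.Quotient.eq_zero_iff_mem]
    constructor
    · intro hx
      rw [← hy, Submodule.mem_sup] at hx
      obtain ⟨a, ha, b, hb, rfl⟩ := hx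
      obtain ⟨t, rfl⟩ := Ideal.mem_span_singleton'.1 hb
      refine ⟨Ideal.Quotient.mk I t, ?_⟩
      rw [hf, map_add, Ideal.Quotient.eq_zero_iff_mem.2 ha, zero_add]
    · rintro ⟨t, ht⟩
      obtain ⟨t, rfl⟩ := Ideal.Quotient.mk_surjective t
      rw [hf, Ideal.Quotient.eq] at ht
      have := J.sub_mem (J.mul_mem_left t hyJ) (Ideal.mul_le_right ht)
      simpa using this
  have h1 := g.finrank_range_add_finrank_ker
  rw [hex, LinearMap.range_eq_top.2 hsurj, finrank_top, LinearMap.finrank_range_of_inj hinj] at h1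
  rw [cod, cod, cod, ← h1, add_comm]

theorem cod_top : E.cod ⊤ = 0 := by
  exact Module.finrank_zero_of_subsingleton

/-- `Ideal.quotientEquivAlg` (restrict scalars to `F`) -/
theorem cod_sI (k : ℕ) (I : Ideal E.R) : E.cod (E.sI k I) = E.cod I := by
  exact ((Ideal.quotientEquivAlg I (E.sI k I) (E.σ ^ k) rfl).restrictScalars F).toLinearEquiv.finrank_eq.symm

theorem cod_Ik {I : Ideal E.R} (hI : I ≠ ⊥) (k : ℕ) : E.cod (E.Ik I k) = k * E.cod I := by
  induction k with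
  | zero => rw [Ik_zero, cod_top, zero_mul]
  | succ k ih =>
    rw [Ik_succ, E.cod_mul (E.Ik_ne_bot hI k) (E.sI_eq_bot.not.2 hI), ih, cod_sI]; ring

theorem IsNu.cod_eq {E : Cv F} {I : Ideal E.R} {ν : F[X]} (h : E.IsNu I ν) :
    E.cod I = ν.natDegree := by
  have h1 := E.cod_Ik h.ne_bot E.r
  rw [h.2, (E.finite_cod_span_of h.1.ne_zero).2] at h1
  exact (Nat.eq_of_mul_eq_mul_left E.r_pos h1).symm

theorem cod_span {u : E.R} (hu : u ≠ 0) : E.cod (Ideal.span {u}) = (E.nm u).natDegree := by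
  have h1 := E.cod_Ik (I := Ideal.span {u}) (by simpa using hu) E.r
  rw [Ik_span_singleton, (E.finite_cod_span_of (E.nm_ne hu)).2] at h1
  exact (Nat.eq_of_mul_eq_mul_left E.r_pos h1).symm

end Crest.Agent.R312.Cv
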