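import Crest.Agent.R312.A2H
import Crest.Agent.R312.A2Nu

/-!
# R312 / A2Lam : the ideal `Λ` with `h Λ = I σΛ`
-/

set_option autoImplicit false

open Polynomial WithZero FractionalIdeal
open scoped nonZeroDivisors

noncomputable section

namespace Crest.Agent.R312.Cv

variable {F : Type} [Field F] (E : Cv F)

/-- fractional ideals -/
abbrev Fr : Type := FractionalIdeal E.R⁰ E.L

/-- `σ` on fractional ideals -/
def σF : E.Fr ≃+* E.Fr := FractionalIdeal.ringEquivOfRingEquiv E.L E.L E.σ.toRingEquiv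

theorem mem_σF {A : E.Fr} {x : E.L} : x ∈ E.σF A ↔ ∃ y ∈ A, E.σL y = x :=
  Iff.rfl

theorem σF_coe (I : Ideal E.R) : E.σF (I : E.Fr) = (E.sI 1 I : Ideal E.R) := by
  ext x
  rw [mem_σF, mem_coeIdeal]
  constructor
  · rintro ⟨y, hy, rfl⟩
    obtain ⟨v, hv, rfl⟩ := (mem_coeIdeal _).1 hy
    exact ⟨E.σ v, E.mem_sI.2 ⟨v, hv, by rw [pow_one]⟩, (E.σL_j v).symm⟩
  · rintro ⟨u, hu, rfl⟩
    obtain ⟨v, hv, rfl⟩ := E.mem_sI.1 hu
    exact ⟨E.j v, (mem_coeIdeal _).2 ⟨v, hv, rfl⟩, by rw [pow_one]; exact E.σL_j v⟩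

theorem σF_spanSingleton (x : E.L) : E.σF (spanSingleton E.R⁰ x) = spanSingleton E.R⁰ (E.σL x) :=
  FractionalIdeal.ringEquivOfRingEquiv_spanSingleton E.L E.L E.σ.toRingEquiv x

theorem a2lam_Ik_succ (I : Ideal E.R) (k : ℕ) : E.Ik I (k + 1) = I * E.sI 1 (E.Ik I k) := by
  rw [add_comm, E.Ik_add, show E.Ik I 1 = I by
    rw [show (1 : ℕ) = 0 + 1 from rfl, E.Ik_succ, E.Ik_zero, E.sI_zero, Ideal.top_mul]]

theorem a2lam_sum_V (V : Valuation E.L ℤᵐ⁰) (A : ℕ → E.Fr) (hA : ∀ k, ∀ x ∈ A k, V x ≤ 1) (n : ℕ) :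
    ∀ x ∈ ∑ k ∈ Finset.range n, A k, V x ≤ 1 := by
  induction n with
  | zero =>
    intro x hx
    rw [Finset.sum_range_zero, mem_zero_iff] at hx
    rw [hx, map_zero]
    exact zero_le
  | succ n ih =>
    intro x hx
    rw [Finset.sum_range_succ, mem_add] at hx
    obtain ⟨y, hy, z, hz, rfl⟩ := hx
    exact V.map_add_le (ih y hy) (hA n z hz)

/-- Put `𝔞_k = (h_k) I_k⁻¹`; `𝔞_0 = 1 = 𝔞_r`, `𝔞_{k+1} = 𝔞_1 σ𝔞_k` (`hk_succ'`, `Ik_add I 1 k`).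
`J₁ = ∑_{k<r} 𝔞_k ≥ 1` satisfies `𝔞_1 σJ₁ = J₁`.  `J₁⁻¹ ≤ 1`, so it is an ideal `Λ`
(`FractionalIdeal.le_one_iff_exists_coeIdeal`), and `h Λ = I σΛ`.  Coprime to `g`: all `x ∈ J₁` have
`V_α x ≤ 1` (`x ∈ 𝔞_k` gives `x ν / h_k ∈ R`, and `V_α ν = 1 = V_α h`); if `Λ ≤ W α` then all elements of
`Λ J₁ = 1` would have `V_α < 1` (`FractionalIdeal.mul_induction_on`); use `cop_iff`. -/
theorem exists_Lam {I : Ideal E.R} {ν : F[X]} (hI : E.Cop I) (hν : E.IsNu I ν) {κ : F} (hκ : κ ≠ 0)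
    {h : E.L} (hN : E.hk h E.r = E.j (E.of (C κ * ν))) :
    ∃ Λ : Ideal E.R, E.Cop Λ ∧
      spanSingleton E.R⁰ h * (Λ : E.Fr) = ((I * E.sI 1 Λ : Ideal E.R) : E.Fr) := by
  set A : ℕ → E.Fr := fun k => spanSingleton E.R⁰ (E.hk h k) * ((E.Ik I k : Ideal E.R) : E.Fr)⁻¹
    with hA
  have hI0 : (I : E.Fr) ≠ 0 := coeIdeal_ne_zero.2 hI.ne_bot
  have hA0 : A 0 = 1 := by
    simp only [hA]
    rw [E.hk_zero, spanSingleton_one, E.Ik_zero, coeIdeal_top, inv_one, mul_one]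
  have hAr : A E.r = 1 := by
    simp only [hA]
    have hu : IsUnit (E.of (C κ)) := (isUnit_C.2 (Ne.isUnit hκ)).map _
    have h1 : spanSingleton E.R⁰ (E.hk h E.r) = ((E.Ik I E.r : Ideal E.R) : E.Fr) := by
      rw [hN, hν.2, ← coeIdeal_span_singleton, map_mul, Ideal.span_singleton_mul_left_unit hu]
    rw [h1]
    exact mul_inv_cancel₀ (coeIdeal_ne_zero.2 (E.Ik_ne_bot hI.ne_bot _))
  have hAs : ∀ k, A (k + 1) = spanSingleton E.R⁰ h * (I : E.Fr)⁻¹ * E.σF (A k) := by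
    intro k
    simp only [hA]
    rw [E.hk_succ', ← spanSingleton_mul_spanSingleton, E.a2lam_Ik_succ, coeIdeal_mul, map_mul,
      map_inv₀, σF_spanSingleton, σF_coe, mul_inv]
    ring
  obtain ⟨n, hn⟩ : ∃ n, E.r = n + 1 := ⟨E.r - 1, by have := E.r_pos; omega⟩
  set J : E.Fr := ∑ k ∈ Finset.range E.r, A k with hJ
  have hJ1 : J = ∑ k ∈ Finset.range n, A (k + 1) + 1 := by
    rw [hJ, hn, Finset.sum_range_succ', hA0]
  have hJσ : spanSingleton E.R⁰ h * (I : E.Fr)⁻¹ * E.σF J = J := by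
    conv_rhs => rw [hJ1]
    rw [hJ, map_sum, Finset.mul_sum, ← hAr, hn, ← Finset.sum_range_succ (fun k => A (k + 1)) n]
    exact Finset.sum_congr rfl fun k _ => (hAs k).symm
  have hle : (1 : E.Fr) ≤ J := by
    rw [hJ1, ← sup_eq_add]
    exact le_sup_right
  have hJ0 : J ≠ 0 := by
    intro h0
    rw [h0] at hle
    exact one_ne_zero (FractionalIdeal.le_zero_iff.1 hle)
  have hinv : J⁻¹ ≤ 1 := by
    calc J⁻¹ = J⁻¹ * 1 := (mul_one _).symm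
      _ ≤ J⁻¹ * J := by gcongr
      _ = 1 := inv_mul_cancel₀ hJ0
  obtain ⟨Λ, hΛ⟩ := le_one_iff_exists_coeIdeal.1 hinv
  refine ⟨Λ, E.cop_iff.2 fun α hα hW => ?_, ?_⟩
  · have hν1 : (E.pAt α hα).V h = 1 := by
      have h1 : (E.pAt α hα).V h ^ E.r = 1 := by
        rw [← E.V_hk, hN, E.pAt_V_of, vAt_eq_one_iff.2, one_pow]
        rw [eval_mul, eval_C]
        exact mul_ne_zero hκ (E.isCoprime_g_iff.1 (hν.coprime hI) α hα)
      exact (pow_eq_one_iff_left E.hr.ne_zero).1 h1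
    have hAV : ∀ k, ∀ x ∈ A k, (E.pAt α hα).V x ≤ 1 := by
      intro k x hx
      obtain ⟨y, hy, rfl⟩ := mem_singleton_mul.1 hx
      obtain ⟨u, hu, hu1⟩ := (hI.Ik k).exists_V_eq_one
      have h2 := (mem_inv_iff (coeIdeal_ne_zero.2 (E.Ik_ne_bot hI.ne_bot k))).1 hy (E.j u)
        ((mem_coeIdeal _).2 ⟨u, hu, rfl⟩)
      obtain ⟨w, hw⟩ := (mem_one_iff _).1 h2
      have h3 := E.pAt_V_le_one α hα w
      rw [show E.j w = y * E.j u from hw, map_mul, PlA.V_j, hu1 α hα, mul_one] at h3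
      rw [map_mul, E.V_hk, hν1, one_pow, one_mul]
      exact h3
    have hJV := E.a2lam_sum_V _ A hAV E.r
    have h1 : (1 : E.L) ∈ (Λ : E.Fr) * J := by
      rw [hΛ, inv_mul_cancel₀ hJ0]
      exact one_mem_one _
    have h2 : (E.pAt α hα).V (1 : E.L) < 1 := by
      refine FractionalIdeal.mul_induction_on (C := fun x => (E.pAt α hα).V x < 1) h1 ?_ ?_
      · intro x hx y hy
        obtain ⟨u, hu, rfl⟩ := (mem_coeIdeal _).1 hx
        have h3 : (E.pAt α hα).V (E.j u) < 1 := by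
          rw [PlA.V_j, E.pAt_VR_lt_one_iff]
          exact (E.mem_W hα).1 (hW hu)
        rw [map_mul]
        exact lt_of_le_of_lt (mul_le_of_le_one_right' (hJV y hy)) h3
      · intro x y hx hy
        exact (E.pAt α hα).V.map_add_lt hx hy
    rw [map_one] at h2
    exact lt_irrefl _ h2
  · have hσ0 : E.σF J ≠ 0 := (_root_.map_ne_zero _).2 hJ0
    rw [coeIdeal_mul, ← σF_coe, hΛ, map_inv₀]
    calc spanSingleton E.R⁰ h * J⁻¹
        = (I : E.Fr) * (E.σF J)⁻¹ * ((spanSingleton E.R⁰ h * (I : E.Fr)⁻¹ * E.σF J) * J⁻¹) := by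
          field_simp
      _ = (I : E.Fr) * (E.σF J)⁻¹ := by rw [hJσ, mul_inv_cancel₀ hJ0, mul_one]

/-- induction on `k` (`hk_succ'`, apply `σF`) -/
theorem hk_mul_Lam {I Λ : Ideal E.R} {h : E.L}
    (hΛ : spanSingleton E.R⁰ h * (Λ : E.Fr) = ((I * E.sI 1 Λ : Ideal E.R) : E.Fr)) (k : ℕ) :
    spanSingleton E.R⁰ (E.hk h k) * (Λ : E.Fr) = ((E.Ik I k * E.sI k Λ : Ideal E.R) : E.Fr) := by
  induction k with
  | zero => rw [E.hk_zero, spanSingleton_one, E.Ik_zero, E.sI_zero, Ideal.top_mul, one_mul]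
  | succ k ih =>
    have h1 := congrArg E.σF ih
    rw [map_mul, σF_spanSingleton, σF_coe, σF_coe, E.sI_mul, ← E.sI_add, coeIdeal_mul] at h1
    rw [coeIdeal_mul] at hΛ
    rw [E.hk_succ', ← spanSingleton_mul_spanSingleton, E.a2lam_Ik_succ, coeIdeal_mul, coeIdeal_mul,
      mul_right_comm, hΛ, mul_assoc, mul_comm _ (spanSingleton E.R⁰ (E.σL (E.hk h k))), h1,
      add_comm k 1, mul_assoc]

end Crest.Agent.R312.Cv
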