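import Crest.Agent.R312.A2W

/-!
# R312 / A2Rank : minimal operators have rank one (step (4))
-/

set_option autoImplicit false

open Polynomial WithZero
open scoped nonZeroDivisors

noncomputable section

namespace Crest.Agent.R312.Cv

variable {F : Type} [Field F] (E : Cv F)

/-- `x ∈ Λ⁻¹` -/
def InvM (Λ : Ideal E.R) (x : E.L) : Prop := ∀ l ∈ Λ, ∃ u : E.R, x * E.j l = E.j u

/-- the tuples `(d_k)`, `d_k ∈ Λ⁻¹ σ^k Λ`, with the local conditions and `‖d_k‖ ≤ B` -/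
structure InT (Λ : Ideal E.R) (B : ℕ) (d : ℕ → E.L) : Prop where
  mem : ∀ k < E.r, ∀ l ∈ Λ, ∃ μ ∈ Λ, d k * E.j l = E.j ((E.σ ^ k) μ)
  loc : ∀ b < E.r, ∀ α (hα : α ∈ E.S),
    (E.pAt α hα).V (∑ k ∈ Finset.range E.r, E.ζ⁻¹ ^ (k * b) • d k) ≤ exp (-(b : ℤ))
  inf : ∀ k < E.r, E.pInf.V (d k) ≤ exp (B : ℤ)

theorem InvM.add {E : Cv F} {Λ : Ideal E.R} {x y : E.L} (hx : E.InvM Λ x) (hy : E.InvM Λ y) :
    E.InvM Λ (x + y) := by
  intro l hl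
  obtain ⟨u, hu⟩ := hx l hl
  obtain ⟨v, hv⟩ := hy l hl
  exact ⟨u + v, by rw [add_mul, hu, hv, map_add]⟩

theorem InvM.mul_j {E : Cv F} {Λ : Ideal E.R} {x : E.L} (hx : E.InvM Λ x) (u : E.R) :
    E.InvM Λ (x * E.j u) := by
  intro l hl
  obtain ⟨v, hv⟩ := hx l hl
  exact ⟨v * u, by rw [mul_right_comm, hv, map_mul]⟩

theorem invM_zero (Λ : Ideal E.R) : E.InvM Λ 0 := by
  exact fun l _ => ⟨0, by rw [zero_mul, map_zero]⟩

/-- `Cop.exists_V_eq_one` -/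
theorem InvM.V_le {E : Cv F} {Λ : Ideal E.R} (hΛ : E.Cop Λ) {x : E.L} (hx : E.InvM Λ x) {α : F}
    (hα : α ∈ E.S) : (E.pAt α hα).V x ≤ 1 := by
  obtain ⟨u, hu, h1⟩ := hΛ.exists_V_eq_one
  obtain ⟨v, hv⟩ := hx u hu
  have := E.pAt_V_le_one α hα v
  rwa [← hv, map_mul, PlA.V_j, h1 α hα, mul_one] at this

/-- `1 ∈ Λ Λ⁻¹` as an induction principle (`FractionalIdeal.mul_inv_cancel`, `mem_inv_iff`,
`FractionalIdeal.mul_induction_on`) -/
theorem one_induction {Λ : Ideal E.R} (hΛ : Λ ≠ ⊥) {C : E.L → Prop}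
    (hm : ∀ l ∈ Λ, ∀ x, E.InvM Λ x → C (E.j l * x)) (ha : ∀ x y, C x → C y → C (x + y)) : C 1 := by
  have h0 : (Λ : FractionalIdeal E.R⁰ E.L) ≠ 0 := FractionalIdeal.coeIdeal_ne_zero.2 hΛ
  have h1 : (1 : E.L) ∈ (Λ : FractionalIdeal E.R⁰ E.L) * (Λ : FractionalIdeal E.R⁰ E.L)⁻¹ := by
    rw [mul_inv_cancel₀ h0]; exact FractionalIdeal.one_mem_one _
  refine FractionalIdeal.mul_induction_on h1 (fun i hi x hx => ?_) ha
  obtain ⟨l, hl, rfl⟩ := (FractionalIdeal.mem_coeIdeal _).1 hi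
  refine hm l hl x fun l' hl' => ?_
  obtain ⟨u, hu⟩ := (FractionalIdeal.mem_one_iff _).1
    ((FractionalIdeal.mem_inv_iff h0).1 hx _ (FractionalIdeal.mem_coeIdeal_of_mem _ hl'))
  exact ⟨u, hu.symm⟩

theorem a2r_class (n : ℕ) : ∃ i < E.r, E.r ∣ n + i := by
  have hr := E.r_pos
  refine ⟨(E.r - n % E.r) % E.r, Nat.mod_lt _ hr, ?_⟩
  rw [Nat.dvd_iff_mod_eq_zero, Nat.add_mod, Nat.mod_mod, Nat.add_mod_mod,
    Nat.add_sub_cancel' (Nat.mod_lt _ hr).le, Nat.mod_self]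

theorem a2r_eq {i k : ℕ} (hi : i < E.r) (hk : k < E.r) (h : (E.r : ℤ) ∣ (i : ℤ) - k) : i = k := by
  have := Int.eq_zero_of_abs_lt_dvd h (abs_lt.2 ⟨by omega, by omega⟩)
  omega

/-- **reduced basis.**  For `i < r` let `n i` be the least natural number `≡ -i mod r` with
`V∞ β = exp (n i)` for some `β ∈ Λ` (exists: `l Y^s` runs through all classes since `V∞ Y = exp m`,
`m ≡ -1`).  Spanning: strong induction on `N` with `V∞ l ≤ exp N`..: if `V∞ l = exp n`, `n ≡ -i`, then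
`n = n i + r t`, `X^t β i` has the same value, subtract a constant multiple (`VR_res`). -/
theorem exists_reduced {Λ : Ideal E.R} (hΛ : Λ ≠ ⊥) :
    ∃ (β : ℕ → E.R) (n : ℕ → ℕ), (∀ i < E.r, β i ∈ Λ ∧ E.pInf.V (E.j (β i)) = exp (n i : ℤ) ∧
        E.r ∣ n i + i) ∧
      ∀ l ∈ Λ, ∃ p : ℕ → F[X], l = ∑ i ∈ Finset.range E.r, E.of (p i) * β i := by
  classical
  have hex : ∀ i : ℕ, ∃ n : ℕ, ∃ β ∈ Λ, E.pInf.VR β = exp (n : ℤ) ∧ E.r ∣ n + i := fun i => by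
    obtain ⟨l, hl, hl0⟩ := Submodule.exists_mem_ne_zero_of_ne_bot hΛ
    refine ⟨(E.nm l).natDegree + E.m * ((E.nm l).natDegree + i),
      l * E.Y ^ ((E.nm l).natDegree + i), Λ.mul_mem_right _ hl, ?_, ?_⟩
    · rw [map_mul, map_pow, E.pInf_VR_eq hl0, PlA.VR_Y, ← exp_nsmul, ← exp_add]
      congr 1
      change _ + ((E.nm l).natDegree + i) • (E.m : ℤ) = _
      push_cast [nsmul_eq_mul]; ring
    · rw [show (E.nm l).natDegree + E.m * ((E.nm l).natDegree + i) + i =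
        (E.m + 1) * ((E.nm l).natDegree + i) by ring]
      exact E.hdiv.mul_right _
  choose β hβ using fun i => Nat.find_spec (hex i)
  refine ⟨β, fun i => Nat.find (hex i), fun i _ => ⟨(hβ i).1, by rw [PlA.V_j, (hβ i).2.1], (hβ i).2.2⟩, ?_⟩
  have key : ∀ N : ℕ, ∀ l ∈ Λ, E.pInf.VR l < exp (N : ℤ) →
      ∃ p : ℕ → F[X], l = ∑ i ∈ Finset.range E.r, E.of (p i) * β i := by
    intro N
    induction N with
    | zero =>
      intro l _ h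
      by_cases hl0 : l = 0
      · exact ⟨0, by simp [hl0]⟩
      · exact absurd (E.one_le_pInf_VR hl0) (not_le.2 (by simpa using h))
    | succ N ih =>
      intro l hl h
      by_cases hl0 : l = 0
      · exact ⟨0, by simp [hl0]⟩
      have hv := E.pInf_VR_eq hl0
      set n := (E.nm l).natDegree with hn
      obtain ⟨i, hi, hd⟩ := E.a2r_class n
      have h1 : Nat.find (hex i) ≤ n := Nat.find_min' _ ⟨l, hl, hv, hd⟩
      obtain ⟨t, ht⟩ : E.r ∣ n - Nat.find (hex i) := by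
        have := Nat.dvd_sub hd (hβ i).2.2
        rwa [Nat.add_sub_add_right] at this
      have h2 : E.pInf.VR (E.of (X ^ t) * β i) = exp (n : ℤ) := by
        rw [map_mul, PlA.VR_of, (hβ i).2.1]
        change vInf F (X ^ t) ^ E.r * _ = _
        rw [vInf_of_ne (pow_ne_zero _ X_ne_zero), natDegree_X_pow, ← exp_nsmul, ← exp_add]
        congr 1
        have : n = Nat.find (hex i) + E.r * t := by omega
        rw [this]; push_cast [nsmul_eq_mul]; ring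
      obtain ⟨a, ha⟩ := E.pInf.VR_res hl0 (hv.trans h2.symm)
      obtain ⟨p, hp⟩ := ih _ (Λ.sub_mem hl (Λ.mul_mem_left _ (Λ.mul_mem_left _ (hβ i).1)))
        (ha.trans_le (by rw [hv, exp_lt_exp] at h; rw [hv, exp_le_exp]; omega))
      refine ⟨fun k => p k + if k = i then C a * X ^ t else 0, ?_⟩
      simp only [map_add, add_mul, Finset.sum_add_distrib, ← hp, apply_ite E.of, map_zero, ite_mul,
        zero_mul, Finset.sum_ite_eq', Finset.mem_range, hi, if_true, map_mul]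
      ring
  intro l hl
  by_cases hl0 : l = 0
  · exact ⟨0, by simp [hl0]⟩
  · refine key ((E.nm l).natDegree + 1) l hl ?_
    rw [E.pInf_VR_eq hl0, exp_lt_exp]; omega

theorem a2r_Y_pow (k c : ℕ) : (E.σL ^ k) (E.j E.Y ^ c) = E.ζ ^ (k * c) • E.j E.Y ^ c :=
  E.σL_pow_eig (by rw [map_pow, σL_Y, _root_.smul_pow]) k

theorem a2r_div (k c : ℕ) (x : E.L) :
    (E.σL ^ k) (x / E.j E.Y ^ c) = E.ζ⁻¹ ^ (k * c) • ((E.σL ^ k) x / E.j E.Y ^ c) := by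
  rw [map_div₀, a2r_Y_pow, div_eq_mul_inv, div_eq_mul_inv, smul_inv₀, inv_pow, mul_smul_comm]

theorem a2r_smul {E : Cv F} {Λ : Ideal E.R} {x : E.L} (hx : E.InvM Λ x) (a : F) :
    E.InvM Λ (a • x) := by
  rw [smul_eq, mul_comm]; exact hx.mul_j _

theorem a2r_sum {E : Cv F} {Λ : Ideal E.R} (s : Finset ℕ) {x : ℕ → E.L}
    (hx : ∀ i ∈ s, E.InvM Λ (x i)) : E.InvM Λ (∑ i ∈ s, x i) :=
  Finset.sum_induction x _ (fun _ _ => InvM.add) (E.invM_zero Λ) hx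

/-- `T = ∑ d_k σ^k` maps `Y^(-c) Λ⁻¹` into `Λ⁻¹` (`c < r`).  `y = x Y^(-c)`.  For `l ∈ Λ`:
`d_k σ^k(x) l = σ^k (μ x) ∈ R`, so `T(y) l Y^c ∈ R`; by `mem_R_of` it suffices to show `V_α (T y) ≤ 1`.
`y = ∑_b π_b y` (`sum_π`), `T (π_b y) = π_b y * ∑_k ζ^(kb) d_k` (`σL_π`, `σL_pow_eig`); with
`b' = (r - b) % r`: `ζ^(kb) = ζ⁻¹^(k b')`, `V (π_b y) ≤ exp (r-1)` so `≤ exp b'` (`V_eig_le`), and `loc`. -/
theorem InT.map_invM {E : Cv F} {Λ : Ideal E.R} (hΛ : E.Cop Λ) {B : ℕ} {d : ℕ → E.L}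
    (hd : E.InT Λ B d) {x : E.L} (hx : E.InvM Λ x) {c : ℕ} (hc : c < E.r) :
    E.InvM Λ (∑ k ∈ Finset.range E.r, d k * (E.σL ^ k) (x / E.j E.Y ^ c)) := by
  intro l hl
  have hY : E.j E.Y ^ c ≠ 0 := pow_ne_zero _ (E.j_ne E.Y_ne)
  have h1 : (∑ k ∈ Finset.range E.r, d k * (E.σL ^ k) (x / E.j E.Y ^ c)) * E.j l * E.j E.Y ^ c ∈
      E.j.range := by
    rw [Finset.sum_mul, Finset.sum_mul]
    refine Subring.sum_mem _ fun k hk => ?_
    obtain ⟨μ, hμ, h2⟩ := hd.mem k (Finset.mem_range.1 hk) l hl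
    obtain ⟨u, hu⟩ := hx μ hμ
    refine ⟨E.of (C (E.ζ⁻¹ ^ (k * c))) * (E.σ ^ k) u, ?_⟩
    rw [map_mul, ← σL_pow_j, ← hu, map_mul, σL_pow_j, ← h2, a2r_div, smul_eq]
    field_simp
  obtain ⟨u, hu⟩ := h1
  refine E.mem_R_of hu.symm fun α hα => ?_
  rw [map_mul]
  refine mul_le_one' ?_ (E.pAt_V_le_one α hα l)
  set y := x / E.j E.Y ^ c with hy
  have h2 : ∑ k ∈ Finset.range E.r, d k * (E.σL ^ k) y =
      ∑ b ∈ Finset.range E.r, E.π b y * ∑ k ∈ Finset.range E.r, E.ζ ^ (k * b) • d k := by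
    conv_lhs => rw [← E.sum_π y]
    simp only [map_sum, Finset.mul_sum, E.σL_pow_eig (E.σL_π _ y)]
    rw [Finset.sum_comm]
    exact Finset.sum_congr rfl fun b _ => Finset.sum_congr rfl fun k _ => by
      rw [mul_smul_comm, mul_smul_comm, mul_comm (d k)]
  have h3 : (E.pAt α hα).V y ≤ exp (c : ℤ) := by
    rw [hy, map_div₀, map_pow, pAt_V_Y, ← exp_nsmul, div_eq_mul_inv, ← exp_neg]
    simpa using hx.V_le hΛ hα
  rw [h2]
  refine Valuation.map_sum_le _ fun b _ => ?_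
  obtain ⟨b', hb', hdv⟩ := E.a2r_class b
  have h4 : E.ζ ^ b = E.ζ⁻¹ ^ b' := by
    rw [inv_pow]
    refine eq_inv_of_mul_eq_one_left ?_
    rw [← pow_add]; exact (E.hζ.pow_eq_one_iff_dvd _).2 hdv
  have h5 := (E.pAt α hα).V_eig_le (E.σL_π b y) (((E.pAt α hα).V_π_le b y).trans h3) (n' := b')
    (by rw [add_comm]; exact_mod_cast hdv) (by omega)
  have h6 := hd.loc b' hb' α hα
  simp only [pow_mul', ← h4] at h6
  simp only [pow_mul']
  rw [map_mul]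
  refine (mul_le_mul' h5 h6).trans ?_
  rw [← exp_add]; simp

/-- `d_k = ∑_i γ_i σ^k β_i`.  Use `one_induction` for
`C z := ∃ γ, (∀ i < r, InvM (γ i)) ∧ ∀ k < r, d_k σ^k z = ∑_i γ_i σ^k β_i`.  For `z = l x`: with
`γ'_c = r⁻¹ T(x Y^(-c))` and `β'_c = l Y^c ∈ Λ`,
`∑_{c<r} γ'_c σ^k β'_c = r⁻¹ ∑_j d_j σ^j x σ^k l ∑_c ζ^((k-j) c) = d_k σ^k (l x)` (`sum_ζ_zpow`); expand
`β'_c = ∑_i p_{c,i} β_i`. -/
theorem InT.exists_gamma {E : Cv F} {Λ : Ideal E.R} (hΛ : E.Cop Λ) {B : ℕ} {d : ℕ → E.L}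
    (hd : E.InT Λ B d) {β : ℕ → E.R}
    (hβ : ∀ l ∈ Λ, ∃ p : ℕ → F[X], l = ∑ i ∈ Finset.range E.r, E.of (p i) * β i) :
    ∃ γ : ℕ → E.L, (∀ i < E.r, E.InvM Λ (γ i)) ∧
      ∀ k < E.r, d k = ∑ i ∈ Finset.range E.r, γ i * E.j ((E.σ ^ k) (β i)) := by
  have hY : ∀ c : ℕ, E.j E.Y ^ c ≠ 0 := fun c => pow_ne_zero _ (E.j_ne E.Y_ne)
  have key := E.one_induction hΛ.ne_bot (C := fun z => ∃ γ : ℕ → E.L, (∀ i < E.r, E.InvM Λ (γ i)) ∧
    ∀ k < E.r, d k * (E.σL ^ k) z = ∑ i ∈ Finset.range E.r, γ i * E.j ((E.σ ^ k) (β i))) ?_ ?_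
  · simpa only [map_one, mul_one] using key
  · intro l hl x hx
    choose p hp using fun c : ℕ => hβ (l * E.Y ^ c) (Λ.mul_mem_right _ hl)
    set γ' : ℕ → E.L := fun c =>
      (E.r : F)⁻¹ • ∑ j ∈ Finset.range E.r, d j * (E.σL ^ j) (x / E.j E.Y ^ c) with hγ'
    refine ⟨fun i => ∑ c ∈ Finset.range E.r, γ' c * E.j (E.of (p c i)), fun i _ =>
      a2r_sum _ fun c hc => (a2r_smul (hd.map_invM hΛ hx (Finset.mem_range.1 hc)) _).mul_j _,
      fun k hk => ?_⟩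
    have h1 : ∑ i ∈ Finset.range E.r, (∑ c ∈ Finset.range E.r, γ' c * E.j (E.of (p c i))) *
        E.j ((E.σ ^ k) (β i)) = ∑ c ∈ Finset.range E.r, γ' c * E.j ((E.σ ^ k) (l * E.Y ^ c)) := by
      simp only [Finset.sum_mul]
      rw [Finset.sum_comm]
      refine Finset.sum_congr rfl fun c _ => ?_
      rw [hp c]
      simp only [map_sum, map_mul, σ_pow_of, Finset.mul_sum, mul_assoc]
    have h2 : ∀ c : ℕ, γ' c * E.j ((E.σ ^ k) (l * E.Y ^ c)) = ∑ j ∈ Finset.range E.r,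
        ((E.r : F)⁻¹ * E.ζ ^ ((c : ℤ) * ((k : ℤ) - j))) •
          (d j * (E.σL ^ j) x * (E.σL ^ k) (E.j l)) := fun c => by
      rw [← σL_pow_j, map_mul, map_pow, map_mul, a2r_Y_pow]
      simp only [hγ', Finset.smul_sum, Finset.sum_mul]
      refine Finset.sum_congr rfl fun j _ => ?_
      have e : E.ζ ^ ((c : ℤ) * ((k : ℤ) - j)) = E.ζ⁻¹ ^ (j * c) * E.ζ ^ (k * c) := by
        rw [inv_pow, ← zpow_natCast, ← zpow_natCast, ← zpow_neg, ← zpow_add₀ E.ζ_ne]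
        congr 1; push_cast; ring
      have := hY c
      rw [a2r_div, e]
      simp only [Algebra.smul_def, map_mul]
      field_simp
    rw [h1]
    simp only [h2]
    rw [Finset.sum_comm]
    simp only [← Finset.sum_smul, ← Finset.mul_sum, sum_ζ_zpow]
    rw [Finset.sum_eq_single k, if_pos (by simp), inv_mul_cancel₀ E.r_ne_zero, one_smul, map_mul]
    · ring
    · intro j hj hjk
      rw [if_neg fun h => hjk (E.a2r_eq hk (Finset.mem_range.1 hj) h).symm, mul_zero, zero_smul]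
    · intro h; exact absurd (Finset.mem_range.2 hk) h
  · rintro x y ⟨γ, h1, h2⟩ ⟨γ', h1', h2'⟩
    refine ⟨fun i => γ i + γ' i, fun i hi => (h1 i hi).add (h1' i hi), fun k hk => ?_⟩
    simp only [map_add, mul_add, add_mul, Finset.sum_add_distrib, h2 k hk, h2' k hk]

/-- norm formula.  Take `i₀` maximising `V (γ i) V (β i)` (if the maximum is `0` there is nothing to do).
`∑_k ζ^(-k i₀) d_k = r ∑_i γ_i π_{i₀} β_i` (`r_smul_π`); the term `i = i₀` has value `V γ V β`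
(`V_π_eq`), the others are strictly smaller (`V_π_lt`); the left side has value `≤ exp B`. -/
theorem V_gamma_le (P : PlA E) {β γ d : ℕ → E.L} {n : ℕ → ℤ}
    (hβ : ∀ i < E.r, P.V (β i) = exp (n i) ∧ (E.r : ℤ) ∣ n i + i)
    (hd : ∀ k < E.r, d k = ∑ i ∈ Finset.range E.r, γ i * (E.σL ^ k) (β i)) {c : ℤᵐ⁰}
    (hc : ∀ k < E.r, P.V (d k) ≤ c) : ∀ i < E.r, P.V (γ i) * P.V (β i) ≤ c := by
  obtain ⟨i₀, hi₀, hmax⟩ := Finset.exists_max_image (Finset.range E.r)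
    (fun i => P.V (γ i) * P.V (β i)) ⟨0, Finset.mem_range.2 E.r_pos⟩
  intro i hi
  refine (hmax i (Finset.mem_range.2 hi)).trans ?_
  by_cases h0 : P.V (γ i₀) * P.V (β i₀) = 0
  · rw [h0]; exact zero_le
  have hi₀' := Finset.mem_range.1 hi₀
  have h1 : ∑ k ∈ Finset.range E.r, E.ζ⁻¹ ^ (k * i₀) • d k =
      ∑ i ∈ Finset.range E.r, γ i * ((E.r : F) • E.π i₀ (β i)) := by
    simp only [← r_smul_π, Finset.mul_sum]
    rw [Finset.sum_comm]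
    refine Finset.sum_congr rfl fun k hk => ?_
    rw [hd k (Finset.mem_range.1 hk), Finset.smul_sum]
    simp only [mul_smul_comm]
  have h2 : ∀ i, P.V (γ i * ((E.r : F) • E.π i₀ (β i))) = P.V (γ i) * P.V (E.π i₀ (β i)) :=
    fun i => by rw [map_mul, P.V_smul E.r_ne_zero]
  have h3 : P.V (γ i₀ * ((E.r : F) • E.π i₀ (β i₀))) = P.V (γ i₀) * P.V (β i₀) := by
    rw [h2, P.V_π_eq (hβ i₀ hi₀').1 (hβ i₀ hi₀').2]
  rw [← h3, ← P.V.map_sum_eq_of_lt (f := fun i => γ i * ((E.r : F) • E.π i₀ (β i))) hi₀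
    (fun k hk => ?_), ← h1]
  · exact Valuation.map_sum_le _ fun k hk => (P.V_smul_le _ _).trans (hc k (Finset.mem_range.1 hk))
  · obtain ⟨hk1, hk2⟩ := Finset.mem_sdiff.1 hk
    have hk' := Finset.mem_range.1 hk1
    rw [h3, h2]
    by_cases hg : P.V (γ k) = 0
    · rw [hg, zero_mul]; exact zero_lt_iff.2 h0
    refine lt_of_lt_of_le (mul_lt_mul_of_pos_left (P.V_π_lt (hβ k hk').1 fun h => hk2 ?_)
      (zero_lt_iff.2 hg)) (hmax k hk1)
    refine Finset.mem_singleton.2 (E.a2r_eq hk' hi₀' ?_)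
    simpa using dvd_sub (hβ k hk').2 h

/-- rank-one tuples lie in `InT`: `mem` with `μ = σ^(-k)(x l) β` (`σ^(r-k)`), `loc` by `r_smul_π`,
`V_π_le`, `V_eig_le`. -/
theorem inT_rank_one {Λ : Ideal E.R} (hΛ : E.Cop Λ) {x : E.L} (hx : E.InvM Λ x) {β : E.R}
    (hβ : β ∈ Λ) {B : ℕ} (hB : E.pInf.V (x * E.j β) ≤ exp (B : ℤ)) :
    E.InT Λ B fun k => x * E.j ((E.σ ^ k) β) := by
  refine ⟨fun k hk l hl => ?_, fun b hb α hα => ?_, fun k _ => ?_⟩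
  · obtain ⟨u, hu⟩ := hx l hl
    refine ⟨(E.σ ^ (E.r - k)) u * β, Λ.mul_mem_left _ hβ, ?_⟩
    rw [mul_right_comm, hu, map_mul, ← AlgEquiv.mul_apply, ← pow_add, Nat.add_sub_cancel' hk.le,
      σ_pow_r, map_mul, AlgEquiv.one_apply]
  · simp only [← σL_pow_j, ← mul_smul_comm, ← Finset.mul_sum, r_smul_π]
    rw [map_mul, (E.pAt α hα).V_smul E.r_ne_zero]
    have h1 := (E.pAt α hα).V_eig_le (E.σL_π b (E.j β)) (n := 0) (n' := -b)
      (((E.pAt α hα).V_π_le b _).trans (E.pAt_V_le_one α hα β)) (by simp) (by omega)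
    simpa using mul_le_mul' (hx.V_le hΛ hα) h1
  · rwa [← σL_pow_j, map_mul, PlA.V_σL_pow, ← map_mul]

/-- **rank one.**  Take the reduced `β`, `γ` from `exists_gamma`, `i₁` with `n i₁` least (the `n i` are
distinct).  If `γ i ≠ 0` for some `i ≠ i₁` then `0 ≠ γ_i β_{i₁} ∈ R` has `V∞ = exp B'` with `B' ∈ ℕ`
(`pInf_VR_eq`) and `exp B' < V γ_i V β_i ≤ exp B`; `inT_rank_one` contradicts minimality. -/
theorem rank_one {Λ : Ideal E.R} (hΛ : E.Cop Λ) {B : ℕ} {d : ℕ → E.L} (hd : E.InT Λ B d)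
    (hne : ∃ k < E.r, d k ≠ 0) (hmin : ∀ B' < B, ∀ d', E.InT Λ B' d' → ∀ k < E.r, d' k = 0) :
    ∃ (γ : E.L) (β : E.R), γ ≠ 0 ∧ β ≠ 0 ∧ β ∈ Λ ∧ ∀ k < E.r, d k = γ * E.j ((E.σ ^ k) β) := by
  obtain ⟨β, n, hβ, hsp⟩ := E.exists_reduced hΛ.ne_bot
  obtain ⟨γ, hγ, hdγ⟩ := hd.exists_gamma hΛ hsp
  obtain ⟨i₁, hi₁, hmin'⟩ := Finset.exists_min_image (Finset.range E.r) n
    ⟨0, Finset.mem_range.2 E.r_pos⟩
  have hi₁' := Finset.mem_range.1 hi₁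
  have hβ0 : β i₁ ≠ 0 := fun h => by
    have := (hβ i₁ hi₁').2.1
    rw [h, map_zero, map_zero] at this
    exact exp_ne_zero this.symm
  have hle := E.V_gamma_le E.pInf (β := fun i => E.j (β i)) (γ := γ) (d := d) (n := fun i => n i)
    (fun i hi => ⟨(hβ i hi).2.1, by exact_mod_cast (hβ i hi).2.2⟩)
    (fun k hk => by simp only [σL_pow_j]; exact hdγ k hk) hd.inf
  have hz : ∀ i ∈ Finset.range E.r, i ≠ i₁ → γ i = 0 := fun i hi hne => by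
    by_contra hg
    have hi' := Finset.mem_range.1 hi
    obtain ⟨u, hu⟩ := hγ i hi' _ (hβ i₁ hi₁').1
    have h1 : γ i * E.j (β i₁) ≠ 0 := mul_ne_zero hg (E.j_ne hβ0)
    have hu0 : u ≠ 0 := fun h => h1 (by rw [hu, h, map_zero])
    have h2 : E.pInf.V (γ i * E.j (β i₁)) = exp ((E.nm u).natDegree : ℤ) := by
      rw [hu, PlA.V_j, E.pInf_VR_eq hu0]
    have h3 : n i₁ < n i := by
      refine (hmin' i hi).lt_of_ne fun h => hne (E.a2r_eq hi' hi₁' ?_)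
      have a1 : (E.r : ℤ) ∣ n i + i := by exact_mod_cast (hβ i hi').2.2
      have a2 : (E.r : ℤ) ∣ n i₁ + i₁ := by exact_mod_cast (hβ i₁ hi₁').2.2
      simpa [h] using dvd_sub a1 a2
    have h4 : exp ((E.nm u).natDegree : ℤ) < exp (B : ℤ) := by
      rw [← h2, map_mul]
      refine lt_of_lt_of_le (mul_lt_mul_of_pos_left ?_ (zero_lt_iff.2 (E.pInf.V_ne hg))) (hle i hi')
      rw [(hβ i₁ hi₁').2.1, (hβ i hi').2.1, exp_lt_exp]
      exact_mod_cast h3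
    have h5 := hmin _ (by exact_mod_cast exp_lt_exp.1 h4) _
      (E.inT_rank_one hΛ (hγ i hi') (hβ i₁ hi₁').1 h2.le) 0 E.r_pos
    exact h1 (by simpa using h5)
  have hdk : ∀ k < E.r, d k = γ i₁ * E.j ((E.σ ^ k) (β i₁)) := fun k hk => by
    rw [hdγ k hk, Finset.sum_eq_single_of_mem i₁ hi₁ fun i hi hne => by rw [hz i hi hne, zero_mul]]
  refine ⟨γ i₁, β i₁, fun h => ?_, hβ0, (hβ i₁ hi₁').1, hdk⟩
  obtain ⟨k, hk, hk0⟩ := hne
  exact hk0 (by rw [hdk k hk, h, zero_mul])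

end Crest.Agent.R312.Cv
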