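import Crest.Agent.R312.A2Dim
import Crest.Agent.R312.A2Det2
import Crest.Agent.R312.A2Lam
import Crest.Agent.R312.A2Rank

/-!
# R312 / A2Div : the division theorem
-/

set_option autoImplicit false

open Polynomial WithZero FractionalIdeal
open scoped nonZeroDivisors

noncomputable section

namespace Crest.Agent.R312.Cv

variable {F : Type} [Field F] (E : Cv F)

theorem jof_ne {p : F[X]} (hp : p ≠ 0) : E.j (E.of p) ≠ 0 :=
  E.j_ne ((map_ne_zero_iff _ E.of_injective).2 hp)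

/-- step (2): `κ ν` is a norm -/
theorem exists_norm [Finite F] {I : Ideal E.R} {ν ω w : F[X]} (hI : E.Cop I) (hν : E.IsNu I ν) {κ : F}
    (hκ : κ ≠ 0) (hw : E.g ∣ w ^ E.r - C κ * ν) (hω : E.g ∣ ω * ν - w) :
    ∃ h : E.L, E.hk h E.r = E.j (E.of (C κ * ν)) := by
  obtain ⟨V, hVf, hVr, hV⟩ := E.exists_VB hν ω
  have : Nonempty (Fin E.r) := ⟨⟨0, E.r_pos⟩⟩
  let M : V →ₗ[F] Matrix (Fin E.r) (Fin E.r) E.L :=
    { toFun := fun c => E.Mat κ ν c
      map_add' := fun c c' => by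
        ext i k
        simp only [Mat, cyc, cL, Submodule.coe_add, Pi.add_apply, map_add, add_div, Matrix.add_apply]
        split_ifs <;> ring
      map_smul' := fun a c => by
        ext i k
        have h1 : ∀ n, E.cL ν (a • (c : ℕ → E.R)) n = a • E.cL ν c n := fun n => by
          rw [cL, cL, Pi.smul_apply, Algebra.smul_def, map_mul, smul_eq, mul_div_assoc]; rfl
        simp only [Mat, cyc, Submodule.coe_smul, RingHom.id_apply, Matrix.smul_apply, h1, σL_pow_smul]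
        split_ifs
        · rfl
        · rw [mul_smul_comm] }
  have hinj : Function.Injective (algebraMap F[X] E.L) := E.j_injective.comp E.of_injective
  obtain ⟨ρ, hρ⟩ := (IsScalarTower.toAlgHom F F[X] E.L).toLinearMap.exists_leftInverse_of_injective
    (LinearMap.ker_eq_bot.2 hinj)
  have hρ' : ∀ p, ρ (E.j (E.of p)) = p := fun p => LinearMap.congr_fun hρ p
  obtain ⟨c, hc0, hc⟩ := cw_det M (fun e : Fin E.r => (lcoeff F (E.m * (E.r - 1) + e)).comp ρ)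
    (by simpa using hVr)
  obtain ⟨hcV, hcz⟩ := hV c c.2
  obtain ⟨D, hD, hdet⟩ := E.det_poly hν hκ hcV
  have hr := E.r_pos
  have hD0 : D = 0 := by
    by_contra hD0
    have h1 : E.g ^ (E.r - 1) ∣ D := by
      refine E.g_pow_dvd fun α hα => ?_
      have h2 := E.det_V_at (hν.coprime hI) hκ hw hω hcV hα
      rw [hdet, pAt_V_of, vAt_of_ne α hD0, ← exp_nsmul, exp_le_exp, nsmul_eq_mul] at h2
      rw [← le_rootMultiplicity_iff hD0]
      have h3 : (E.r : ℤ) - 1 ≤ rootMultiplicity α D := by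
        have : (0 : ℤ) < E.r := by exact_mod_cast hr
        nlinarith
      omega
    have h2 := natDegree_le_of_dvd h1 hD0
    rw [natDegree_pow, g_natDegree, mul_comm] at h2
    obtain ⟨e, he⟩ := Nat.exists_eq_add_of_le h2
    have h3 : e < E.r := by
      have : (E.r - 1) * (E.m + 1) = E.m * (E.r - 1) + (E.r - 1) := by ring
      omega
    have h4 := hc ⟨e, h3⟩
    have h5 : (M c).det = E.j (E.of D) := hdet
    rw [LinearMap.comp_apply, h5, hρ', lcoeff_apply, ← he] at h4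
    exact hD0 (leadingCoeff_eq_zero.1 h4)
  have hν0 := E.jof_ne hν.1.ne_zero
  refine norm_of_det E.hr E.σL E.σL_pow_r (E.σL.commutes (C κ * ν))
    (E.jof_ne (mul_ne_zero (C_ne_zero.2 hκ) hν.1.ne_zero)) (c := E.cL ν c) ?_
    (by rw [hD0, map_zero, map_zero] at hdet; exact hdet)
  by_contra hne
  push Not at hne
  refine hc0 (Subtype.ext (funext fun k => ?_))
  by_cases hk : k < E.r
  · have := hne k hk
    rw [cL, div_eq_zero_iff, or_iff_left (pow_ne_zero _ hν0), map_eq_zero_iff _ E.j_injective] at this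
    exact this
  · exact hcz k (not_lt.1 hk)

theorem frac_le_iff {x : E.L} {I J : Ideal E.R} :
    spanSingleton E.R⁰ x * (I : E.Fr) ≤ (J : E.Fr) ↔ ∀ v ∈ I, ∃ u ∈ J, x * E.j v = E.j u := by
  rw [spanSingleton_mul_le_iff]
  constructor
  · intro h v hv
    obtain ⟨u, hu, h⟩ := (mem_coeIdeal _).1 (h _ (mem_coeIdeal_of_mem _ hv))
    exact ⟨u, hu, h.symm⟩
  · rintro h z hz
    obtain ⟨v, hv, rfl⟩ := (mem_coeIdeal _).1 hz
    obtain ⟨u, hu, h⟩ := h v hv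
    exact h ▸ mem_coeIdeal_of_mem _ hu

theorem mem_dict {I Λ : Ideal E.R} {h : E.L} (hΛ0 : Λ ≠ ⊥)
    (hΛ : spanSingleton E.R⁰ h * (Λ : E.Fr) = ((I * E.sI 1 Λ : Ideal E.R) : E.Fr)) (k : ℕ) (x : E.L) :
    (∀ v ∈ E.Ik I k, ∃ u : E.R, x * E.j v = E.j u) ↔
      ∀ l ∈ Λ, ∃ μ ∈ Λ, x * E.hk h k * E.j l = E.j ((E.σ ^ k) μ) := by
  have h1 : (∀ v ∈ E.Ik I k, ∃ u : E.R, x * E.j v = E.j u) ↔
      spanSingleton E.R⁰ x * (E.Ik I k : E.Fr) ≤ ((⊤ : Ideal E.R) : E.Fr) := by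
    rw [frac_le_iff]; simp
  have h2 : (∀ l ∈ Λ, ∃ μ ∈ Λ, x * E.hk h k * E.j l = E.j ((E.σ ^ k) μ)) ↔
      spanSingleton E.R⁰ (x * E.hk h k) * (Λ : E.Fr) ≤ (E.sI k Λ : E.Fr) := by
    rw [frac_le_iff]
    refine forall₂_congr fun l _ => ⟨?_, ?_⟩
    · rintro ⟨μ, hμ, h⟩; exact ⟨_, E.mem_sI.2 ⟨μ, hμ, rfl⟩, h⟩
    · rintro ⟨u, hu, h⟩
      obtain ⟨μ, hμ, rfl⟩ := E.mem_sI.1 hu
      exact ⟨μ, hμ, h⟩
  have h3 : (0 : E.Fr) < (E.sI k Λ : E.Fr) :=
    pos_iff_ne_zero.2 (coeIdeal_ne_zero.2 (E.sI_eq_bot.not.2 hΛ0))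
  rw [h1, h2, ← spanSingleton_mul_spanSingleton, mul_assoc, E.hk_mul_Lam hΛ, coeIdeal_mul,
    ← mul_assoc, coeIdeal_top, ← mul_le_mul_iff_left₀ h3, one_mul]

theorem V_prod_sub {L Γ : Type} [CommRing L] [LinearOrderedCommGroupWithZero Γ] (V : Valuation L Γ)
    {a : ℕ → L} {b : L} {ε : Γ} (hε : ε ≤ 1) (hb : V b ≤ 1) (ha : ∀ i, V (a i - b) ≤ ε) (k : ℕ) :
    V (∏ i ∈ Finset.range k, a i - b ^ k) ≤ ε := by
  induction k with
  | zero => simp
  | succ k ih =>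
    have h1 : V (a k) ≤ 1 := by
      have := V.map_add_le ((ha k).trans hε) hb
      rwa [sub_add_cancel] at this
    have h2 : ∏ i ∈ Finset.range (k + 1), a i - b ^ (k + 1) =
        (∏ i ∈ Finset.range k, a i - b ^ k) * a k + b ^ k * (a k - b) := by
      rw [Finset.prod_range_succ]; ring
    rw [h2]
    refine V.map_add_le ?_ ?_
    · rw [map_mul]; exact (mul_le_of_le_one_right' h1).trans ih
    · rw [map_mul, map_pow]; exact (mul_le_of_le_one_left' (pow_le_one' hb k)).trans (ha k)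

/-- the dictionary `d_k = c_k h_k / ν^k` -/
theorem inV_iff_inT {I Λ : Ideal E.R} {ν ω w : F[X]} (hI : E.Cop I) (hν : E.IsNu I ν) {κ : F}
    (hκ : κ ≠ 0) (hω : E.g ∣ ω * ν - w) {h : E.L} (hN : E.hk h E.r = E.j (E.of (C κ * ν)))
    (hw : ∀ α (hα : α ∈ E.S), (E.pAt α hα).V (h - E.j (E.of w)) ≤ exp (-(E.r : ℤ)))
    (hΛ0 : Λ ≠ ⊥) (hΛ : spanSingleton E.R⁰ h * (Λ : E.Fr) = ((I * E.sI 1 Λ : Ideal E.R) : E.Fr))
    {B : ℕ} {c : ℕ → E.R} :
    E.InV I ν ω B c ↔ E.InT Λ B fun k => E.cL ν c k * E.hk h k := by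
  have hν0 := E.jof_ne hν.1.ne_zero
  have hmem : ∀ k, (∀ v ∈ E.Ik I k, c k * v ∈ Ideal.span {E.of (ν ^ k)}) ↔
      ∀ l ∈ Λ, ∃ μ ∈ Λ, E.cL ν c k * E.hk h k * E.j l = E.j ((E.σ ^ k) μ) := fun k => by
    rw [← E.mem_dict hΛ0 hΛ]
    refine forall₂_congr fun v _ => ?_
    rw [Ideal.mem_span_singleton']
    refine exists_congr fun u => ?_
    rw [cL, div_mul_eq_mul_div, div_eq_iff (pow_ne_zero _ hν0), ← map_mul, ← map_pow, ← map_mul,
      E.j_injective.eq_iff, map_pow, eq_comm]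
  have hloc : ∀ b < E.r, (∀ s < b, E.g ∣ ∑ k ∈ Finset.range E.r,
      C (E.ζ⁻¹ ^ (k * b)) * ω ^ k * E.comp s (c k)) ↔ ∀ α (hα : α ∈ E.S), (E.pAt α hα).V
        (∑ k ∈ Finset.range E.r, E.ζ⁻¹ ^ (k * b) • (E.cL ν c k * E.hk h k)) ≤ exp (-(b : ℤ)) := by
    intro b hb
    rw [E.loc_iff hb]
    refine forall₂_congr fun α hα => ?_
    have hν1 : (E.pAt α hα).V (E.j (E.of ν)) = 1 := by
      rw [pAt_V_of, vAt_eq_one_iff.2 (E.isCoprime_g_iff.1 (hν.coprime hI) α hα), one_pow]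
    have hε : exp (-(E.r : ℤ)) ≤ 1 := by rw [← exp_zero, exp_le_exp]; omega
    have h1 : ∀ i, (E.pAt α hα).V ((E.σL ^ i) h / E.j (E.of ν) - E.j (E.of ω)) ≤ exp (-(E.r : ℤ)) := by
      intro i
      have h2 : (E.σL ^ i) h / E.j (E.of ν) - E.j (E.of ω) =
          ((E.σL ^ i) (h - E.j (E.of w)) - E.j (E.of (ω * ν - w))) / E.j (E.of ν) := by
        rw [map_sub, σL_pow_of, map_sub, map_sub, map_mul, map_mul]; field_simp; ring
      rw [h2, map_div₀, hν1, _root_.div_one]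
      refine Valuation.map_sub_le _ (by rw [PlA.V_σL_pow]; exact hw α hα) ?_
      rw [pAt_V_of]
      refine (pow_le_pow_left' (vAt_le_of_eval (E.g_dvd_iff.1 hω α hα)) _).trans ?_
      rw [← exp_nsmul]; simp
    have h2 : (E.pAt α hα).V (∑ k ∈ Finset.range E.r, E.ζ⁻¹ ^ (k * b) • (E.cL ν c k * E.hk h k) -
        ∑ k ∈ Finset.range E.r, E.ζ⁻¹ ^ (k * b) • (E.j (E.of ω) ^ k * E.j (c k))) ≤
        exp (-(b : ℤ)) := by
      rw [← Finset.sum_sub_distrib]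
      refine Valuation.map_sum_le _ fun k _ => ?_
      rw [← smul_sub]
      refine (PlA.V_smul_le _ _ _).trans ?_
      have h3 : E.cL ν c k * E.hk h k - E.j (E.of ω) ^ k * E.j (c k) = E.j (c k) *
          (∏ i ∈ Finset.range k, ((E.σL ^ i) h / E.j (E.of ν)) - E.j (E.of ω) ^ k) := by
        rw [Finset.prod_div_distrib, Finset.prod_const, Finset.card_range, cL, hk]; ring
      rw [h3, map_mul]
      refine (mul_le_of_le_one_left' (E.pAt_V_le_one α hα _)).trans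
        ((V_prod_sub _ hε (E.pAt_V_le_one α hα _) h1 k).trans ?_)
      rw [exp_le_exp]; omega
    constructor
    · intro h3
      have := Valuation.map_add_le _ h2 h3
      rwa [sub_add_cancel] at this
    · intro h3
      have := Valuation.map_sub_le _ h3 h2
      rwa [sub_sub_cancel] at this
  have hinf : ∀ k, E.Le (c k) (B + (E.r - 1) * k * ν.natDegree) ↔
      E.pInf.V (E.cL ν c k * E.hk h k) ≤ exp (B : ℤ) := fun k => by
    have h1 : E.pInf.V (E.j (E.of ν)) = exp (ν.natDegree : ℤ) ^ E.r := by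
      rw [pInf_V_of, vInf_of_ne hν.1.ne_zero]
    have h2 : E.pInf.V h = exp (ν.natDegree : ℤ) := by
      refine pow_left_injective E.hr.ne_zero ?_
      simp only
      rw [← V_hk, hN, map_mul, map_mul, map_mul, h1, pInf_V_of, vInf_C hκ, one_pow, one_mul]
    rw [le_iff_VR, ← PlA.V_j, map_mul, V_hk, cL, map_div₀, map_pow, h1, h2, ← exp_nsmul, ← exp_nsmul,
      ← exp_nsmul, div_mul_eq_mul_div, mul_div_assoc, ← exp_sub, ← le_div_iff₀ exp_pos, ← exp_sub]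
    have h3 : ((B + (E.r - 1) * k * ν.natDegree : ℕ) : ℤ) =
        B - (k • (ν.natDegree : ℤ) - k • E.r • (ν.natDegree : ℤ)) := by
      have := E.r_pos
      push_cast [Nat.cast_sub this]
      simp only [nsmul_eq_mul]
      ring
    rw [h3]
  exact ⟨fun hc => ⟨fun k hk => (hmem k).1 (hc.mem k hk), fun b hb => (hloc b hb).1 (hc.loc b hb),
      fun k hk => (hinf k).1 (hc.inf k hk)⟩,
    fun hc => ⟨fun k hk => (hmem k).2 (hc.mem k hk), fun b hb => (hloc b hb).2 (hc.loc b hb),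
      fun k hk => (hinf k).2 (hc.inf k hk)⟩⟩

theorem InT.congr {E : Cv F} {Λ : Ideal E.R} {B : ℕ} {d d' : ℕ → E.L} (hd : E.InT Λ B d)
    (h : ∀ k < E.r, d k = d' k) : E.InT Λ B d' := by
  refine ⟨fun k hk => h k hk ▸ hd.mem k hk, fun b hb α hα => ?_, fun k hk => h k hk ▸ hd.inf k hk⟩
  rw [Finset.sum_congr rfl fun k hk => by rw [← h k (Finset.mem_range.1 hk)]]
  exact hd.loc b hb α hα

/-- `J* = ∑_k Q_k` when `(ν^k) Q_k = (c_k) I_k` -/
theorem Jstar_eq_sum {I : Ideal E.R} {ν : F[X]} (hν : ν ≠ 0) {c : ℕ → E.R} {Q : ℕ → Ideal E.R}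
    (hQ : ∀ k < E.r, Ideal.span {E.of (ν ^ k)} * Q k = Ideal.span {c k} * E.Ik I k) :
    E.Jstar I ν c = ∑ k ∈ Finset.range E.r, Q k := by
  apply le_antisymm
  · rw [Jstar, Ideal.span_le]
    rintro u ⟨k, hk, v, hv, huv⟩
    have h1 : E.of (ν ^ k) * u ∈ Ideal.span {E.of (ν ^ k)} * Q k := by
      rw [hQ k hk, huv]; exact Ideal.mul_mem_mul (Ideal.mem_span_singleton_self _) hv
    obtain ⟨z, hz, h2⟩ := Ideal.mem_span_singleton_mul.1 h1
    rw [← mul_left_cancel₀ ((map_ne_zero_iff _ E.of_injective).2 (pow_ne_zero k hν)) h2]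
    exact Finset.single_le_sum (f := Q) (fun _ _ => bot_le) (Finset.mem_range.2 hk) hz
  · rw [Ideal.sum_eq_sup, Finset.sup_le_iff]
    intro k hk u hu
    have h1 : E.of (ν ^ k) * u ∈ Ideal.span {c k} * E.Ik I k := by
      rw [← hQ k (Finset.mem_range.1 hk)]
      exact Ideal.mul_mem_mul (Ideal.mem_span_singleton_self _) hu
    obtain ⟨z, hz, h2⟩ := Ideal.mem_span_singleton_mul.1 h1
    exact Ideal.subset_span ⟨k, Finset.mem_range.1 hk, z, hz, h2.symm⟩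

/-- **division theorem** -/
theorem div_main [Finite F] {I : Ideal E.R} {ν ω w : F[X]} (hI : E.Cop I) (hν : E.IsNu I ν) {κ : F}
    (hκ : κ ≠ 0) (hw : E.g ∣ w ^ E.r - C κ * ν) (hω : E.g ∣ ω * ν - w) {B : ℕ} {c : ℕ → E.R}
    (hc : E.InV I ν ω B c) (hne : ∃ k < E.r, c k ≠ 0)
    (hmin : ∀ B' < B, ∀ c', E.InV I ν ω B' c' → ∀ k < E.r, c' k = 0) :
    c 0 ≠ 0 ∧ E.φ (E.clA (E.Jstar I ν c)) = E.clA I := by
  obtain ⟨h₀, hN₀⟩ := E.exists_norm hI hν hκ hw hω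
  have hcop : IsCoprime (C κ * ν) E.g :=
    (isCoprime_mul_unit_left_left (isUnit_C.2 hκ.isUnit) _ _).2 (hν.coprime hI)
  obtain ⟨h, hN, hhw⟩ := E.normalise hcop hw hN₀
  obtain ⟨Λ, hΛc, hΛ⟩ := E.exists_Lam hI hν hκ hN
  have hΛ0 := hΛc.ne_bot
  have hν0 := E.jof_ne hν.1.ne_zero
  have hh0 : h ≠ 0 := by
    rintro rfl
    have h1 := E.jof_ne (mul_ne_zero (C_ne_zero.2 hκ) hν.1.ne_zero)
    rw [← hN] at h1
    exact h1 (Finset.prod_eq_zero (Finset.mem_range.2 E.r_pos) (map_zero _))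
  have hk0 : ∀ k, E.hk h k ≠ 0 := fun k =>
    Finset.prod_ne_zero_iff.2 fun i _ => (map_ne_zero_iff _ (E.σL ^ i).injective).2 hh0
  have hdict := fun B c => E.inV_iff_inT (B := B) (c := c) hI hν hκ hω hN hhw hΛ0 hΛ
  have hcL : ∀ (c : ℕ → E.R) k, E.cL ν c k * E.hk h k = 0 ↔ c k = 0 := fun c k => by
    rw [mul_eq_zero, or_iff_left (hk0 k), cL, div_eq_zero_iff, or_iff_left (pow_ne_zero _ hν0),
      map_eq_zero_iff _ E.j_injective]
  obtain ⟨γ, β, hγ, hβ, hβΛ, hd⟩ := E.rank_one hΛc ((hdict B c).1 hc)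
    (by obtain ⟨k, hk, h0⟩ := hne; exact ⟨k, hk, (hcL c k).not.2 h0⟩) (by
      intro B' hB' d' hd'
      have h1 : ∀ k, ∃ u : E.R, k < E.r → d' k = E.j u / E.j (E.of ν) ^ k * E.hk h k := fun k => by
        by_cases hk : k < E.r
        · have h2 := (E.mem_dict hΛ0 hΛ k (d' k / E.hk h k)).2
            (by rw [div_mul_cancel₀ _ (hk0 k)]; exact hd'.mem k hk)
          obtain ⟨u, hu⟩ := h2 (E.of ν ^ k) (by
            rcases Nat.eq_zero_or_pos k with rfl | hk'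
            · simp [Ik_zero]
            · exact Ideal.pow_mem_of_mem _ (hν.mem_Ik hk.le) _ hk')
          refine ⟨u, fun _ => ?_⟩
          have := hk0 k
          rw [← hu, map_pow]; field_simp
        · exact ⟨0, fun h => (hk h).elim⟩
      choose c' hc' using h1
      intro k hk
      rw [hc' k hk]
      exact (hcL c' k).2 (hmin B' hB' c' ((hdict B' c').2 (hd'.congr hc')) k hk))
  have hc0 : c 0 ≠ 0 := by
    rw [Ne, ← hcL c 0, hd 0 E.r_pos]
    exact mul_ne_zero hγ (E.j_ne (by simpa using hβ))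
  refine ⟨hc0, ?_⟩
  obtain ⟨b, hb⟩ : Λ ∣ Ideal.span {β} :=
    Ideal.dvd_iff_le.2 ((Ideal.span_singleton_le_iff_mem _).2 hβΛ)
  have hb0 : b ≠ ⊥ := by rintro rfl; exact hβ (by simpa using hb)
  have hQ : ∀ k, ∃ Q : Ideal E.R, k < E.r →
      Ideal.span {E.of (ν ^ k)} * Q = Ideal.span {c k} * E.Ik I k := fun k => by
    by_cases hk : k < E.r
    · obtain ⟨Q, hQ⟩ : Ideal.span {E.of (ν ^ k)} ∣ Ideal.span {c k} * E.Ik I k :=
        Ideal.dvd_iff_le.2 (Ideal.span_singleton_mul_le_iff.2 (hc.mem k hk))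
      exact ⟨Q, fun _ => hQ.symm⟩
    · exact ⟨⊥, fun h => (hk h).elim⟩
  choose Q hQ using hQ
  have hQ' : ∀ k < E.r, (Q k : E.Fr) = spanSingleton E.R⁰ γ * (Λ * E.sI k b : Ideal E.R) := by
    intro k hk
    have h1 := congrArg (fun J : Ideal E.R => (J : E.Fr)) (hQ k hk)
    simp only [coeIdeal_mul, coeIdeal_span_singleton] at h1
    have h2 := E.hk_mul_Lam hΛ k
    have h3 := congrArg (fun J : Ideal E.R => ((E.sI k J : Ideal E.R) : E.Fr)) hb
    simp only [sI_span_singleton, sI_mul, coeIdeal_mul, coeIdeal_span_singleton] at h3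
    have h4 : E.j (c k) * E.hk h k = E.j (E.of (ν ^ k)) * (γ * E.j ((E.σ ^ k) β)) := by
      rw [← hd k hk, cL, map_pow, map_pow]; field_simp
    have h5 := congrArg (spanSingleton E.R⁰) h4
    simp only [← spanSingleton_mul_spanSingleton] at h5
    rw [coeIdeal_mul] at h2 ⊢
    have h6 : spanSingleton E.R⁰ (E.j (E.of (ν ^ k))) * (E.sI k Λ : E.Fr) ≠ 0 :=
      mul_ne_zero (spanSingleton_ne_zero_iff.2 (E.jof_ne (pow_ne_zero _ hν.1.ne_zero)))
        (coeIdeal_ne_zero.2 (E.sI_eq_bot.not.2 hΛ0))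
    refine mul_left_cancel₀ h6 ?_
    calc spanSingleton E.R⁰ (E.j (E.of (ν ^ k))) * (E.sI k Λ : E.Fr) * (Q k : E.Fr)
        = spanSingleton E.R⁰ (E.j (E.of (ν ^ k))) * (Q k : E.Fr) * (E.sI k Λ : E.Fr) := by ring
      _ = spanSingleton E.R⁰ (E.j (c k)) * ((E.Ik I k : E.Fr) * (E.sI k Λ : E.Fr)) := by
        rw [h1, mul_assoc]
      _ = spanSingleton E.R⁰ (E.j (c k)) * spanSingleton E.R⁰ (E.hk h k) * (Λ : E.Fr) := by
        rw [← h2, mul_assoc]
      _ = _ := by rw [h5, h3]; ring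
  set s : Ideal E.R := ∑ k ∈ Finset.range E.r, E.sI k b with hs
  have hs0 : s ≠ ⊥ := by
    intro h0
    have : E.sI 0 b ≤ s :=
      Finset.single_le_sum (f := fun k => E.sI k b) (fun _ _ => bot_le) (Finset.mem_range.2 E.r_pos)
    rw [h0, sI_zero, le_bot_iff] at this
    exact hb0 this
  have hss : E.sI 1 s = s := by
    have h1 : E.sI 1 s = ∑ k ∈ Finset.range E.r, E.sI (k + 1) b := by
      rw [hs]
      induction E.r with
      | zero => simpa using E.sI_eq_bot.2 rfl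
      | succ n ih =>
        rw [Finset.sum_range_succ, Finset.sum_range_succ, Ideal.add_eq_sup, sI_sup, ih, ← sI_add,
          add_comm 1 n, Ideal.add_eq_sup]
    obtain ⟨n, hn⟩ : ∃ n, E.r = n + 1 := ⟨E.r - 1, by have := E.r_pos; omega⟩
    have h2 := E.sI_r b
    rw [h1, hs]
    rw [hn] at h2 ⊢
    rw [Finset.sum_range_succ, Finset.sum_range_succ' (fun k => E.sI k b), h2, sI_zero]
  have hJ : (E.Jstar I ν c : E.Fr) = spanSingleton E.R⁰ γ * (Λ * s : Ideal E.R) := by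
    rw [E.Jstar_eq_sum hν.1.ne_zero hQ, hs, Finset.mul_sum]
    have h1 := map_sum (coeIdealHom E.R⁰ E.L) Q (Finset.range E.r)
    have h2 := map_sum (coeIdealHom E.R⁰ E.L) (fun k => Λ * E.sI k b) (Finset.range E.r)
    simp only [coeIdealHom_apply] at h1 h2
    rw [h1, h2, Finset.mul_sum]
    exact Finset.sum_congr rfl fun k hk => hQ' k (Finset.mem_range.1 hk)
  have h1 := (E.cl_eq_of_frac hγ (mul_ne_zero hΛ0 hs0) hJ).2
  have h2 := (E.cl_eq_of_frac hh0 hΛ0 hΛ.symm).2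
  rw [E.cl_mul hI.ne_bot (E.sI_eq_bot.not.2 hΛ0), ← σG_cl] at h2
  rw [h1, E.cl_mul hΛ0 hs0, map_add, E.φ_cl_of_stable hss, add_zero, φ_apply]
  exact sub_eq_of_eq_add h2.symm

end Crest.Agent.R312.Cv
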