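import Crest.Agent.R312.A2W

/-!
# R312 / A2H : normalising `h` (step (3)) and the ideal `Λ = J₁⁻¹`
-/

set_option autoImplicit false

open Polynomial WithZero
open scoped nonZeroDivisors

noncomputable section

namespace Crest.Agent.R312.Cv

variable {F : Type} [Field F] (E : Cv F)

/-- `h_k = h σh ⋯ σ^(k-1) h` -/
def hk (h : E.L) (k : ℕ) : E.L := ∏ i ∈ Finset.range k, (E.σL ^ i) h

theorem hk_zero (h : E.L) : E.hk h 0 = 1 := rfl

theorem hk_succ (h : E.L) (k : ℕ) : E.hk h (k + 1) = E.hk h k * (E.σL ^ k) h :=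
  Finset.prod_range_succ _ _

theorem hk_succ' (h : E.L) (k : ℕ) : E.hk h (k + 1) = h * E.σL (E.hk h k) := by
  unfold hk
  rw [Finset.prod_range_succ', mul_comm, map_prod]
  simp only [pow_succ', AlgEquiv.mul_apply, pow_zero, AlgEquiv.one_apply]

theorem hk_mul (h h' : E.L) (k : ℕ) : E.hk (h * h') k = E.hk h k * E.hk h' k := by
  simp only [hk, map_mul, Finset.prod_mul_distrib]

theorem V_hk (P : PlA E) (h : E.L) (k : ℕ) : P.V (E.hk h k) = P.V h ^ k := by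
  simp only [hk, map_prod, PlA.V_σL_pow, Finset.prod_const, Finset.card_range]

/-- an element with prescribed values `exp (-t α)`, `t α < r`:
`θ = ∑_α e_α(X) Y^(t α)`, `e_α = ∏_{β ≠ α} (X - β)` -/
theorem exists_theta (t : F → ℕ) (ht : ∀ α ∈ E.S, t α < E.r) :
    ∃ θ : E.R, ∀ α (hα : α ∈ E.S), (E.pAt α hα).V (E.j θ) = exp (-(t α : ℤ)) := by
  classical
  refine ⟨∑ β ∈ E.S, E.of (∏ γ ∈ E.S.erase β, (X - C γ)) * E.Y ^ t β, fun α hα => ?_⟩
  have key : ∀ β, (E.pAt α hα).V (E.j (E.of (∏ γ ∈ E.S.erase β, (X - C γ)) * E.Y ^ t β)) =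
      vAt α (∏ γ ∈ E.S.erase β, (X - C γ)) ^ E.r * exp (-(t β : ℤ)) := fun β => by
    rw [map_mul, map_mul, pAt_V_of, map_pow, map_pow, pAt_V_Y, ← exp_nsmul]
    simp
  have h1 : vAt α (∏ γ ∈ E.S.erase α, (X - C γ)) = 1 := by
    rw [vAt_eq_one_iff, eval_prod, Finset.prod_ne_zero_iff]
    intro γ hγ
    simpa [sub_eq_zero] using (Finset.ne_of_mem_erase hγ).symm
  have h2 := key α
  rw [h1, one_pow, one_mul] at h2
  rw [← Finset.add_sum_erase _ _ hα, map_add, Valuation.map_add_eq_of_lt_left, h2]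
  rw [h2, map_sum]
  refine Valuation.map_sum_lt _ exp_ne_zero fun β hβ => ?_
  have h3 : vAt α (∏ γ ∈ E.S.erase β, (X - C γ)) ≤ exp (-1) := by
    refine vAt_le_of_eval ?_
    rw [eval_prod]
    exact Finset.prod_eq_zero (Finset.mem_erase.2 ⟨(Finset.ne_of_mem_erase hβ).symm, hα⟩) (by simp)
  rw [key]
  refine (mul_le_mul_left (pow_le_pow_left₀ zero_le h3 _) _).trans_lt ?_
  rw [← exp_nsmul, ← exp_add, exp_lt_exp]
  have := ht α hα
  simp only [smul_neg, nsmul_eq_mul, mul_one]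
  omega

theorem a2h_res (P : PlA E) {η : E.L} (h : P.V (E.hk η E.r - 1) < 1) :
    P.V η = 1 ∧ ∃ (a : F) (t : ℕ), t < E.r ∧ a * E.ζ ^ t = 1 ∧
      ∀ k, P.V (E.hk η k - a ^ k • (1 : E.L)) < 1 := by
  have h1 : P.V η = 1 := by
    have h0 : P.V (E.hk η E.r) = P.V 1 := Valuation.map_eq_of_sub_lt _ (by rwa [map_one])
    rw [V_hk, map_one] at h0
    exact (pow_left_inj₀ zero_le zero_le E.r_pos.ne').1 (by rw [h0, one_pow])
  have hη : η ≠ 0 := by
    rintro rfl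
    simp at h1
  obtain ⟨a, ha⟩ := P.V_res hη (h1.trans (map_one P.V).symm)
  rw [h1] at ha
  have h2 : ∀ k, P.V (E.hk η k - a ^ k • (1 : E.L)) < 1 := by
    intro k
    induction k with
    | zero => simp [hk_zero]
    | succ k ih =>
      have e : E.hk η (k + 1) - a ^ (k + 1) • (1 : E.L) =
          E.hk η k * (E.σL ^ k) (η - a • 1) + a • (E.hk η k - a ^ k • (1 : E.L)) := by
        rw [hk_succ, map_sub, σL_pow_smul, map_one, smul_sub, smul_smul, ← pow_succ', mul_sub,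
          mul_smul_comm, mul_one]
        abel
      rw [e]
      refine Valuation.map_add_lt _ ?_ ((P.V_smul_le _ _).trans_lt ih)
      rwa [map_mul, V_hk, h1, one_pow, one_mul, PlA.V_σL_pow]
  have h3 : a ^ E.r = 1 := by
    by_contra hc
    have h4 := Valuation.map_sub_lt _ h (h2 E.r)
    have e : E.hk η E.r - 1 - (E.hk η E.r - a ^ E.r • (1 : E.L)) = (a ^ E.r - 1) • (1 : E.L) := by
      rw [sub_smul, one_smul]
      abel
    rw [e, P.V_smul (sub_ne_zero.2 hc), map_one] at h4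
    exact lt_irrefl _ h4
  have : NeZero E.r := ⟨E.r_pos.ne'⟩
  obtain ⟨t, ht, ht'⟩ := E.hζ.eq_pow_of_pow_eq_one (ξ := a⁻¹) (by rw [inv_pow, h3, inv_one])
  refine ⟨h1, a, t, ht, ?_, h2⟩
  rw [ht', mul_inv_cancel₀]
  rintro rfl
  rw [zero_pow E.r_pos.ne'] at h3
  exact zero_ne_one h3

/-- **Hilbert 90, approximate form.**  Let `V_α (N η - 1) ≤ exp (-r)` for all `α`.  Then `V_α η = 1`;
`V_res` gives `a_α ∈ F` with `V_α (η - a_α) < 1`, hence `V_α (η_k - a_α^k) < 1`, so `a_α^r = 1`,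
`a_α = ζ^(s α)`.  Take `t α < r` with `r ∣ s α + t α`, `θ` from `exists_theta`, and
`β = ∑_{k<r} η_k σ^k θ`.  At `α`: `η_k σ^k θ = a_α^k ζ^(k t) θ + (smaller) = θ + (smaller)`
(`V_σL_sub_lt`), so `V_α (β - r θ) < V_α θ`, `V_α β = V_α θ ≠ 0`.  Finally
`η σβ = ∑_k η_{k+1} σ^(k+1) θ = β + (N η - 1) θ`. -/
theorem approx_h90 {η : E.L}
    (h : ∀ α (hα : α ∈ E.S), (E.pAt α hα).V (E.hk η E.r - 1) ≤ exp (-(E.r : ℤ))) :
    ∃ β : E.L, β ≠ 0 ∧
      ∀ α (hα : α ∈ E.S), (E.pAt α hα).V (η * E.σL β / β - 1) ≤ exp (-(E.r : ℤ)) := by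
  have hlt : exp (-(E.r : ℤ)) < (1 : ℤᵐ⁰) := by
    rw [← exp_zero, exp_lt_exp]
    have := E.r_pos
    omega
  have h0 : ∀ α, ∃ t : ℕ, ∀ hα : α ∈ E.S, t < E.r ∧ ∃ a : F, a * E.ζ ^ t = 1 ∧
      ∀ k, (E.pAt α hα).V (E.hk η k - a ^ k • (1 : E.L)) < 1 := by
    intro α
    by_cases hα : α ∈ E.S
    · obtain ⟨-, a, t, h1, h2, h3⟩ := E.a2h_res _ ((h α hα).trans_lt hlt)
      exact ⟨t, fun _ => ⟨h1, a, h2, h3⟩⟩
    · exact ⟨0, fun h => absurd h hα⟩
  choose t ht using h0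
  obtain ⟨θ', hθ⟩ := E.exists_theta t fun α hα => (ht α hα).1
  generalize E.j θ' = θ at hθ
  obtain ⟨β, hβ⟩ : ∃ β, β = ∑ k ∈ Finset.range E.r, E.hk η k * (E.σL ^ k) θ := ⟨_, rfl⟩
  have hV : ∀ α (hα : α ∈ E.S), (E.pAt α hα).V β = (E.pAt α hα).V θ := by
    intro α hα
    obtain ⟨-, a, h2, h3⟩ := ht α hα
    have h1 := (E.a2h_res _ ((h α hα).trans_lt hlt)).1
    have hθ0 : (E.pAt α hα).V θ ≠ 0 := by
      rw [hθ α hα]
      exact exp_ne_zero
    rw [← (E.pAt α hα).V_smul E.r_ne_zero θ]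
    refine Valuation.map_eq_of_sub_lt _ ?_
    have e : β - (E.r : F) • θ = ∑ k ∈ Finset.range E.r, (E.hk η k * (E.σL ^ k) θ - θ) := by
      rw [Finset.sum_sub_distrib, hβ, Finset.sum_const, Finset.card_range, Nat.cast_smul_eq_nsmul]
    rw [(E.pAt α hα).V_smul E.r_ne_zero, e]
    refine Valuation.map_sum_lt _ hθ0 fun k _ => ?_
    have e2 : E.hk η k * (E.σL ^ k) θ - θ = E.hk η k * ((E.σL ^ k) θ - E.ζ ^ (k * t α) • θ) +
        E.ζ ^ (k * t α) • ((E.hk η k - a ^ k • (1 : E.L)) * θ) := by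
      rw [sub_mul, smul_one_mul, smul_sub, smul_smul, mul_comm k, pow_mul, ← mul_pow, mul_comm _ a, h2,
        one_pow, one_smul, mul_sub, mul_smul_comm]
      abel
    rw [e2]
    refine Valuation.map_add_lt _ ?_ (((E.pAt α hα).V_smul_le _ _).trans_lt ?_)
    · rw [map_mul, V_hk, h1, one_pow, one_mul]
      exact (E.pAt α hα).V_σL_sub_lt (hθ α hα) (by simp) k
    · rw [map_mul]
      exact mul_lt_of_lt_one_left (zero_lt_iff.2 hθ0) (h3 k)
  have hβ0 : β ≠ 0 := by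
    obtain ⟨α, hα⟩ := E.S_nonempty
    intro h0
    have := hV α hα
    rw [h0, map_zero, hθ α hα] at this
    exact exp_ne_zero this.symm
  have e : η * E.σL β = β + (E.hk η E.r - 1) * θ := by
    have e1 := Finset.sum_range_succ' (fun k => E.hk η k * (E.σL ^ k) θ) E.r
    rw [Finset.sum_range_succ, ← hβ, σL_pow_r, hk_zero, pow_zero, AlgEquiv.one_apply, one_mul] at e1
    have e2 : η * E.σL β = ∑ k ∈ Finset.range E.r, E.hk η (k + 1) * (E.σL ^ (k + 1)) θ := by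
      rw [hβ, map_sum, Finset.mul_sum]
      refine Finset.sum_congr rfl fun k _ => ?_
      rw [hk_succ', map_mul, pow_succ', AlgEquiv.mul_apply, mul_assoc]
    rw [e2]
    linear_combination -e1
  refine ⟨β, hβ0, fun α hα => ?_⟩
  rw [e, add_div, div_self hβ0, add_sub_cancel_left, map_div₀, map_mul, ← hV α hα,
    mul_div_cancel_right₀ _ ((E.pAt α hα).V_ne hβ0)]
  exact h α hα

theorem a2h_tel {β : E.L} (hβ : β ≠ 0) (k : ℕ) : E.hk (E.σL β / β) k = (E.σL ^ k) β / β := by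
  induction k with
  | zero => rw [hk_zero, pow_zero, AlgEquiv.one_apply, div_self hβ]
  | succ k ih =>
    have : (E.σL ^ k) β ≠ 0 := (_root_.map_ne_zero _).2 hβ
    rw [hk_succ, ih, map_div₀, pow_succ, AlgEquiv.mul_apply]
    field_simp

/-- step (3): apply `approx_h90` to `η = h / w`; `h' = h σβ / β`, `N (σβ/β) = 1`. -/
theorem normalise {a w : F[X]} (ha : IsCoprime a E.g) (hw : E.g ∣ w ^ E.r - a) {h : E.L}
    (hN : E.hk h E.r = E.j (E.of a)) :
    ∃ h' : E.L, E.hk h' E.r = E.j (E.of a) ∧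
      ∀ α (hα : α ∈ E.S), (E.pAt α hα).V (h' - E.j (E.of w)) ≤ exp (-(E.r : ℤ)) := by
  have hev : ∀ α ∈ E.S, (a - w ^ E.r).eval α = 0 := E.g_dvd_iff.1 (dvd_sub_comm.1 hw)
  have hw1 : ∀ α (hα : α ∈ E.S), (E.pAt α hα).V (E.j (E.of w)) = 1 := by
    intro α hα
    rw [pAt_V_of, vAt_eq_one_iff.2, one_pow]
    intro h0
    have := hev α hα
    rw [eval_sub, eval_pow, h0, zero_pow E.r_pos.ne', sub_zero] at this
    exact E.isCoprime_g_iff.1 ha α hα this
  have hW0 : E.j (E.of w) ≠ 0 := by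
    obtain ⟨α, hα⟩ := E.S_nonempty
    intro h0
    have := hw1 α hα
    rw [h0, map_zero] at this
    exact zero_ne_one this
  have hW : E.hk (E.j (E.of w)) E.r = E.j (E.of w) ^ E.r := by
    simp only [hk, σL_pow_of, Finset.prod_const, Finset.card_range]
  have hη := E.hk_mul (h / E.j (E.of w)) (E.j (E.of w)) E.r
  rw [div_mul_cancel₀ _ hW0, hN, hW] at hη
  obtain ⟨β, hβ, hV⟩ := E.approx_h90 (η := h / E.j (E.of w)) fun α hα => by
    have e : (E.hk (h / E.j (E.of w)) E.r - 1) * E.j (E.of w) ^ E.r = E.j (E.of (a - w ^ E.r)) := by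
      rw [map_sub, map_sub, map_pow, map_pow, hη, sub_mul, one_mul]
    have e1 := congrArg (E.pAt α hα).V e
    rw [map_mul, map_pow, hw1 α hα, one_pow, mul_one, pAt_V_of] at e1
    rw [e1]
    refine (pow_le_pow_left₀ zero_le (vAt_le_of_eval (hev α hα)) _).trans_eq ?_
    rw [← exp_nsmul]
    simp
  refine ⟨h * (E.σL β / β), ?_, fun α hα => ?_⟩
  · rw [hk_mul, hN, a2h_tel E hβ, σL_pow_r, AlgEquiv.one_apply, div_self hβ, mul_one]
  · have e : h * (E.σL β / β) - E.j (E.of w) =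
        E.j (E.of w) * (h / E.j (E.of w) * E.σL β / β - 1) := by
      field_simp
    rw [e, map_mul, hw1 α hα, one_mul]
    exact hV α hα

end Crest.Agent.R312.Cv
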