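import Crest.Agent.R312.A2Val

/-!
# R312 / A2L : the function field `L = Frac R`, `σ`, the eigenprojections `π_b`, the places
-/

set_option autoImplicit false

open Polynomial WithZero

noncomputable section

namespace Crest.Agent.R312

variable {F : Type} [Field F]

namespace Cv

variable (E : Cv F)

/-- the function field -/
abbrev L : Type := FractionRing E.R

/-- `R → L` -/
abbrev j : E.R →+* E.L := algebraMap E.R E.L

/-- `σ` on `L` -/
def σL : E.L ≃ₐ[F[X]] E.L := IsFractionRing.algEquivOfAlgEquiv E.σ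

/-- `π_b x = r⁻¹ ∑_k ζ^(-kb) σ^k x` -/
def π (b : ℕ) (x : E.L) : E.L :=
  (E.r : F)⁻¹ • ∑ k ∈ Finset.range E.r, E.ζ⁻¹ ^ (k * b) • (E.σL ^ k) x

theorem j_injective : Function.Injective E.j := IsFractionRing.injective _ _

theorem j_ne {u : E.R} (hu : u ≠ 0) : E.j u ≠ 0 := (map_ne_zero_iff _ E.j_injective).2 hu

theorem algebraMap_pol (p : F[X]) : algebraMap F[X] E.L p = E.j (E.of p) := rfl

theorem algebraMap_F_L (a : F) : algebraMap F E.L a = E.j (E.of (C a)) := rfl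

theorem smul_eq (a : F) (x : E.L) : a • x = E.j (E.of (C a)) * x := Algebra.smul_def a x

theorem σL_j (u : E.R) : E.σL (E.j u) = E.j (E.σ u) :=
  IsFractionRing.algEquivOfAlgEquiv_algebraMap _ _

theorem σL_pow_j (k : ℕ) (u : E.R) : (E.σL ^ k) (E.j u) = E.j ((E.σ ^ k) u) := by
  induction k with
  | zero => simp
  | succ k ih => rw [pow_succ', pow_succ', AlgEquiv.mul_apply, AlgEquiv.mul_apply, ih, σL_j]

theorem σL_pow_of (k : ℕ) (p : F[X]) : (E.σL ^ k) (E.j (E.of p)) = E.j (E.of p) :=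
  (E.σL ^ k).commutes p

theorem σL_pow_smul (k : ℕ) (a : F) (x : E.L) : (E.σL ^ k) (a • x) = a • (E.σL ^ k) x := by
  rw [smul_eq, smul_eq, map_mul, σL_pow_of]

theorem σL_pow_r : E.σL ^ E.r = 1 := by
  ext x
  obtain ⟨u, w, -, rfl⟩ := IsFractionRing.div_surjective E.R x
  rw [map_div₀, σL_pow_j, σL_pow_j, σ_pow_r]
  simp

theorem σL_Y : E.σL (E.j E.Y) = E.ζ • E.j E.Y := by
  rw [σL_j, σ_Y, map_mul, smul_eq]

/-- clear denominators with a polynomial in `X`: `u / w = u (nm w / w) / nm w` -/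
theorem exists_div (x : E.L) : ∃ (u : E.R) (p : F[X]), p ≠ 0 ∧ x * E.j (E.of p) = E.j u := by
  obtain ⟨u, w, hw, rfl⟩ := IsFractionRing.div_surjective E.R x
  have hw0 : w ≠ 0 := nonZeroDivisors.ne_zero hw
  obtain ⟨t, ht⟩ := E.dvd_of_nm w
  refine ⟨u * t, E.nm w, E.nm_ne hw0, ?_⟩
  rw [ht, map_mul, map_mul]
  have := E.j_ne hw0
  field_simp

theorem π_add (b : ℕ) (x y : E.L) : E.π b (x + y) = E.π b x + E.π b y := by
  simp only [π, map_add, smul_add, Finset.sum_add_distrib]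

theorem π_zero (b : ℕ) : E.π b 0 = 0 := by
  simp [π]

theorem π_sum {ι : Type} (b : ℕ) (s : Finset ι) (x : ι → E.L) :
    E.π b (∑ i ∈ s, x i) = ∑ i ∈ s, E.π b (x i) := by
  classical
  induction s using Finset.induction_on with
  | empty => simp [π_zero]
  | insert a s ha ih => rw [Finset.sum_insert ha, Finset.sum_insert ha, π_add, ih]

theorem π_smul (b : ℕ) (a : F) (x : E.L) : E.π b (a • x) = a • E.π b x := by
  simp only [π, σL_pow_smul, Finset.smul_sum]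
  refine Finset.sum_congr rfl fun k _ => ?_
  simp only [smul_smul]
  congr 1; ring

theorem r_smul_π (b : ℕ) (x : E.L) :
    ∑ k ∈ Finset.range E.r, E.ζ⁻¹ ^ (k * b) • (E.σL ^ k) x = (E.r : F) • E.π b x := by
  rw [π, smul_smul, mul_inv_cancel₀ E.r_ne_zero, one_smul]

theorem π_j {b : ℕ} (hb : b < E.r) (u : E.R) :
    E.π b (E.j u) = E.j (E.of (E.comp b u) * E.Y ^ b) := by
  have h := congrArg E.j (E.sum_σ_pow hb u)
  rw [map_sum, map_mul, ← smul_eq] at h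
  simp only [map_mul, ← smul_eq, ← σL_pow_j] at h
  rw [π, h, smul_smul, inv_mul_cancel₀ E.r_ne_zero, one_smul, map_mul]

theorem π_mod (b : ℕ) (x : E.L) : E.π (b % E.r) x = E.π b x := by
  have : ∀ k, E.ζ⁻¹ ^ (k * (b % E.r)) = E.ζ⁻¹ ^ (k * b) := fun k => by
    conv_rhs => rw [← Nat.div_add_mod b E.r, mul_add, pow_add, mul_left_comm, pow_mul, inv_pow,
      E.hζ.pow_eq_one, inv_one, one_pow, one_mul]
  simp only [π, this]

theorem σL_π (b : ℕ) (x : E.L) : E.σL (E.π b x) = E.ζ ^ b • E.π b x := by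
  have h0 := E.σL_pow_smul 1
  simp only [pow_one] at h0
  rw [π, h0, smul_comm (E.ζ ^ b), map_sum, Finset.smul_sum (r := E.ζ ^ b)]
  congr 1
  obtain ⟨n, hn⟩ : ∃ n, E.r = n + 1 := ⟨E.r - 1, by have := E.r_pos; omega⟩
  have h1 : ∀ k, E.σL (E.ζ⁻¹ ^ (k * b) • (E.σL ^ k) x) =
      E.ζ ^ b • E.ζ⁻¹ ^ ((k + 1) * b) • (E.σL ^ (k + 1)) x := fun k => by
    rw [h0, smul_smul, pow_succ' E.σL, AlgEquiv.mul_apply]
    congr 1
    have := E.ζ_ne
    rw [add_mul, pow_add, one_mul, inv_pow E.ζ b]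
    field_simp
  have h2 := E.σL_pow_r
  have h3 : E.ζ⁻¹ ^ (E.r * b) = 1 := by rw [pow_mul, inv_pow, E.hζ.pow_eq_one]; simp
  simp only [h1]
  rw [hn] at h2 h3 ⊢
  rw [Finset.sum_range_succ, Finset.sum_range_succ'
    (fun k => E.ζ ^ b • E.ζ⁻¹ ^ (k * b) • (E.σL ^ k) x), h2, h3]
  simp

theorem σL_pow_eig {x : E.L} {b : ℕ} (h : E.σL x = E.ζ ^ b • x) (k : ℕ) :
    (E.σL ^ k) x = E.ζ ^ (k * b) • x := by
  induction k with
  | zero => simp
  | succ k ih =>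
    rw [pow_succ, AlgEquiv.mul_apply, h, σL_pow_smul, ih, smul_smul, ← pow_add]
    congr 2; ring

theorem sum_π (x : E.L) : ∑ b ∈ Finset.range E.r, E.π b x = x := by
  simp only [π]
  rw [← Finset.smul_sum, Finset.sum_comm]
  have h1 : ∀ k ∈ Finset.range E.r, ∑ b ∈ Finset.range E.r, E.ζ⁻¹ ^ (k * b) • (E.σL ^ k) x =
      if k = 0 then (E.r : F) • x else 0 := fun k hk => by
    rw [← Finset.sum_smul]
    have h2 : ∀ b ∈ Finset.range E.r, E.ζ⁻¹ ^ (k * b) = E.ζ ^ ((b : ℤ) * (-k)) := fun b _ => by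
      rw [mul_neg, zpow_neg, inv_pow, mul_comm k]; norm_cast
    rw [Finset.sum_congr rfl h2, sum_ζ_zpow]
    by_cases hk0 : k = 0
    · simp [hk0]
    · rw [if_neg hk0, if_neg, zero_smul]
      intro hd
      have hk' := Finset.mem_range.1 hk
      have := Int.eq_zero_of_abs_lt_dvd hd (by rw [abs_lt]; constructor <;> omega)
      omega
  rw [Finset.sum_congr rfl h1, Finset.sum_ite_eq', if_pos (Finset.mem_range.2 E.r_pos), smul_smul,
    inv_mul_cancel₀ E.r_ne_zero, one_smul]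

theorem π_mul_eig {y : E.L} {s : ℕ} (h : E.σL y = E.ζ ^ s • y) (b : ℕ) (x : E.L) :
    E.π (b + s) (y * x) = y * E.π b x := by
  simp only [π]
  rw [mul_smul_comm, Finset.mul_sum]
  congr 1
  refine Finset.sum_congr rfl fun k _ => ?_
  rw [map_mul, E.σL_pow_eig h, smul_mul_assoc, smul_smul, mul_smul_comm]
  congr 1
  have := E.ζ_ne
  rw [mul_add, pow_add, inv_pow E.ζ (k * s)]
  field_simp

theorem π_mul_fixed {y : E.L} (h : E.σL y = y) (b : ℕ) (x : E.L) :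
    E.π b (y * x) = y * E.π b x := by
  simpa using E.π_mul_eig (s := 0) (by simpa using h) b x

/-- an eigenvector is `(p/q) Y^b` -/
theorem eig_form {x : E.L} {b : ℕ} (hb : b < E.r) (h : E.σL x = E.ζ ^ b • x) :
    ∃ p q : F[X], q ≠ 0 ∧ x * E.j (E.of q) = E.j (E.of p * E.Y ^ b) := by
  obtain ⟨u, q, hq, hu⟩ := E.exists_div x
  refine ⟨E.comp b u, q, hq, ?_⟩
  rw [← E.π_j hb, ← hu, mul_comm x, E.π_mul_fixed (by simpa using E.σL_pow_of 1 q)]
  congr 1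
  simp only [π, E.σL_pow_eig h, smul_smul]
  have : ∀ k, E.ζ⁻¹ ^ (k * b) * E.ζ ^ (k * b) = 1 := fun k => by
    rw [← mul_pow, inv_mul_cancel₀ E.ζ_ne, one_pow]
  simp only [this, one_smul, Finset.sum_const, Finset.card_range]
  rw [← Nat.cast_smul_eq_nsmul F, smul_smul, inv_mul_cancel₀ E.r_ne_zero, one_smul]

end Cv

namespace PlA

variable {E : Cv F} (P : PlA E)

/-- the valuation of `L` -/
def V : Valuation E.L ℤᵐ⁰ :=
  P.VR.extendToLocalization (S := nonZeroDivisors E.R)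
    (fun _ hu => P.VR_ne (nonZeroDivisors.ne_zero hu)) E.L

theorem V_j (u : E.R) : P.V (E.j u) = P.VR u := Valuation.extendToLocalization_apply_map_apply _ _ _ _

theorem V_of (p : F[X]) : P.V (E.j (E.of p)) = P.v p ^ E.r := by rw [V_j, VR_of]

theorem V_Y : P.V (E.j E.Y) = exp P.m0 := by rw [V_j, VR_Y]

theorem V_ne {x : E.L} (hx : x ≠ 0) : P.V x ≠ 0 := (Valuation.ne_zero_iff _).2 hx

theorem V_σL_pow (k : ℕ) (x : E.L) : P.V ((E.σL ^ k) x) = P.V x := by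
  obtain ⟨u, w, -, rfl⟩ := IsFractionRing.div_surjective E.R x
  rw [map_div₀, E.σL_pow_j, E.σL_pow_j, map_div₀, map_div₀]
  simp only [V_j, VR_σ_pow]

theorem V_σL (x : E.L) : P.V (E.σL x) = P.V x := by simpa using P.V_σL_pow 1 x

theorem V_smul {a : F} (ha : a ≠ 0) (x : E.L) : P.V (a • x) = P.V x := by
  rw [E.smul_eq, map_mul, V_of, P.const a ha, one_pow, one_mul]

theorem V_smul_le (a : F) (x : E.L) : P.V (a • x) ≤ P.V x := by
  by_cases ha : a = 0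
  · simp [ha]
  · exact (P.V_smul ha x).le

theorem V_algebraMap {a : F} (ha : a ≠ 0) : P.V (algebraMap F E.L a) = 1 := by
  rw [Algebra.algebraMap_eq_smul_one, P.V_smul ha, map_one]

theorem V_algebraMap_le (a : F) : P.V (algebraMap F E.L a) ≤ 1 := by
  rw [Algebra.algebraMap_eq_smul_one]
  simpa using P.V_smul_le a 1

theorem V_π_le (b : ℕ) (x : E.L) : P.V (E.π b x) ≤ P.V x := by
  refine (P.V_smul_le _ _).trans (P.V.map_sum_le fun k _ => ?_)
  exact (P.V_smul_le _ _).trans (P.V_σL_pow k x).le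

/-- the value of an eigenvector is `≡ -b mod r` (`eig_form` with `b % r`, `hm`) -/
theorem V_eig {x : E.L} {b : ℕ} (h : E.σL x = E.ζ ^ b • x) {n : ℤ} (hn : P.V x = exp n) :
    (E.r : ℤ) ∣ n + b := by
  have hb : b % E.r < E.r := Nat.mod_lt _ E.r_pos
  have h' : E.σL x = E.ζ ^ (b % E.r) • x := by
    rw [h]; congr 1
    conv_lhs => rw [← Nat.div_add_mod b E.r, pow_add, pow_mul, E.hζ.pow_eq_one, one_pow, one_mul]
  obtain ⟨p, q, hq, hx⟩ := E.eig_form hb h'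
  have h1 := congrArg P.V hx
  rw [map_mul, map_mul, map_mul, V_of, V_of, map_pow, map_pow, V_Y, hn] at h1
  have hq' := P.ne q hq
  have hp' : P.v p ≠ 0 := by
    intro h0
    rw [h0, zero_pow E.hr.ne_zero, zero_mul] at h1
    exact mul_ne_zero exp_ne_zero (pow_ne_zero _ hq') h1
  have h2 := congrArg log h1
  rw [log_mul exp_ne_zero (pow_ne_zero _ hq'),
    log_mul (pow_ne_zero _ hp') (pow_ne_zero _ exp_ne_zero)] at h2
  simp only [log_pow, log_exp, nsmul_eq_mul] at h2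
  obtain ⟨t, ht⟩ := P.hm
  have h3 : (b : ℤ) = E.r * (b / E.r : ℕ) + (b % E.r : ℕ) := by exact_mod_cast (Nat.div_add_mod b E.r).symm
  refine ⟨log (P.v p) - log (P.v q) + (b % E.r : ℕ) * t + (b / E.r : ℕ), ?_⟩
  have h4 : P.m0 = E.r * t - 1 := by linarith
  rw [h4] at h2
  linear_combination h2 + h3

/-- rounding down to the class of an eigenvector -/
theorem V_eig_le {x : E.L} {b : ℕ} (h : E.σL x = E.ζ ^ b • x) {n n' : ℤ} (hn : P.V x ≤ exp n)
    (hd : (E.r : ℤ) ∣ n' + b) (hlt : n < n' + E.r) : P.V x ≤ exp n' := by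
  by_cases hx : x = 0
  · simp [hx]
  have h1 : P.V x = exp (log (P.V x)) := (exp_log (P.V_ne hx)).symm
  have h2 := dvd_sub (P.V_eig h h1) hd
  rw [h1, exp_le_exp] at hn ⊢
  by_contra h3
  have := Int.le_of_dvd (by omega) h2
  omega

theorem V_π_lt {x : E.L} {n : ℤ} (hn : P.V x = exp n) {b : ℕ} (hb : ¬ (E.r : ℤ) ∣ n + b) :
    P.V (E.π b x) < P.V x := by
  refine lt_of_le_of_ne (P.V_π_le b x) fun h => hb ?_
  exact P.V_eig (E.σL_π b x) (h.trans hn)

/-- `x - π_b x = ∑_{b' ≠ b % r} π_b' x` -/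
theorem V_sub_π_lt {x : E.L} {n : ℤ} (hn : P.V x = exp n) {b : ℕ} (hb : (E.r : ℤ) ∣ n + b) :
    P.V (x - E.π b x) < P.V x := by
  have hm : b % E.r ∈ Finset.range E.r := Finset.mem_range.2 (Nat.mod_lt _ E.r_pos)
  have h1 : x - E.π b x = ∑ s ∈ (Finset.range E.r).erase (b % E.r), E.π s x := by
    rw [sub_eq_iff_eq_add, ← E.π_mod b, Finset.sum_erase_add _ _ hm, E.sum_π]
  rw [h1]
  refine P.V.map_sum_lt (by rw [hn]; exact exp_ne_zero) fun s hs => P.V_π_lt hn fun h => ?_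
  obtain ⟨hs1, hs2⟩ := Finset.mem_erase.1 hs
  have h3 : (b : ℤ) = E.r * (b / E.r : ℕ) + (b % E.r : ℕ) := by exact_mod_cast (Nat.div_add_mod b E.r).symm
  have h4 : (E.r : ℤ) ∣ (s : ℤ) - (b % E.r : ℕ) := by
    have := dvd_add (dvd_sub h hb) (dvd_mul_right (E.r : ℤ) (b / E.r : ℕ))
    rwa [show n + s - (n + b) + (E.r : ℤ) * (b / E.r : ℕ) = s - (b % E.r : ℕ) by
      linear_combination -h3] at this
  have h5 := Finset.mem_range.1 hs2
  have h6 := Finset.mem_range.1 hm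
  have := Int.eq_zero_of_abs_lt_dvd h4 (by rw [abs_lt]; constructor <;> omega)
  omega

theorem V_π_eq {x : E.L} {n : ℤ} (hn : P.V x = exp n) {b : ℕ} (hb : (E.r : ℤ) ∣ n + b) :
    P.V (E.π b x) = P.V x := by
  have := P.V.map_sub_eq_of_lt_left (P.V_sub_π_lt hn hb)
  rwa [sub_sub_cancel] at this

/-- residue field `F` (common denominator and `VR_res`) -/
theorem V_res {x y : E.L} (hx : x ≠ 0) (h : P.V x = P.V y) : ∃ a : F, P.V (x - a • y) < P.V x := by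
  obtain ⟨u, p, hp, hu⟩ := E.exists_div x
  obtain ⟨w, q, hq, hw⟩ := E.exists_div y
  have hp' : E.j (E.of p) ≠ 0 := E.j_ne ((map_ne_zero_iff _ E.of_injective).2 hp)
  have hq' : E.j (E.of q) ≠ 0 := E.j_ne ((map_ne_zero_iff _ E.of_injective).2 hq)
  have h1 : E.j (u * E.of q) = x * (E.j (E.of p) * E.j (E.of q)) := by rw [map_mul, ← hu]; ring
  have h2 : E.j (w * E.of p) = y * (E.j (E.of p) * E.j (E.of q)) := by rw [map_mul, ← hw]; ring
  have h3 : u * E.of q ≠ 0 := fun h0 => by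
    rw [h0, map_zero] at h1
    exact mul_ne_zero hx (mul_ne_zero hp' hq') h1.symm
  obtain ⟨a, ha⟩ := P.VR_res (w := w * E.of p) h3 (by rw [← V_j, ← V_j, h1, h2, map_mul, map_mul P.V y, h])
  refine ⟨a, ?_⟩
  rw [← V_j, ← V_j, map_sub, map_mul E.j (E.of (C a)), h1, h2, ← mul_assoc (E.j (E.of (C a))), ← E.smul_eq,
    ← sub_mul, map_mul, map_mul P.V x] at ha
  exact lt_of_mul_lt_mul_right' ha

/-- `σ` acts on the leading term by `ζ^b`: with `x = π_b x + (x - π_b x)`,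
`σ^k x - ζ^(kb) x = σ^k (x - π_b x) - ζ^(kb) (x - π_b x)` -/
theorem V_σL_sub_lt {x : E.L} {n : ℤ} (hn : P.V x = exp n) {b : ℕ} (hb : (E.r : ℤ) ∣ n + b) (k : ℕ) :
    P.V ((E.σL ^ k) x - E.ζ ^ (k * b) • x) < P.V x := by
  have h1 : (E.σL ^ k) x - E.ζ ^ (k * b) • x =
      (E.σL ^ k) (x - E.π b x) - E.ζ ^ (k * b) • (x - E.π b x) := by
    rw [map_sub, E.σL_pow_eig (E.σL_π b x), smul_sub]; ring
  have h2 := P.V_sub_π_lt hn hb
  rw [h1]
  exact P.V.map_sub_lt (by rwa [V_σL_pow]) ((P.V_smul_le _ _).trans_lt h2)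

end PlA

namespace Cv

variable (E : Cv F)

theorem pAt_V_le_one (α : F) (hα : α ∈ E.S) (u : E.R) : (E.pAt α hα).V (E.j u) ≤ 1 := by
  rw [PlA.V_j]; exact E.pAt_VR_le_one α hα u

theorem pAt_V_Y (α : F) (hα : α ∈ E.S) : (E.pAt α hα).V (E.j E.Y) = exp (-1) := PlA.V_Y _

theorem pAt_V_of (α : F) (hα : α ∈ E.S) (p : F[X]) :
    (E.pAt α hα).V (E.j (E.of p)) = vAt α p ^ E.r := PlA.V_of _ _

theorem pInf_V_Y : E.pInf.V (E.j E.Y) = exp (E.m : ℤ) := PlA.V_Y _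

theorem pInf_V_of (p : F[X]) : E.pInf.V (E.j (E.of p)) = vInf F p ^ E.r := PlA.V_of _ _

/-- an element of `R[1/Y]` that is integral at all `W_α` lies in `R` (`Y_pow_dvd`) -/
theorem mem_R_of {x : E.L} {u : E.R} {n : ℕ} (hx : x * E.j E.Y ^ n = E.j u)
    (h : ∀ α (hα : α ∈ E.S), (E.pAt α hα).V x ≤ 1) : ∃ w : E.R, x = E.j w := by
  obtain ⟨w, hw⟩ := E.Y_pow_dvd (u := u) (n := n) fun α hα => by
    rw [← PlA.V_j, ← hx, map_mul, map_pow, pAt_V_Y, ← exp_nsmul]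
    refine (mul_le_of_le_one_left' (h α hα)).trans ?_
    simp
  refine ⟨w, mul_right_cancel₀ (pow_ne_zero n (E.j_ne E.Y_ne)) ?_⟩
  rw [hx, hw, map_mul, map_pow, mul_comm]

/-- **`S`-units are eigenvectors.**  `η = σx/x` has value `1` at all `W_α` and `η Y^(2N) ∈ R`, so
`η ∈ R` (`mem_R_of`), likewise `η⁻¹`; so `η` is a constant `a` (`eq_const_of_isUnit`),
`σ^r x = a^r x` gives `a^r = 1`, so `a = ζ^b` (`IsPrimitiveRoot.eq_pow_of_pow_eq_one`). -/
theorem sunit_eig {x : E.L} (hx : x ≠ 0) {N : ℕ} {u u' : E.R} (h : x * E.j E.Y ^ N = E.j u)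
    (h' : x⁻¹ * E.j E.Y ^ N = E.j u') : ∃ b < E.r, E.σL x = E.ζ ^ b • x := by
  have hσ : E.σL x ≠ 0 := (map_ne_zero_iff _ E.σL.injective).2 hx
  have hζ : E.j (E.of (C E.ζ)) ≠ 0 :=
    E.j_ne ((map_ne_zero_iff _ E.of_injective).2 (C_ne_zero.2 E.ζ_ne))
  have hY : E.σL (E.j E.Y) = E.j (E.of (C E.ζ)) * E.j E.Y := by rw [σL_Y, smul_eq]
  have hinv : E.j (E.of (C E.ζ⁻¹)) = (E.j (E.of (C E.ζ)))⁻¹ := by
    rw [← algebraMap_F_L, ← algebraMap_F_L, map_inv₀]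
  have h1 := congrArg E.σL h
  have h2 := congrArg E.σL h'
  rw [map_mul, map_pow, hY, σL_j] at h1 h2
  rw [map_inv₀] at h2
  obtain ⟨w, hw⟩ := E.mem_R_of (x := E.σL x / x) (n := 2 * N)
    (u := E.σ u * u' * E.of (C E.ζ⁻¹) ^ N)
    (by rw [map_mul, map_mul, map_pow, ← h1, ← h', hinv, inv_pow, mul_pow]; field_simp; ring)
    (fun α hα => by rw [map_div₀, PlA.V_σL, div_self (PlA.V_ne _ hx)])
  obtain ⟨w', hw'⟩ := E.mem_R_of (x := x / E.σL x) (n := 2 * N)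
    (u := E.σ u' * u * E.of (C E.ζ⁻¹) ^ N)
    (by rw [map_mul, map_mul, map_pow, ← h2, ← h, hinv, inv_pow, mul_pow]; field_simp; ring)
    (fun α hα => by rw [map_div₀, PlA.V_σL, div_self (PlA.V_ne _ hx)])
  have hu : IsUnit w := by
    refine IsUnit.of_mul_eq_one w' (E.j_injective ?_)
    rw [map_mul, ← hw, ← hw', map_one]; field_simp
  obtain ⟨a, -, rfl⟩ := E.eq_const_of_isUnit hu
  have h3 : E.σL x = a • x := by rw [smul_eq, ← hw]; field_simp
  have h4 : ∀ k, (E.σL ^ k) x = a ^ k • x := fun k => by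
    induction k with
    | zero => simp
    | succ k ih => rw [pow_succ, AlgEquiv.mul_apply, h3, σL_pow_smul, ih, smul_smul, ← pow_succ']
  have h5 := h4 E.r
  rw [σL_pow_r, AlgEquiv.one_apply] at h5
  have h6 : a ^ E.r = 1 := by
    have : (a ^ E.r - 1) • x = 0 := by rw [sub_smul, ← h5, one_smul, sub_self]
    exact sub_eq_zero.1 ((smul_eq_zero.1 this).resolve_right hx)
  have : NeZero E.r := ⟨E.hr.ne_zero⟩
  obtain ⟨b, hb, rfl⟩ := E.hζ.eq_pow_of_pow_eq_one h6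
  exact ⟨b, hb, h3⟩

end Cv

end Crest.Agent.R312
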