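import Mathlib

/-!
# R312 / A2Pol : the valuations `exp (deg p)` and `exp (-ord_α p)` of `F[X]`
-/

set_option autoImplicit false

open Polynomial WithZero

noncomputable section

namespace Crest.Agent.R312

variable {F : Type} [Field F]

open Classical in
/-- `p ↦ exp (deg p)` -/
def vInf (F : Type) [Field F] : Valuation F[X] ℤᵐ⁰ where
  toFun p := if p = 0 then 0 else exp (p.natDegree : ℤ)
  map_zero' := by simp
  map_one' := by simp
  map_mul' p q := by
    by_cases hp : p = 0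
    · simp [hp]
    by_cases hq : q = 0
    · simp [hq]
    simp [hp, hq, natDegree_mul hp hq]
  map_add_le_max' p q := by
    by_cases hp : p = 0
    · simp [hp]
    by_cases hq : q = 0
    · simp [hq]
    by_cases hpq : p + q = 0
    · simp [hpq]
    simp only [hp, hq, hpq, if_false, le_max_iff, exp_le_exp, Nat.cast_le]
    exact le_max_iff.1 (natDegree_add_le p q)

open Classical in
/-- `p ↦ exp (-ord_α p)` -/
def vAt (α : F) : Valuation F[X] ℤᵐ⁰ where
  toFun p := if p = 0 then 0 else exp (-(p.rootMultiplicity α : ℤ))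
  map_zero' := by simp
  map_one' := by
    rw [if_neg one_ne_zero, ← C_1, rootMultiplicity_C]; simp
  map_mul' p q := by
    by_cases hp : p = 0
    · simp [hp]
    by_cases hq : q = 0
    · simp [hq]
    simp only [hp, hq, mul_eq_zero, or_self, if_false, rootMultiplicity_mul (mul_ne_zero hp hq)]
    rw [← exp_add]; congr 1; push_cast; ring
  map_add_le_max' p q := by
    by_cases hp : p = 0
    · simp [hp]
    by_cases hq : q = 0
    · simp [hq]
    by_cases hpq : p + q = 0
    · simp [hpq]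
    simp only [hp, hq, hpq, if_false, le_max_iff, exp_le_exp, neg_le_neg_iff, Nat.cast_le]
    exact min_le_iff.1 (rootMultiplicity_add α hpq)

theorem vInf_of_ne {p : F[X]} (hp : p ≠ 0) : vInf F p = exp (p.natDegree : ℤ) := if_neg hp

theorem vAt_of_ne (α : F) {p : F[X]} (hp : p ≠ 0) :
    vAt α p = exp (-(p.rootMultiplicity α : ℤ)) := if_neg hp

theorem vInf_ne {p : F[X]} (hp : p ≠ 0) : vInf F p ≠ 0 := by rw [vInf_of_ne hp]; exact exp_ne_zero

theorem vAt_ne (α : F) {p : F[X]} (hp : p ≠ 0) : vAt α p ≠ 0 := by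
  rw [vAt_of_ne α hp]; exact exp_ne_zero

theorem vInf_C {a : F} (ha : a ≠ 0) : vInf F (C a) = 1 := by
  rw [vInf_of_ne (C_ne_zero.2 ha)]; simp

theorem vAt_C (α : F) {a : F} (ha : a ≠ 0) : vAt α (C a) = 1 := by
  rw [vAt_of_ne α (C_ne_zero.2 ha)]; simp

theorem vInf_le_iff {p : F[X]} {B : ℕ} : vInf F p ≤ exp (B : ℤ) ↔ p.natDegree ≤ B := by
  by_cases hp : p = 0
  · simp [hp]
  · rw [vInf_of_ne hp, exp_le_exp, Nat.cast_le]

theorem one_le_vInf {p : F[X]} (hp : p ≠ 0) : 1 ≤ vInf F p := by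
  rw [vInf_of_ne hp, ← exp_zero, exp_le_exp]; positivity

theorem vAt_le_iff {α : F} {p : F[X]} {k : ℕ} : vAt α p ≤ exp (-(k : ℤ)) ↔ (X - C α) ^ k ∣ p := by
  by_cases hp : p = 0
  · simp [hp]
  · rw [vAt_of_ne α hp, exp_le_exp, neg_le_neg_iff, Nat.cast_le, le_rootMultiplicity_iff hp]

theorem vAt_le_one (α : F) (p : F[X]) : vAt α p ≤ 1 := by
  simpa using (vAt_le_iff (α := α) (p := p) (k := 0)).2 (by simp)

theorem vAt_eq_one_iff {α : F} {p : F[X]} : vAt α p = 1 ↔ p.eval α ≠ 0 := by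
  by_cases hp : p = 0
  · simp [hp]
  · rw [vAt_of_ne α hp, exp_eq_one, neg_eq_zero, Nat.cast_eq_zero, rootMultiplicity_eq_zero_iff]
    simp [hp]

theorem vAt_le_of_eval {α : F} {p : F[X]} (h : p.eval α = 0) : vAt α p ≤ exp (-1) := by
  simpa using (vAt_le_iff (α := α) (p := p) (k := 1)).2 (by rw [pow_one, dvd_iff_isRoot]; exact h)

theorem vAt_X_sub (α : F) : vAt α (X - C α) = exp (-1) := by
  rw [vAt_of_ne α (X_sub_C_ne_zero α), rootMultiplicity_X_sub_C_self]; simp

/-- equal degree: subtract `(lc p / lc q) q` -/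
theorem vInf_res {p q : F[X]} (hp : p ≠ 0) (h : vInf F p = vInf F q) :
    ∃ a : F, vInf F (p - C a * q) < vInf F p := by
  have hq : q ≠ 0 := by
    rintro rfl
    exact vInf_ne hp (by rw [h, map_zero])
  rw [vInf_of_ne hp, vInf_of_ne hq, exp_inj, Nat.cast_inj] at h
  have hl : p.leadingCoeff / q.leadingCoeff ≠ 0 :=
    div_ne_zero (leadingCoeff_ne_zero.2 hp) (leadingCoeff_ne_zero.2 hq)
  refine ⟨p.leadingCoeff / q.leadingCoeff, ?_⟩
  by_cases h0 : p - C (p.leadingCoeff / q.leadingCoeff) * q = 0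
  · rw [h0, map_zero]; exact zero_lt_iff.2 (vInf_ne hp)
  rw [vInf_of_ne h0, vInf_of_ne hp, exp_lt_exp, Nat.cast_lt]
  refine natDegree_lt_natDegree h0 (degree_sub_lt_left ?_ hp ?_)
  · rw [degree_C_mul hl, degree_eq_natDegree hp, degree_eq_natDegree hq, h]
  · rw [leadingCoeff_mul, leadingCoeff_C, div_mul_cancel₀ _ (leadingCoeff_ne_zero.2 hq)]

/-- `p = (X-α)^k p₁`, `q = (X-α)^k q₁`, `a = p₁(α)/q₁(α)` -/
theorem vAt_res (α : F) {p q : F[X]} (hp : p ≠ 0) (h : vAt α p = vAt α q) :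
    ∃ a : F, vAt α (p - C a * q) < vAt α p := by
  have hq : q ≠ 0 := by
    rintro rfl
    exact vAt_ne α hp (by rw [h, map_zero])
  rw [vAt_of_ne α hp, vAt_of_ne α hq, exp_inj, neg_inj, Nat.cast_inj] at h
  obtain ⟨p₁, hp₁, -⟩ := exists_eq_pow_rootMultiplicity_mul_and_not_dvd p hp α
  obtain ⟨q₁, hq₁, hq₂⟩ := exists_eq_pow_rootMultiplicity_mul_and_not_dvd q hq α
  rw [dvd_iff_isRoot] at hq₂
  refine ⟨p₁.eval α / q₁.eval α, ?_⟩
  have h1 : vAt α (p - C (p₁.eval α / q₁.eval α) * q) ≤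
      exp (-((p.rootMultiplicity α + 1 : ℕ) : ℤ)) := by
    rw [vAt_le_iff, pow_succ]
    have h2 : p - C (p₁.eval α / q₁.eval α) * q =
        (X - C α) ^ p.rootMultiplicity α * (p₁ - C (p₁.eval α / q₁.eval α) * q₁) := by
      conv_lhs => rw [hp₁, hq₁, ← h]
      ring
    rw [h2]
    refine mul_dvd_mul_left _ (dvd_iff_isRoot.2 ?_)
    simp [div_mul_cancel₀ _ hq₂]
  refine h1.trans_lt ?_
  rw [vAt_of_ne α hp, exp_lt_exp]
  push_cast; omega

/-- A valuation of `F[X]` trivial on `F` with `w (X - α) < 1` is a power of `vAt α`.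
Proof: `w X ≤ 1`, so `w ≤ 1`; if `q(α) ≠ 0` then `q = C (q α) + (X - α) q'` has `w q = 1`
(`Valuation.map_add_eq_of_lt_left`); write `p = (X-α)^k q` (`exists_eq_pow_rootMultiplicity_mul_and_not_dvd`). -/
theorem eq_vAt_pow (w : Valuation F[X] ℤᵐ⁰) (hC : ∀ a : F, a ≠ 0 → w (C a) = 1) (α : F) {k : ℕ}
    (hk : 0 < k) (hX : w (X - C α) = exp (-(k : ℤ))) (p : F[X]) : w p = vAt α p ^ k := by
  have hC' : ∀ a : F, w (C a) ≤ 1 := fun a => by
    by_cases ha : a = 0
    · simp [ha]
    · exact (hC a ha).le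
  have hlt : w (X - C α) < 1 := by rw [hX, ← exp_zero, exp_lt_exp]; omega
  have hX1 : w X ≤ 1 := by
    have : (X : F[X]) = (X - C α) + C α := by ring
    rw [this]
    exact (w.map_add _ _).trans (max_le hlt.le (hC' α))
  have hle : ∀ q : F[X], w q ≤ 1 := fun q => by
    induction q using Polynomial.induction_on' with
    | add p q hp hq => exact (w.map_add _ _).trans (max_le hp hq)
    | monomial n a =>
      rw [← C_mul_X_pow_eq_monomial, map_mul, map_pow]
      exact mul_le_one' (hC' a) (pow_le_one' hX1 n)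
  by_cases hp : p = 0
  · simp [hp, hk.ne']
  obtain ⟨q, hq₁, hq₂⟩ := exists_eq_pow_rootMultiplicity_mul_and_not_dvd p hp α
  rw [dvd_iff_isRoot] at hq₂
  have hq : w q = 1 := by
    obtain ⟨q', hq'⟩ := X_sub_C_dvd_sub_C_eval (p := q) (a := α)
    have h1 : q = C (q.eval α) + (X - C α) * q' := by rw [← hq']; ring
    have h2 : w ((X - C α) * q') < w (C (q.eval α)) := by
      rw [hC _ hq₂, map_mul]
      exact (mul_le_of_le_one_right' (hle q')).trans_lt hlt
    rw [h1, w.map_add_eq_of_lt_left h2, hC _ hq₂]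
  rw [vAt_of_ne α hp]
  conv_lhs => rw [hq₁, map_mul, map_pow, hq, hX, mul_one]
  rw [← exp_nsmul, ← exp_nsmul]
  congr 1
  simp [mul_comm]

/-- A valuation of `F[X]` trivial on `F` with `w X > 1` is a power of `vInf`
(the leading monomial dominates; e.g. induction with `p = X * divX p + C (coeff p 0)`). -/
theorem eq_vInf_pow (w : Valuation F[X] ℤᵐ⁰) (hC : ∀ a : F, a ≠ 0 → w (C a) = 1) {k : ℕ}
    (hk : 0 < k) (hX : w X = exp (k : ℤ)) (p : F[X]) : w p = vInf F p ^ k := by
  have key : ∀ n : ℕ, ∀ p : F[X], p ≠ 0 → p.natDegree = n → w p = exp ((k : ℤ) * n) := by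
    intro n
    induction n with
    | zero =>
      intro p hp hn
      rw [eq_C_of_natDegree_eq_zero hn] at hp ⊢
      rw [hC _ (C_ne_zero.1 hp)]; simp
    | succ n ih =>
      intro p hp hn
      have hd : p.divX.natDegree = n := by rw [natDegree_divX_eq_natDegree_tsub_one, hn]; simp
      have hd0 : p.divX ≠ 0 := by
        intro h0
        have := divX_mul_X_add p
        rw [h0, zero_mul, zero_add] at this
        rw [← this] at hn
        simp at hn
      have h1 : w (p.divX * X) = exp ((k : ℤ) * (n + 1 : ℕ)) := by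
        rw [map_mul, ih _ hd0 hd, hX, ← exp_add]; congr 1
      have h2 : w (C (p.coeff 0)) < w (p.divX * X) := by
        rw [h1]
        by_cases h0 : p.coeff 0 = 0
        · simp [h0]
        · rw [hC _ h0, ← exp_zero, exp_lt_exp]; positivity
      rw [← h1, ← w.map_add_eq_of_lt_left h2, divX_mul_X_add]
  by_cases hp : p = 0
  · simp [hp, hk.ne']
  rw [key _ p hp rfl, vInf_of_ne hp, ← exp_nsmul]
  simp

/-- the determinant bound: every term of `Matrix.det_apply` has valuation `≤ ∏ a * ∏ b`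
(`Valuation.map_sum_le`, `Equiv.prod_comp`, the sign is `±1`). -/
theorem val_det_le {L Γ n : Type} [CommRing L] [LinearOrderedCommGroupWithZero Γ] [Fintype n]
    [DecidableEq n] (V : Valuation L Γ) (M : Matrix n n L) (a b : n → Γ)
    (h : ∀ i j, V (M i j) ≤ a i * b j) : V M.det ≤ (∏ i, a i) * ∏ j, b j := by
  rw [Matrix.det_apply]
  refine V.map_sum_le fun τ _ => ?_
  have h1 : V (Equiv.Perm.sign τ • ∏ i, M (τ i) i) = V (∏ i, M (τ i) i) := by
    rcases Int.units_eq_one_or (Equiv.Perm.sign τ) with h | h <;> simp [h]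
  rw [h1, map_prod, ← Equiv.prod_comp τ a, ← Finset.prod_mul_distrib]
  exact Finset.prod_le_prod' fun i _ => h _ _

end Crest.Agent.R312
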