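import Crest.Agent.R312.A2Basic
import Crest.Agent.R312.A2Pol

/-!
# R312 / A2Val : the totally ramified places of `R` (the place at infinity and the `W_α`)
-/

set_option autoImplicit false

open Polynomial WithZero

noncomputable section

namespace Crest.Agent.R312

variable {F : Type} [Field F]

/-- a valuation of `F[X]` with residue field `F` and `v g = exp m0`, `m0 ≡ -1 mod r` -/
structure PlA (E : Cv F) where
  v : Valuation F[X] ℤᵐ⁰
  m0 : ℤ
  hg : v E.g = exp m0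
  hm : (E.r : ℤ) ∣ m0 + 1
  ne : ∀ p, p ≠ 0 → v p ≠ 0
  const : ∀ a : F, a ≠ 0 → v (C a) = 1
  res : ∀ p q, p ≠ 0 → v p = v q → ∃ a : F, v (p - C a * q) < v p

namespace PlA

variable {E : Cv F} (P : PlA E)

/-- the value of the term `u^(b) Y^b` -/
def tm (u : E.R) (b : ℕ) : ℤᵐ⁰ := P.v (E.comp b u) ^ E.r * exp (P.m0 * b)

/-- `max_b` of the values of the terms -/
def V0 (u : E.R) : ℤᵐ⁰ := (Finset.range E.r).sup (P.tm u)

/-- non-zero terms have different values: `log (tm u b) ≡ m0 b ≡ -b mod r` -/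
theorem tm_inj {u w : E.R} {b b' : ℕ} (hb : b < E.r) (hb' : b' < E.r) (h0 : P.tm u b ≠ 0)
    (h : P.tm u b = P.tm w b') : b = b' := by
  have key : ∀ (u : E.R) (b : ℕ), P.tm u b ≠ 0 → (E.r : ℤ) ∣ log (P.tm u b) + b := by
    intro u b h0
    have h1 : P.v (E.comp b u) ≠ 0 := by
      intro h1
      rw [tm, h1, zero_pow E.hr.ne_zero, zero_mul] at h0
      exact h0 rfl
    rw [tm, log_mul (pow_ne_zero _ h1) exp_ne_zero, log_pow, log_exp, nsmul_eq_mul, add_assoc]
    refine dvd_add (dvd_mul_right _ _) ?_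
    have := P.hm.mul_right (b : ℤ)
    rwa [add_mul, one_mul] at this
  have h1 := key u b h0
  have h2 := key w b' (h ▸ h0)
  rw [h] at h1
  have h3 := dvd_sub h1 h2
  have := Int.eq_zero_of_abs_lt_dvd h3 (by rw [abs_lt]; constructor <;> omega)
  omega

theorem V0_zero : P.V0 0 = 0 := by
  refine le_antisymm (Finset.sup_le fun b _ => ?_) zero_le
  simp [tm, E.hr.ne_zero]

theorem V0_eq_zero {u : E.R} (h : P.V0 u = 0) : u = 0 := by
  refine E.ext_comp fun b hb => ?_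
  have h1 : P.tm u b ≤ P.V0 u := Finset.le_sup (f := P.tm u) (Finset.mem_range.2 hb)
  rw [h, le_zero_iff, tm, mul_eq_zero, or_iff_left exp_ne_zero, pow_eq_zero_iff E.hr.ne_zero] at h1
  rw [map_zero]
  by_contra h0
  exact P.ne _ h0 h1

/-- termwise: `v (p + q) ≤ max`, `pow_le_pow_left₀` -/
theorem V0_add (u w : E.R) : P.V0 (u + w) ≤ max (P.V0 u) (P.V0 w) := by
  refine Finset.sup_le fun b hb => ?_
  have h1 : P.tm u b ≤ P.V0 u := Finset.le_sup (f := P.tm u) hb
  have h2 : P.tm w b ≤ P.V0 w := Finset.le_sup (f := P.tm w) hb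
  have h3 := P.v.map_add (E.comp b u) (E.comp b w)
  rw [tm, map_add]
  rcases le_max_iff.1 h3 with h | h
  · exact le_max_of_le_left ((mul_le_mul_left (pow_le_pow_left' h _) _).trans h1)
  · exact le_max_of_le_right ((mul_le_mul_left (pow_le_pow_left' h _) _).trans h2)

/-- write `s = r q + s'`, `Y^s = of (g^q) Y^s'`, use `comp_of_mul_Y_pow` -/
theorem V0_of_mul_Y_pow (p : F[X]) (s : ℕ) :
    P.V0 (E.of p * E.Y ^ s) = P.v p ^ E.r * exp (P.m0 * s) := by
  have hs : s % E.r < E.r := Nat.mod_lt _ E.r_pos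
  have h1 : E.of p * E.Y ^ s = E.of (p * E.g ^ (s / E.r)) * E.Y ^ (s % E.r) := by
    conv_lhs => rw [← Nat.div_add_mod s E.r, pow_add, pow_mul, E.Y_pow_r]
    rw [map_mul, map_pow, mul_assoc]
  have h2 : P.tm (E.of p * E.Y ^ s) (s % E.r) = P.v p ^ E.r * exp (P.m0 * s) := by
    rw [h1, tm, E.comp_of_mul_Y_pow _ hs, if_pos rfl, map_mul, map_pow, P.hg, mul_pow, mul_assoc,
      ← exp_nsmul, ← exp_nsmul, ← exp_add]
    congr 2
    conv_rhs => rw [← Nat.div_add_mod s E.r]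
    simp only [nsmul_eq_mul]
    push_cast; ring
  refine le_antisymm (Finset.sup_le fun b _ => ?_)
    (h2 ▸ Finset.le_sup (f := P.tm _) (Finset.mem_range.2 hs))
  by_cases hb : b = s % E.r
  · rw [hb, h2]
  · rw [h1, tm, E.comp_of_mul_Y_pow _ hs, if_neg hb]
    simp [E.hr.ne_zero]

/-- Proof.  From `V0_add` and `V0 (-u) = V0 u`: `V0 x < V0 y → V0 (x + y) = V0 y`, and a finite sum
of elements of value `< c` (`c ≠ 0`) has value `< c`.  For `u, w ≠ 0` take `b₀`, `b₀'` attaining the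
sup (`Finset.exists_mem_eq_sup`); by `tm_inj` all other terms are strictly smaller.
`u w = ∑_{b,b'} of (u_b w_b') Y^(b+b')` (`sum_comp`), the `(b,b')` term has value `tm u b * tm w b'`
(`V0_of_mul_Y_pow`), and the `(b₀,b₀')` term is strictly larger than all the others. -/
theorem V0_mul (u w : E.R) : P.V0 (u * w) = P.V0 u * P.V0 w := by
  classical
  have hneg : ∀ x, P.V0 (-x) = P.V0 x := fun x => by
    have : P.tm (-x) = P.tm x := by ext b; simp [tm]
    rw [V0, this, V0]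
  have hlt : ∀ x y, P.V0 x < P.V0 y → P.V0 (y + x) = P.V0 y := fun x y h => by
    refine le_antisymm ((P.V0_add _ _).trans (max_le le_rfl h.le)) ?_
    have h1 := P.V0_add (y + x) (-x)
    rw [add_neg_cancel_right, hneg] at h1
    exact (le_max_iff.1 h1).resolve_right (not_le.2 h)
  have hsum : ∀ (s : Finset (ℕ × ℕ)) (f : ℕ × ℕ → E.R) (c : ℤᵐ⁰), c ≠ 0 → (∀ i ∈ s, P.V0 (f i) < c) →
      P.V0 (∑ i ∈ s, f i) < c := fun s f c hc h =>
    Finset.sum_induction f (fun x => P.V0 x < c)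
      (fun x y hx hy => (P.V0_add x y).trans_lt (max_lt hx hy))
      (by rw [V0_zero]; exact zero_lt_iff.2 hc) h
  by_cases hu : u = 0
  · simp [hu, V0_zero]
  by_cases hw : w = 0
  · simp [hw, V0_zero]
  have hne : (Finset.range E.r).Nonempty := ⟨0, Finset.mem_range.2 E.r_pos⟩
  obtain ⟨a, ha, hau⟩ := Finset.exists_mem_eq_sup _ hne (P.tm u)
  obtain ⟨b, hb, hbw⟩ := Finset.exists_mem_eq_sup _ hne (P.tm w)
  have hu0 : P.tm u a ≠ 0 := fun h => hu (P.V0_eq_zero (hau.trans h))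
  have hw0 : P.tm w b ≠ 0 := fun h => hw (P.V0_eq_zero (hbw.trans h))
  let f : ℕ × ℕ → E.R := fun i => E.of (E.comp i.1 u * E.comp i.2 w) * E.Y ^ (i.1 + i.2)
  have hf : ∀ i, P.V0 (f i) = P.tm u i.1 * P.tm w i.2 := fun i => by
    simp only [f]
    rw [V0_of_mul_Y_pow, tm, tm, map_mul, mul_pow]
    push_cast
    rw [mul_add, exp_add]
    ac_rfl
  have huw : u * w = ∑ i ∈ Finset.range E.r ×ˢ Finset.range E.r, f i := by
    conv_lhs => rw [← E.sum_comp u, ← E.sum_comp w, Finset.sum_mul_sum, ← Finset.sum_product']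
    refine Finset.sum_congr rfl fun i _ => ?_
    simp only [f, map_mul, pow_add]; ring
  have hmem : (a, b) ∈ Finset.range E.r ×ˢ Finset.range E.r := Finset.mem_product.2 ⟨ha, hb⟩
  rw [huw, ← Finset.add_sum_erase _ _ hmem, hlt, hf, V0, V0, hau, hbw]
  rw [hf]
  refine hsum _ _ _ (mul_ne_zero hu0 hw0) fun i hi => ?_
  obtain ⟨hi1, hi2⟩ := Finset.mem_erase.1 hi
  obtain ⟨hi2, hi3⟩ := Finset.mem_product.1 hi2
  have h1 : P.tm u i.1 ≤ P.tm u a := hau ▸ Finset.le_sup (f := P.tm u) hi2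
  have h2 : P.tm w i.2 ≤ P.tm w b := hbw ▸ Finset.le_sup (f := P.tm w) hi3
  rw [hf]
  by_cases h3 : i.1 = a
  · have h4 : i.2 ≠ b := fun h => hi1 (Prod.ext h3 h)
    have h5 : P.tm w i.2 < P.tm w b := lt_of_le_of_ne h2 fun h =>
      h4 (P.tm_inj (Finset.mem_range.1 hb) (Finset.mem_range.1 hi3) hw0 h.symm).symm
    rw [h3]
    exact mul_lt_mul_of_pos_left h5 (zero_lt_iff.2 hu0)
  · have h5 : P.tm u i.1 < P.tm u a := lt_of_le_of_ne h1 fun h =>
      h3 (P.tm_inj (Finset.mem_range.1 ha) (Finset.mem_range.1 hi2) hu0 h.symm).symm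
    exact (mul_le_mul_right h2 _).trans_lt (mul_lt_mul_of_pos_right h5 (zero_lt_iff.2 hw0))

theorem V0_one : P.V0 1 = 1 := by
  simpa using P.V0_of_mul_Y_pow 1 0

/-- the valuation of `R` -/
def VR : Valuation E.R ℤᵐ⁰ where
  toFun := P.V0
  map_zero' := P.V0_zero
  map_one' := P.V0_one
  map_mul' := P.V0_mul
  map_add_le_max' := P.V0_add

theorem VR_apply (u : E.R) : P.VR u = (Finset.range E.r).sup (P.tm u) := rfl

theorem VR_ne {u : E.R} (hu : u ≠ 0) : P.VR u ≠ 0 := fun h => hu (P.V0_eq_zero h)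

theorem VR_of (p : F[X]) : P.VR (E.of p) = P.v p ^ E.r := by
  show P.V0 _ = _
  simpa using P.V0_of_mul_Y_pow p 0

theorem VR_Y : P.VR E.Y = exp P.m0 := by
  show P.V0 _ = _
  simpa using P.V0_of_mul_Y_pow 1 1

/-- `comp_σ_pow`, `const` -/
theorem VR_σ_pow (k : ℕ) (u : E.R) : P.VR ((E.σ ^ k) u) = P.VR u := by
  have : P.tm ((E.σ ^ k) u) = P.tm u := by
    ext b
    rw [tm, E.comp_σ_pow, map_mul, P.const _ (pow_ne_zero _ E.ζ_ne), one_mul, tm]
  rw [VR_apply, this, VR_apply]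

/-- `(v (nm u))^r = VR (of (nm u)) = (VR u)^r` and `x ↦ x^r` is injective (`pow_left_injective`
or `pow_left_inj₀`) -/
theorem v_nm (u : E.R) : P.v (E.nm u) = P.VR u := by
  refine pow_left_injective E.hr.ne_zero ?_
  simp only
  rw [← VR_of, E.of_nm, map_prod]
  simp only [VR_σ_pow, Finset.prod_const, Finset.card_range]

theorem VR_le_iff {u : E.R} {c : ℤᵐ⁰} : P.VR u ≤ c ↔ ∀ b < E.r, P.tm u b ≤ c := by
  simp [VR_apply, Finset.sup_le_iff]

theorem tm_eq (u : E.R) (b : ℕ) : P.tm u b = P.VR (E.of (E.comp b u) * E.Y ^ b) := by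
  exact (P.V0_of_mul_Y_pow _ _).symm

/-- residue field `F`: `u`, `w` have the same leading index `b₀` (`tm_inj`) and
`v u_{b₀} = v w_{b₀}`; take `a` from `res`; all terms of `u - a w` are `< VR u`. -/
theorem VR_res {u w : E.R} (hu : u ≠ 0) (h : P.VR u = P.VR w) :
    ∃ a : F, P.VR (u - E.of (C a) * w) < P.VR u := by
  have hne : (Finset.range E.r).Nonempty := ⟨0, Finset.mem_range.2 E.r_pos⟩
  obtain ⟨a, ha, hau⟩ := Finset.exists_mem_eq_sup _ hne (P.tm u)
  obtain ⟨b, hb, hbw⟩ := Finset.exists_mem_eq_sup _ hne (P.tm w)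
  rw [← VR_apply] at hau hbw
  have hu0 : P.tm u a ≠ 0 := hau ▸ P.VR_ne hu
  have hab : P.tm u a = P.tm w b := by rw [← hau, ← hbw, h]
  obtain rfl : a = b := P.tm_inj (Finset.mem_range.1 ha) (Finset.mem_range.1 hb) hu0 hab
  have h1 : P.v (E.comp a u) = P.v (E.comp a w) :=
    pow_left_injective E.hr.ne_zero (mul_right_cancel₀ exp_ne_zero hab)
  have h2 : E.comp a u ≠ 0 := by
    intro h0
    rw [tm, h0, map_zero, zero_pow E.hr.ne_zero, zero_mul] at hu0
    exact hu0 rfl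
  obtain ⟨c, hc⟩ := P.res _ _ h2 h1
  refine ⟨c, ?_⟩
  rw [VR_apply, Finset.sup_lt_iff (zero_lt_iff.2 (P.VR_ne hu))]
  intro b hb
  rw [tm, map_sub, E.comp_of_mul]
  by_cases hba : b = a
  · rw [hba, hau, tm]
    exact mul_lt_mul_of_pos_right (pow_lt_pow_left₀ hc zero_le E.hr.ne_zero) exp_pos
  · have h3 : P.tm u b < P.VR u := by
      refine lt_of_le_of_ne (P.VR_le_iff.1 le_rfl b (Finset.mem_range.1 hb)) fun h' => hba ?_
      exact (P.tm_inj (Finset.mem_range.1 ha) (Finset.mem_range.1 hb) hu0 (hau.symm.trans h'.symm)).symm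
    have h4 : P.tm w b < P.VR u := by
      refine lt_of_le_of_ne (h ▸ P.VR_le_iff.1 le_rfl b (Finset.mem_range.1 hb)) fun h' => hba ?_
      exact (P.tm_inj (Finset.mem_range.1 ha) (Finset.mem_range.1 hb) hu0 (hau.symm.trans h'.symm)).symm
    have h5 : P.v (C c * E.comp b w) ≤ P.v (E.comp b w) := by
      rw [map_mul]
      refine mul_le_of_le_one_left' ?_
      by_cases hc0 : c = 0
      · simp [hc0]
      · exact (P.const c hc0).le
    rcases le_max_iff.1 (P.v.map_sub (E.comp b u) (C c * E.comp b w)) with h6 | h6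
    · exact (mul_le_mul_left (pow_le_pow_left' h6 _) _).trans_lt h3
    · exact (mul_le_mul_left (pow_le_pow_left' (h6.trans h5) _) _).trans_lt h4

end PlA

namespace Cv

variable (E : Cv F)

/-- the place at infinity -/
def pInf : PlA E where
  v := vInf F
  m0 := E.m
  hg := by rw [vInf_of_ne E.g_ne, E.g_natDegree]
  hm := by exact_mod_cast E.hdiv
  ne _ hp := vInf_ne hp
  const _ ha := vInf_C ha
  res _ _ hp h := vInf_res hp h

/-- the place `W_α` -/
def pAt (α : F) (hα : α ∈ E.S) : PlA E where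
  v := vAt α
  m0 := -1
  hg := by rw [vAt_of_ne α E.g_ne, E.g_rootMultiplicity hα]; simp
  hm := by simp
  ne _ hp := vAt_ne α hp
  const _ ha := vAt_C α ha
  res _ _ hp h := vAt_res α hp h

instance : Nontrivial E.R := E.of_injective.nontrivial

instance : IsDomain E.R := by
  have : NoZeroDivisors E.R := ⟨fun {u w} h => by
    by_contra hc
    push Not at hc
    have := E.pInf.VR.map_mul u w
    rw [h, map_zero] at this
    exact mul_ne_zero (E.pInf.VR_ne hc.1) (E.pInf.VR_ne hc.2) this.symm⟩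
  exact NoZeroDivisors.to_isDomain _

theorem Y_ne : E.Y ≠ 0 := by
  intro h
  have := E.pInf.VR_Y
  rw [h, map_zero] at this
  exact exp_ne_zero this.symm

theorem nm_ne {u : E.R} (hu : u ≠ 0) : E.nm u ≠ 0 := by
  intro h
  have := E.pInf.v_nm u
  rw [h, map_zero] at this
  exact E.pInf.VR_ne hu this.symm

theorem le_iff_VR {u : E.R} {B : ℕ} : E.Le u B ↔ E.pInf.VR u ≤ exp (B : ℤ) := by
  rw [PlA.VR_le_iff]
  refine forall₂_congr fun b hb => ?_
  by_cases h0 : E.comp b u = 0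
  · simp [PlA.tm, h0, E.hr.ne_zero]
  · have : E.pInf.tm u b = exp (((E.r * (E.comp b u).natDegree + E.m * b : ℕ) : ℤ)) := by
      show vInf F _ ^ _ * exp ((E.m : ℤ) * b) = _
      rw [vInf_of_ne h0, ← exp_nsmul, ← exp_add]
      simp
    rw [this, exp_le_exp, Nat.cast_le]
    simp [h0]

theorem le_iff_nm {u : E.R} {B : ℕ} : E.Le u B ↔ (E.nm u).natDegree ≤ B := by
  rw [le_iff_VR, ← PlA.v_nm]
  exact vInf_le_iff

theorem pInf_VR_eq {u : E.R} (hu : u ≠ 0) : E.pInf.VR u = exp ((E.nm u).natDegree : ℤ) := by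
  rw [← PlA.v_nm]
  exact vInf_of_ne (E.nm_ne hu)

theorem one_le_pInf_VR {u : E.R} (hu : u ≠ 0) : 1 ≤ E.pInf.VR u := by
  rw [← PlA.v_nm]
  exact one_le_vInf (E.nm_ne hu)

theorem pAt_VR_le_one (α : F) (hα : α ∈ E.S) (u : E.R) : (E.pAt α hα).VR u ≤ 1 := by
  rw [← PlA.v_nm]
  exact vAt_le_one _ _

theorem pAt_VR_lt_one_iff (α : F) (hα : α ∈ E.S) (u : E.R) :
    (E.pAt α hα).VR u < 1 ↔ (E.comp 0 u).eval α = 0 := by
  have h1 : ∀ b, (E.pAt α hα).tm u b = vAt α (E.comp b u) ^ E.r * exp (-(b : ℤ)) := fun b => by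
    show vAt α _ ^ _ * exp ((-1 : ℤ) * b) = _
    rw [neg_one_mul]
  rw [PlA.VR_apply, Finset.sup_lt_iff (zero_lt_iff.2 one_ne_zero)]
  constructor
  · intro h
    have := h 0 (Finset.mem_range.2 E.r_pos)
    by_contra h0
    rw [h1, vAt_eq_one_iff.2 h0] at this
    simp at this
  · intro h b _
    rw [h1]
    rcases Nat.eq_zero_or_pos b with rfl | hb
    · have h2 : vAt α (E.comp 0 u) < 1 :=
        (vAt_le_of_eval h).trans_lt (by rw [← exp_zero, exp_lt_exp]; omega)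
      simpa using pow_lt_one₀ zero_le h2 E.hr.ne_zero
    · refine (mul_le_of_le_one_left' (pow_le_one' (vAt_le_one _ _) _)).trans_lt ?_
      rw [← exp_zero, exp_lt_exp]; omega

/-- units are constants: `VR u * VR u⁻¹ = 1` at infinity with both factors `≥ 1`, so `Le u 0`,
which kills the components `b > 0` (`m > 0`) and forces `deg u^(0) = 0`. -/
theorem eq_const_of_isUnit {u : E.R} (hu : IsUnit u) : ∃ a : F, a ≠ 0 ∧ u = E.of (C a) := by
  obtain ⟨w, hw⟩ := hu.exists_right_inv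
  have hw0 : w ≠ 0 := by rintro rfl; simp at hw
  have h1 : E.pInf.VR u * E.pInf.VR w = 1 := by rw [← map_mul, hw, map_one]
  have h2 : E.pInf.VR u ≤ exp ((0 : ℕ) : ℤ) := by
    rw [Nat.cast_zero, exp_zero, ← h1]
    exact le_mul_of_one_le_right' (E.one_le_pInf_VR hw0)
  rw [← le_iff_VR] at h2
  have h3 : u = E.of (C ((E.comp 0 u).coeff 0)) := by
    refine E.ext_comp fun b hb => ?_
    rw [comp_of]
    by_cases h0 : E.comp b u = 0
    · split_ifs with hb0
      · subst hb0; rw [h0]; simp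
      · exact h0
    · have h4 := h2 b hb h0
      have h5 := E.two_le_m
      have h6 := E.r_pos
      have hb0 : b = 0 := by nlinarith
      subst hb0
      rw [if_pos rfl]
      exact eq_C_of_natDegree_eq_zero (by nlinarith)
  refine ⟨_, fun h0 => hu.ne_zero ?_, h3⟩
  rw [h3, h0]; simp

/-- (Div)  Each term has `vAt α (u_b)^r exp(-b) ≤ exp(-n)`, so `(X-α)^k ∣ u_b` for the least `k` with
`r k + b ≥ n` (`vAt_le_iff`), so `g^k ∣ u_b` (`g_pow_dvd`) and `Y^n ∣ Y^(rk+b) ∣ of u_b * Y^b`. -/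
theorem Y_pow_dvd {u : E.R} {n : ℕ}
    (h : ∀ α (hα : α ∈ E.S), (E.pAt α hα).VR u ≤ exp (-(n : ℤ))) : E.Y ^ n ∣ u := by
  rw [← E.sum_comp u]
  refine Finset.dvd_sum fun b hb => ?_
  have hb' := Finset.mem_range.1 hb
  have hr := E.r_pos
  obtain ⟨k, hk1, hk2⟩ : ∃ k, n ≤ E.r * k + b ∧ (k = 0 ∨ E.r * (k - 1) + b < n) := by
    have hex : ∃ k, n ≤ E.r * k + b := ⟨n, by nlinarith⟩
    refine ⟨Nat.find hex, Nat.find_spec hex, ?_⟩
    rcases Nat.eq_zero_or_pos (Nat.find hex) with h0 | h0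
    · exact Or.inl h0
    · exact Or.inr (not_le.1 (Nat.find_min hex (by omega)))
  have h1 : E.g ^ k ∣ E.comp b u := by
    refine E.g_pow_dvd fun α hα => ?_
    rcases hk2 with rfl | hk2
    · simp
    by_cases h0 : E.comp b u = 0
    · simp [h0]
    have h2 := (PlA.VR_le_iff _).1 (h α hα) b hb'
    have h3 : (E.pAt α hα).tm u b = vAt α (E.comp b u) ^ E.r * exp ((-1 : ℤ) * b) := rfl
    rw [h3, vAt_of_ne α h0, ← exp_nsmul, ← exp_add, exp_le_exp, nsmul_eq_mul] at h2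
    rw [← le_rootMultiplicity_iff h0]
    by_contra h4
    have h5 : rootMultiplicity α (E.comp b u) ≤ k - 1 := by omega
    have h6 : E.r * rootMultiplicity α (E.comp b u) + b < n :=
      lt_of_le_of_lt (by gcongr) hk2
    have h7 : ((E.r * rootMultiplicity α (E.comp b u) + b : ℕ) : ℤ) < n := by exact_mod_cast h6
    push_cast at h7
    linarith
  have h2 : E.Y ^ (E.r * k) ∣ E.of (E.comp b u) := by
    rw [pow_mul, Y_pow_r, ← map_pow]; exact map_dvd _ h1
  exact (pow_dvd_pow _ hk1).trans (by rw [pow_add]; exact mul_dvd_mul_right h2 _)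

end Cv

end Crest.Agent.R312
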