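import Crest.Agent.R312.A2Ded

/-!
# R312 / A2W : the primes `W_α`, factorisation `J = J' ∏ W_α^{k_α}`, `drop`
-/

set_option autoImplicit false

open Polynomial WithZero

noncomputable section

namespace Crest.Agent.R312

variable {F : Type} [Field F]

/-- removing the factors of `g` from `μ`: if `γ = gcd (μ, g^d)` with `d ≥ deg μ` and `μ = γ μ'` then `μ'`
is coprime to `g`.  (If an irreducible `π` divides `μ'` and `g`, let `π^k ∥ μ`, `k ≤ deg μ ≤ d`; then
`π^k ∣ μ`, `π^k ∣ g^d`, so `π^k ∣ γ` and `π^(k+1) ∣ μ`.) -/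
theorem strip_coprime {μ μ' γ g s t : F[X]} {d : ℕ} (hμ : μ ≠ 0) (h : μ = γ * μ')
    (hγ : γ = s * μ + t * g ^ d) (hd : μ.natDegree ≤ d) : IsCoprime μ' g := by
  refine (isCoprime_of_irreducible_dvd (fun h0 => hμ (by rw [h, h0.1, mul_zero])) fun π hπ h1 h2 => ?_)
  have hfin : FiniteMultiplicity π μ := FiniteMultiplicity.of_prime_left hπ.prime hμ
  have h3 : π ^ multiplicity π μ ∣ μ := pow_multiplicity_dvd π μ
  have h4 : multiplicity π μ ≤ d := by
    have h5 := natDegree_le_of_dvd h3 hμ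
    rw [natDegree_pow] at h5
    have h6 : 0 < π.natDegree := hπ.natDegree_pos
    nlinarith
  have h5 : π ^ multiplicity π μ ∣ γ := by
    rw [hγ]
    exact dvd_add (h3.mul_left _) (((pow_dvd_pow π h4).trans (pow_dvd_pow_of_dvd h2 d)).mul_left _)
  refine hfin.not_pow_dvd_of_multiplicity_lt (Nat.lt_succ_self _) ?_
  rw [pow_succ]
  conv_rhs => rw [h]
  exact mul_dvd_mul h5 h1

namespace Cv

variable (E : Cv F)

/-- `∏_{α ∈ S} W_α^{k α}` -/
def Wprod (k : F → ℕ) : Ideal E.R := ∏ α ∈ E.S, E.W α ^ k α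

/-- `u = of (u_0(α)) + (of (u_0 - C u_0(α)) + ∑_{b>0} u_b Y^b)`; conversely use the valuation
`pAt_VR_lt_one_iff` (the elements of value `< 1` form an ideal containing both generators) -/
theorem mem_W {α : F} (hα : α ∈ E.S) {u : E.R} : u ∈ E.W α ↔ (E.comp 0 u).eval α = 0 := by
  constructor
  · intro h
    rw [← E.pAt_VR_lt_one_iff α hα]
    obtain ⟨s, t, rfl⟩ := Ideal.mem_span_pair.1 h
    refine (E.pAt α hα).VR.map_add_lt ?_ ?_
    · rw [map_mul]
      refine (mul_le_of_le_one_left' (E.pAt_VR_le_one α hα s)).trans_lt ?_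
      rw [E.pAt_VR_lt_one_iff, comp_of]; simp
    · rw [map_mul]
      refine (mul_le_of_le_one_left' (E.pAt_VR_le_one α hα t)).trans_lt ?_
      rw [PlA.VR_Y]
      show exp (-1 : ℤ) < 1
      rw [← exp_zero, exp_lt_exp]; omega
  · intro h
    rw [← E.sum_comp u]
    refine Ideal.sum_mem _ fun b _ => ?_
    rcases Nat.eq_zero_or_pos b with rfl | hb
    · obtain ⟨q, hq⟩ := dvd_iff_isRoot.2 h
      rw [hq, map_mul, mul_assoc]
      exact Ideal.mul_mem_right _ _ (Ideal.subset_span (by simp))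
    · exact Ideal.mul_mem_left _ _ (Ideal.pow_mem_of_mem _ (Ideal.subset_span (by simp)) _ hb)

theorem mem_W_iff_V {α : F} (hα : α ∈ E.S) {u : E.R} :
    u ∈ E.W α ↔ (E.pAt α hα).VR u ≤ exp (-1) := by
  rw [E.mem_W hα, ← E.pAt_VR_lt_one_iff α hα]
  have := lt_mul_exp_iff_le (x := (E.pAt α hα).VR u) (y := exp (-1)) exp_ne_zero
  rwa [← exp_add, neg_add_cancel, exp_zero] at this

theorem W_isMaximal {α : F} (hα : α ∈ E.S) : (E.W α).IsMaximal := by
  rw [Ideal.isMaximal_iff]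
  refine ⟨by rw [E.mem_W hα, ← map_one E.of, comp_of]; simp, fun J x hJ hx hxJ => ?_⟩
  rw [E.mem_W hα] at hx
  have h1 : x - E.of (C ((E.comp 0 x).eval α)) ∈ E.W α := by
    rw [E.mem_W hα, map_sub, comp_of]; simp
  have h2 : E.of (C ((E.comp 0 x).eval α)) ∈ J := by
    simpa using J.sub_mem hxJ (hJ h1)
  have h3 := J.mul_mem_left (E.of (C ((E.comp 0 x).eval α)⁻¹)) h2
  rwa [← map_mul, ← C_mul, inv_mul_cancel₀ hx, C_1, map_one] at h3

theorem W_ne_bot (α : F) : E.W α ≠ ⊥ := by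
  intro h
  have : E.Y ∈ E.W α := Ideal.subset_span (by simp)
  rw [h] at this
  exact E.Y_ne this

theorem Wprod_ne_bot (k : F → ℕ) : E.Wprod k ≠ ⊥ := by
  exact Finset.prod_ne_zero_iff.2 fun α _ => pow_ne_zero _ (E.W_ne_bot α)

theorem sI_Wprod (j : ℕ) (k : F → ℕ) : E.sI j (E.Wprod k) = E.Wprod k := by
  simp only [Wprod, sI_prod, sI_pow, sI_W]

theorem Wprod_add (k k' : F → ℕ) : E.Wprod (k + k') = E.Wprod k * E.Wprod k' := by
  simp only [Wprod, Pi.add_apply, pow_add, Finset.prod_mul_distrib]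

theorem Y_pow_mem_Wprod (k : F → ℕ) : E.Y ^ (∑ α ∈ E.S, k α) ∈ E.Wprod k := by
  rw [← Finset.prod_pow_eq_pow_sum]
  exact Ideal.prod_mem_prod fun α _ => Ideal.pow_mem_pow (Ideal.subset_span (by simp)) _

theorem V_le_of_mem_W_pow {α : F} (hα : α ∈ E.S) {k : ℕ} {u : E.R} (h : u ∈ E.W α ^ k) :
    (E.pAt α hα).VR u ≤ exp (-(k : ℤ)) := by
  induction k generalizing u with
  | zero => simpa using E.pAt_VR_le_one α hα u
  | succ k ih =>
    rw [pow_succ] at h
    refine Submodule.mul_induction_on h (fun x hx y hy => ?_) (fun x y hx hy => ?_)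
    · rw [map_mul, Nat.cast_succ, neg_add, exp_add]
      exact mul_le_mul' (ih hx) ((E.mem_W_iff_V hα).1 hy)
    · exact (E.pAt α hα).VR.map_add_le hx hy

/-- a prime containing `g = Y^r = lc ∏ (X - α)` contains `Y` and some `X - α` -/
theorem eq_W_of_isPrime {Q : Ideal E.R} (hQ : Q.IsPrime) (h : E.of E.g ∈ Q) :
    ∃ α ∈ E.S, Q = E.W α := by
  have hY : E.Y ∈ Q := hQ.mem_of_pow_mem E.r (by rwa [Y_pow_r])
  rw [E.hg, map_mul, Ideal.unit_mul_mem_iff_mem _ ((isUnit_C.2 E.hlc.isUnit).map E.of), map_prod,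
    Ideal.IsPrime.prod_mem_iff] at h
  obtain ⟨α, hα, h⟩ := h
  refine ⟨α, hα, ((E.W_isMaximal hα).eq_of_le hQ.ne_top ?_).symm⟩
  rw [W, Ideal.span_le]
  rintro x (rfl | rfl)
  exacts [h, hY]

theorem cop_iff {I : Ideal E.R} : E.Cop I ↔ ∀ α ∈ E.S, ¬ I ≤ E.W α := by
  constructor
  · intro h α hα hle
    refine (E.W_isMaximal hα).ne_top (top_le_iff.1 (h ▸ sup_le hle ?_))
    rw [Ideal.span_singleton_le_iff_mem, E.mem_W hα, comp_of, if_pos rfl]
    exact (E.g_eval_eq_zero_iff α).2 hα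
  · intro h
    by_contra hne
    obtain ⟨M, hM, hle⟩ := Ideal.exists_le_maximal _ hne
    obtain ⟨α, hα, rfl⟩ := E.eq_W_of_isPrime hM.isPrime
      ((Ideal.span_singleton_le_iff_mem _).1 (le_sup_right.trans hle))
    exact h α hα (le_sup_left.trans hle)

theorem Cop.exists_V_eq_one {E : Cv F} {I : Ideal E.R} (hI : E.Cop I) :
    ∃ u ∈ I, ∀ α (hα : α ∈ E.S), (E.pAt α hα).VR u = 1 := by
  rw [Cop, Ideal.eq_top_iff_one, Submodule.mem_sup] at hI
  obtain ⟨u, hu, z, hz, huz⟩ := hI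
  refine ⟨u, hu, fun α hα => ?_⟩
  obtain ⟨t, rfl⟩ := Ideal.mem_span_singleton'.1 hz
  have h1 : (E.pAt α hα).VR (t * E.of E.g) < (E.pAt α hα).VR 1 := by
    rw [map_mul, map_one]
    refine (mul_le_of_le_one_left' (E.pAt_VR_le_one α hα t)).trans_lt ?_
    rw [E.pAt_VR_lt_one_iff, comp_of, if_pos rfl]
    exact (E.g_eval_eq_zero_iff α).2 hα
  rw [eq_sub_of_add_eq huz, Valuation.map_sub_eq_of_lt_left _ h1, map_one]

/-- Noetherian induction: if `J ≤ W α` then `J = W α * J₁` (`Ideal.dvd_iff_le`) with `J < J₁`. -/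
theorem exists_factor {J : Ideal E.R} (hJ : J ≠ ⊥) :
    ∃ (J' : Ideal E.R) (k : F → ℕ), E.Cop J' ∧ J = J' * E.Wprod k := by
  classical
  induction J using IsNoetherian.induction with
  | _ J ih =>
    by_cases hc : E.Cop J
    · exact ⟨J, 0, hc, by simp [Wprod, ← Ideal.one_eq_top]⟩
    rw [cop_iff] at hc
    push Not at hc
    obtain ⟨α, hα, hle⟩ := hc
    obtain ⟨J₁, hJ₁⟩ := Ideal.dvd_iff_le.2 hle
    have h0 : J₁ ≠ ⊥ := by rintro rfl; exact hJ (by simpa using hJ₁)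
    have hlt : J < J₁ := by
      refine lt_of_le_of_ne (hJ₁ ▸ Ideal.mul_le_right) fun h => ?_
      rw [h] at hJ₁
      have : (1 : Ideal E.R) * J₁ = E.W α * J₁ := by rw [one_mul, ← hJ₁]
      exact (E.W_isMaximal hα).ne_top (by rw [← mul_right_cancel₀ h0 this, Ideal.one_eq_top])
    obtain ⟨J', k, hJ', hk⟩ := ih J₁ hlt h0
    refine ⟨J', k + Pi.single α 1, hJ', ?_⟩
    have : E.Wprod (Pi.single α 1) = E.W α := by
      rw [Wprod, Finset.prod_eq_single α (fun β _ hβ => by simp [hβ]) (fun h => (h hα).elim)]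
      simp
    rw [Wprod_add, this, hJ₁, hk]; ring

/-- `≤`: `V_le_of_mem_W_pow`.  `≥`: with `i ∈ I` of value `1` (`Cop.exists_V_eq_one`) the element
`i Y^(k α) ∏_{β ≠ α} (X - β)^(k β)` lies in `span {z}` and has value `exp (-k α)`. -/
theorem V_of_span_eq {z : E.R} {I : Ideal E.R} {k : F → ℕ} (hI : E.Cop I)
    (h : Ideal.span {z} = I * E.Wprod k) {α : F} (hα : α ∈ E.S) :
    (E.pAt α hα).VR z = exp (-(k α : ℤ)) := by
  classical
  have hW : E.Wprod k = E.W α ^ k α * ∏ β ∈ E.S.erase α, E.W β ^ k β :=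
    (Finset.mul_prod_erase _ (fun β => E.W β ^ k β) hα).symm
  apply le_antisymm
  · refine E.V_le_of_mem_W_pow hα ?_
    have : z ∈ I * E.Wprod k := by rw [← h]; exact Ideal.mem_span_singleton_self z
    rw [hW] at this
    exact Ideal.mul_le_left (Ideal.mul_le_right this)
  · obtain ⟨i, hi, hiV⟩ := hI.exists_V_eq_one
    have h1 : i * (E.Y ^ k α * ∏ β ∈ E.S.erase α, E.of (X - C β) ^ k β) ∈ Ideal.span {z} := by
      rw [h, hW]
      refine Ideal.mul_mem_mul hi (Ideal.mul_mem_mul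
        (Ideal.pow_mem_pow (Ideal.subset_span (by simp)) _) (Ideal.prod_mem_prod fun β _ => ?_))
      exact Ideal.pow_mem_pow (Ideal.subset_span (by simp)) _
    obtain ⟨t, ht⟩ := Ideal.mem_span_singleton'.1 h1
    have h2 := congrArg (E.pAt α hα).VR ht
    have h3 : ∀ β ∈ E.S.erase α, (E.pAt α hα).VR (E.of (X - C β) ^ k β) = 1 := fun β hβ => by
      rw [map_pow, PlA.VR_of]
      have : (E.pAt α hα).v (X - C β) = 1 :=
        vAt_eq_one_iff.2 (by simpa [sub_eq_zero] using (Finset.ne_of_mem_erase hβ).symm)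
      rw [this]; simp
    rw [map_mul, map_mul, map_mul, map_prod, Finset.prod_congr rfl h3, hiV α hα, map_pow,
      PlA.VR_Y] at h2
    have h4 : exp (E.pAt α hα).m0 ^ k α = exp (-(k α : ℤ)) := by
      rw [← exp_nsmul]; congr 1
      show k α • (-1 : ℤ) = _
      simp
    rw [h4, Finset.prod_const_one, mul_one, one_mul] at h2
    rw [← h2]
    exact mul_le_of_le_one_left' (E.pAt_VR_le_one α hα t)

theorem Cop.mem_of_mul_g_pow {E : Cv F} {I : Ideal E.R} (hI : E.Cop I) {x : E.R} {N : ℕ}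
    (h : x * E.of E.g ^ N ∈ I) : x ∈ I := by
  induction N with
  | zero => simpa using h
  | succ N ih =>
    apply ih
    rw [Cop, Ideal.eq_top_iff_one, Submodule.mem_sup] at hI
    obtain ⟨u, hu, z, hz, huz⟩ := hI
    obtain ⟨t, rfl⟩ := Ideal.mem_span_singleton'.1 hz
    have : x * E.of E.g ^ N = x * E.of E.g ^ N * u + t * (x * E.of E.g ^ (N + 1)) := by
      linear_combination (-(x * E.of E.g ^ N)) * huz
    rw [this]
    exact I.add_mem (I.mul_mem_left _ hu) (I.mul_mem_left _ h)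

theorem span_eq_Wprod {z : E.R} {k : F → ℕ} (hz : z ∣ E.of E.g)
    (h : ∀ α (hα : α ∈ E.S), (E.pAt α hα).VR z = exp (-(k α : ℤ))) :
    Ideal.span {z} = E.Wprod k := by
  have hz0 : z ≠ 0 := by
    rintro rfl
    exact E.g_ne (E.of_injective (by simpa using hz))
  obtain ⟨J', k', hJ', hk⟩ := E.exists_factor (J := Ideal.span {z}) (by simpa using hz0)
  have h1 : J' = ⊤ := by
    rw [Ideal.eq_top_iff_one]
    refine hJ'.mem_of_mul_g_pow (N := 1) ?_
    rw [one_mul, pow_one]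
    have : E.of E.g ∈ J' * E.Wprod k' := by rw [← hk]; exact Ideal.mem_span_singleton.2 hz
    exact Ideal.mul_le_left this
  rw [hk, h1, Ideal.top_mul]
  refine Finset.prod_congr rfl fun α hα => ?_
  have := (E.V_of_span_eq hJ' hk hα).symm.trans (h α hα)
  rw [exp_inj, neg_inj, Nat.cast_inj] at this
  rw [this]

/-- `exists_factor` + `V_of_span_eq`; the cofactor contains `g` and is coprime to `g` -/
theorem span_Y : Ideal.span {E.Y} = E.Wprod fun _ => 1 := by
  refine E.span_eq_Wprod ⟨E.Y ^ (E.r - 1), ?_⟩ fun α hα => ?_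
  · rw [← pow_succ', ← Y_pow_r]; congr 1; have := E.r_pos; omega
  · rw [PlA.VR_Y]; rfl

theorem W_pow_r {α : F} (hα : α ∈ E.S) : E.W α ^ E.r = Ideal.span {E.of (X - C α)} := by
  classical
  rw [E.span_eq_Wprod (z := E.of (X - C α)) (k := Pi.single α E.r)
    (map_dvd _ (dvd_iff_isRoot.2 ((E.g_eval_eq_zero_iff α).2 hα))) fun β hβ => ?_]
  · rw [Wprod, Finset.prod_eq_single α (fun β _ hβ => by simp [hβ]) (fun h => (h hα).elim)]
    simp
  · rw [PlA.VR_of]
    show vAt β _ ^ _ = _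
    by_cases h : β = α
    · subst h
      rw [vAt_X_sub, ← exp_nsmul]; simp
    · rw [vAt_eq_one_iff.2 (by simpa [sub_eq_zero] using h)]
      simp [h]

/-- **drop.**  Write `J = J' Wprod k`; show `J ⊔ (μ') = J'`:  `μ' g^N ∈ J'` and `g` is invertible mod `J'`;
conversely `J' Y^M ⊆ J` and `Y` is invertible modulo `J ⊔ (μ')`. -/
theorem drop {J : Ideal E.R} {μ μ' : F[X]} {N : ℕ} (hμ0 : μ ≠ 0) (hμ : E.of μ ∈ J)
    (hc : IsCoprime μ' E.g) (hd : μ ∣ μ' * E.g ^ N) :
    E.Cop (J ⊔ Ideal.span {E.of μ'}) ∧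
      ∃ k : F → ℕ, J = (J ⊔ Ideal.span {E.of μ'}) * E.Wprod k := by
  have hJ : J ≠ ⊥ := fun h => hμ0 (E.of_injective (by simpa [h] using hμ))
  have hcop : E.Cop (J ⊔ Ideal.span {E.of μ'}) :=
    E.cop_of_mem (Ideal.mem_sup_right (Ideal.mem_span_singleton_self _)) hc
  obtain ⟨J', k, hJ', hk⟩ := E.exists_factor hJ
  refine ⟨hcop, k, ?_⟩
  have hle : J ≤ J' := hk ▸ Ideal.mul_le_left
  suffices J ⊔ Ideal.span {E.of μ'} = J' by rw [this]; exact hk
  apply le_antisymm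
  · refine sup_le hle ((Ideal.span_singleton_le_iff_mem _).2 (hJ'.mem_of_mul_g_pow (N := N) ?_))
    obtain ⟨t, ht⟩ := hd
    rw [← map_pow, ← map_mul, ht, map_mul]
    exact J'.mul_mem_right _ (hle hμ)
  · intro x hx
    refine hcop.mem_of_mul_g_pow (N := ∑ α ∈ E.S, k α) (Ideal.mem_sup_left ?_)
    obtain ⟨n, hn⟩ : ∃ n, E.r = n + 1 := ⟨E.r - 1, by have := E.r_pos; omega⟩
    rw [← Y_pow_r, hn, ← pow_mul, mul_comm (n + 1), mul_add, mul_one, pow_add, mul_left_comm, hk]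
    exact Ideal.mul_mem_left _ _ (Ideal.mul_mem_mul hx (E.Y_pow_mem_Wprod k))

open Classical in
/-- the value of `Y + h` at `W_α` -/
theorem V_Y_add (h : F[X]) {α : F} (hα : α ∈ E.S) :
    (E.pAt α hα).VR (E.Y + E.of h) = exp (-((if h.eval α = 0 then 1 else 0 : ℕ) : ℤ)) := by
  have hY : (E.pAt α hα).VR E.Y = exp (-1) := PlA.VR_Y _
  have hh : (E.pAt α hα).VR (E.of h) = vAt α h ^ E.r := PlA.VR_of _ _
  split_ifs with h0
  · rw [Valuation.map_add_eq_of_lt_left, hY]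
    · simp
    rw [hY, hh]
    refine (pow_le_pow_left' (vAt_le_of_eval h0) _).trans_lt ?_
    rw [← exp_nsmul, exp_lt_exp]
    have := E.three_le_r
    simp only [smul_neg, nsmul_eq_mul, mul_one]
    omega
  · rw [vAt_eq_one_iff.2 h0, one_pow] at hh
    rw [Valuation.map_add_eq_of_lt_right, hh]
    · simp
    rw [hY, hh, ← exp_zero, exp_lt_exp]; omega

theorem Y_add_ne (h : F[X]) : E.Y + E.of h ≠ 0 := by
  intro h0
  have := congrArg (E.comp 1) h0
  have h1 := E.comp_Y_pow (s := 1) (by have := E.three_le_r; omega) 1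
  rw [pow_one] at h1
  rw [map_add, comp_of, h1] at this
  simp at this

end Cv

end Crest.Agent.R312
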