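import Crest.Agent.R312.A3R

/-!
# R312 / A3Arr : the root `w`, positions and coefficient arrays
Read `A3Prog.lean` and `A3Defs.lean` first.  Keep the statements; auxiliary lemmas get the prefix `a3a_`.
-/

set_option autoImplicit false

noncomputable section

namespace Crest.Agent.R312

open Crest.Agent.Lib.PT Polynomial Finset

variable {F : Type} [Field F] [Fintype F] {c : Cx} {ψ : Vec → F} {E : Cv F}
  {S : Type} {φ : Vec → S → F} {Es : S → Cv F}

/-- `Cv.g_dvd_iff`; at `α ∈ E.S`: `Hom.proot` (`LocA.gm_root`, `h.res`), and `ω(α) = w(α) ν(α)^(q-2)`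
(`Hom.ppowMod`; `eval` of `P %ₘ gm` at a root of `gm`), `ν(α)^(q-1) = 1`. -/
theorem dw_spec (h : LocA c ψ E) {ν : Pol} (hν : IsCoprime (poly ψ ν) E.g) {k : ℕ}
    (hk : ∀ α ∈ E.S, (ψ c.γ0 ^ k * (poly ψ ν).eval α) ^ ((Fintype.card F - 1) / E.r) = 1) :
    E.g ∣ poly ψ (c.dw ν k) ^ E.r - C (ψ c.γ0 ^ k) * poly ψ ν ∧
      E.g ∣ poly ψ (c.dom ν k) * poly ψ ν - poly ψ (c.dw ν k) := by
  have h0 := E.isCoprime_g_iff.1 hν
  constructor
  · refine E.g_dvd_iff.2 fun α hα => ?_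
    have e : (poly ψ (c.A.psmul (c.A.pow c.γ0 k) ν)).eval α = ψ c.γ0 ^ k * (poly ψ ν).eval α := by
      rw [h.hom.psmul, h.hom.pow, eval_mul, eval_C]
    have := h.hom.proot h.prime h.res (v := c.A.psmul (c.A.pow c.γ0 k) ν) h.mon ((h.gm_root α).2 hα)
      (by rw [e]; exact mul_ne_zero (pow_ne_zero _ h.res.ne) (h0 α hα)) (by rw [e]; exact hk α hα)
    rw [eval_sub, eval_pow, Cx.dw, h.q, ← h.r, this, e, eval_mul, eval_C, sub_self]
  · refine E.g_dvd_iff.2 fun α hα => ?_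
    have h2 : 2 ≤ Fintype.card F := Fintype.one_lt_card
    rw [eval_sub, eval_mul, Cx.dom, h.hom.pmul, h.hom.ppowMod h.mon, eval_mul, modByMonic_eq_sub_mul_div,
      eval_sub, eval_mul, (h.gm_root α).2 hα, zero_mul, sub_zero, eval_pow, mul_assoc, ← pow_succ, h.q,
      show Fintype.card F - 2 + 1 = Fintype.card F - 1 by omega,
      FiniteField.pow_card_sub_one_eq_one _ (h0 α hα), mul_one, sub_self]

omit [Fintype F] in
/-- `List.Nodup.filter`, `List.Nodup.product` -/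
theorem nodup_dpos (c : Cx) (ν : Pol) (B : ℕ) : (c.dpos ν B).Nodup :=
  (List.nodup_range.product (List.nodup_range.product List.nodup_range)).filter _

omit [Fintype F] in
theorem mem_dpos {ν : Pol} {B : ℕ} {x : Pos} : x ∈ c.dpos ν B ↔ x.1 < c.r ∧ x.2.1 < c.r ∧
    x.2.2 < c.dE ν c.r ∧
    c.r * x.2.2 + (c.gm.length - 1) * x.2.1 ≤ B + (c.r - 1) * x.1 * (ν.length - 1) := by
  obtain ⟨k, b, e⟩ := x
  simp only [Cx.dpos, List.mem_filter, List.mem_product, List.mem_range, decide_eq_true_iff, and_assoc]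

omit [Fintype F] in
/-- `e ≤ r e ≤ (r-1) n + (r-1) k (len - 1) < r n + r k len = dE ν k ≤ dE ν r` -/
theorem lt_dE {ν : Pol} {B k e : ℕ} (hn : 0 < c.gm.length) (hB : B ≤ (c.r - 1) * c.gm.length)
    (hk : k < c.r) (he : c.r * e ≤ B + (c.r - 1) * k * (ν.length - 1)) :
    e < c.dE ν k ∧ e < c.dE ν c.r := by
  have h1 : e ≤ c.r * e := Nat.le_mul_of_pos_left _ (by omega)
  have h2 : (c.r - 1) * c.gm.length < c.r * c.gm.length := Nat.mul_lt_mul_of_pos_right (by omega) hn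
  have h3 : (c.r - 1) * k * (ν.length - 1) ≤ c.r * k * ν.length := by gcongr <;> omega
  have h4 : c.r * k * ν.length ≤ c.r * c.r * ν.length := by gcongr
  rw [Cx.dE, Cx.dE, cm_eq hk.le, cm_eq le_rfl]
  omega

omit [Fintype F] in
/-- `Cv.comp_of_mul_Y_pow`, `finsetSum_coeff`, `coeff_monomial`, `Finset.sum_eq_single` -/
theorem coeff_comp_arr {T : Finset Pos} (hT : ∀ x ∈ T, x.2.1 < E.r) (μ : Pos → F) (k b e : ℕ) :
    (E.comp b (E.arr T μ k)).coeff e = if (k, b, e) ∈ T then μ (k, b, e) else 0 := by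
  rw [Cv.arr, map_sum, finsetSum_coeff, Finset.sum_congr rfl fun x hx => by
    rw [E.comp_of_mul_Y_pow _ (hT x (Finset.mem_filter.1 hx).1)]]
  have key : ∀ x ∈ T.filter (fun x => x.1 = k), x ≠ (k, b, e) →
      (if b = x.2.1 then monomial x.2.2 (μ x) else 0).coeff e = 0 := by
    rintro ⟨k', b', e'⟩ hx hne
    obtain rfl : k' = k := (Finset.mem_filter.1 hx).2
    split_ifs with h1
    · obtain rfl : b = b' := h1
      rw [coeff_monomial, if_neg fun e0 => hne (by rw [show e' = e from e0])]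
    · rfl
  by_cases h1 : (k, b, e) ∈ T
  · rw [if_pos h1, Finset.sum_eq_single_of_mem (k, b, e) (by simpa using h1) key]
    simp
  · rw [if_neg h1]
    exact Finset.sum_eq_zero fun x hx => key x hx fun e0 => h1 (e0 ▸ (Finset.mem_filter.1 hx).1)

omit [Fintype F] in
theorem arr_eq_zero_iff {T : Finset Pos} (hT : ∀ x ∈ T, x.2.1 < E.r) (μ : Pos → F) (k : ℕ) :
    E.arr T μ k = 0 ↔ ∀ x ∈ T, x.1 = k → μ x = 0 := by
  constructor
  · rintro h0 ⟨k', b, e⟩ hx rfl
    have := coeff_comp_arr hT μ k' b e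
    rw [if_pos hx, show E.arr T μ k' = 0 from h0] at this
    simpa using this.symm
  · intro h0
    refine Finset.sum_eq_zero fun x hx => ?_
    rw [h0 x (Finset.mem_filter.1 hx).1 (Finset.mem_filter.1 hx).2]
    simp

omit [Fintype F] in
theorem Cv.InV.congr {I : Ideal E.R} {ν ω : F[X]} {B : ℕ} {u v : ℕ → E.R} (h : E.InV I ν ω B u)
    (e : ∀ k < E.r, u k = v k) : E.InV I ν ω B v := by
  refine ⟨fun k hk => e k hk ▸ h.mem k hk, fun b hb s hs => ?_, fun k hk => e k hk ▸ h.inf k hk⟩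
  rw [Finset.sum_congr rfl fun k hk => by rw [← e k (Finset.mem_range.1 hk)]]
  exact h.loc b hb s hs

theorem a3a_pos (h : LocA c ψ E) (ν : Pol) (B : ℕ) : ∀ x ∈ (c.dpos ν B).toFinset, x.2.1 < E.r :=
  fun x hx => by rw [h.r]; exact (mem_dpos.1 (List.mem_toFinset.1 hx)).2.1

/-- condition (iii) holds for all arrays on `dpos` (`coeff_comp_arr` at `e = natDegree`) -/
theorem le_arr (h : LocA c ψ E) {ν : Pol} (hν : Mon ψ ν) (B : ℕ) (μ : Pos → F) (k : ℕ) :
    E.Le (E.arr (c.dpos ν B).toFinset μ k) (B + (E.r - 1) * k * (poly ψ ν).natDegree) := by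
  intro b _ hne
  have h1 := leadingCoeff_ne_zero.2 hne
  rw [leadingCoeff, coeff_comp_arr (a3a_pos h ν B)] at h1
  have h2 := (mem_dpos.1 (List.mem_toFinset.1 (ite_ne_right_iff.1 h1).1)).2.2.2
  rw [h.len, Nat.add_sub_cancel, ← h.r, ← hν.natDegree_eq] at h2
  exact h2

/-- `μ x = coeff (comp x.2.1 (u x.1)) x.2.2`; a non-zero coefficient sits at a position of `dpos` (`lt_dE`) -/
theorem exists_arr (h : LocA c ψ E) {ν : Pol} (hν : Mon ψ ν) {B : ℕ} (hB : B ≤ (c.r - 1) * c.gm.length)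
    {u : ℕ → E.R} (hu : ∀ k < E.r, E.Le (u k) (B + (E.r - 1) * k * (poly ψ ν).natDegree)) :
    ∃ μ : Pos → F, ∀ k < E.r, E.arr (c.dpos ν B).toFinset μ k = u k := by
  refine ⟨fun x => (E.comp x.2.1 (u x.1)).coeff x.2.2, fun k hk => E.ext_comp fun b hb => ?_⟩
  ext e
  rw [coeff_comp_arr (a3a_pos h ν B)]
  split_ifs with h1
  · rfl
  · by_contra h0
    have h2 : (E.comp b (u k)).coeff e ≠ 0 := fun e0 => h0 e0.symm
    have h3 := hu k hk b hb fun e0 => h2 (by rw [e0, coeff_zero])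
    have h4 := Nat.mul_le_mul_left E.r (le_natDegree_of_ne_zero h2)
    have h5 := h.len
    rw [hν.natDegree_eq, h.r] at h3
    rw [h.r] at h4 hk hb
    refine h1 (List.mem_toFinset.2 (mem_dpos.2 ⟨hk, hb, (lt_dE (e := e) (by omega) hB hk (by omega)).2, ?_⟩))
    rw [h5, Nat.add_sub_cancel]
    simp only
    omega

/-- `Cv.ext_comp`, `comp_rel`, `coeff_poly`, `coeff_comp_arr`; for `x ∉ dpos`, `idxOf x = length`, so the entry is
`[]`; for `x ∈ dpos`, `lt_dE` -/
theorem rel_du (h : LocA c ψ E) {ν : Pol} {B : ℕ} (hB : B ≤ (c.r - 1) * c.gm.length) {lam : List Vec}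
    (hl : lam.length = (c.dpos ν B).length) {k : ℕ} (_hk : k < E.r) :
    E.rel ψ (c.du ν B lam k) =
      E.arr (c.dpos ν B).toFinset (fun x => ψ (lam.getD ((c.dpos ν B).idxOf x) [])) k := by
  refine E.ext_comp fun b hb => ?_
  ext e
  rw [Cx.du, a3r_comp h _ hb, h.hom.coeff_poly, coeff_comp_arr (a3a_pos h ν B)]
  have h5 := h.len
  split_ifs with h1
  · have h2 := mem_dpos.1 (List.mem_toFinset.1 h1)
    have h3 := (lt_dE (ν := ν) (e := e) (by omega) hB h2.1 (le_trans (Nat.le_add_right _ _) h2.2.2.2)).1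
    rw [List.getD_eq_getElem _ _ (by simpa using h3)]
    simp
  · by_cases h3 : e < c.dE ν k
    · rw [List.getD_eq_getElem _ _ (by simpa using h3)]
      simp only [List.getElem_map, List.getElem_range]
      rw [List.idxOf_eq_length (by simpa using h1), List.getD_eq_default _ _ hl.le, h.hom.nil]
    · rw [List.getD_eq_default _ _ (by simpa using h3), h.hom.nil]

end Crest.Agent.R312
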