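import Mathlib

/-!
# R312 / A3MathB : pure lemmas (no programs) used by `splitOdd`
-/

set_option autoImplicit false

namespace Crest.Agent.R312

open Polynomial Finset

variable {F : Type} [Field F]

theorem mb_reflect (T : Finset F) (c : F → F) :
    reflect T.card (∏ b ∈ T, (X + C (c b))) = ∏ b ∈ T, (1 + C (c b) * X) := by
  classical
  induction T using Finset.induction_on with
  | empty => simp
  | insert a T ha ih =>
    rw [prod_insert ha, prod_insert ha, card_insert_of_notMem ha, add_comm T.card,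
      reflect_mul _ _ (natDegree_X_add_C _).le ?_, ih]
    · congr 1
      rw [reflect_add, reflect_one_X, reflect_C, pow_one]
    · refine (natDegree_prod_le _ _).trans (le_of_eq ?_)
      simp

/-- The chart polynomial: `f(a + u) = u ∏_{b ≠ a} (u + a - b)` (`taylor_coeff`), reversed.
Compare coefficients through `reflect`: the left side is `reflect n (taylor a f)` (the constant term of
`taylor a f` is `f a = 0`), `reflect_mul`, `reflect 1 X = 1`, `reflect 1 (X + C c) = 1 + C c * X`. -/
theorem m_chart [DecidableEq F] (S : Finset F) {a : F} (ha : a ∈ S) :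
    ∑ k ∈ range S.card, monomial k ((hasseDeriv (S.card - k) (∏ b ∈ S, (X - C b))).eval a) =
      ∏ b ∈ S.erase a, (1 + C (a - b) * X) := by
  have h1 : taylor a (∏ b ∈ S, (X - C b)) = X * ∏ b ∈ S.erase a, (X + C (a - b)) := by
    rw [← taylorAlgHom_apply, map_prod, ← mul_prod_erase S _ ha]
    simp only [taylorAlgHom_apply, map_sub, taylor_X, taylor_C, add_sub_cancel_right, add_sub_assoc]
  have hc : S.card = (S.erase a).card + 1 := (card_erase_add_one ha).symm
  have hd : (∏ b ∈ S.erase a, (X + C (a - b))).natDegree ≤ (S.erase a).card :=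
    (natDegree_prod_le _ _).trans (le_of_eq (by simp only [natDegree_X_add_C]; simp))
  rw [← mb_reflect]
  ext k
  simp only [finsetSum_coeff, coeff_monomial, sum_ite_eq', mem_range, coeff_reflect, ← taylor_coeff, h1]
  split_ifs with hk
  · rw [revAt_le (by omega), show S.card - k = (S.erase a).card - k + 1 by omega, coeff_X_mul]
  · rw [revAt_eq_self_of_lt (by omega), coeff_eq_zero_of_natDegree_lt (by omega)]

/-- the roots of the chart polynomial, and its other properties
(`1 + (a-b) X = (a-b) (X - (b-a)⁻¹)`; `separable_prod_X_sub_C_iff'`). -/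
theorem m_chart_roots [DecidableEq F] (S : Finset F) {a : F} (ha : a ∈ S) :
    (∏ b ∈ S.erase a, (1 + C (a - b) * X : F[X])).roots.toFinset =
        (S.erase a).image (fun b => (b - a)⁻¹) ∧
      (∏ b ∈ S.erase a, (1 + C (a - b) * X : F[X])).natDegree = S.card - 1 ∧
      (∏ b ∈ S.erase a, (1 + C (a - b) * X : F[X])).Splits ∧
      (∏ b ∈ S.erase a, (1 + C (a - b) * X : F[X])).Separable ∧
      (∏ b ∈ S.erase a, (1 + C (a - b) * X : F[X])).coeff 0 = 1 ∧
      Set.InjOn (fun b => (b - a)⁻¹) (S.erase a : Set F) := by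
  have hinj : Set.InjOn (fun b => (b - a)⁻¹) (S.erase a : Set F) := fun b _ b' _ h => by
    simpa using h
  have h0 : ∀ b ∈ S.erase a, a - b ≠ 0 := fun b hb => sub_ne_zero.2 (mem_erase.1 hb).1.symm
  have hu : ∏ b ∈ S.erase a, (a - b) ≠ 0 := prod_ne_zero_iff.2 h0
  have e : (∏ b ∈ S.erase a, (1 + C (a - b) * X : F[X])) =
      C (∏ b ∈ S.erase a, (a - b)) * ∏ b ∈ S.erase a, (X - C (b - a)⁻¹) := by
    rw [map_prod, ← prod_mul_distrib]
    refine prod_congr rfl fun b hb => ?_
    have : (a - b) * (b - a)⁻¹ = -1 := by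
      rw [← neg_sub b a, neg_mul, mul_inv_cancel₀ (sub_ne_zero.2 (mem_erase.1 hb).1)]
    rw [mul_sub, ← C_mul, this]
    simp [add_comm]
  refine ⟨?_, ?_, ?_, ?_, ?_, hinj⟩
  · rw [e, roots_C_mul _ hu, ← prod_image (f := fun c => X - C c) hinj, roots_prod_X_sub_C, val_toFinset]
  · rw [e, natDegree_C_mul hu, natDegree_finsetProd_X_sub_C_eq_card, card_erase_of_mem ha]
  · rw [e]
    exact (Splits.C _).mul (Splits.prod fun b _ => Splits.X_sub_C _)
  · rw [e]
    exact (separable_prod_X_sub_C_iff'.2 fun b hb b' hb' h => hinj hb hb' h).unit_mul (isUnit_C.2 hu.isUnit)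
  · rw [coeff_zero_prod]
    simp

/-- Blocks: the roots of a separable split `g ~ ∏_{l<D} P l` are partitioned by the factors.  `β α` is the
unique `l < D` with `P l α = 0` (existence: the product vanishes; uniqueness: otherwise `(X - α)² ∣ g`).
Each `P l` divides `g`, so it splits and is separable, hence has `natDegree` distinct roots. -/
theorem m_blocks [DecidableEq F] {g : F[X]} (hs : g.Splits) (hsep : g.Separable) {D : ℕ}
    {P : ℕ → F[X]} (h : Associated g (∏ l ∈ range D, P l)) :
    ∃ β : F → ℕ, (∀ α ∈ g.roots.toFinset, β α < D) ∧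
      (∀ l < D, (P l).roots.toFinset = g.roots.toFinset.filter (fun α => β α = l)) ∧
      (∀ l < D, (P l).roots.toFinset.card = (P l).natDegree ∧ (P l).roots.Nodup ∧ (P l).Splits ∧
        P l ∣ g) ∧
      ∑ l ∈ range D, (P l).natDegree = g.natDegree := by
  have hg := hsep.ne_zero
  have hdvd : ∀ l < D, P l ∣ g := fun l hl => (dvd_prod_of_mem P (mem_range.2 hl)).trans h.symm.dvd
  have hP : ∀ l < D, P l ≠ 0 := fun l hl => ne_zero_of_dvd_ne_zero hg (hdvd l hl)
  have hex : ∀ α, α ∈ g.roots → ∃ l < D, (P l).IsRoot α := fun α hα => by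
    have h1 := ((mem_roots hg).1 hα).dvd h.dvd
    rw [IsRoot.def, eval_prod, prod_eq_zero_iff] at h1
    obtain ⟨l, hl, h2⟩ := h1
    exact ⟨l, mem_range.1 hl, h2⟩
  choose! β hβ using hex
  refine ⟨β, fun α hα => (hβ α (Multiset.mem_toFinset.1 hα)).1, fun l hl => ?_, fun l hl => ?_, ?_⟩
  · ext α
    rw [mem_filter, Multiset.mem_toFinset, Multiset.mem_toFinset, mem_roots (hP l hl)]
    refine ⟨fun hα => ?_, fun hα => hα.2 ▸ (hβ α hα.1).2⟩
    have h1 : α ∈ g.roots := (mem_roots hg).2 (hα.dvd (hdvd l hl))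
    refine ⟨h1, by_contra fun hne => ?_⟩
    have h2 : P (β α) * P l ∣ g := by
      rw [← prod_pair hne]
      refine (prod_dvd_prod_of_subset _ _ _ ?_).trans h.symm.dvd
      intro x hx
      rcases mem_insert.1 hx with rfl | hx
      · exact mem_range.2 (hβ α h1).1
      · rw [mem_singleton.1 hx]; exact mem_range.2 hl
    exact not_isUnit_X_sub_C α (hsep.squarefree _
      ((mul_dvd_mul (dvd_iff_isRoot.2 (hβ α h1).2) (dvd_iff_isRoot.2 hα)).trans h2))
  · have h1 := nodup_roots (hsep.of_dvd (hdvd l hl))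
    have h2 := hs.of_dvd hg (hdvd l hl)
    exact ⟨by rw [Multiset.toFinset_card_of_nodup h1, h2.natDegree_eq_card_roots], h1, h2, hdvd l hl⟩
  · rw [natDegree_eq_of_degree_eq (degree_eq_degree_of_associated h),
      natDegree_prod _ _ fun l hl => hP l (mem_range.1 hl)]

end Crest.Agent.R312
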