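import Crest.Agent.R312.A3Defs
import Crest.Agent.R312.A3MathB

/-!
# R312 / A3Blk : factorisations of `g`, blocks of roots
Read `A3Prog.lean` and `A3Defs.lean` first.  Keep the statements; auxiliary lemmas get the prefix `a3b_`.
-/

set_option autoImplicit false

noncomputable section

namespace Crest.Agent.R312

open Crest.Agent.Lib.PT Polynomial Finset

variable {F : Type} [Field F] [Fintype F] {c : Cx} {ψ : Vec → F} {E : Cv F}
  {S : Type} {φ : Vec → S → F} {Es : S → Cv F}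

omit [Fintype F] in
theorem Cv.Fac.getD {gs : List Pol} (h : E.Fac ψ gs) {l : ℕ} (hl : l < gs.length) :
    Mon ψ (gs.getD l []) ∧ 2 ≤ (gs.getD l []).length := by
  rw [List.getD_eq_getElem _ _ hl]
  exact h.mon _ (List.getElem_mem hl)

omit [Fintype F] in
/-- `List.prod_range...`: `(gs.map f).prod = ∏ l ∈ range gs.length, f (gs.getD l [])`
(induction from the right, or `Finset.prod_range` + `List.prod_ofFn`) -/
theorem Cv.Fac.prod_range {gs : List Pol} (h : E.Fac ψ gs) :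
    Associated E.g (∏ l ∈ range gs.length, poly ψ (gs.getD l [])) := by
  have h1 : (gs.map (poly ψ)).prod = ∏ l ∈ range gs.length, poly ψ (gs.getD l []) := by
    rw [Finset.prod_range, ← List.prod_ofFn]
    congr 1
    exact List.ext_getElem (by simp) fun i h1 h2 => by simp [List.getD_eq_getElem?_getD]
  exact h1 ▸ h.prod

open Classical in
omit [Fintype F] in
/-- `m_blocks` (`g` splits and is separable by `E.hg`; `g.roots.toFinset = E.S` by `g_eval_eq_zero_iff`),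
`Mon.natDegree_eq`; a multiset without duplicates is the value of its `toFinset` (`Multiset.toFinset_val`,
`Multiset.Nodup.dedup`). -/
theorem Cv.Fac.blocks {gs : List Pol} (h : E.Fac ψ gs) :
    ∃ β : F → ℕ, (∀ α ∈ E.S, β α < gs.length) ∧
      (∀ l < gs.length, ∀ α, (poly ψ (gs.getD l [])).eval α = 0 ↔ α ∈ E.S ∧ β α = l) ∧
      (∀ l < gs.length, (E.S.filter fun α => β α = l).card = (gs.getD l []).length - 1) ∧
      (∀ l < gs.length, (poly ψ (gs.getD l [])).Splits ∧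
        (poly ψ (gs.getD l [])).roots = (E.S.filter fun α => β α = l).val) ∧
      ∀ v : ℕ → ℤ, ∀ α ∈ E.S, bw ψ gs v α = v (β α) := by
  have hs : E.g.Splits := by
    rw [E.hg]
    exact (Splits.C _).mul (Splits.prod fun α _ => Splits.X_sub_C α)
  have hsep : E.g.Separable := by
    rw [E.hg]
    exact Separable.unit_mul (isUnit_C.2 E.hlc.isUnit) (separable_prod_X_sub_C_iff'.2 fun a _ b _ h => h)
  have hr : E.g.roots.toFinset = E.S := by
    ext α
    rw [Multiset.mem_toFinset, mem_roots E.g_ne, IsRoot.def, E.g_eval_eq_zero_iff]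
  obtain ⟨β, h1, h2, h3, -⟩ := m_blocks hs hsep h.prod_range
  rw [hr] at h1 h2
  have h4 : ∀ l < gs.length, ∀ α, (poly ψ (gs.getD l [])).eval α = 0 ↔ α ∈ E.S ∧ β α = l := by
    intro l hl α
    rw [← IsRoot.def, ← mem_roots (h.getD hl).1.monic.ne_zero, ← Multiset.mem_toFinset, h2 l hl, mem_filter]
  refine ⟨β, h1, h4, fun l hl => ?_, fun l hl => ⟨(h3 l hl).2.2.1, ?_⟩, fun v α hα => ?_⟩
  · rw [← h2 l hl, (h3 l hl).1, (h.getD hl).1.natDegree_eq]
  · rw [← h2 l hl, Multiset.toFinset_val, (h3 l hl).2.1.dedup]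
  · rw [bw, sum_eq_single (β α), if_pos ((h4 _ (h1 α hα) α).2 ⟨hα, rfl⟩)]
    · exact fun l hl hne => if_neg fun h5 => hne ((h4 l (mem_range.1 hl) α).1 h5).2.symm
    · exact fun h5 => absurd (mem_range.2 (h1 α hα)) h5

omit [Fintype F] in
theorem Cv.Fac.pos {gs : List Pol} (h : E.Fac ψ gs) : 0 < gs.length := by
  obtain ⟨β, h1, -⟩ := h.blocks
  obtain ⟨α, hα⟩ := E.S_nonempty
  exact (Nat.zero_le _).trans_lt (h1 α hα)

omit [Fintype F] in
/-- every block is non-empty, so `β` maps `E.S` onto `range gs.length` -/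
theorem Cv.Fac.length_le {gs : List Pol} (h : E.Fac ψ gs) : gs.length ≤ E.m := by
  classical
  obtain ⟨β, -, -, h3, -⟩ := h.blocks
  rw [← card_range gs.length]
  refine card_le_card_of_surjOn β fun l hl => ?_
  have hl' := mem_range.1 (mem_coe.1 hl)
  obtain ⟨α, hα⟩ := card_pos.1 ((h3 l hl').symm ▸ Nat.sub_pos_of_lt (h.getD hl').2)
  exact ⟨α, (mem_filter.1 hα).1, (mem_filter.1 hα).2⟩

omit [Fintype F] in
theorem Cv.Fac.exists_root {gs : List Pol} (h : E.Fac ψ gs) {l : ℕ} (hl : l < gs.length) :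
    ∃ α ∈ E.S, (poly ψ (gs.getD l [])).eval α = 0 := by
  obtain ⟨β, -, h2, h3, -⟩ := h.blocks
  obtain ⟨α, hα⟩ := card_pos.1 ((h3 l hl).symm ▸ Nat.sub_pos_of_lt (h.getD hl).2)
  exact ⟨α, (mem_filter.1 hα).1, (h2 l hl α).2 (mem_filter.1 hα)⟩

omit [Fintype F] in
/-- the refinement: `g_l = d * (g_l /ₘ d)`; `List.perm_cons_eraseIdx`-like:
`(gs.getD l [] :: gs.eraseIdx l).Perm gs` (`List.getElem_cons_eraseIdx_perm`) -/
theorem Cv.Fac.refine {gs : List Pol} (h : E.Fac ψ gs) (hh : Hom c.A ψ) {l : ℕ} (hl : l < gs.length)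
    {d : Pol} (hd : Mon ψ d) (h2 : 2 ≤ d.length) (hlt : d.length < (gs.getD l []).length)
    (hdvd : poly ψ d ∣ poly ψ (gs.getD l [])) :
    E.Fac ψ (d :: c.A.pdiv (gs.getD l []) d :: gs.eraseIdx l) := by
  refine ⟨fun P hP => ?_, ?_⟩
  · rcases List.mem_cons.1 hP with rfl | hP
    · exact ⟨hd, h2⟩
    rcases List.mem_cons.1 hP with rfl | hP
    · exact ⟨hh.mon_pdiv hd (h.getD hl).1 hlt.le, by rw [length_pdiv]; omega⟩
    · exact h.mon P (List.mem_of_mem_eraseIdx hP)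
  · have h1 := modByMonic_add_div (poly ψ (gs.getD l [])) (poly ψ d)
    rw [(modByMonic_eq_zero_iff_dvd hd.monic).2 hdvd, zero_add] at h1
    rw [List.map_cons, List.map_cons, List.prod_cons, List.prod_cons, ← mul_assoc, hh.pdiv hd, h1,
      List.getD_eq_getElem _ _ hl, ← List.prod_cons, ← List.map_cons,
      ((List.getElem_cons_eraseIdx_perm hl).map _).prod_eq]
    exact h.prod

theorem LocA.fac_gm (h : LocA c ψ E) : E.Fac ψ [c.gm] := ⟨fun P hP => by
    rw [List.mem_singleton.1 hP]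
    exact ⟨h.mon, by have := h.len; have := E.two_le_m; omega⟩, by simpa using h.gm⟩

omit [Fintype F] in
/-- `Wsum_eq_zero_iff`, `blocks`, `exists_root` -/
theorem Cv.Fac.wsum_eq_zero_iff {gs : List Pol} (h : E.Fac ψ gs) (v : ℕ → ℤ) :
    E.Wsum (bw ψ gs v) = 0 ↔ ∃ t : ℤ, ∀ l < gs.length, v l ≡ t [ZMOD E.r] := by
  obtain ⟨β, h1, h2, -, -, h5⟩ := h.blocks
  rw [E.Wsum_eq_zero_iff]
  refine exists_congr fun t => ⟨fun ht l hl => ?_, fun ht α hα => ?_⟩
  · obtain ⟨α, hα, h3⟩ := h.exists_root hl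
    rw [← ((h2 l hl α).1 h3).2, ← h5 v α hα]
    exact ht α hα
  · rw [h5 v α hα]
    exact ht _ (h1 α hα)

omit [Fintype F] in
/-- `Wsum_congr` -/
theorem wsum_bw_congr (ψ : Vec → F) (gs : List Pol) {v v' : ℕ → ℤ}
    (h : ∀ l < gs.length, v l ≡ v' l [ZMOD E.r]) : E.Wsum (bw ψ gs v) = E.Wsum (bw ψ gs v') := by
  refine E.Wsum_congr fun α _ => Int.ModEq.sum fun l hl => ?_
  split_ifs
  exacts [h l (mem_range.1 hl), Int.ModEq.refl _]

omit [Fintype F] in
/-- `Wsum_sum`, `Wsum_smul` -/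
theorem wsum_bw_sum (ψ : Vec → F) (gs : List Pol) (s : Finset ℕ) (n : ℕ → ℤ) (v : ℕ → ℕ → ℤ) :
    ∑ l ∈ s, n l • E.Wsum (bw ψ gs (v l)) = E.Wsum (bw ψ gs fun j => ∑ l ∈ s, n l * v l j) := by
  simp only [← E.Wsum_smul]
  rw [← E.Wsum_sum]
  congr 1
  funext α
  simp only [bw, Finset.sum_apply, Pi.smul_apply, smul_eq_mul, mul_sum]
  rw [sum_comm]
  refine sum_congr rfl fun j _ => ?_
  split_ifs <;> simp

end Crest.Agent.R312
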