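import Mathlib

/-!
# R312 / A3MathA : pure lemmas (no programs) used by `splitOdd`
-/

set_option autoImplicit false

namespace Crest.Agent.R312

open Polynomial Finset

variable {F : Type} [Field F]

/-- `x^((q-1)/r)` is an `r`-th root of unity (`FiniteField.pow_card_sub_one_eq_one`,
`IsPrimitiveRoot.eq_pow_of_pow_eq_one`). -/
theorem m_exists_ind [Fintype F] {r : ℕ} (hr : 0 < r) {ζ : F} (hζ : IsPrimitiveRoot ζ r)
    (hq : r ∣ Fintype.card F - 1) {x : F} (hx : x ≠ 0) :
    ∃ c < r, x ^ ((Fintype.card F - 1) / r) = ζ ^ c := by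
  have : NeZero r := ⟨hr.ne'⟩
  have h : (x ^ ((Fintype.card F - 1) / r)) ^ r = 1 := by
    rw [← pow_mul, Nat.div_mul_cancel hq, FiniteField.pow_card_sub_one_eq_one x hx]
  obtain ⟨c, hc, e⟩ := hζ.eq_pow_of_pow_eq_one h
  exact ⟨c, hc, e.symm⟩

/-- `Fˣ` is cyclic: write `x = γ^j`, then `q - 1 ∣ j (q-1)/r`, so `r ∣ j`. -/
theorem m_exists_root [Fintype F] {r : ℕ} (hr : 0 < r) (hq : r ∣ Fintype.card F - 1) {x : F}
    (hx : x ≠ 0) (h : x ^ ((Fintype.card F - 1) / r) = 1) : ∃ y : F, y ^ r = x := by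
  classical
  obtain ⟨g, hg⟩ := IsCyclic.exists_monoid_generator (α := Fˣ)
  obtain ⟨j, hj⟩ := hg (Units.mk0 x hx)
  have hj' : (g : F) ^ j = x := by simpa using congrArg Units.val hj
  have ho : orderOf g = Fintype.card F - 1 := by
    rw [orderOf_eq_card_of_forall_mem_powers hg, Nat.card_eq_fintype_card, Fintype.card_units]
  obtain ⟨m, hm⟩ := hq
  have hm0 : 0 < m := Nat.pos_of_ne_zero fun h0 => by
    have := Fintype.one_lt_card (α := F)
    rw [h0] at hm; omega
  rw [hm, Nat.mul_div_cancel_left _ hr, ← hj', ← pow_mul] at h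
  have h1 : orderOf g ∣ j * m := orderOf_dvd_of_pow_eq_one (Units.ext (by simpa using h))
  rw [ho, hm] at h1
  obtain ⟨t, rfl⟩ := Nat.dvd_of_mul_dvd_mul_right hm0 h1
  exact ⟨(g : F) ^ t, by rw [← hj', ← pow_mul, mul_comm]⟩

/-- `γ^((q-1)/r) ≠ 1` has `r`-th power `1`, `r` prime (`IsPrimitiveRoot.iff_orderOf`, `orderOf_eq_prime`). -/
theorem m_primitive [Fintype F] {r : ℕ} (hr : r.Prime) (hq : r ∣ Fintype.card F - 1) {γ : F}
    (h0 : γ ≠ 0) (h1 : γ ^ ((Fintype.card F - 1) / r) ≠ 1) :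
    IsPrimitiveRoot (γ ^ ((Fintype.card F - 1) / r)) r := by
  have := Fact.mk hr
  refine IsPrimitiveRoot.iff_orderOf.2 (orderOf_eq_prime ?_ h1)
  rw [← pow_mul, Nat.div_mul_cancel hq, FiniteField.pow_card_sub_one_eq_one γ h0]

/-- Kronecker substitution is injective (induction on `J`; or compare the coefficients `D j + i`). -/
theorem m_kron {D J : ℕ} {P : ℕ → F[X]} (hP : ∀ j < J, (P j).degree < D)
    (h : ∑ j ∈ range J, X ^ (D * j) * P j = 0) : ∀ j < J, P j = 0 := by
  induction J with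
  | zero => simp
  | succ J ih =>
    have hJ : P J = 0 := by
      by_contra hne
      rw [sum_range_succ] at h
      have h1 : (∑ j ∈ range J, X ^ (D * j) * P j).degree < ((D * J : ℕ) : WithBot ℕ) := by
        refine (degree_sum_le _ _).trans_lt ((Finset.sup_lt_iff (WithBot.bot_lt_coe _)).2 fun j hj => ?_)
        have hj' := mem_range.1 hj
        rw [degree_mul, degree_X_pow]
        refine (WithBot.add_lt_add_left (WithBot.coe_ne_bot) (hP j (by omega))).trans_le ?_
        have : D * j + D ≤ D * J := by rw [← Nat.mul_succ]; exact Nat.mul_le_mul_left _ hj'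
        exact WithBot.coe_le_coe.2 this
      rw [eq_neg_of_add_eq_zero_left h, degree_neg, degree_mul, degree_X_pow, degree_eq_natDegree hne] at h1
      have : D * J + (P J).natDegree < D * J := by exact_mod_cast h1
      omega
    rw [sum_range_succ, hJ, mul_zero, add_zero] at h
    intro j hj
    rcases Nat.lt_succ_iff_lt_or_eq.1 hj with h1 | rfl
    · exact ih (fun j hj => hP j (by omega)) h j h1
    · exact hJ

/-- A polynomial that vanishes at all roots of a separable split `g` is divisible by `g`. -/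
theorem m_dvd_of_roots {g P : F[X]} (hs : g.Splits) (hsep : g.Separable)
    (h : ∀ α ∈ g.roots, P.eval α = 0) : g ∣ P := by
  classical
  by_cases hP : P = 0
  · simp [hP]
  refine hs.dvd_of_roots_le_roots hsep.ne_zero ?_
  exact (Multiset.le_iff_subset (nodup_roots hsep)).2 fun α hα => (mem_roots hP).2 (h α hα)

/-- `deg g ≡ -1`, `deg P^r ≡ 0 (mod r)`. -/
theorem m_add_pow_ne {g P : F[X]} {r : ℕ} (hr : 2 ≤ r) (hg : r ∣ g.natDegree + 1) :
    g + P ^ r ≠ 0 := by
  intro h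
  have h1 : g.natDegree = r * P.natDegree := by
    rw [eq_neg_of_add_eq_zero_left h, natDegree_neg, natDegree_pow]
  rw [h1] at hg
  have := Nat.le_of_dvd one_pos ((Nat.dvd_add_right (dvd_mul_right r _)).1 hg)
  omega

/-- Removing the part of `μ` supported on `g`: if `e` generates `(μ, g^N)` with `N ≥ deg μ` then `μ / e` is
coprime to `g`.  (If an irreducible `π` divides `μ/e` and `g`, let `k` be the multiplicity of `π` in `μ`,
`k ≤ deg μ ≤ N`, so `π^k ∣ μ`, `π^k ∣ g^N`, hence `π^k ∣ e` and `π^(k+1) ∣ μ`.) -/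
theorem m_flat {μ g e : F[X]} (hμ : μ.Monic) (he : e.Monic) {N : ℕ} (hN : μ.natDegree ≤ N)
    (h : Ideal.span {e} = Ideal.span {μ, g ^ N %ₘ μ}) :
    μ = μ /ₘ e * e ∧ IsCoprime (μ /ₘ e) g ∧ e ∣ g ^ N ∧ (IsCoprime μ g → e = 1) := by
  have hmod : g ^ N %ₘ μ = g ^ N - μ * (g ^ N /ₘ μ) := eq_sub_of_add_eq (modByMonic_add_div _ _)
  have h1 : e ∣ μ := Ideal.mem_span_singleton.1 (h ▸ Ideal.subset_span (by simp))
  have h2 : e ∣ g ^ N %ₘ μ := Ideal.mem_span_singleton.1 (h ▸ Ideal.subset_span (by simp))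
  have h3 : e ∣ g ^ N := by
    rw [← modByMonic_add_div (g ^ N) μ]
    exact dvd_add h2 (h1.mul_right _)
  have h4 : μ = μ /ₘ e * e := by
    conv_lhs => rw [← modByMonic_add_div μ e, (modByMonic_eq_zero_iff_dvd he).2 h1, zero_add, mul_comm]
  obtain ⟨a, b, hab⟩ := Ideal.mem_span_pair.1 (h ▸ Ideal.mem_span_singleton_self e)
  refine ⟨h4, ?_, h3, fun hc => ?_⟩
  · refine isCoprime_of_irreducible_dvd (fun h0 => hμ.ne_zero (by rw [h4, h0.1, zero_mul])) fun π hπ hπ1 hπ2 => ?_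
    obtain ⟨k, ν, hν, hk⟩ := WfDvdMonoid.max_power_factor hμ.ne_zero hπ
    have hkN : k ≤ N := by
      have h5 := natDegree_le_of_dvd (Dvd.intro _ hk.symm) hμ.ne_zero
      rw [natDegree_pow] at h5
      have := hπ.natDegree_pos
      nlinarith
    have h5 : π ^ k ∣ μ := Dvd.intro _ hk.symm
    have h6 : π ^ k ∣ g ^ N := (pow_dvd_pow_of_dvd hπ2 k).trans (pow_dvd_pow g hkN)
    have h7 : π ^ k ∣ e := by
      rw [← hab, hmod]
      exact dvd_add (h5.mul_left _) ((dvd_sub h6 (h5.mul_right _)).mul_left _)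
    have h8 : π ^ k * π ∣ π ^ k * ν := by
      rw [← hk, h4, mul_comm]
      exact mul_dvd_mul hπ1 h7
    exact hν ((mul_dvd_mul_iff_left (pow_ne_zero _ hπ.ne_zero)).1 h8)
  · exact he.isUnit_iff.1 ((hc.pow_right (n := N)).isUnit_of_dvd' h1 h3)

/-- Vandermonde: `∑_b u b * b^k = 0` for all `k < |S|` forces `u = 0` on `S`
(test against the Lagrange polynomial `∏_{b ≠ a} (X - b)`, which has degree `< |S|`). -/
theorem m_vdm (S : Finset F) (u : F → F) (h : ∀ k < S.card, ∑ b ∈ S, u b * b ^ k = 0) :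
    ∀ b ∈ S, u b = 0 := by
  classical
  intro a ha
  set L : F[X] := ∏ b ∈ S.erase a, (X - C b) with hL
  have hdeg : L.natDegree < S.card := by
    rw [hL, natDegree_finsetProd_X_sub_C_eq_card, card_erase_of_mem ha]
    have := card_pos.2 ⟨a, ha⟩
    omega
  have h1 : ∑ b ∈ S, u b * L.eval b = 0 := by
    simp only [eval_eq_sum_range' hdeg, mul_sum]
    rw [sum_comm]
    refine sum_eq_zero fun k hk => ?_
    have := h k (mem_range.1 hk)
    calc ∑ b ∈ S, u b * (L.coeff k * b ^ k) = L.coeff k * ∑ b ∈ S, u b * b ^ k := by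
          rw [mul_sum]; exact sum_congr rfl fun b _ => by ring
      _ = 0 := by rw [this, mul_zero]
  rw [sum_eq_single_of_mem a ha fun b hb hne => by
    rw [hL, eval_prod, prod_eq_zero (mem_erase.2 ⟨hne, hb⟩) (by simp), mul_zero]] at h1
  refine (mul_eq_zero.1 h1).resolve_right ?_
  rw [hL, eval_prod]
  exact prod_ne_zero_iff.2 fun b hb => by simpa [sub_eq_zero] using (mem_erase.1 hb).1.symm

/-- `D + 1` vectors in `(ZMod r)^D` are dependent (`LinearIndependent.fintype_card_le_finrank`,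
`Fintype.not_linearIndependent_iff`); take `ZMod.val` of the coefficients. -/
theorem m_dep {r : ℕ} (hr : r.Prime) (D : ℕ) (v : ℕ → ℕ → ℕ) :
    ∃ c : ℕ → ℕ, (∃ i < D + 1, ¬ r ∣ c i) ∧ ∀ j < D, r ∣ ∑ i ∈ range (D + 1), c i * v i j := by
  have := Fact.mk hr
  let w : Fin (D + 1) → Fin D → ZMod r := fun i j => v i j
  have h : ¬ LinearIndependent (ZMod r) w := fun h => by
    simpa using h.fintype_card_le_finrank
  obtain ⟨g, hg, i, hi⟩ := Fintype.not_linearIndependent_iff.1 h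
  refine ⟨fun i => if h : i < D + 1 then (g ⟨i, h⟩).val else 0, ⟨i, i.2, ?_⟩, fun j hj => ?_⟩
  · simp only [i.2, dif_pos]
    rw [← ZMod.natCast_eq_zero_iff]
    simpa using hi
  · rw [← ZMod.natCast_eq_zero_iff, ← Fin.sum_univ_eq_sum_range fun i =>
      (if h : i < D + 1 then (g ⟨i, h⟩).val else 0) * v i j]
    have := congrFun hg ⟨j, hj⟩
    simpa [w, Fin.is_le] using this

/-- A common exponent for finitely many finite groups: write `∏_a |G a| = r^k e` with `e` prime to `r`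
(`Nat.exists_eq_pow_mul_and_not_dvd`), `card_nsmul_eq_zero'`. -/
theorem m_exp {ι : Type} [Fintype ι] (G : ι → Type) [∀ a, AddCommGroup (G a)] [∀ a, Finite (G a)]
    {r : ℕ} (hr : r.Prime) : ∃ e k : ℕ, e.Coprime r ∧ ∀ a, ∀ x : G a, (r ^ k * e) • x = 0 := by
  have h0 : ∏ a, Nat.card (G a) ≠ 0 := prod_ne_zero_iff.2 fun a _ => Nat.card_pos.ne'
  obtain ⟨k, e, he, h⟩ := Nat.exists_eq_pow_mul_and_not_dvd h0 r hr.ne_one
  refine ⟨e, k, ((Nat.Prime.coprime_iff_not_dvd hr).2 he).symm, fun a x => ?_⟩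
  obtain ⟨m, hm⟩ := dvd_prod_of_mem (fun a => Nat.card (G a)) (mem_univ a)
  rw [← h, hm, mul_comm, mul_smul, card_nsmul_eq_zero', smul_zero]

end Crest.Agent.R312
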