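import Crest.Agent.R312.A3Defs
import Crest.Agent.R312.A3MathA

/-!
# R312 / A3Lin : Kronecker substitution, kernels, gcd
Read `A3Prog.lean` and `A3Defs.lean` first.  Keep the statements; auxiliary lemmas get the prefix `a3l_`.
-/

set_option autoImplicit false

noncomputable section

namespace Crest.Agent.R312

open Crest.Agent.Lib.PT Polynomial Finset

variable {F : Type} [Field F] [Fintype F] {c : Cx} {ψ : Vec → F} {E : Cv F}
  {S : Type} {φ : Vec → S → F} {Es : S → Cv F}

omit [Fintype F] in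
/-- `Hom.psum`, `Hom.pshift`, `cm_eq` -/
theorem poly_kron (h : Hom c.A ψ) (D J : ℕ) (l : List Pol) :
    poly ψ (c.kron D J l) = ∑ j ∈ range J, X ^ (D * j) * poly ψ (l.getD j []) := by
  rw [Cx.kron, h.psum, List.map_map, a0a_sum_range]
  refine sum_congr rfl fun j hj => ?_
  rw [Function.comp_apply, h.pshift, cm_eq (mem_range.1 hj).le]

omit [Fintype F] in
theorem degree_kron_lt (h : Hom c.A ψ) {D J : ℕ} {l : List Pol}
    (hl : ∀ j < J, (poly ψ (l.getD j [])).degree < D) :
    (poly ψ (c.kron D J l)).degree < (D * J : ℕ) := by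
  rw [poly_kron h, ← mem_degreeLT]
  refine Submodule.sum_mem _ fun j hj => mem_degreeLT.2 ?_
  have h1 := mem_range.1 hj
  refine (degree_lt_iff_coeff_zero _ _).2 fun m hm => ?_
  have h2 : D * (j + 1) ≤ D * J := Nat.mul_le_mul_left _ h1
  rw [Nat.mul_succ] at h2
  rw [coeff_X_pow_mul', if_pos (by omega)]
  exact (degree_lt_iff_coeff_zero _ _).1 (hl j h1) _ (by omega)

omit [Fintype F] in
/-- A relation between Kronecker images is a relation in every component (`poly_kron`, swap the sums, `m_kron`;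
`degree_sum_lt`-like bound through `Polynomial.degreeLT` or `degree_sum_le`). -/
theorem kron_rel_iff (h : Hom c.A ψ) {ι : Type} (s : Finset ι) (μ : ι → F) {D J : ℕ} (M : ι → List Pol)
    (hM : ∀ i ∈ s, ∀ j < J, (poly ψ ((M i).getD j [])).degree < D) :
    ∑ i ∈ s, C (μ i) * poly ψ (c.kron D J (M i)) = 0 ↔
      ∀ j < J, ∑ i ∈ s, C (μ i) * poly ψ ((M i).getD j []) = 0 := by
  have e : ∑ i ∈ s, C (μ i) * poly ψ (c.kron D J (M i)) =
      ∑ j ∈ range J, X ^ (D * j) * ∑ i ∈ s, C (μ i) * poly ψ ((M i).getD j []) := by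
    simp only [poly_kron h, mul_sum]
    rw [sum_comm]
    exact sum_congr rfl fun j _ => sum_congr rfl fun i _ => mul_left_comm _ _ _
  rw [e]
  refine ⟨m_kron fun j hj => ?_, fun H => sum_eq_zero fun j hj => ?_⟩
  · rw [← mem_degreeLT]
    refine Submodule.sum_mem _ fun i hi => ?_
    rw [← smul_eq_C_mul]
    exact Submodule.smul_mem _ _ (mem_degreeLT.2 (hM i hi j hj))
  · rw [H j (mem_range.1 hj), mul_zero]

theorem a3l_sub {α : Type} {M : List (List α)} {i : ℕ} : (M.getD i []).Sublist M.flatten := by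
  by_cases hi : i < M.length
  · rw [List.getD_eq_getElem _ _ hi]
    exact List.sublist_flatten_of_mem (List.getElem_mem hi)
  · rw [List.getD_eq_default _ _ (not_lt.1 hi)]
    exact List.nil_sublist _

omit [Fintype F] in
/-- With `D = M.flatten.flatten.length`, `J = M.flatten.length`: every entry has length `≤ D` (`degree_poly_lt`),
every row has length `≤ J` (so for `j ≥ J` all entries are `[]`). -/
theorem kerL_rel_iff (h : Hom c.A ψ) (M : List (List Pol)) (μ : ℕ → F) :
    ∑ i ∈ range M.length, C (μ i) *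
        poly ψ ((M.map (c.kron M.flatten.flatten.length M.flatten.length)).getD i []) = 0 ↔
      ∀ j, ∑ i ∈ range M.length, C (μ i) * poly ψ ((M.getD i []).getD j []) = 0 := by
  rw [sum_congr rfl fun i hi => by
    rw [List.getD_eq_getElem _ _ (by simpa using hi), List.getElem_map,
      ← List.getD_eq_getElem _ [] (mem_range.1 hi)],
    kron_rel_iff h _ μ (fun i => M.getD i []) fun i _ j _ => (degree_poly_lt _ _).trans_le (by
      exact_mod_cast (a3l_sub.trans a3l_sub.flatten).length_le)]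
  refine ⟨fun H j => ?_, fun H j _ => H j⟩
  by_cases hj : j < M.flatten.length
  · exact H j hj
  · refine sum_eq_zero fun i _ => ?_
    rw [List.getD_eq_default _ _ (a3l_sub.length_le.trans (not_lt.1 hj)), poly_nil, mul_zero]

theorem a3l_sum {M π : Type} [AddCommMonoid M] [DecidableEq π] {pos : List π} (hn : pos.Nodup)
    (g : π → M) (G : ℕ → M) (h : ∀ i (hi : i < pos.length), G i = g pos[i]) :
    ∑ x ∈ pos.toFinset, g x = ∑ i ∈ range pos.length, G i := by
  rw [List.sum_toFinset _ hn, ← a0a_sum_range]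
  congr 1
  refine List.ext_getElem (by simp) fun i h1 _ => ?_
  simp [h i (by simpa using h1)]

theorem a3l_getD {π κ : Type} {pos : List π} {cn : List κ} (f : π → κ → Pol) {i j : ℕ}
    (hi : i < pos.length) (hj : j < cn.length) :
    ((pos.map fun x => cn.map (f x)).getD i []).getD j [] = f pos[i] cn[j] := by
  simp [List.getD_eq_getElem?_getD, hi, hj]

omit [Fintype F] in
/-- `kerA_mem`, `kerL_rel_iff`; a sum over `pos.toFinset` is a sum over `range pos.length`
(`List.sum_toFinset` / `Finset.sum_bij` with `List.idxOf`, `List.idxOf_getElem`) -/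
theorem kerL_mem (hp : c.A.p.Prime) (h : Iso c.A φ) {π κ : Type} [DecidableEq π] [BEq π] [LawfulBEq π]
    {pos : List π}
    (hn : pos.Nodup) {cn : List κ} {f : π → κ → Pol} {lam : List Vec}
    (hl : lam ∈ c.kerL (pos.map fun x => cn.map (f x))) :
    lam.length = pos.length ∧ (∃ a, ∃ x ∈ pos, φ (lam.getD (pos.idxOf x) []) a ≠ 0) ∧
      ∀ a, ∀ t ∈ cn, ∑ x ∈ pos.toFinset,
        C (φ (lam.getD (pos.idxOf x) []) a) * poly (pt φ a) (f x t) = 0 := by
  obtain ⟨a1, ⟨a, i, a2, a3⟩, a4⟩ := kerA_mem hp h hl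
  simp only [List.length_map] at a1 a2 a4
  refine ⟨a1, ⟨a, pos[i], List.getElem_mem a2, by rwa [hn.idxOf_getElem]⟩, fun a t ht => ?_⟩
  obtain ⟨j, hj, rfl⟩ := List.getElem_of_mem ht
  have := (kerL_rel_iff (h.hom.pt a) (pos.map fun x => cn.map (f x))
    fun i => φ (lam.getD i []) a).1 (by simpa only [List.length_map] using a4 a) j
  rw [List.length_map] at this
  exact (a3l_sum hn _ _ fun i hi => by rw [hn.idxOf_getElem, a3l_getD f hi hj]).trans this

omit [Fintype F] in
/-- `kerA_span` (the span of the empty set is `⊥`), `kerL_rel_iff` -/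
theorem kerL_nil (hp : c.A.p.Prime) (h : Iso c.A φ) {π κ : Type} [DecidableEq π] {pos : List π}
    (hn : pos.Nodup) {cn : List κ} {f : π → κ → Pol}
    (hl : c.kerL (pos.map fun x => cn.map (f x)) = []) (a : S) (μ : π → F)
    (hμ : ∀ t ∈ cn, ∑ x ∈ pos.toFinset, C (μ x) * poly (pt φ a) (f x t) = 0) :
    ∀ x ∈ pos, μ x = 0 := by
  have h1 := kerA_span hp h _ a (fun i => (pos[i]?.map μ).getD 0) (by
    rw [List.length_map]
    refine (kerL_rel_iff (h.hom.pt a) (pos.map fun x => cn.map (f x)) _).2 fun j => ?_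
    rw [List.length_map]
    by_cases hj : j < cn.length
    · exact (a3l_sum hn _ _ fun i hi => by rw [a3l_getD f hi hj]; simp [hi]).symm.trans
        (hμ _ (List.getElem_mem hj))
    · refine sum_eq_zero fun i hi => ?_
      rw [List.getD_eq_default _ _ (by simpa [List.getD_eq_getElem?_getD, mem_range.1 hi] using hj),
        poly_nil, mul_zero])
  rw [Cx.kerL] at hl
  simp only [hl, List.not_mem_nil, Set.ofPred_false, Set.image_empty, Submodule.span_empty,
    Submodule.mem_bot] at h1
  intro x hx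
  obtain ⟨i, hi, rfl⟩ := List.getElem_of_mem hx
  simpa [hi] using congrFun h1 ⟨i, by simpa using hi⟩

/-- `pgcd_inl`, `pgcd_inr`, `List.take_of_length_le`, `mon_all`, `Mon.pt` -/
theorem gcd_good (h : Ok c φ Es) (gs : List Pol) {μ : Pol} (hμ : ∀ a, Mon (pt φ a) μ) (G : List Pol) :
    Good (GE φ Es gs) (fun d => d.length ≤ μ.length ∧ ∀ a, Mon (pt φ a) d ∧
      Ideal.span {poly (pt φ a) d} = Ideal.span (poly (pt φ a) '' {P | P ∈ μ :: G})) (c.gcd μ G) := by
  have := h.ne
  unfold Cx.gcd
  rw [h.q]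
  cases e : c.A.pgcd (Fintype.card F) μ G with
  | inl w => exact pgcd_inl h.iso e
  | inr d =>
    obtain ⟨a1, a2, a3⟩ := pgcd_inr h.prime h.iso (mon_all hμ) e
    simp only [Sum.elim_inr, good_inr, List.take_of_length_le a2]
    exact ⟨a2, fun a => ⟨a1.pt a, a3 a⟩⟩

/-- `monicize_inl`, `monicize_pt` -/
theorem mon_good (h : Ok c φ Es) (gs : List Pol) {P : Pol} (hP : ∃ a, poly (pt φ a) P ≠ 0) :
    Good (GE φ Es gs) (fun Q => ∀ a, Mon (pt φ a) Q ∧
      Associated (poly (pt φ a) P) (poly (pt φ a) Q)) (c.mon P) := by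
  unfold Cx.mon
  rw [h.q]
  cases e : c.A.monicize (Fintype.card F) P with
  | inl w => exact monicize_inl h.iso e
  | inr d =>
    obtain ⟨a1, -, a3⟩ := monicize_pt h.iso hP e
    exact fun a => ⟨a1.pt a, a3 a⟩

end Crest.Agent.R312
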