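import Crest.Agent.R312.A3R
import Crest.Agent.R312.A3Lin

/-!
# R312 / A3Id : ideal arithmetic
Read `A3Prog.lean` and `A3Defs.lean` first.  Keep the statements; auxiliary lemmas get the prefix `a3i_`.
-/

set_option autoImplicit false

noncomputable section

namespace Crest.Agent.R312

open Crest.Agent.Lib.PT Polynomial Finset

variable {F : Type} [Field F] [Fintype F] {c : Cx} {ψ : Vec → F} {E : Cv F}
  {S : Type} {φ : Vec → S → F} {Es : S → Cv F}

/-- `≤`: the list is a sublist (`basisA_sublist`) of the reduced generators, and `rel (rmod u ν) = rel u - ν * _`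
(`rel_rmod_add`).  `≥`: by `basisA_span` (degrees: `degree_kron_lt`, `length_pmod`, `degree_poly_lt`) the key of
`x = rmod u ν` is an `F`-combination `∑ μ_y key y` of the keys of the sublist `B`
(`Finsupp.mem_span_image_iff_linearCombination`, or `Submodule.mem_span_image_finset_iff_exists_fun` for
`B.toFinset`).  Apply `kron_rel_iff` to the family indexed by `Option RE` (or subtract: index set `insert`), so the
same relation holds in each component, hence `rel x = ∑ of (C μ_y) * rel y` (`Cv.ext_comp`, `comp_rel`,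
`comp_of_mul`).  Alternative: the additive map `K : E.R → F[X]`, `u ↦ ∑_{j<r} X^(D j) comp j u` sends `rel y` to
`key y` and is injective on elements with components of degree `< D` (`m_kron`). -/
theorem idl_nrmI (h : LocA c ψ E) {ν : Pol} (hν : Mon ψ ν) (G : List RE) :
    E.idl ψ (c.nrmI ν G) = Ideal.span {E.of (poly ψ ν)} ⊔ E.spn ψ G := by
  have hdeg : ∀ x ∈ G.map fun u => c.rmod u ν, ∀ j < c.r, (poly ψ (x.getD j [])).degree < ν.length := by
    intro x hx j hj
    obtain ⟨u, -, rfl⟩ := List.mem_map.1 hx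
    rw [Cx.rmod, a3r_getD _ hj]
    refine (degree_poly_lt _ _).trans_le ?_
    rw [length_pmod]
    exact_mod_cast Nat.sub_le _ _
  have hkey : ∀ x : RE, poly ψ (c.kron ν.length c.r x) =
      ∑ j ∈ range E.r, X ^ (ν.length * j) * E.comp j (E.rel ψ x) := fun x => by
    rw [poly_kron h.hom, ← h.r]
    exact Finset.sum_congr rfl fun j hj => by rw [comp_rel ψ x (Finset.mem_range.1 hj)]
  have hsub := basisA_sublist c.A (ν.length * c.r) (c.kron ν.length c.r) (G.map fun u => c.rmod u ν)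
  rw [idl_eq]
  apply le_antisymm
  · refine sup_le le_sup_left (spn_le.2 fun x hx => ?_)
    obtain ⟨u, hu, rfl⟩ := List.mem_map.1 (hsub.subset hx)
    rw [eq_sub_of_add_eq (rel_rmod_add h hν u)]
    exact Ideal.sub_mem _ (Ideal.mem_sup_right (rel_mem_spn ψ hu))
      (Ideal.mem_sup_left (Ideal.mul_mem_right _ _ (Ideal.mem_span_singleton_self _)))
  · refine sup_le le_sup_left (spn_le.2 fun u hu => ?_)
    rw [← rel_rmod_add h hν u]
    refine Ideal.add_mem _ (Ideal.mem_sup_right ?_)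
      (Ideal.mem_sup_left (Ideal.mul_mem_right _ _ (Ideal.mem_span_singleton_self _)))
    have hx : c.rmod u ν ∈ G.map fun u => c.rmod u ν := List.mem_map.2 ⟨u, hu, rfl⟩
    have h1 := basisA_span h.prime h.hom (fun x hx => degree_kron_lt h.hom (hdeg x hx)) hx
    have h2 : ∀ w ∈ Submodule.span F ((fun y => poly ψ (c.kron ν.length c.r y)) ''
        {y | y ∈ c.A.basisA (ν.length * c.r) (c.kron ν.length c.r) (G.map fun u => c.rmod u ν)}),
        ∃ z ∈ E.spn ψ (c.nrmI ν G).2, (∀ j < E.r, E.comp j z ∈ degreeLT F ν.length) ∧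
          ∑ j ∈ range E.r, X ^ (ν.length * j) * E.comp j z = w := by
      intro w hw
      induction hw using Submodule.span_induction with
      | mem w hw =>
        obtain ⟨y, hy, rfl⟩ := hw
        refine ⟨_, rel_mem_spn ψ hy, fun j hj => ?_, (hkey y).symm⟩
        rw [comp_rel ψ y hj, mem_degreeLT]
        exact hdeg y (hsub.subset hy) j (h.r ▸ hj)
      | zero => exact ⟨0, Ideal.zero_mem _, fun j _ => by simp, by simp⟩
      | add w w' _ _ ih ih' =>
        obtain ⟨z, h1, h2, rfl⟩ := ih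
        obtain ⟨z', h1', h2', rfl⟩ := ih'
        refine ⟨z + z', Ideal.add_mem _ h1 h1', fun j hj => ?_, ?_⟩
        · rw [map_add]; exact Submodule.add_mem _ (h2 j hj) (h2' j hj)
        · simp only [map_add, mul_add, Finset.sum_add_distrib]
      | smul t w _ ih =>
        obtain ⟨z, h1, h2, rfl⟩ := ih
        refine ⟨E.of (C t) * z, Ideal.mul_mem_left _ _ h1, fun j hj => ?_, ?_⟩
        · rw [Cv.comp_of_mul, ← smul_eq_C_mul]; exact Submodule.smul_mem _ _ (h2 j hj)
        · rw [smul_eq_C_mul, Finset.mul_sum]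
          exact Finset.sum_congr rfl fun j _ => by rw [Cv.comp_of_mul]; ring
    obtain ⟨z, hz, h3, h4⟩ := h2 _ h1
    have h5 := m_kron (D := ν.length) (J := E.r)
      (P := fun j => E.comp j z - E.comp j (E.rel ψ (c.rmod u ν))) (fun j hj => by
        rw [← mem_degreeLT]
        refine Submodule.sub_mem _ (h3 j hj) ?_
        rw [comp_rel ψ _ hj, mem_degreeLT]
        exact hdeg _ hx j (h.r ▸ hj))
      (by simp only [mul_sub, Finset.sum_sub_distrib, h4, hkey, sub_self])
    rwa [← E.ext_comp fun j hj => sub_eq_zero.1 (h5 j hj)]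

/-- `idl_nrmI`, `spn_mul`; the product of the moduli lies in the product -/
theorem idl_imul (h : LocA c ψ E) {I J : ID} (hI : Mon ψ I.1) (hJ : Mon ψ J.1) :
    E.idl ψ (c.imul I J) = E.idl ψ I * E.idl ψ J ∧ Mon ψ (c.imul I J).1 ∧
      poly ψ (c.imul I J).1 = poly ψ I.1 * poly ψ J.1 := by
  refine ⟨?_, h.hom.mon_pmul hI hJ, h.hom.pmul _ _⟩
  rw [Cx.imul, idl_nrmI h (h.hom.mon_pmul hI hJ), spn_mul h, h.hom.pmul, map_mul]
  refine sup_eq_right.2 ((Ideal.span_singleton_le_iff_mem _).2 (Ideal.mul_mem_mul ?_ ?_))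
  · rw [← rel_single]; exact rel_mem_spn ψ List.mem_cons_self
  · rw [← rel_single]; exact rel_mem_spn ψ List.mem_cons_self

theorem idl_isig (h : LocA c ψ E) (i : ℕ) (I : ID) : E.idl ψ (c.isig i I) = E.sI i (E.idl ψ I) := by
  rw [idl_eq, idl_eq, Cv.sI_sup, Cv.sI_span_singleton, Cv.σ_pow_of, ← spn_rsig h]
  rfl

theorem idl_ione (h : LocA c ψ E) : E.idl ψ c.ione = ⊤ := by
  rw [idl_eq, Cx.ione, h.hom.pone, map_one, Ideal.span_singleton_one, top_sup_eq]

theorem idl_iprod (h : LocA c ψ E) {l : List ID} (hl : ∀ I ∈ l, Mon ψ I.1) :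
    E.idl ψ (c.iprod l) = (l.map (E.idl ψ)).prod ∧ Mon ψ (c.iprod l).1 ∧
      poly ψ (c.iprod l).1 = (l.map fun I => poly ψ I.1).prod := by
  induction l with
  | nil => exact ⟨(idl_ione h).trans Ideal.one_eq_top.symm, h.hom.mon_pone, h.hom.pone⟩
  | cons I l ih =>
    obtain ⟨h1, h2, h3⟩ := ih fun J hJ => hl J (List.mem_cons_of_mem _ hJ)
    obtain ⟨h4, h5, h6⟩ := idl_imul h (hl I List.mem_cons_self) h2
    rw [h1] at h4
    rw [h3] at h6
    exact ⟨h4, h5, h6⟩

theorem idl_isp (h : LocA c ψ E) {I : ID} (hI : Mon ψ I.1) {k : ℕ} (hk : k ≤ E.r) :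
    E.idl ψ (c.isp I k) = E.Ik (E.idl ψ I) k ∧ Mon ψ (c.isp I k).1 ∧
      poly ψ (c.isp I k).1 = poly ψ I.1 ^ k := by
  obtain ⟨h1, h2, h3⟩ := idl_iprod h (l := (List.range k).map fun i => c.isig i I) fun J hJ => by
    obtain ⟨i, -, rfl⟩ := List.mem_map.1 hJ
    exact hI
  rw [Cx.isp, cm_eq (h.r ▸ hk)]
  rw [List.map_map, a3r_prod_range] at h1 h3
  refine ⟨h1.trans (Finset.prod_congr rfl fun i _ => idl_isig h i I), h2, h3.trans ?_⟩
  simp [Cx.isig]

theorem val_imul (h : LocA c ψ E) {I J : ID} (hI : E.Val ψ I) (hJ : E.Val ψ J) :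
    E.Val ψ (c.imul I J) ∧ poly ψ (c.imul I J).1 = poly ψ I.1 * poly ψ J.1 ∧
      E.clA (E.idl ψ (c.imul I J)) = E.clA (E.idl ψ I) + E.clA (E.idl ψ J) := by
  obtain ⟨h1, h2, h3⟩ := idl_imul h hI.mon hJ.mon
  refine ⟨⟨h2, ?_, ?_⟩, h3, ?_⟩
  · rw [h1]; exact hI.cop.mul hJ.cop
  · rw [h1, h3]; exact hI.nu.mul hJ.nu
  · rw [h1, E.cl_mul hI.cop.ne_bot hJ.cop.ne_bot]

omit [Fintype F] in
theorem a3i_prod {M α : Type*} [CommMonoid M] (n : ℕ) (k : ℕ → ℕ) (t : ℕ → α) (f : α → M) :
    (((List.range n).flatMap fun l => List.replicate (k l) (t l)).map f).prod =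
      ∏ l ∈ range n, f (t l) ^ k l := by
  induction n with
  | zero => simp
  | succ n ih =>
    rw [List.range_succ, List.flatMap_append, List.map_append, List.prod_append, ih, Finset.prod_range_succ]
    simp

/-- `idl_iprod` gives `idl = ∏_l idl t_l ^ cs_l` (`List.prod_flatMap`-like: induction on the upper bound of the
range, `List.range_succ`, `List.prod_replicate`); `Cv.isNu_prod`, `IsNu.pow`, `cop_prod`, `cl_prod`, `cl_pow` -/
theorem val_ipp (h : LocA c ψ E) {T : List Ent} (hT : ∀ l < T.length, E.Val ψ (c.ent T l).1) {cs : Vec}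
    (hc : ∀ l, cs.getD l 0 < E.r) :
    E.Val ψ (c.ipp T cs) ∧
      poly ψ (c.ipp T cs).1 = ∏ l ∈ range T.length, poly ψ (c.ent T l).1.1 ^ cs.getD l 0 ∧
      E.clA (E.idl ψ (c.ipp T cs)) =
        ∑ l ∈ range T.length, cs.getD l 0 • E.clA (E.idl ψ (c.ent T l).1) := by
  obtain ⟨h1, h2, h3⟩ := idl_iprod h (l := (List.range T.length).flatMap fun l =>
      List.replicate (cm c.r (cs.getD l 0)) (c.ent T l).1) fun J hJ => by
    obtain ⟨l, hl, hJ⟩ := List.mem_flatMap.1 hJ
    rw [List.eq_of_mem_replicate hJ]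
    exact (hT l (List.mem_range.1 hl)).mon
  rw [a3i_prod] at h1 h3
  simp only [fun l => cm_eq (show cs.getD l 0 ≤ c.r from h.r ▸ (hc l).le)] at h1 h2 h3
  simp only [Cx.ipp, fun l => cm_eq (show cs.getD l 0 ≤ c.r from h.r ▸ (hc l).le)]
  refine ⟨⟨h2, ?_, ?_⟩, h3, ?_⟩
  · rw [h1]
    exact E.cop_prod _ _ fun l hl => (hT l (Finset.mem_range.1 hl)).cop.pow _
  · rw [h1, h3]
    exact E.isNu_prod _ _ _ fun l hl => (hT l (Finset.mem_range.1 hl)).nu.pow _
  · rw [h1, E.cl_prod _ _ fun l hl => ((hT l (Finset.mem_range.1 hl)).cop.pow _).ne_bot]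
    exact Finset.sum_congr rfl fun l hl => E.cl_pow (hT l (Finset.mem_range.1 hl)).cop.ne_bot _

end Crest.Agent.R312
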