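import Crest.Agent.R312.A3Arr
import Crest.Agent.R312.A3Id

/-!
# R312 / A3Cnd : the linear conditions that define `V_B`
Read `A3Prog.lean` and `A3Defs.lean` first.  Keep the statements; auxiliary lemmas get the prefix `a3c_`.
-/

set_option autoImplicit false

noncomputable section

namespace Crest.Agent.R312

open Crest.Agent.Lib.PT Polynomial Finset

variable {F : Type} [Field F] [Fintype F] {c : Cx} {ψ : Vec → F} {E : Cv F}
  {S : Type} {φ : Vec → S → F} {Es : S → Cv F}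

omit [Fintype F] in
theorem a3c_sum_mod {ι : Type} (s : Finset ι) (f : ι → F[X]) (m : F[X]) :
    (∑ i ∈ s, f i) %ₘ m = ∑ i ∈ s, f i %ₘ m :=
  map_sum (modByMonicHom m) f s

omit [Fintype F] in
theorem a3c_C_mul_mod (a : F) (p m : F[X]) : (C a * p) %ₘ m = C a * (p %ₘ m) := by
  rw [C_mul', C_mul', smul_modByMonic]

omit [Fintype F] in
theorem inl_mem_dcnd {I : ID} {k b : ℕ} {y : RE} :
    Sum.inl (k, y, b) ∈ c.dcnd I ↔ k < c.r ∧ y ∈ Cx.gens (c.isp I k) ∧ b < c.r := by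
  simp only [Cx.dcnd, List.mem_append, List.mem_flatMap, List.mem_map, List.mem_range, Sum.inl.injEq,
    Prod.mk.injEq, reduceCtorEq, and_false, exists_false, or_false]
  constructor
  · rintro ⟨k', hk, y', hy, b', hb, rfl, rfl, rfl⟩
    exact ⟨hk, hy, hb⟩
  · rintro ⟨hk, hy, hb⟩
    exact ⟨k, hk, y, hy, b, hb, rfl, rfl, rfl⟩

omit [Fintype F] in
theorem inr_mem_dcnd {I : ID} {s b : ℕ} : Sum.inr (s, b) ∈ c.dcnd I ↔ b < c.r ∧ s < b := by
  simp only [Cx.dcnd, List.mem_append, List.mem_flatMap, List.mem_map, List.mem_range, Sum.inr.injEq,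
    Prod.mk.injEq, reduceCtorEq, and_false, exists_false, false_or]
  constructor
  · rintro ⟨b', hb, s', hs, rfl, rfl⟩
    exact ⟨hb, by rwa [cm_eq hb.le] at hs⟩
  · rintro ⟨hb, hs⟩
    exact ⟨b, hb, s, by rwa [cm_eq hb.le], rfl, rfl⟩

/-- Each term with `x.1 = k` is `C (μ x) * (comp b (X^e Y^b' * rel y) %ₘ ν^k)` (`Hom.pmod`, `Hom.mon_ppow`,
`Hom.ppow`, `cm_eq`, `comp_rel`, `rel_rmul`, `rel_rmono`, `mem_dpos`); `%ₘ` is linear (`modByMonicHom`,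
`smul_modByMonic`, `add_modByMonic`), `comp b` is linear (`comp_of_mul`), `monomial e a = C a * X^e`. -/
theorem sum_dent_inl (h : LocA c ψ E) {ν : Pol} (hν : Mon ψ ν) (ω : Pol) (B : ℕ) (μ : Pos → F) {k b : ℕ}
    (hk : k < E.r) (hb : b < E.r) (y : RE) :
    ∑ x ∈ (c.dpos ν B).toFinset, C (μ x) * poly ψ (c.dent ν ω x (Sum.inl (k, y, b))) =
      E.comp b (E.arr (c.dpos ν B).toFinset μ k * E.rel ψ y) %ₘ poly ψ ν ^ k := by
  rw [Cv.arr, Finset.sum_mul, map_sum, a3c_sum_mod, Finset.sum_filter]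
  refine Finset.sum_congr rfl fun x hx => ?_
  obtain ⟨h1, h2, h3, -⟩ := mem_dpos.1 (List.mem_toFinset.1 hx)
  simp only [Cx.dent, Sum.elim_inl]
  by_cases hxk : x.1 = k
  · rw [if_pos hxk.symm, if_pos hxk, h.hom.pmod (h.hom.mon_ppow hν _), h.hom.ppow, cm_eq h1.le, hxk,
      ← comp_rel ψ _ hb, rel_rmul h, rel_rmono h h3 (h.r ▸ h2), ← C_mul_X_pow_eq_monomial, map_mul E.of,
      mul_assoc (E.of (C (μ x))), mul_assoc (E.of (C (μ x))), E.comp_of_mul (C (μ x)), a3c_C_mul_mod]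
  · rw [if_neg (Ne.symm hxk), if_neg hxk, poly_nil, mul_zero]

/-- `ζ^(r-1) = ζ⁻¹`; `comp s (arr T μ k) = ∑_{x ∈ T, x.1 = k, x.2.1 = s} monomial x.2.2 (μ x)`;
`Finset.sum_fiberwise_of_maps_to` for `x ↦ x.1 ∈ range r`; `(a * (b %ₘ m)) %ₘ m = (a * b) %ₘ m`
(compare modulo `m`: `modByMonic_eq_of_dvd_sub`, `modByMonic_add_div`). -/
theorem sum_dent_inr (h : LocA c ψ E) (ν ω : Pol) (B : ℕ) (μ : Pos → F) (s b : ℕ) :
    ∑ x ∈ (c.dpos ν B).toFinset, C (μ x) * poly ψ (c.dent ν ω x (Sum.inr (s, b))) =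
      (∑ k ∈ range E.r, C (E.ζ⁻¹ ^ (k * b)) * poly ψ ω ^ k *
        E.comp s (E.arr (c.dpos ν B).toFinset μ k)) %ₘ poly ψ c.gm := by
  have hζ : E.ζ ^ (E.r - 1) = E.ζ⁻¹ := by
    refine eq_inv_of_mul_eq_one_left ?_
    rw [← pow_succ, Nat.sub_add_cancel E.r_pos, E.hζ.pow_eq_one]
  have e : ∑ k ∈ range E.r, C (E.ζ⁻¹ ^ (k * b)) * poly ψ ω ^ k *
        E.comp s (E.arr (c.dpos ν B).toFinset μ k) =
      ∑ x ∈ (c.dpos ν B).toFinset, C (E.ζ⁻¹ ^ (x.1 * b)) * poly ψ ω ^ x.1 *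
        if s = x.2.1 then monomial x.2.2 (μ x) else 0 := by
    rw [← Finset.sum_fiberwise_of_maps_to (s := (c.dpos ν B).toFinset) (t := range E.r) (g := fun x => x.1)
      fun x hx => Finset.mem_range.2 (h.r ▸ (mem_dpos.1 (List.mem_toFinset.1 hx)).1)]
    refine Finset.sum_congr rfl fun k _ => ?_
    rw [Cv.arr, map_sum, Finset.mul_sum]
    refine Finset.sum_congr rfl fun x hx => ?_
    obtain ⟨hx', rfl⟩ := Finset.mem_filter.1 hx
    rw [E.comp_of_mul_Y_pow _ (h.r ▸ (mem_dpos.1 (List.mem_toFinset.1 hx')).2.1)]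
  rw [e, a3c_sum_mod]
  refine Finset.sum_congr rfl fun x hx => ?_
  obtain ⟨-, -, h3, -⟩ := mem_dpos.1 (List.mem_toFinset.1 hx)
  simp only [Cx.dent, Sum.elim_inr]
  by_cases hs : s = x.2.1
  · rw [if_pos hs, if_pos hs, h.hom.pmod h.mon, h.hom.psmul, h.hom.pmul, h.hom.ppowMod h.mon, poly_pmono h h3,
      h.hom.pow, h.ζ, ← h.r, pow_mul, hζ, ← a3c_C_mul_mod, ← C_mul_X_pow_eq_monomial]
    refine modByMonic_eq_of_dvd_sub h.mon.monic ?_
    refine ⟨-(C (μ x) * C (E.ζ⁻¹ ^ (x.1 * b)) * (poly ψ ω ^ x.1 /ₘ poly ψ c.gm) * X ^ x.2.2), ?_⟩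
    linear_combination (C (μ x) * C (E.ζ⁻¹ ^ (x.1 * b)) * X ^ x.2.2) *
      modByMonic_add_div (poly ψ ω ^ x.1) (poly ψ c.gm)
  · rw [if_neg hs, if_neg hs, poly_nil, mul_zero, mul_zero, zero_modByMonic]

/-- (i): `Ik = idl (isp I k) = span (rel '' gens)` (`idl_isp`), and `{v | u v ∈ (ν^k)}` is an ideal
(`Submodule.span_induction` or `Ideal.span_le` with `Submodule.colon`/`comap`); `Cv.of_dvd_iff`,
`modByMonic_eq_zero_iff_dvd`.  (ii): `h.gm`.  (iii): `le_arr`. -/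
theorem inV_arr_iff (h : LocA c ψ E) {I : ID} (hI : Mon ψ I.1) (ω : Pol) (B : ℕ) (μ : Pos → F) :
    E.InV (E.idl ψ I) (poly ψ I.1) (poly ψ ω) B (E.arr (c.dpos I.1 B).toFinset μ) ↔
      ∀ t ∈ c.dcnd I, ∑ x ∈ (c.dpos I.1 B).toFinset, C (μ x) * poly ψ (c.dent I.1 ω x t) = 0 := by
  constructor
  · rintro hV (⟨k, y, b⟩ | ⟨s, b⟩) ht
    · obtain ⟨hk, hy, hb⟩ := inl_mem_dcnd.1 ht
      rw [← h.r] at hk hb
      rw [sum_dent_inl h hI ω B μ hk hb, modByMonic_eq_zero_iff_dvd (hI.monic.pow k)]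
      refine E.of_dvd_iff.1 (Ideal.mem_span_singleton.1 (hV.mem k hk _ ?_)) b hb
      rw [← (idl_isp h hI hk.le).1]
      exact rel_mem_spn ψ hy
    · obtain ⟨hb, hs⟩ := inr_mem_dcnd.1 ht
      rw [← h.r] at hb
      rw [sum_dent_inr h, modByMonic_eq_zero_iff_dvd h.mon.monic, ← h.gm.dvd_iff_dvd_left]
      exact hV.loc b hb s hs
  · intro ht
    refine ⟨fun k hk v hv => ?_, fun b hb s hs => ?_, fun k _ => le_arr h hI B μ k⟩
    · rw [← (idl_isp h hI hk.le).1] at hv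
      have key : E.spn ψ (Cx.gens (c.isp I k)) ≤
          Submodule.comap (LinearMap.mulLeft E.R (E.arr (c.dpos I.1 B).toFinset μ k))
            (Ideal.span {E.of (poly ψ I.1 ^ k)}) := by
        refine spn_le.2 fun y hy => ?_
        refine Ideal.mem_span_singleton.2 (E.of_dvd_iff.2 fun b hb => ?_)
        have := ht _ (inl_mem_dcnd.2 ⟨h.r ▸ hk, hy, h.r ▸ hb⟩)
        rwa [sum_dent_inl h hI ω B μ hk hb, modByMonic_eq_zero_iff_dvd (hI.monic.pow k)] at this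
      exact key hv
    · have := ht _ (inr_mem_dcnd.2 ⟨h.r ▸ hb, hs⟩)
      rwa [sum_dent_inr h, modByMonic_eq_zero_iff_dvd h.mon.monic, ← h.gm.dvd_iff_dvd_left] at this

/-- `Cv.Jstar_eq_span` with `T k = rel '' gens (isp I k)`; `rel_rdiv`, `rel_rmul`; cancel `of (ν^k)`
(`R` is a domain, `Cv.of_injective`) -/
theorem spn_dgens (h : LocA c ψ E) {I : ID} (hI : Mon ψ I.1) {ω : F[X]} {B B' : ℕ} {lam : List Vec}
    (hV : E.InV (E.idl ψ I) (poly ψ I.1) ω B' fun k => E.rel ψ (c.du I.1 B lam k)) :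
    E.spn ψ (c.dgens I B lam) =
      E.Jstar (E.idl ψ I) (poly ψ I.1) fun k => E.rel ψ (c.du I.1 B lam k) := by
  rw [E.Jstar_eq_span hI.monic.ne_zero hV (fun k => E.rel ψ '' {u | u ∈ Cx.gens (c.isp I k)})
    fun k hk => (idl_isp h hI hk.le).1.symm]
  have key : ∀ k < E.r, ∀ y ∈ Cx.gens (c.isp I k), E.of (poly ψ I.1 ^ k) *
      E.rel ψ (c.rdiv (c.rmul (c.du I.1 B lam k) y) (c.A.ppow I.1 (cm c.r k))) =
      E.rel ψ (c.du I.1 B lam k) * E.rel ψ y := by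
    intro k hk y hy
    rw [cm_eq (h.r ▸ hk.le), ← h.hom.ppow, ← rel_rmul h]
    refine rel_rdiv h (h.hom.mon_ppow hI k) ?_
    rw [h.hom.ppow, rel_rmul h]
    refine Ideal.mem_span_singleton.1 (hV.mem k hk _ ?_)
    rw [← (idl_isp h hI hk.le).1]
    exact rel_mem_spn ψ hy
  unfold Cv.spn
  congr 1
  ext u
  simp only [Cx.dgens, Set.mem_image, Set.mem_ofPred_eq, List.mem_flatMap, List.mem_map, List.mem_range]
  constructor
  · rintro ⟨_, ⟨k, hk, y, hy, rfl⟩, rfl⟩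
    exact ⟨k, h.r ▸ hk, _, ⟨y, hy, rfl⟩, key k (h.r ▸ hk) y hy⟩
  · rintro ⟨k, hk, _, ⟨y, hy, rfl⟩, hu⟩
    refine ⟨_, ⟨k, h.r ▸ hk, y, hy, rfl⟩, ?_⟩
    have hne : E.of (poly ψ I.1 ^ k) ≠ 0 :=
      (map_ne_zero_iff _ E.of_injective).2 (pow_ne_zero k hI.monic.ne_zero)
    exact mul_left_cancel₀ hne ((key k hk y hy).trans hu.symm)

end Crest.Agent.R312
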