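import Crest.Agent.R312.A3Prog
import Crest.Agent.R312.A0
import Crest.Agent.R312.A2

/-!
# R312 / A3Defs : semantics and invariants of `splitOdd` (sub-lead: helper44).  DO NOT CHANGE.

Programs: `A3Prog.lean`.  Library: `A0Defs.lean` (`Hom`, `Iso`, `pt`, `poly`, `Mon`, `Wit`), curve: `A2Defs.lean`
(`Cv`, `comp`, `σ`, `nm`, `sI`, `Ik`, `Cop`, `IsNu`, `InV`, `Jstar`; class group in `A2Cl.lean`).
* `LocA c ψ E` : the situation at one root: `ψ : Vec → F` evaluates the elements of `A`, `E` is the curve.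
  Use `h.r : E.r = c.r` to rewrite `c.r` into `E.r` (`rw [← h.r]`), `h.q : c.q = Fintype.card F`.
* `Ok c φ E` : `φ : Vec → S → F` is an isomorphism `A ≃ F^S` and `LocA c (pt φ a) (E a)` holds for all `a`.
* A routine `s : Exc ⊕ β` is specified by `Good (GE φ E gs) P s` (`Good.bnd`, `Good.mono`, `good_mapR`, `iter_inv`).
-/

set_option autoImplicit false

noncomputable section

namespace Crest.Agent.R312

open Crest.Agent.Lib.PT Polynomial Finset

variable {F : Type} [Field F]

open Classical in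
/-- the function on the roots of `g` with the value `v l` on the roots of `g_l` -/
def bw (ψ : Vec → F) (gs : List Pol) (v : ℕ → ℤ) (α : F) : ℤ :=
  ∑ j ∈ range gs.length, if (poly ψ (gs.getD j [])).eval α = 0 then v j else 0

namespace Cv

variable (E : Cv F) (ψ : Vec → F)

/-- the value of an element of `RE` -/
def rel (u : RE) : E.R := ∑ b ∈ range E.r, E.of (poly ψ (u.getD b [])) * E.Y ^ b

/-- the ideal generated by a list -/
def spn (G : List RE) : Ideal E.R := Ideal.span (E.rel ψ '' {u | u ∈ G})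

/-- the value of an element of `ID` -/
def idl (I : ID) : Ideal E.R := E.spn ψ (Cx.gens I)

/-- the modulus is the norm `ν(I)` -/
structure Val (I : ID) : Prop where
  mon : Mon ψ I.1
  cop : E.Cop (E.idl ψ I)
  nu : E.IsNu (E.idl ψ I) (poly ψ I.1)

/-- `gs` is a factorisation of `g` into monic non-constant polynomials -/
structure Fac (gs : List Pol) : Prop where
  mon : ∀ P ∈ gs, Mon ψ P ∧ 2 ≤ P.length
  prod : Associated E.g (gs.map (poly ψ)).prod

/-- `o` is the obstruction vector of `ν` -/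
def Ob [Fintype F] (gs : List Pol) (ν : Pol) (o : Vec) : Prop :=
  ∀ l < gs.length, ∀ α, (poly ψ (gs.getD l [])).eval α = 0 →
    (poly ψ ν).eval α ^ ((Fintype.card F - 1) / E.r) = E.ζ ^ o.getD l 0

/-- the tuple with the coefficients `μ` at the positions `T` -/
def arr (T : Finset Pos) (μ : Pos → F) (k : ℕ) : E.R :=
  ∑ x ∈ T.filter (fun x => x.1 = k), E.of (monomial x.2.2 (μ x)) * E.Y ^ x.2.1

end Cv

variable [Fintype F]

/-- the situation at one root -/
structure LocA (c : Cx) (ψ : Vec → F) (E : Cv F) : Prop where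
  hom : Hom c.A ψ
  prime : c.A.p.Prime
  r : E.r = c.r
  q : c.q = Fintype.card F
  ζ : ψ c.ζ = E.ζ
  g : poly ψ c.g = E.g
  g0 : E.g.eval 0 = 1
  mon : Mon ψ c.gm
  gm : Associated E.g (poly ψ c.gm)
  res : NRes F E.r (ψ c.γ0)
  card : Nat.card E.G < 2 ^ c.L

/-- the situation at all roots -/
structure Ok (c : Cx) {S : Type} (φ : Vec → S → F) (E : S → Cv F) : Prop where
  iso : Iso c.A φ
  ne : Nonempty S
  loc : ∀ a, LocA c (pt φ a) (E a)
  cst : ∀ a b, φ c.γ0 a = φ c.γ0 b

/-- good exceptions: a witness, or a factorisation with one more factor -/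
def GE {S : Type} (φ : Vec → S → F) (E : S → Cv F) (gs : List Pol) (e : Exc) : Prop :=
  e.elim (Wit φ) fun gs' => (∀ a, (E a).Fac (pt φ a) gs') ∧ gs'.length = gs.length + 1

/-- the invariant of the saturation -/
structure SatI (c : Cx) (ψ : Vec → F) (E : Cv F) (gs : List Pol) (T : List Ent) : Prop where
  len : T.length + 1 = gs.length
  val : ∀ l < T.length, E.Val ψ (c.ent T l).1
  ob : ∀ l < T.length, E.Ob ψ gs (c.ent T l).1.1 (c.ent T l).2.2.2
  dinv : DInv E.φ E.r T.length (fun l => E.clA (E.idl ψ (c.ent T l).1)) fun l => (c.ent T l).2.1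
  soc : ∀ l < T.length, (E.φ ^ ((c.ent T l).2.1 - 1)) (E.clA (E.idl ψ (c.ent T l).1)) =
    E.Wsum (bw ψ gs fun j => ((c.ent T l).2.2.1.getD j 0 : ℕ))

/-- the invariant of the expansion after `k` rounds -/
structure ExpI (c : Cx) (ψ : Vec → F) (E : Cv F) (T : List Ent) (k : ℕ) (s : ID × List Vec) : Prop where
  val : E.Val ψ s.1
  len : s.2.length = k
  lt : ∀ i l, (s.2.getD i []).getD l 0 < E.r
  seq : ∃ D : ℕ → E.G, D 0 = E.clA E.P ∧ D k = E.clA (E.idl ψ s.1) ∧ ∀ i < k,
    D i + ∑ l ∈ range T.length, (s.2.getD i []).getD l 0 • E.clA (E.idl ψ (c.ent T l).1) = E.φ (D (i + 1))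

section basic
variable {c : Cx} {ψ : Vec → F} {E : Cv F} {S : Type} {φ : Vec → S → F} {Es : S → Cv F}

theorem LocA.len (h : LocA c ψ E) : c.gm.length = E.m + 1 := by
  have h1 := h.mon.natDegree_eq
  have h2 := h.mon.length_pos
  rw [← natDegree_eq_of_degree_eq (degree_eq_degree_of_associated h.gm), E.g_natDegree] at h1
  omega

theorem LocA.gm_root (h : LocA c ψ E) (α : F) : (poly ψ c.gm).eval α = 0 ↔ α ∈ E.S := by
  rw [← E.g_eval_eq_zero_iff, ← IsRoot.def, ← IsRoot.def, ← dvd_iff_isRoot, ← dvd_iff_isRoot,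
    h.gm.dvd_iff_dvd_right]

theorem LocA.zeta (h : LocA c ψ E) : ψ c.γ0 ^ ((Fintype.card F - 1) / E.r) = E.ζ := by
  rw [← h.ζ, Cx.ζ, h.hom.zeta, h.q, h.r]

theorem Ok.prime (h : Ok c φ Es) : c.A.p.Prime := (h.loc h.ne.some).prime
theorem Ok.q (h : Ok c φ Es) : c.q = Fintype.card F := (h.loc h.ne.some).q
theorem Ok.rprime (h : Ok c φ Es) : c.r.Prime := (h.loc h.ne.some).r ▸ (Es h.ne.some).hr

omit [Fintype F] in
theorem mon_all [hS : Nonempty S] {m : Pol} (h : ∀ a, Mon (pt φ a) m) : Mon φ m :=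
  Mon.pi (h hS.some).1 h

omit [Fintype F] in
@[simp] theorem ge_inl {gs : List Pol} {w : Vec} : GE φ Es gs (Sum.inl w) ↔ Wit φ w := Iff.rfl

omit [Fintype F] in
theorem ge_inr {gs gs' : List Pol} : GE φ Es gs (Sum.inr gs') ↔
    (∀ a, (Es a).Fac (pt φ a) gs') ∧ gs'.length = gs.length + 1 := Iff.rfl

end basic

end Crest.Agent.R312
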