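import Crest.Agent.R312.A3Lin
import Crest.Agent.R312.A3Blk

/-!
# R312 / A3Ob : obstructions
Read `A3Prog.lean` and `A3Defs.lean` first.  Keep the statements; auxiliary lemmas get the prefix `a3o_`.
-/

set_option autoImplicit false

noncomputable section

namespace Crest.Agent.R312

open Crest.Agent.Lib.PT Polynomial Finset

variable {F : Type} [Field F] [Fintype F] {c : Cx} {ψ : Vec → F} {E : Cv F}
  {S : Type} {φ : Vec → S → F} {Es : S → Cv F}

/-- Let `g_l = gs.getD l []`, `u = ν^((q-1)/r) %ₘ g_l` (`Hom.ppowMod`; at a root `α` of `g_l`, `u(α) = ν(α)^((q-1)/r)`).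
By `gcd_good` the value `d` generates `(g_l, u - ζ^o)` at every point.  If `d.length ≤ 1` then `d = 1` (monic of
degree `0`), so `u(α) ≠ ζ^o` at the roots of `g_l`.  If `d.length = g_l.length` then `d = g_l`
(`eq_of_monic_of_dvd_of_natDegree_le`), so `g_l ∣ u - ζ^o`.  Otherwise `Fac.refine`. -/
theorem obTry_spec (h : Ok c φ Es) {gs : List Pol} (hf : ∀ a, (Es a).Fac (pt φ a) gs) (ν : Pol) {l : ℕ}
    (hl : l < gs.length) (o : ℕ) :
    (c.obTry gs ν l o = none → ∀ a α, (poly (pt φ a) (gs.getD l [])).eval α = 0 →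
      (poly (pt φ a) ν).eval α ^ ((Fintype.card F - 1) / (Es a).r) ≠ (Es a).ζ ^ o) ∧
    ∀ s, c.obTry gs ν l o = some s → Good (GE φ Es gs) (fun o' => ∀ a α,
      (poly (pt φ a) (gs.getD l [])).eval α = 0 →
      (poly (pt φ a) ν).eval α ^ ((Fintype.card F - 1) / (Es a).r) = (Es a).ζ ^ o') s := by
  have hm := fun a => ((hf a).getD hl).1
  unfold Cx.obTry
  have hQ : ∀ a α, (poly (pt φ a) (gs.getD l [])).eval α = 0 →
      (poly (pt φ a) (c.A.psub (c.A.ppowMod ν ((c.q - 1) / c.r) (gs.getD l [])) [c.A.pow c.ζ o])).eval α =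
        (poly (pt φ a) ν).eval α ^ ((Fintype.card F - 1) / (Es a).r) - (Es a).ζ ^ o := by
    intro a α hα
    have h1 := h.loc a
    rw [h1.hom.psub, h1.hom.ppowMod (hm a), poly_singleton, h1.hom.pow, h1.ζ, h1.q, ← h1.r,
      modByMonic_eq_sub_mul_div, eval_sub, eval_sub, eval_mul, hα, zero_mul, sub_zero, eval_pow, eval_C]
  generalize c.A.psub _ _ = Q at hQ
  have h1 := gcd_good h gs hm [Q]
  generalize c.gcd _ _ = s at h1
  cases s with
  | inl e => exact ⟨fun h2 => (by cases h2), fun s hs => by cases hs; exact h1⟩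
  | inr d =>
    obtain ⟨h2, h3⟩ := h1
    have h4 : ∀ a, ∀ P ∈ [gs.getD l [], Q], poly (pt φ a) d ∣ poly (pt φ a) P := fun a P hP => by
      rw [← Ideal.mem_span_singleton, (h3 a).2]
      exact Ideal.subset_span ⟨P, hP, rfl⟩
    simp only [Sum.elim_inr]
    split_ifs with h5 h6
    · refine ⟨fun _ a α hα h7 => ?_, fun s hs => by cases hs⟩
      have h8 : Ideal.span {poly (pt φ a) d} ≤ RingHom.ker (evalRingHom α) := by
        rw [(h3 a).2, Ideal.span_le]
        rintro _ ⟨P, hP, rfl⟩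
        rcases List.mem_pair.1 hP with rfl | rfl
        · exact hα
        · exact (hQ a α hα).trans (sub_eq_zero.2 h7)
      have h9 := h8 (Ideal.mem_span_singleton_self _)
      rw [(h3 a).1.monic.natDegree_eq_zero.1 (by rw [(h3 a).1.natDegree_eq]; omega), RingHom.mem_ker,
        map_one] at h9
      exact one_ne_zero h9
    · refine ⟨fun h7 => (by cases h7), fun s hs => ?_⟩
      cases hs
      intro a α hα
      have h7 := eq_of_monic_of_dvd_of_natDegree_le (h3 a).1.monic (hm a).monic (h4 a _ (by simp))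
        (by rw [(h3 a).1.natDegree_eq, (hm a).natDegree_eq, h6])
      rw [← sub_eq_zero, ← hQ a α hα]
      exact eval_eq_zero_of_dvd_of_eval_eq_zero (h4 a Q (by simp)) (h7 ▸ hα)
    · refine ⟨fun h7 => (by cases h7), fun s hs => ?_⟩
      cases hs
      refine ge_inr.2 ⟨fun a => (hf a).refine (h.loc a).hom hl (h3 a).1 (by omega) (by omega)
        (h4 a _ (by simp)), ?_⟩
      rw [List.length_cons, List.length_cons, List.length_eraseIdx_of_lt hl]
      omega

/-- some trial succeeds: `Fac.exists_root`, `Cv.isCoprime_g_iff`, `m_exists_ind` -/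
theorem obl_good (h : Ok c φ Es) {gs : List Pol} (hf : ∀ a, (Es a).Fac (pt φ a) gs) {ν : Pol}
    (hν : ∀ a, IsCoprime (poly (pt φ a) ν) (Es a).g) {l : ℕ} (hl : l < gs.length) :
    Good (GE φ Es gs) (fun o => ∀ a α, (poly (pt φ a) (gs.getD l [])).eval α = 0 →
      (poly (pt φ a) ν).eval α ^ ((Fintype.card F - 1) / (Es a).r) = (Es a).ζ ^ o) (c.obl gs ν l) := by
  unfold Cx.obl
  cases hs : (List.range c.r).findSome? (c.obTry gs ν l) with
  | some s =>
    obtain ⟨o, -, ho⟩ := List.exists_of_findSome?_eq_some hs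
    exact (obTry_spec h hf ν hl o).2 s ho
  | none =>
    obtain ⟨a⟩ := h.ne
    obtain ⟨α, h1, h2⟩ := (hf a).exists_root hl
    obtain ⟨o, ho, h3⟩ := m_exists_ind (Es a).r_pos (Es a).hζ (h.loc a).res.dvd
      ((Es a).isCoprime_g_iff.1 (hν a) α h1)
    exact absurd h3 ((obTry_spec h hf ν hl o).1
      (List.findSome?_eq_none_iff.1 hs o (List.mem_range.2 ((h.loc a).r ▸ ho))) a α h2)

/-- `good_mapR`, `IsNu.coprime` -/
theorem obs_good (h : Ok c φ Es) {gs : List Pol} (hf : ∀ a, (Es a).Fac (pt φ a) gs) {I : ID}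
    (hI : ∀ a, (Es a).Val (pt φ a) I) :
    Good (GE φ Es gs) (fun o => ∀ a, (Es a).Ob (pt φ a) gs I.1 o) (c.obs gs I.1) := (good_mapR (R := fun l o => ∀ a α, (poly (pt φ a) (gs.getD l [])).eval α = 0 →
      (poly (pt φ a) I.1).eval α ^ ((Fintype.card F - 1) / (Es a).r) = (Es a).ζ ^ o)
    fun _ hl => obl_good h hf (fun a => (hI a).nu.coprime (hI a).cop) hl).mono
    fun _ ho a l hl => ho.2 l hl a

theorem ob_one (h : LocA c ψ E) (gs : List Pol) : E.Ob ψ gs c.A.pone [] := fun l _ α _ => by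
  rw [h.hom.pone, eval_one, one_pow, List.getD_nil, pow_zero]

omit [Fintype F] in
theorem length_obM (gs : List Pol) (T : List Ent) : (Cx.obM gs T).length = T.length + 1 := by
  simp [Cx.obM]

omit [Fintype F] in
theorem getD_obM (c : Cx) (gs : List Pol) {T : List Ent} {l : ℕ} (hl : l < T.length) :
    (Cx.obM gs T).getD l [] = (c.ent T l).2.2.2 := by
  rw [Cx.obM, List.getD_append _ _ _ _ (by simpa using hl), Cx.ent,
    List.getD_eq_getElem _ _ (by simpa using hl), List.getD_eq_getElem _ _ hl, List.getElem_map]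

omit [Fintype F] in
theorem getD_obM_last (gs : List Pol) (T : List Ent) {j : ℕ} (hj : j < gs.length) :
    ((Cx.obM gs T).getD T.length []).getD j 0 = 1 := by
  rw [Cx.obM, List.getD_append_right _ _ _ _ (by simp)]
  simp [Cx.ones, List.getD_eq_getElem?_getD, hj]

/-- For `α` in the block `j` the left side is `ζ^n`, `n = cs_last + o₀_j + ∑_l cs_l o_(l,j)` (`LocA.zeta`), and
`r ∣ n` (`ZMod.natCast_eq_zero_iff`, `IsPrimitiveRoot.pow_eq_one_iff_dvd`). -/
theorem ob_root (h : LocA c ψ E) {gs : List Pol} (hf : E.Fac ψ gs) {T : List Ent}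
    (hob : ∀ l < T.length, E.Ob ψ gs (c.ent T l).1.1 (c.ent T l).2.2.2) {ν₀ : Pol} {o₀ : Vec}
    (h0 : E.Ob ψ gs ν₀ o₀) {cs : Vec}
    (hrel : ∀ j < gs.length, ∑ i ∈ range (Cx.obM gs T).length,
      ((cs.getD i 0 : ℕ) : ZMod c.r) * ((((Cx.obM gs T).getD i []).getD j 0 : ℕ) : ZMod c.r) +
        ((o₀.getD j 0 : ℕ) : ZMod c.r) = 0) :
    ∀ α ∈ E.S, (ψ c.γ0 ^ cs.getD T.length 0 * (poly ψ ν₀ *
      ∏ l ∈ range T.length, poly ψ (c.ent T l).1.1 ^ cs.getD l 0).eval α) ^
        ((Fintype.card F - 1) / E.r) = 1 := by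
  intro α hα
  obtain ⟨β, h1, h2, -⟩ := hf.blocks
  have hj := h1 α hα
  have hr := (h2 _ hj α).2 ⟨hα, rfl⟩
  have h3 := hrel _ hj
  rw [length_obM, sum_range_succ, getD_obM_last gs T hj,
    sum_congr rfl fun l hl => by rw [getD_obM c gs (mem_range.1 hl)]] at h3
  have h4 : ∀ l ∈ range T.length, ((poly ψ (c.ent T l).1.1 ^ cs.getD l 0).eval α) ^
      ((Fintype.card F - 1) / E.r) = E.ζ ^ (cs.getD l 0 * (c.ent T l).2.2.2.getD (β α) 0) := fun l hl => by
    rw [eval_pow, pow_right_comm, hob l (mem_range.1 hl) _ hj α hr, ← pow_mul, mul_comm]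
  rw [eval_mul, eval_prod, mul_pow, mul_pow, pow_right_comm, h.zeta, h0 _ hj α hr, ← prod_pow,
    prod_congr rfl h4, prod_pow_eq_pow_sum, ← pow_add, ← pow_add, E.hζ.pow_eq_one_iff_dvd, h.r,
    ← ZMod.natCast_eq_zero_iff, ← h3]
  push_cast
  ring

omit [Fintype F] in
/-- `D` independent vectors of `(ℤ/r)^D` span: `m_dep` for the `D + 1` vectors `obM ++ [y]`, `ker_eq_nil_iff` shows
that the coefficient of `y` is invertible; then `solve_spec` (`getD_mkv`, `rd_eq`; `(r - 1 : ℕ) = -1` in `ZMod r`). -/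
theorem expC_spec (hr : c.r.Prime) {gs : List Pol} {T : List Ent} (hlen : T.length + 1 = gs.length)
    (hker : ker c.r gs.length (Cx.obM gs T) = []) (o : Vec) :
    (∀ l, (c.expC gs T o).getD l 0 < c.r) ∧ ∀ j < gs.length, ∑ i ∈ range (Cx.obM gs T).length,
      (((c.expC gs T o).getD i 0 : ℕ) : ZMod c.r) * ((((Cx.obM gs T).getD i []).getD j 0 : ℕ) : ZMod c.r) +
        ((o.getD j 0 : ℕ) : ZMod c.r) = 0 := by
  have := Fact.mk hr
  have hD : (Cx.obM gs T).length = gs.length := (length_obM gs T).trans hlen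
  unfold Cx.expC
  have hy : ∀ j < gs.length, (((vsmul c.r gs.length (c.r - 1) o).getD j 0 : ℕ) : ZMod c.r) =
      -((o.getD j 0 : ℕ) : ZMod c.r) := fun j hj => by
    rw [vsmul, getD_mkv _ _ hj, rd_eq hr.pos, ZMod.natCast_mod, Nat.cast_mul, Nat.cast_sub hr.one_le,
      ZMod.natCast_self, Nat.cast_one, zero_sub, neg_one_mul]
  generalize vsmul c.r gs.length (c.r - 1) o = y at hy
  generalize Cx.obM gs T = G at hD hker
  obtain ⟨x, ⟨i, hi, hx⟩, h1⟩ := m_dep hr gs.length fun i j =>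
    if i < gs.length then (G.getD i []).getD j 0 else y.getD j 0
  have h2 : ∀ j < gs.length, ∑ i ∈ range G.length, (x i : ZMod c.r) * ((G.getD i []).getD j 0 : ℕ) +
      (x gs.length : ZMod c.r) * (y.getD j 0 : ℕ) = 0 := fun j hj => by
    have h3 := (ZMod.natCast_eq_zero_iff _ _).2 (h1 j hj)
    rw [sum_range_succ, if_neg (lt_irrefl _),
      sum_congr rfl fun i hi => by rw [if_pos (mem_range.1 hi)]] at h3
    rw [hD, ← h3]
    push_cast
    rfl
  have h3 : (x gs.length : ZMod c.r) ≠ 0 := fun h3 => by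
    have h4 := (ker_eq_nil_iff hr G).1 hker (fun i => x i) fun j hj => by
      simpa only [h3, zero_mul, add_zero] using h2 j hj
    refine hx ((ZMod.natCast_eq_zero_iff _ _).1 ?_)
    rcases Nat.lt_succ_iff_lt_or_eq.1 hi with hi | rfl
    · exact h4 i (hD ▸ hi)
    · exact h3
  obtain ⟨-, h4, h5⟩ := solve_spec (D := gs.length) hr G y (fun i => -(x gs.length : ZMod c.r)⁻¹ * x i)
    fun j hj => by
      simp only [mul_assoc, ← mul_sum]
      rw [eq_neg_of_add_eq_zero_left (h2 j hj), neg_mul_neg, inv_mul_cancel_left₀ h3]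
  refine ⟨fun l => ?_, fun j hj => by rw [h5 j hj, hy j hj, neg_add_cancel]⟩
  rw [List.getD_eq_getElem?_getD]
  cases hl : (solve c.r gs.length G y)[l]? with
  | none => exact hr.pos
  | some a => exact h4 a (List.mem_of_getElem? hl)

end Crest.Agent.R312
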