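import Crest.Agent.R312.A3Div
import Crest.Agent.R312.A3Ob

/-!
# R312 / A3Exp : the expansion, and the class relation it gives
Read `A3Prog.lean` and `A3Defs.lean` first.  Keep the statements; auxiliary lemmas get the prefix `a3e_`.
-/

set_option autoImplicit false

noncomputable section

namespace Crest.Agent.R312

open Crest.Agent.Lib.PT Polynomial Finset

variable {F : Type} [Field F] [Fintype F] {c : Cx} {ψ : Vec → F} {E : Cv F}
  {S : Type} {φ : Vec → S → F} {Es : S → Cv F}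

/-- `obs_good`, `expC_spec`, `val_ipp`, `val_imul`, `ob_root`, `divide_good`; the new sequence is
`Function.update D (k + 1) (clA J)`; `List.getD_append`, `List.getD_append_right` -/
theorem expStep_good (h : Ok c φ Es) {gs : List Pol} (hf : ∀ a, (Es a).Fac (pt φ a) gs) {T : List Ent}
    (hT : ∀ a, SatI c (pt φ a) (Es a) gs T) (hker : ker c.r gs.length (Cx.obM gs T) = []) {k : ℕ}
    {s : Exc ⊕ ID × List Vec} (hs : Good (GE φ Es gs) (fun s => ∀ a, ExpI c (pt φ a) (Es a) T k s) s) :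
    Good (GE φ Es gs) (fun s => ∀ a, ExpI c (pt φ a) (Es a) T (k + 1) s) (c.expStep gs T s) := by
  obtain ⟨a₀⟩ := h.ne
  refine hs.bnd fun s hs => (obs_good h hf fun a => (hs a).val).bnd fun o ho => ?_
  obtain ⟨hlt, hrel⟩ := expC_spec (c := c) h.rprime (hT a₀).len hker o
  generalize c.expC gs T o = cs at hlt hrel
  have hp := fun a => val_ipp (h.loc a) (hT a).val (cs := cs) fun l => (h.loc a).r ▸ hlt l
  have hm := fun a => val_imul (h.loc a) (hs a).val (hp a).1
  refine (divide_good h gs (fun a => (hm a).1) fun a α hα => ?_).bnd fun J hJ a => ?_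
  · rw [(hm a).2.1, (hp a).2.1]
    exact ob_root (h.loc a) (hf a) (hT a).ob (ho a) hrel α hα
  · obtain ⟨D, h0, h1, h2⟩ := (hs a).seq
    have hl := (hs a).len
    have e1 : ∀ i < k, (s.2 ++ [cs]).getD i [] = s.2.getD i [] := fun i hi =>
      List.getD_append _ _ _ _ (by omega)
    have e2 : (s.2 ++ [cs]).getD k [] = cs := by
      rw [List.getD_append_right _ _ _ _ (by omega), hl, Nat.sub_self]; rfl
    refine ⟨(hJ a).1, by simp [hl], fun i l => ?_,
      Function.update D (k + 1) ((Es a).clA ((Es a).idl (pt φ a) J)), ?_, ?_, fun i hi => ?_⟩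
    · rcases lt_trichotomy i k with hi | rfl | hi
      · rw [e1 i hi]; exact (hs a).lt i l
      · rw [e2, (h.loc a).r]; exact hlt l
      · rw [List.getD_eq_default (l := s.2 ++ [cs]) _ (by simp; omega)]
        exact (Es a).r_pos
    · rw [Function.update_of_ne (by omega), h0]
    · rw [Function.update_self]
    · rw [Function.update_of_ne (by omega)]
      rcases Nat.lt_succ_iff_lt_or_eq.1 hi with hi | rfl
      · rw [Function.update_of_ne (by omega)]
        simp only [e1 i hi]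
        exact h2 i hi
      · simp only [e2]
        rw [Function.update_self, (hJ a).2, (hm a).2.2, (hp a).2.2, h1]

theorem expand_good (h : Ok c φ Es) {gs : List Pol} (hf : ∀ a, (Es a).Fac (pt φ a) gs) {T : List Ent}
    (hT : ∀ a, SatI c (pt φ a) (Es a) gs T) (hker : ker c.r gs.length (Cx.obM gs T) = []) :
    Good (GE φ Es gs) (fun s => ∀ a, ExpI c (pt φ a) (Es a) T c.L s) (c.expand gs T) :=
  iter_inv (fun k s => Good (GE φ Es gs) (fun s => ∀ a, ExpI c (pt φ a) (Es a) T k s) s) c.L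
    (expInit_good h gs T) fun _ _ _ hs => expStep_good h hf hT hker hs

omit [Fintype F] in
/-- `le_maxR`, `maxR_eq` -/
theorem finH_spec (c : Cx) (T : List Ent) (cs : List Vec) :
    (∀ i < cs.length, ∀ l < T.length, (cs.getD i []).getD l 0 ≠ 0 → (c.ent T l).2.1 ≤ i + c.finH T cs) ∧
      (c.finH T cs ≠ 0 → ∃ i < cs.length, ∃ l < T.length,
        (cs.getD i []).getD l 0 ≠ 0 ∧ (c.ent T l).2.1 = i + c.finH T cs) := by
  constructor
  · intro i hi l hl hne
    have h1 := le_maxR (fun i => maxR T.length fun l =>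
      if (cs.getD i []).getD l 0 = 0 then 0 else (c.ent T l).2.1 - i) hi
    have h2 := le_maxR (fun l => if (cs.getD i []).getD l 0 = 0 then 0 else (c.ent T l).2.1 - i) hl
    have h3 := h2.trans h1
    rw [if_neg hne] at h3
    unfold Cx.finH
    omega
  · intro hne
    obtain ⟨i, hi, h1⟩ := (maxR_eq _ _).resolve_left hne
    have h2 : maxR T.length (fun l => if (cs.getD i []).getD l 0 = 0 then 0 else (c.ent T l).2.1 - i) =
        c.finH T cs := h1
    obtain ⟨l, hl, h3⟩ := (maxR_eq _ _).resolve_left (h2 ▸ hne)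
    rw [h2] at h3
    refine ⟨i, hi, l, hl, fun h0 => hne ?_, ?_⟩
    · rw [← h3, if_pos h0]
    · split_ifs at h3 <;> omega

/-- `DInv.expand_zero` (`E.φ = 1 - E.σG` by `rfl`, `σG_pow_r`, `h.card`) -/
theorem fin_zero (h : LocA c ψ E) {gs : List Pol} {T : List Ent} (hT : SatI c ψ E gs T)
    {s : ID × List Vec} (hs : ExpI c ψ E T c.L s) {n : ℕ} (hn : ∀ x : E.G, ∃ k, E.r ^ k • n • x = 0)
    (hH : c.finH T s.2 = 0) : n • E.clA E.P = 0 := by
  obtain ⟨D, h0, -, h2⟩ := hs.seq
  rw [← h0]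
  exact DInv.expand_zero (σ := E.σG) hT.dinv E.hr E.hr2 E.σG_pow_r h.card.le hn
    (c := fun i l => (s.2.getD i []).getD l 0) h2 fun i hi l hl hne => by
      simpa [hH] using (finH_spec c T s.2).1 i (hs.len ▸ hi) l hl hne

/-- `DInv.expand`, `soc`, `wsum_bw_sum`.  Non-vanishing: for `(i, l)` from `finH_spec` the coefficient of the socle
`l` is `-n c_(i,l)` (`Finset.sum_eq_single i`) with `0 < c_(i,l) < r`, so `DInv.ind` shows that the class is not
zero; if all `finC l` were congruent then `Fac.wsum_eq_zero_iff` would make it zero. -/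
theorem fin_pos (h : LocA c ψ E) {gs : List Pol} (hf : E.Fac ψ gs) {T : List Ent} (hT : SatI c ψ E gs T)
    {s : ID × List Vec} (hs : ExpI c ψ E T c.L s) {n : ℕ} (hn : ∀ x : E.G, ∃ k, E.r ^ k • n • x = 0)
    (hnr : ¬ E.r ∣ n) {H : ℕ} (hH : c.finH T s.2 = H + 1) :
    (E.φ ^ H) (n • E.clA E.P) = E.Wsum (bw ψ gs fun j => -(n : ℤ) * (c.finC T s.2 j : ℕ)) ∧
      ∃ l < gs.length, ∃ l' < gs.length,
        ¬ (E.r : ℤ) ∣ (c.finC T s.2 l : ℤ) - (c.finC T s.2 l' : ℕ) := by
  obtain ⟨D, h0, -, h2⟩ := hs.seq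
  have h1 : (E.φ ^ H) (n • D 0) = ∑ l ∈ range T.length,
      (-(n : ℤ) * ∑ i ∈ range c.L, if (c.ent T l).2.1 = i + H + 1 then
        (((s.2.getD i []).getD l 0 : ℕ) : ℤ) else 0) •
        (E.φ ^ ((c.ent T l).2.1 - 1)) (E.clA (E.idl ψ (c.ent T l).1)) :=
    DInv.expand (σ := E.σG) hT.dinv E.hr E.hr2 E.σG_pow_r h.card.le hn
      (c := fun i l => (s.2.getD i []).getD l 0) h2 fun i hi l hl hne => by
        have := (finH_spec c T s.2).1 i (hs.len ▸ hi) l hl hne
        omega
  have h3 : (E.φ ^ H) (n • E.clA E.P) = E.Wsum (bw ψ gs fun j => -(n : ℤ) * (c.finC T s.2 j : ℕ)) := by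
    rw [← h0, h1, Finset.sum_congr rfl fun l hl => by rw [hT.soc l (Finset.mem_range.1 hl)], wsum_bw_sum]
    congr 2
    funext j
    simp only [Cx.finC, a0a_sum_range, hs.len, hH, ← add_assoc]
    push_cast
    rw [Finset.mul_sum]
    exact Finset.sum_congr rfl fun l _ => mul_assoc _ _ _
  refine ⟨h3, by_contra fun hc => ?_⟩
  push Not at hc
  have h4 : E.Wsum (bw ψ gs fun j => -(n : ℤ) * (c.finC T s.2 j : ℕ)) = 0 :=
    (hf.wsum_eq_zero_iff _).2 ⟨-(n : ℤ) * (c.finC T s.2 0 : ℕ), fun l hl =>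
      Int.ModEq.mul_left _ (Int.modEq_iff_dvd.2 (hc 0 hf.pos l hl))⟩
  obtain ⟨i, hi, l, hl, hne, he⟩ := (finH_spec c T s.2).2 (by omega)
  rw [← h3, ← h0, h1] at h4
  have h5 := hT.dinv.ind _ h4 l hl
  rw [Finset.sum_eq_single i (fun i' _ hi' => if_neg (by omega))
    (fun hi' => absurd (Finset.mem_range.2 (hs.len ▸ hi)) hi'), if_pos (by omega), neg_mul, dvd_neg,
    ← Nat.cast_mul, Int.natCast_dvd_natCast, E.hr.dvd_mul] at h5
  exact h5.elim hnr fun h6 => absurd (Nat.le_of_dvd (Nat.pos_of_ne_zero hne) h6) (hs.lt i l).not_ge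

end Crest.Agent.R312
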