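import Crest.Agent.R312.A3MathA

/-!
# R312 / A3MathC : pure lemmas (no programs) used by `splitOdd`
-/

set_option autoImplicit false

namespace Crest.Agent.R312

open Polynomial Finset

variable {F : Type} [Field F]

/-- **The resolvent.**  Choose `E'` with `E' E ≡ 1 mod r` and replace `cs, lam` by `E' cs, E' lam`, so that
`c (blk a b) ≡ cs b + lam a`.  Put `s = ∑_{b ∈ S} cs b`.  Summing over `b ≠ a` gives
`∑_l k l c l ≡ s - cs a + (n-1) lam a ≡ s - cs a - lam a`, so the exponent at `(a,b)` is `≡ cs b - cs a + s`, and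
`ρ a = ζ^(s - cs a) Θ_j`, `Θ_j = ∑_{b ∈ S} ζ^(cs b) b^j` (use `zpow`, or reduce the exponents with `ZMod r` / `Int.emod`;
`ζ ≠ 0`).  Take `j` with `Θ_j ≠ 0` (`m_vdm`).  `cs` is not constant mod `r` on `S`: otherwise for a fixed `a` the
numbers `c (blk a b)` are all congruent, and every block `l < D` is hit because `k l > 0`. -/
theorem m_resolvent [DecidableEq F] (S : Finset F) (hS : S.Nonempty) {r : ℕ} (hr : r.Prime) {ζ : F}
    (hζ : IsPrimitiveRoot ζ r) (hn : r ∣ S.card) {D : ℕ} (c k : ℕ → ℕ) (blk : F → F → ℕ)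
    (hblk : ∀ a ∈ S, ∀ b ∈ S.erase a, blk a b < D)
    (hk : ∀ a ∈ S, ∀ l < D, ((S.erase a).filter fun b => blk a b = l).card = k l)
    (kpos : ∀ l < D, 0 < k l) (E : ℤ) (hE : IsCoprime E r) (cs lam : F → ℤ)
    (h : ∀ a ∈ S, ∀ b ∈ S.erase a, (r : ℤ) ∣ E * c (blk a b) - (cs b + lam a))
    (hnc : ∃ l < D, ∃ l' < D, ¬ (r : ℤ) ∣ (c l : ℤ) - c l') :
    ∃ s < r, ∃ j < S.card, ∃ ρ : F → F,
      (∀ a ∈ S, ρ a = ζ ^ s * a ^ j +
        ∑ b ∈ S.erase a, ζ ^ ((c (blk a b) + ∑ l ∈ range D, k l * c l) % r) * b ^ j) ∧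
      (∀ a ∈ S, ρ a ≠ 0) ∧ (∀ a ∈ S, ∀ b ∈ S, ρ a ^ r = ρ b ^ r) ∧ ∃ a ∈ S, ∃ b ∈ S, ρ a ≠ ρ b := by
  have := Fact.mk hr
  have hζ0 : ζ ≠ 0 := hζ.ne_zero hr.ne_zero
  -- the character of `ZMod r`
  let χ : ZMod r → F := fun x => ζ ^ x.val
  have hχn : ∀ n : ℕ, χ n = ζ ^ (n % r) := fun n => by simp [χ]
  have hχ : ∀ x y, χ (x + y) = χ x * χ y := fun x y => by
    simp only [χ, ZMod.val_add]
    rw [← pow_add, ← pow_eq_pow_mod _ hζ.pow_eq_one]
  have hχ0 : ∀ x, χ x ≠ 0 := fun x => pow_ne_zero _ hζ0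
  have hχr : ∀ x, χ x ^ r = 1 := fun x => by
    simp only [χ]
    rw [← pow_mul, mul_comm, pow_mul, hζ.pow_eq_one, one_pow]
  have hχi : ∀ x y, χ x = χ y → x = y := fun x y h =>
    ZMod.val_injective r (hζ.pow_inj (ZMod.val_lt x) (ZMod.val_lt y) h)
  have hE0 : (E : ZMod r) ≠ 0 := fun h0 => by
    have h1 := hE.isUnit_of_dvd' ((ZMod.intCast_zmod_eq_zero_iff_dvd E r).1 h0) dvd_rfl
    exact hr.ne_one (by simpa [Int.isUnit_iff_natAbs_eq] using h1)
  let u : F → ZMod r := fun b => cs b / E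
  let w : F → ZMod r := fun b => lam b / E
  have h1 : ∀ a ∈ S, ∀ b ∈ S.erase a, (c (blk a b) : ZMod r) = u b + w a := fun a ha b hb => by
    have := (ZMod.intCast_zmod_eq_zero_iff_dvd _ r).2 (h a ha b hb)
    push_cast at this
    simp only [u, w]
    field_simp
    linear_combination this
  have hS0 : (S.card : ZMod r) = 0 := (ZMod.natCast_eq_zero_iff _ _).2 hn
  have h2 : ∀ a ∈ S, ((∑ l ∈ range D, k l * c l : ℕ) : ZMod r) = ∑ b ∈ S, u b - u a - w a := fun a ha => by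
    have e1 : ∑ l ∈ range D, k l * c l = ∑ b ∈ S.erase a, c (blk a b) := by
      rw [← sum_fiberwise_of_maps_to (s := S.erase a) (t := range D) (g := blk a)
        fun b hb => mem_range.2 (hblk a ha b hb)]
      refine sum_congr rfl fun l hl => ?_
      rw [sum_congr rfl fun b hb => by rw [(mem_filter.1 hb).2], sum_const, hk a ha l (mem_range.1 hl), smul_eq_mul]
    have e2 : ((S.erase a).card : ZMod r) = -1 := by
      rw [← card_erase_add_one ha] at hS0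
      push_cast at hS0
      linear_combination hS0
    rw [e1, Nat.cast_sum, sum_congr rfl (h1 a ha), sum_add_distrib, sum_const, nsmul_eq_mul, e2,
      ← add_sum_erase S u ha]
    ring
  obtain ⟨a0, ha0⟩ := hS
  obtain ⟨j, hj, hΘ⟩ : ∃ j < S.card, ∑ b ∈ S, χ (u b) * b ^ j ≠ 0 := by
    by_contra hc
    push Not at hc
    exact hχ0 _ (m_vdm S (fun b => χ (u b)) hc a0 ha0)
  refine ⟨(∑ b ∈ S, u b).val, ZMod.val_lt _, j, hj,
    fun a => χ (∑ b ∈ S, u b - u a) * ∑ b ∈ S, χ (u b) * b ^ j, fun a ha => ?_,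
    fun a _ => mul_ne_zero (hχ0 _) hΘ, fun a _ b _ => by simp only [mul_pow, hχr], ?_⟩
  · beta_reduce
    rw [← add_sum_erase S (fun b => χ (u b) * b ^ j) ha, mul_add, ← mul_assoc, ← hχ, sub_add_cancel, mul_sum]
    congr 1
    refine sum_congr rfl fun b hb => ?_
    rw [← mul_assoc, ← hχ, ← hχn, Nat.cast_add, h1 a ha b hb, h2 a ha]
    congr 2
    ring
  · by_contra hc
    push Not at hc
    have h3 : ∀ b ∈ S, u b = u a0 := fun b hb => by
      have := hχi _ _ (mul_right_cancel₀ hΘ (hc b hb a0 ha0))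
      linear_combination -this
    have h4 : ∀ l < D, (c l : ZMod r) = u a0 + w a0 := fun l hl => by
      obtain ⟨b, hb⟩ := card_pos.1 ((hk a0 ha0 l hl).symm ▸ kpos l hl)
      rw [← (mem_filter.1 hb).2, h1 a0 ha0 b (mem_filter.1 hb).1, h3 b (mem_of_mem_erase (mem_filter.1 hb).1)]
    obtain ⟨l, hl, l', hl', hne⟩ := hnc
    refine hne ((ZMod.intCast_zmod_eq_zero_iff_dvd _ r).1 ?_)
    push_cast
    rw [h4 l hl, h4 l' hl', sub_self]

end Crest.Agent.R312
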