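import Crest.Agent.R312.A3Exp
import Crest.Agent.R312.A3MathC

/-!
# R312 / A3Fin : the resolvent
Read `A3Prog.lean` and `A3Defs.lean` first.  Keep the statements; auxiliary lemmas get the prefix `a3f_`.
-/

set_option autoImplicit false

noncomputable section

namespace Crest.Agent.R312

open Crest.Agent.Lib.PT Polynomial Finset

variable {F : Type} [Field F] [Fintype F] {c : Cx} {ψ : Vec → F} {E : Cv F}
  {S : Type} {φ : Vec → S → F} {Es : S → Cv F}

/-- `Hom.tr_roots`.  At a root `α` of `g_l` the polynomial `ppowMod (x - g.tail) j g_l` has the value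
`(x - (poly g.tail)(α))^j`, and `0 = g(α) = 1 + α (poly g.tail)(α)` (`poly_cons`; `c.g ≠ []` as `E.g ≠ 0`; `h.g0`).
Regroup with `Finset.sum_fiberwise_of_maps_to`. -/
theorem finR_val (h : LocA c ψ E) {gs : List Pol} (hf : E.Fac ψ gs) {β : F → ℕ}
    (h1 : ∀ α ∈ E.S, β α < gs.length)
    (h2 : ∀ l < gs.length, (poly ψ (gs.getD l [])).Splits ∧
      (poly ψ (gs.getD l [])).roots = (E.S.filter fun α => β α = l).val) (cv : Vec) (s j : ℕ) :
    ψ (c.finR gs cv s j) = E.ζ ^ s * ψ c.x ^ j + ∑ α ∈ E.S,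
      E.ζ ^ ((cv.getD (β α) 0 + ∑ i ∈ range gs.length, ((gs.getD i []).length - 1) * cv.getD i 0) % E.r) *
        (ψ c.x + α⁻¹) ^ j := by
  have hg : c.g ≠ [] := fun e => E.g_ne (by rw [← h.g, e, poly_nil])
  have htail : ∀ α ∈ E.S, ψ c.x - (poly ψ c.g.tail).eval α = ψ c.x + α⁻¹ := fun α hα => by
    obtain ⟨g₀, t, e⟩ := List.exists_cons_of_ne_nil hg
    have h3 := h.g
    rw [e, poly_cons] at h3
    have h4 := h.g0
    have h5 := (E.g_eval_eq_zero_iff α).2 hα
    rw [← h3] at h4 h5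
    simp only [eval_add, eval_C, eval_mul, eval_X, zero_mul, add_zero] at h4 h5
    rw [h4] at h5
    rw [e, List.tail_cons, sub_eq_add_neg]
    congr 1
    exact (inv_eq_of_mul_eq_one_right (by linear_combination -h5)).symm
  unfold Cx.finR
  rw [h.hom.add, h.hom.mul, h.hom.pow, h.hom.pow, h.ζ, h.hom.sum_range,
    ← Finset.sum_fiberwise_of_maps_to (t := range gs.length) (g := β)
      fun α hα => Finset.mem_range.2 (h1 α hα)]
  congr 1
  refine Finset.sum_congr rfl fun l hl => ?_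
  have hl' := Finset.mem_range.1 hl
  rw [h.hom.mul, h.hom.pow, h.ζ, h.hom.tr_roots (hf.getD hl').1 (h2 l hl').1, (h2 l hl').2,
    ← Finset.sum_eq_multiset_sum, Finset.mul_sum]
  refine Finset.sum_congr rfl fun α hα => ?_
  obtain ⟨hα1, hα2⟩ := Finset.mem_filter.1 hα
  have hroot : (poly ψ (gs.getD l [])).eval α = 0 := by
    have : α ∈ (poly ψ (gs.getD l [])).roots := by rw [(h2 l hl').2]; exact hα
    exact isRoot_of_mem_roots this
  rw [hα2, h.r, a0a_sum_range, h.hom.ppowMod (hf.getD hl').1, modByMonic_eq_sub_mul_div,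
    eval_sub, eval_mul, hroot, zero_mul, sub_zero, eval_pow, h.hom.psub, poly_singleton, eval_sub, eval_C,
    htail α hα1]

/-- `List.find?` succeeds (`Iso.isWit_iff`, `List.find?_some`, `List.find?_eq_none`), by `digs_wit` -/
theorem finW_of (h : Ok c φ Es) (gs : List Pol) (cv : Vec) {s j : ℕ} (hs : s < c.r) (hj : j < c.gm.length)
    {a b : S} (ha : φ (c.finR gs cv s j) a ≠ 0)
    (hab : φ (c.finR gs cv s j) a ^ c.r = φ (c.finR gs cv s j) b ^ c.r)
    (hne : φ (c.finR gs cv s j) a ≠ φ (c.finR gs cv s j) b) : Wit φ (c.finW gs cv) := by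
  have hres : NRes F c.r (φ c.γ0 a) := (h.loc a).r ▸ (h.loc a).res
  obtain ⟨d, hd, hw⟩ := digs_wit h.prime h.iso.hom hres (fun a' => h.cst a' a) ha hab hne
  unfold Cx.finW
  cases hf : List.find? _ _ with
  | none =>
    refine absurd ?_ (List.find?_eq_none.1 hf d ?_)
    · rw [decide_eq_true_iff, h.q, h.iso.isWit_iff]; exact hw
    · simp only [List.mem_flatMap, List.mem_range]
      exact ⟨s, hs, j, hj, h.q ▸ hd⟩
  | some w =>
    have := List.find?_some hf
    rwa [decide_eq_true_iff, h.q, h.iso.isWit_iff] at this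

/-- Choose a section `pre : F → S` of `x` over `Φ.T` and block maps `β a` (`Fac.blocks`).  Take `n` from
`exists_common_mult` (index type `Φ.T`, groups `(Φ.chart a.1 a.2).G`).  `finH ≠ 0` by `fin_zero` and
`Fam.cross_alpha` (`subst` the preimage).  `fin_pos` and `Fam.cross_beta` with
`c a' = bw (pt φ (pre a')) gs (fun j => -n * finC j)` give `cs, lam`; `m_resolvent` with `E = -n`,
`blk a' b = β (pre a') (b - a')⁻¹`, `k l = (gs.getD l []).length - 1`, `c = finC`.  The roots of the chart are the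
injective image of `Φ.T.erase a'` (`Finset.card_image_of_injOn`, `Finset.filter_image`, `Finset.sum_image`), and
`a' + ((b - a')⁻¹)⁻¹ = b`.  Conclude with `finR_val`, `finW_of` (`LocA.len`: `gm.length = Φ.T.card`). -/
theorem finW_wit [DecidableEq F] (Φ : Fam F) {x : S → F} (hx : ∀ a, x a ∈ Φ.T)
    (hs : ∀ b ∈ Φ.T, ∃ a, x a = b) (h : Ok c φ fun a => Φ.chart (x a) (hx a)) (hcx : ∀ a, φ c.x a = x a)
    {gs : List Pol} (hf : ∀ a, (Φ.chart (x a) (hx a)).Fac (pt φ a) gs) {T : List Ent}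
    (hT : ∀ a, SatI c (pt φ a) (Φ.chart (x a) (hx a)) gs T) {s : ID × List Vec}
    (he : ∀ a, ExpI c (pt φ a) (Φ.chart (x a) (hx a)) T c.L s) :
    Wit φ (c.finW gs ((List.range gs.length).map (c.finC T s.2))) := by
  have := h.ne
  obtain ⟨a₀⟩ := h.ne
  have hr : Φ.r = c.r := (h.loc a₀).r
  choose! pre hpre using hs
  choose β hβ1 hβ2 hβ3 hβ4 hβ5 using fun a => (hf a).blocks
  obtain ⟨n, hnr, hn⟩ := exists_common_mult (fun a : Φ.T => (Φ.chart a.1 a.2).G) Φ.hr
  have hn' : ∀ a, ∀ y : (Φ.chart (x a) (hx a)).G, ∃ k, Φ.r ^ k • n • y = 0 := fun a => hn ⟨x a, hx a⟩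
  have tr : ∀ (P : ∀ a' ∈ Φ.T, Prop), (∀ a, P (x a) (hx a)) → ∀ a' ha', P a' ha' := fun P hP a' ha' => by
    have := hP (pre a')
    simpa only [hpre a' ha'] using this
  obtain ⟨H, hH⟩ : ∃ H, c.finH T s.2 = H + 1 := Nat.exists_eq_succ_of_ne_zero fun h0 =>
    Φ.cross_alpha ⟨_, hx a₀⟩ hnr (tr (fun a' ha' => n • (Φ.chart a' ha').clA (Φ.chart a' ha').P = 0)
      fun a => fin_zero (h.loc a) (hT a) (he a) (hn' a) h0)
  have hpos := fun a => fin_pos (h.loc a) (hf a) (hT a) (he a) (hn' a) hnr hH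
  obtain ⟨cs, lam, hcs⟩ := Φ.cross_beta (H := H) (n := n)
    (c := fun a' => bw (pt φ (pre a')) gs fun j => -(n : ℤ) * (c.finC T s.2 j : ℕ)) fun a' ha' => by
      obtain ⟨a, ha⟩ : ∃ a, a = pre a' := ⟨_, rfl⟩
      have e : x a = a' := ha ▸ hpre a' ha'
      rw [← ha]
      subst e
      exact (hpos a).1
  have hS : ∀ a' ∈ Φ.T, (Φ.chart (x (pre a')) (hx _)).S = (Φ.T.erase a').image fun b => (b - a')⁻¹ :=
    fun a' ha' => by
      show (Φ.T.erase (x (pre a'))).image (fun b => (b - x (pre a'))⁻¹) = _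
      rw [hpre a' ha']
  have hmem : ∀ a' ∈ Φ.T, ∀ b ∈ Φ.T.erase a', (b - a')⁻¹ ∈ (Φ.chart (x (pre a')) (hx _)).S :=
    fun a' ha' b hb => by rw [hS a' ha']; exact Finset.mem_image_of_mem _ hb
  have hinj : ∀ a' : F, Function.Injective fun b : F => (b - a')⁻¹ := fun a' b b' e => by simpa using e
  obtain ⟨s', hs', j, hj, ρ, hρ, h0, h1, a, ha, b, hb, hab⟩ := m_resolvent Φ.T ⟨_, hx a₀⟩ Φ.hr Φ.hζ Φ.hT
    (D := gs.length) (c.finC T s.2) (fun l => (gs.getD l []).length - 1)
    (fun a' b => β (pre a') (b - a')⁻¹) (fun a' ha' b hb => hβ1 _ _ (hmem a' ha' b hb))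
    (fun a' ha' l hl => by
      rw [← hβ3 (pre a') l hl, hS a' ha', Finset.filter_image, Finset.card_image_of_injective _ (hinj a')])
    (fun l hl => by have := ((hf a₀).getD hl).2; omega) (-(n : ℤ))
    ((Nat.isCoprime_iff_coprime.2 ((Nat.Prime.coprime_iff_not_dvd Φ.hr).2 hnr).symm).neg_left) cs lam
    (fun a' ha' b hb => by
      have := hcs a' ha' b (Finset.mem_of_mem_erase hb) (Finset.ne_of_mem_erase hb)
      simp only [hβ5 _ _ _ (hmem a' ha' b hb)] at this
      exact this.symm.dvd) (hpos a₀).2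
  have hval : ∀ a' ∈ Φ.T, φ (c.finR gs ((List.range gs.length).map (c.finC T s.2)) s' j) (pre a') = ρ a' :=
    fun a' ha' => by
      have hcv : ∀ l < gs.length,
          ((List.range gs.length).map (c.finC T s.2)).getD l 0 = c.finC T s.2 l := fun l hl => by
        rw [List.getD_eq_getElem _ _ (by simpa using hl)]; simp
      refine (finR_val (h.loc (pre a')) (hf _) (hβ1 _) (hβ4 _) _ s' j).trans ?_
      rw [hρ a' ha', hS a' ha', Finset.sum_image fun b _ b' _ e => hinj a' e]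
      have e : pt φ (pre a') c.x = a' := (hcx _).trans (hpre a' ha')
      rw [e]
      congr 1
      refine Finset.sum_congr rfl fun b hb => ?_
      rw [hcv _ (hβ1 _ _ (hmem a' ha' b hb)), inv_inv, add_sub_cancel,
        Finset.sum_congr rfl fun i hi => by rw [hcv i (Finset.mem_range.1 hi)]]
      rfl
  have hlen : c.gm.length = Φ.T.card := by
    rw [(h.loc a₀).len]
    show ((Φ.T.erase _).image _).card + 1 = _
    rw [Finset.card_image_of_injective _ (hinj _), Finset.card_erase_add_one (hx a₀)]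
  refine finW_of h gs _ (s := s') (j := j) (hr ▸ hs') (hlen ▸ hj) (a := pre a) (b := pre b) ?_ ?_ ?_
  · rw [hval a ha]; exact h0 a ha
  · rw [hval a ha, hval b hb, ← hr]; exact h1 a ha b hb
  · rw [hval a ha, hval b hb]; exact hab

end Crest.Agent.R312
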