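import Crest.Agent.R312.A0Defs

/-!
# R312 / A3Prog : the program `splitOdd` (sub-lead: helper44).  DO NOT CHANGE.

Paper proof: `ReadA.lean`, section A3.  Semantics and invariants: `A3Defs.lean`.
* `RE` : elements `∑_{b<r} u_b Y^b` of `R = A[X][Y]/(Y^r - g)` (entries beyond `r` are ignored, missing ones are `0`).
* `ID` : `(ν, G)` is the ideal generated by the monic `ν ∈ A[X]` and the members of `G`.
* `Exc` : a witness (non-zero non-unit of `A`) or a finer factorisation of `g`.  Routines return `Exc ⊕ _`.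
-/

set_option autoImplicit false

namespace Crest.Agent.R312

open Crest.Agent.Lib.PT

abbrev RE : Type := List Pol
abbrev ID : Type := Pol × List RE
abbrev Exc : Type := Vec ⊕ List Pol
/-- ideal, height, socle vector, obstruction vector -/
abbrev Ent : Type := ID × ℕ × Vec × Vec
/-- position `(k, b, e)` : the coefficient of `X^e Y^b` in `c_k` -/
abbrev Pos : Type := ℕ × ℕ × ℕ
/-- a linear condition: `inl (k, y, b)` for (i), `inr (s, b)` for (ii) -/
abbrev Cnd : Type := (ℕ × RE × ℕ) ⊕ (ℕ × ℕ)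

/-- `min j n` (polynomially bounded if `n` is) -/
def cm (n j : ℕ) : ℕ := n - (n - j)

theorem cm_eq {n j : ℕ} (h : j ≤ n) : cm n j = j := by unfold cm; omega
theorem cm_le (n j : ℕ) : cm n j ≤ n := by unfold cm; omega

/-- sequencing -/
def bnd {ε β γ : Type} (s : ε ⊕ β) (f : β → ε ⊕ γ) : ε ⊕ γ := s.elim Sum.inl f

/-- `[f 0, …, f (n-1)]`, or the first exception -/
def mapR {ε β : Type} (n : ℕ) (d : β) (f : ℕ → ε ⊕ β) : ε ⊕ List β :=
  ((List.range n).findSome? fun i => (f i).getLeft?).elim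
    (Sum.inr ((List.range n).map fun i => (f i).getRight?.getD d)) Sum.inl

/-- the maximum of `f i`, `i < n` -/
def maxR (n : ℕ) (f : ℕ → ℕ) : ℕ := ((List.range n).map f).foldr max 0

/-- the exception satisfies `E`, the value satisfies `P` -/
def Good {ε β : Type} (E : ε → Prop) (P : β → Prop) (s : ε ⊕ β) : Prop := s.elim E P

section good
variable {ε β γ : Type} {E E' : ε → Prop} {P P' : β → Prop} {Q : γ → Prop}

@[simp] theorem good_inl {e : ε} : Good E P (Sum.inl e) ↔ E e := Iff.rfl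
@[simp] theorem good_inr {b : β} : Good E P (Sum.inr b : ε ⊕ β) ↔ P b := Iff.rfl
@[simp] theorem bnd_inl (e : ε) (f : β → ε ⊕ γ) : bnd (Sum.inl e) f = Sum.inl e := rfl
@[simp] theorem bnd_inr (b : β) (f : β → ε ⊕ γ) : bnd (Sum.inr b) f = f b := rfl

theorem Good.bnd {s : ε ⊕ β} {f : β → ε ⊕ γ} (h : Good E P s) (hf : ∀ b, P b → Good E Q (f b)) :
    Good E Q (bnd s f) := by
  cases s with
  | inl e => exact h
  | inr b => exact hf b h

theorem Good.mono {s : ε ⊕ β} (h : Good E P s) (hP : ∀ b, P b → P' b) : Good E P' s := by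
  cases s with
  | inl e => exact h
  | inr b => exact hP b h

theorem Good.monoE {s : ε ⊕ β} (h : Good E P s) (hE : ∀ e, E e → E' e) : Good E' P s := by
  cases s with
  | inl e => exact hE e h
  | inr b => exact h

theorem good_mapR {n : ℕ} {d : β} {f : ℕ → ε ⊕ β} {R : ℕ → β → Prop}
    (h : ∀ i < n, Good E (R i) (f i)) :
    Good E (fun l => l.length = n ∧ ∀ i < n, R i (l.getD i d)) (mapR n d f) := by
  unfold mapR
  cases hs : (List.range n).findSome? fun i => (f i).getLeft? with
  | some e =>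
    obtain ⟨i, hi, he⟩ := List.exists_of_findSome?_eq_some hs
    have h1 := h i (List.mem_range.1 hi)
    rw [Sum.getLeft?_eq_some_iff.1 he] at h1
    exact h1
  | none =>
    refine ⟨by simp, fun i hi => ?_⟩
    have h1 := h i hi
    have h2 := List.findSome?_eq_none_iff.1 hs i (List.mem_range.2 hi)
    rw [List.getD_eq_getElem _ _ (by simpa using hi)]
    simp only [List.getElem_map, List.getElem_range]
    cases hf : f i with
    | inl e => simp [hf] at h2
    | inr b => rw [hf] at h1; simpa using h1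

/-- invariants of a loop -/
theorem iter_inv {σ : Type} {f : σ → σ} {s : σ} (I : ℕ → σ → Prop) (n : ℕ) (h0 : I 0 s)
    (hI : ∀ k < n, ∀ x, I k x → I (k + 1) (f x)) : I n (f^[n] s) := by
  induction n with
  | zero => exact h0
  | succ n ih =>
    rw [Function.iterate_succ_apply']
    exact hI n (by omega) _ (ih fun k hk => hI k (by omega))

end good

theorem le_maxR {n i : ℕ} (f : ℕ → ℕ) (hi : i < n) : f i ≤ maxR n f := by
  unfold maxR
  exact List.le_max_of_le (List.mem_map.2 ⟨i, List.mem_range.2 hi, rfl⟩) le_rfl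

theorem maxR_le {n B : ℕ} {f : ℕ → ℕ} (h : ∀ i < n, f i ≤ B) : maxR n f ≤ B := by
  unfold maxR
  refine List.max_le_of_forall_le _ _ fun x hx => ?_
  obtain ⟨i, hi, rfl⟩ := List.mem_map.1 hx
  exact h i (List.mem_range.1 hi)

theorem maxR_eq (n : ℕ) (f : ℕ → ℕ) : maxR n f = 0 ∨ ∃ i < n, f i = maxR n f := by
  by_contra h
  push Not at h
  have h1 : maxR n f ≤ maxR n f - 1 := maxR_le fun i hi => by
    have := le_maxR f hi
    have := h.2 i hi
    omega
  omega

/-- the fixed data of a run -/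
structure Cx where
  A : Alg
  ru : Un
  q : ℕ
  γ0 : Vec
  x : Vec
  g : Pol
  gm : Pol
  Lu : Un

instance : Enc Cx := Enc.ofInj (fun c => (c.A, c.ru, c.q, c.γ0, c.x, c.g, c.gm, c.Lu)) (by
  rintro ⟨_, _, _, _, _, _, _, _⟩ ⟨_, _, _, _, _, _, _, _⟩ h
  simp only [Prod.mk.injEq] at h
  obtain ⟨rfl, rfl, rfl, rfl, rfl, rfl, rfl, rfl⟩ := h
  rfl)

namespace Cx

variable (c : Cx)

def r : ℕ := c.ru.n
/-- the number of rounds, `|G| < 2 ^ L` -/
def L : ℕ := c.Lu.n
def ζ : Vec := c.A.zeta c.r c.q c.γ0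

/-! ## Arithmetic in `R` -/

def rmul (u v : RE) : RE :=
  (List.range c.r).map fun b => c.A.psum ((List.range c.r).map fun i =>
    if i ≤ b then c.A.pmul (u.getD i []) (v.getD (b - i) [])
    else c.A.pmul c.g (c.A.pmul (u.getD i []) (v.getD (b + c.r - i) [])))
/-- `σ^i` -/
def rsig (i : ℕ) (u : RE) : RE :=
  (List.range c.r).map fun b => c.A.psmul (c.A.pow c.ζ (i * b)) (u.getD b [])
def rmod (u : RE) (ν : Pol) : RE := (List.range c.r).map fun b => c.A.pmod (u.getD b []) ν
def rdiv (u : RE) (ν : Pol) : RE := (List.range c.r).map fun b => c.A.pdiv (u.getD b []) ν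
/-- `X^e` for `e < E` -/
def pmono (E e : ℕ) : Pol := (List.range E).map fun j => if j = e then c.A.scal 1 else []
/-- `X^e Y^b` for `e < E`, `b < r` -/
def rmono (E e b : ℕ) : RE := (List.range c.r).map fun j => if j = b then c.pmono E e else []
def rprod (l : List RE) : RE := l.foldr c.rmul [c.A.pone]
/-- the norm to `A[X]` -/
def rnorm (u : RE) : Pol := (c.rprod ((List.range c.r).map fun i => c.rsig i u)).getD 0 []

/-! ## Linear algebra over `A` -/

/-- Kronecker substitution `∑_{j<J} X^(D j) l_j` -/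
def kron (D J : ℕ) (l : List Pol) : Pol :=
  c.A.psum ((List.range J).map fun j => c.A.pshift (D * cm J j) (l.getD j []))
/-- the relations over `A` between the rows of `M` -/
def kerL (M : List (List Pol)) : List (List Vec) :=
  c.A.kerA (M.map (c.kron M.flatten.flatten.length M.flatten.length))
/-- the monic generator of `(μ, G)` -/
def gcd (μ : Pol) (G : List Pol) : Exc ⊕ Pol :=
  (c.A.pgcd c.q μ G).elim (fun w => Sum.inl (Sum.inl w)) fun d => Sum.inr (d.take μ.length)
/-- the monic associate -/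
def mon (P : Pol) : Exc ⊕ Pol :=
  (c.A.monicize c.q P).elim (fun w => Sum.inl (Sum.inl w)) Sum.inr

/-! ## Ideals -/

/-- reduce the generators modulo `ν` and remove superfluous ones -/
def nrmI (ν : Pol) (G : List RE) : ID :=
  (ν, c.A.basisA (ν.length * c.r) (c.kron ν.length c.r) (G.map fun u => c.rmod u ν))
def gens (I : ID) : List RE := [I.1] :: I.2
def imul (I J : ID) : ID :=
  c.nrmI (c.A.pmul I.1 J.1) ((gens I).flatMap fun u => (gens J).map (c.rmul u))
def isig (i : ℕ) (I : ID) : ID := (I.1, I.2.map (c.rsig i))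
def ione : ID := (c.A.pone, [])
def iprod (l : List ID) : ID := l.foldr c.imul c.ione
/-- `I σI ⋯ σ^(k-1) I` for `k ≤ r` -/
def isp (I : ID) (k : ℕ) : ID := c.iprod ((List.range (cm c.r k)).map fun i => c.isig i I)
/-- the `l`-th entry -/
def ent (T : List Ent) (l : ℕ) : Ent := T.getD l (c.ione, 0, [], [])
/-- `∏_l t_l ^ cs_l` for `cs_l ≤ r` -/
def ipp (T : List Ent) (cs : Vec) : ID :=
  c.iprod ((List.range T.length).flatMap fun l => List.replicate (cm c.r (cs.getD l 0)) (c.ent T l).1)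
def comps (G : List RE) : List Pol := G.flatMap fun u => (List.range c.r).map fun b => u.getD b []
/-- the ideal `(μ♭, G)`, `μ♭` the part of `μ` prime to `g`, with its norm as modulus -/
def mkI (μ : Pol) (G : List RE) : Exc ⊕ ID :=
  bnd (c.gcd μ [c.A.ppowMod c.g μ.length μ]) fun e =>
    bnd (c.gcd (c.isp (c.A.pdiv μ e, G) c.r).1 (c.comps (c.isp (c.A.pdiv μ e, G) c.r).2)) fun ν =>
      Sum.inr (c.nrmI ν ([c.A.pdiv μ e] :: G))

/-! ## Obstructions -/

def obTry (gs : List Pol) (ν : Pol) (l o : ℕ) : Option (Exc ⊕ ℕ) :=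
  (c.gcd (gs.getD l []) [c.A.psub (c.A.ppowMod ν ((c.q - 1) / c.r) (gs.getD l [])) [c.A.pow c.ζ o]]).elim
    (fun e => some (Sum.inl e)) fun d =>
      if d.length ≤ 1 then none
      else if d.length = (gs.getD l []).length then some (Sum.inr o)
      else some (Sum.inl (Sum.inr (d :: c.A.pdiv (gs.getD l []) d :: gs.eraseIdx l)))
/-- the `o` with `ν^((q-1)/r) = ζ^o` modulo `g_l` -/
def obl (gs : List Pol) (ν : Pol) (l : ℕ) : Exc ⊕ ℕ :=
  ((List.range c.r).findSome? (c.obTry gs ν l)).getD (Sum.inr 0)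
def obs (gs : List Pol) (ν : Pol) : Exc ⊕ Vec := mapR gs.length 0 (c.obl gs ν)

/-! ## Division by `1 - σ` -/

/-- an `r`-th root of `γ₀^k ν` modulo `g` -/
def dw (ν : Pol) (k : ℕ) : Pol :=
  c.A.proot c.r c.q c.γ0 (c.A.psmul (c.A.pow c.γ0 k) ν) c.gm
/-- `w / ν` modulo `g` -/
def dom (ν : Pol) (k : ℕ) : Pol := c.A.pmul (c.dw ν k) (c.A.ppowMod ν (c.q - 2) c.gm)
/-- a bound for the exponents of `X` in `c_k` -/
def dE (ν : Pol) (k : ℕ) : ℕ := c.r * c.gm.length + c.r * cm c.r k * ν.length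
def dpos (ν : Pol) (B : ℕ) : List Pos :=
  (List.range c.r ×ˢ List.range c.r ×ˢ List.range (c.dE ν c.r)).filter fun x =>
    decide (c.r * x.2.2 + (c.gm.length - 1) * x.2.1 ≤ B + (c.r - 1) * x.1 * (ν.length - 1))
def dcnd (I : ID) : List Cnd :=
  ((List.range c.r).flatMap fun k => (gens (c.isp I k)).flatMap fun y =>
    (List.range c.r).map fun b => Sum.inl (k, y, b)) ++
  ((List.range c.r).flatMap fun b => (List.range (cm c.r b)).map fun s => Sum.inr (s, b))
def dent (ν ω : Pol) (x : Pos) (t : Cnd) : Pol :=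
  t.elim
    (fun t => if t.1 = x.1 then
      c.A.pmod ((c.rmul (c.rmono (c.dE ν c.r) x.2.2 x.2.1) t.2.1).getD t.2.2 []) (c.A.ppow ν (cm c.r x.1))
      else [])
    fun t => if t.1 = x.2.1 then
      c.A.pmod (c.A.psmul (c.A.pow c.ζ ((c.r - 1) * (x.1 * t.2)))
        (c.A.pmul (c.A.ppowMod ω x.1 c.gm) (c.pmono (c.dE ν c.r) x.2.2))) c.gm
      else []
/-- the space `V_B` -/
def dker (I : ID) (ω : Pol) (B : ℕ) : List (List Vec) :=
  c.kerL ((c.dpos I.1 B).map fun x => (c.dcnd I).map (c.dent I.1 ω x))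
/-- the least `B` with `V_B ≠ 0` -/
def dB (I : ID) (ω : Pol) : ℕ :=
  (List.range ((c.r - 1) * c.gm.length + 1)).findIdx fun B => !(c.dker I ω B).isEmpty
/-- the element `c_k` -/
def du (ν : Pol) (B : ℕ) (lam : List Vec) (k : ℕ) : RE :=
  (List.range c.r).map fun b => (List.range (c.dE ν k)).map fun e =>
    lam.getD ((c.dpos ν B).idxOf (k, b, e)) []
def dgens (I : ID) (B : ℕ) (lam : List Vec) : List RE :=
  (List.range c.r).flatMap fun k => (gens (c.isp I k)).map fun y =>
    c.rdiv (c.rmul (c.du I.1 B lam k) y) (c.A.ppow I.1 (cm c.r k))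
def dfin (I : ID) (B : ℕ) (lam : List Vec) : Exc ⊕ ID :=
  bnd (c.mon (c.rnorm (c.du I.1 B lam 0))) fun μ => c.mkI μ (c.dgens I B lam)
/-- an ideal `J` with `(1 - σ)[J] = [I]`, if `γ₀^k ν(I)` is an `r`-th power modulo `g` -/
def divide (I : ID) (k : ℕ) : Exc ⊕ ID :=
  c.dfin I (c.dB I (c.dom I.1 k)) ((c.dker I (c.dom I.1 k) (c.dB I (c.dom I.1 k))).headD [])

/-! ## Saturation -/

def ones (D : ℕ) : Vec := List.replicate D 1
/-- the obstruction vectors and the constant vector -/
def obM (gs : List Pol) (T : List Ent) : List Vec := T.map (fun t => t.2.2.2) ++ [ones gs.length]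
def satE (gs : List Pol) (l : ℕ) : Exc ⊕ Ent :=
  bnd (c.mon (c.A.padd c.g (c.A.ppow (gs.getD l []) c.r))) fun μ =>
    bnd (c.mkI μ [[gs.getD l [], c.A.pone]]) fun t =>
      bnd (c.obs gs t.1) fun o =>
        Sum.inr (t, 1, mkv c.r gs.length (fun j => if j = l then c.r - 1 else 0), o)
def satInit (gs : List Pol) : Exc ⊕ List Ent :=
  mapR (gs.length - 1) (c.ione, 0, [], []) (c.satE gs)
/-- the largest height in the support of `cs` -/
def satH (T : List Ent) (cs : Vec) : ℕ :=
  maxR T.length fun l => if cs.getD l 0 = 0 then 0 else (c.ent T l).2.1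
def satL (T : List Ent) (cs : Vec) : ℕ :=
  (List.range T.length).findIdx fun l => decide (cs.getD l 0 ≠ 0 ∧ (c.ent T l).2.1 = c.satH T cs)
def satS (gs : List Pol) (T : List Ent) (cs : Vec) : Vec :=
  mkv c.r gs.length fun j => ((List.range T.length).map fun l =>
    if (c.ent T l).2.1 = c.satH T cs then cs.getD l 0 * (c.ent T l).2.2.1.getD j 0 else 0).sum
def satUp (gs : List Pol) (T : List Ent) (cs : Vec) : Exc ⊕ List Ent :=
  bnd (c.divide (c.ipp T cs) (cs.getD T.length 0)) fun t =>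
    bnd (c.obs gs t.1) fun o =>
      Sum.inr (T.set (c.satL T cs) (t, c.satH T cs + 1, c.satS gs T cs, o))
def satStep (gs : List Pol) (s : Exc ⊕ List Ent) : Exc ⊕ List Ent :=
  bnd s fun T => (ker c.r gs.length (obM gs T)).head?.elim (Sum.inr T) (c.satUp gs T)
def sat (gs : List Pol) : Exc ⊕ List Ent := (c.satStep gs)^[c.L] (c.satInit gs)

/-! ## Expansion -/

def expC (gs : List Pol) (T : List Ent) (o : Vec) : Vec :=
  solve c.r gs.length (obM gs T) (vsmul c.r gs.length (c.r - 1) o)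
def expStep (gs : List Pol) (T : List Ent) (s : Exc ⊕ ID × List Vec) : Exc ⊕ ID × List Vec :=
  bnd s fun s => bnd (c.obs gs s.1.1) fun o =>
    bnd (c.divide (c.imul s.1 (c.ipp T (c.expC gs T o))) ((c.expC gs T o).getD T.length 0)) fun J =>
      Sum.inr (J, s.2 ++ [c.expC gs T o])
def expInit : Exc ⊕ ID × List Vec :=
  bnd (c.mkI c.A.pX [[c.A.pneg c.A.pone, c.A.pone]]) fun J => Sum.inr (J, [])
def expand (gs : List Pol) (T : List Ent) : Exc ⊕ ID × List Vec :=
  (c.expStep gs T)^[c.L] c.expInit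

/-! ## The resolvent -/

def finH (T : List Ent) (cs : List Vec) : ℕ :=
  maxR cs.length fun i => maxR T.length fun l =>
    if (cs.getD i []).getD l 0 = 0 then 0 else (c.ent T l).2.1 - i
def finC (T : List Ent) (cs : List Vec) (j : ℕ) : ℕ :=
  ((List.range T.length).map fun l =>
    ((List.range cs.length).map fun i =>
      if (c.ent T l).2.1 = i + c.finH T cs then (cs.getD i []).getD l 0 else 0).sum *
      (c.ent T l).2.2.1.getD j 0).sum
def finR (gs : List Pol) (cv : Vec) (s j : ℕ) : Vec :=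
  c.A.add (c.A.mul (c.A.pow c.ζ s) (c.A.pow c.x j))
    (c.A.sum ((List.range gs.length).map fun l =>
      c.A.mul
        (c.A.pow c.ζ ((cv.getD l 0 + ((List.range gs.length).map fun i =>
          ((gs.getD i []).length - 1) * cv.getD i 0).sum) % c.r))
        (c.A.tr (gs.getD l []) (c.A.ppowMod (c.A.psub [c.x] c.g.tail) j (gs.getD l [])))))
def finW (gs : List Pol) (cv : Vec) : Vec :=
  (((List.range c.r).flatMap fun s => (List.range c.gm.length).flatMap fun j =>
    (c.A.digs c.r c.q c.γ0 (c.finR gs cv s j)).flatten).find?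
      fun w => decide (c.A.IsWit c.q w)).getD []

/-! ## The outer loop -/

def run (gs : List Pol) : Exc :=
  (bnd (c.sat gs) fun T => bnd (c.expand gs T) fun s =>
    Sum.inr (c.finW gs ((List.range gs.length).map (c.finC T s.2)))).elim (fun e => e) Sum.inl
def outStep (e : Exc) : Exc := e.elim Sum.inl c.run
def wit : Vec := (c.outStep^[c.gm.length] (Sum.inr [c.gm])).getLeft?.getD []

end Cx

/-- the chart polynomial `∏_{b ≠ x} (1 + (x - b) X)` -/
def chartG (A : Alg) (x f : Vec) : Pol :=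
  (List.range (f.length - 1)).map fun k => A.sum ((List.range f.length).map fun j =>
    A.smul ((j + (f.length - 1 - k)).choose (f.length - 1 - k) * f.getD (j + (f.length - 1 - k)) 0)
      (A.pow x j))

/-- the data of a run for `F = F_p[z]/h`, the non-residue `γ` and `f` -/
def mkCx (p r : ℕ) (h γ f : Vec) : Cx where
  A := mainA p h f
  ru := ⟨cm f.length r⟩
  q := p ^ (h.length - 1)
  γ0 := mainC p h f γ
  x := mainX p h f
  g := chartG (mainA p h f) (mainX p h f) f
  gm := (mainA p h f).psmul ((mainA p h f).inv (p ^ (h.length - 1))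
    ((chartG (mainA p h f) (mainX p h f) f).getLastD [])) (chartG (mainA p h f) (mainX p h f) f)
  Lu := ⟨(cm f.length r + 1) * (cm f.length r * f.length + 1) * (p ^ (h.length - 1)).size⟩

/-- the program -/
def splitOdd (t : ℕ × ℕ × List ℕ × List ℕ × List ℕ) : List (List ℕ) :=
  (mainA t.1 t.2.2.1 t.2.2.2.2).cands (t.2.2.2.2.length - 1) (mainX t.1 t.2.2.1 t.2.2.2.2)
    (mkCx t.1 t.2.1 t.2.2.1 t.2.2.2.1 t.2.2.2.2).wit

end Crest.Agent.R312
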