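import Crest.Agent.R312.A3Defs

/-!
# R312 / A3R : arithmetic in `R`
Read `A3Prog.lean` and `A3Defs.lean` first.  Keep the statements; auxiliary lemmas get the prefix `a3r_`.
-/

set_option autoImplicit false

noncomputable section

namespace Crest.Agent.R312

open Crest.Agent.Lib.PT Polynomial Finset

variable {F : Type} [Field F] [Fintype F] {c : Cx} {ψ : Vec → F} {E : Cv F}
  {S : Type} {φ : Vec → S → F} {Es : S → Cv F}

omit [Fintype F] in
/-- `Cv.comp_sum` -/
theorem comp_rel (ψ : Vec → F) (u : RE) {b : ℕ} (hb : b < E.r) :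
    E.comp b (E.rel ψ u) = poly ψ (u.getD b []) :=
  E.comp_sum (fun b => poly ψ (u.getD b [])) hb

omit [Fintype F] in
theorem rel_single (ψ : Vec → F) (P : Pol) : E.rel ψ [P] = E.of (poly ψ P) := by
  refine E.ext_comp fun b hb => ?_
  rw [comp_rel ψ _ hb, Cv.comp_of]
  cases b <;> simp

omit [Fintype F] in
theorem rel_pair (ψ : Vec → F) (P Q : Pol) :
    E.rel ψ [P, Q] = E.of (poly ψ P) + E.of (poly ψ Q) * E.Y := by
  refine E.ext_comp fun b hb => ?_
  have := E.comp_of_mul_Y_pow (poly ψ Q) (s := 1) (by have := E.three_le_r; omega) b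
  rw [pow_one] at this
  rw [comp_rel ψ _ hb, map_add, Cv.comp_of, this]
  rcases b with _ | _ | b <;> simp

omit [Fintype F] in
theorem a3r_getD {n b : ℕ} (f : ℕ → Pol) (hb : b < n) : ((List.range n).map f).getD b [] = f b := by
  rw [List.getD_eq_getElem _ _ (by simpa using hb)]
  simp

theorem a3r_comp (h : LocA c ψ E) (f : ℕ → Pol) {b : ℕ} (hb : b < E.r) :
    E.comp b (E.rel ψ ((List.range c.r).map f)) = poly ψ (f b) := by
  rw [comp_rel ψ _ hb, a3r_getD f (h.r ▸ hb)]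

theorem rel_map_range (h : LocA c ψ E) (f : ℕ → Pol) :
    E.rel ψ ((List.range c.r).map f) = ∑ b ∈ range E.r, E.of (poly ψ (f b)) * E.Y ^ b :=
  Finset.sum_congr rfl fun b hb => by rw [a3r_getD f (h.r ▸ Finset.mem_range.1 hb)]

/-- Both sides are double sums.  For fixed `i < r` split `∑_{b<r}` into `b ≥ i` (put `j = b - i < r - i`) and
`b < i` (put `j = b + r - i ≥ r - i`, `Y^(i+j) = Y^b Y^r = of g * Y^b`, `Cv.Y_pow_r`); e.g. `Finset.sum_nbij'` with
`b ↦ if i ≤ b then b - i else b + r - i` and `j ↦ if i + j < r then i + j else i + j - r`. -/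
theorem rel_rmul (h : LocA c ψ E) (u v : RE) : E.rel ψ (c.rmul u v) = E.rel ψ u * E.rel ψ v := by
  rw [Cx.rmul, rel_map_range h, Cv.rel, Cv.rel, Finset.sum_mul_sum]
  simp only [h.hom.psum, List.map_map, a0a_sum_range, ← h.r, map_sum, Finset.sum_mul, Function.comp]
  rw [Finset.sum_comm]
  refine Finset.sum_congr rfl fun i hi => ?_
  have hi' := Finset.mem_range.1 hi
  refine Finset.sum_nbij' (fun b => if i ≤ b then b - i else b + E.r - i)
    (fun j => if i + j < E.r then i + j else i + j - E.r) (fun b hb => ?_) (fun j hj => ?_)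
    (fun b hb => ?_) (fun j hj => ?_) fun b hb => ?_
  · have := Finset.mem_range.1 hb
    rw [Finset.mem_range]; split_ifs <;> omega
  · have := Finset.mem_range.1 hj
    rw [Finset.mem_range]; split_ifs <;> omega
  · have := Finset.mem_range.1 hb
    split_ifs <;> omega
  · have := Finset.mem_range.1 hj
    split_ifs <;> omega
  · split_ifs with hib
    · rw [h.hom.pmul, map_mul, show E.Y ^ b = E.Y ^ i * E.Y ^ (b - i) by rw [← pow_add]; congr 1; omega]
      ring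
    · have e : E.of E.g * E.Y ^ b = E.Y ^ i * E.Y ^ (b + E.r - i) := by
        rw [← E.Y_pow_r, ← pow_add, ← pow_add]; congr 1; omega
      rw [h.hom.pmul, h.hom.pmul, h.g, map_mul, map_mul]
      linear_combination (E.of (poly ψ (u.getD i [])) * E.of (poly ψ (v.getD (b + E.r - i) []))) * e

/-- `Cv.ext_comp`, `Cv.comp_σ_pow` -/
theorem rel_rsig (h : LocA c ψ E) (i : ℕ) (u : RE) : E.rel ψ (c.rsig i u) = (E.σ ^ i) (E.rel ψ u) := by
  refine E.ext_comp fun b hb => ?_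
  rw [Cx.rsig, a3r_comp h _ hb, Cv.comp_σ_pow, comp_rel ψ _ hb, h.hom.psmul, h.hom.pow, h.ζ]

/-- `modByMonic_add_div` -/
theorem rel_rmod_add (h : LocA c ψ E) {ν : Pol} (hν : Mon ψ ν) (u : RE) :
    E.rel ψ (c.rmod u ν) + E.of (poly ψ ν) * E.rel ψ (c.rdiv u ν) = E.rel ψ u := by
  refine E.ext_comp fun b hb => ?_
  rw [map_add, Cv.comp_of_mul, Cx.rmod, Cx.rdiv, a3r_comp h _ hb, a3r_comp h _ hb, comp_rel ψ _ hb,
    h.hom.pmod hν, h.hom.pdiv hν, modByMonic_add_div]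

theorem rel_rdiv (h : LocA c ψ E) {ν : Pol} (hν : Mon ψ ν) {u : RE} (hu : E.of (poly ψ ν) ∣ E.rel ψ u) :
    E.of (poly ψ ν) * E.rel ψ (c.rdiv u ν) = E.rel ψ u := by
  have h0 : E.rel ψ (c.rmod u ν) = 0 := E.ext_comp fun b hb => by
    rw [Cx.rmod, a3r_comp h _ hb, h.hom.pmod hν, map_zero, modByMonic_eq_zero_iff_dvd hν.monic,
      ← comp_rel (E := E) ψ u hb]
    exact E.of_dvd_iff.1 hu b hb
  rw [← rel_rmod_add h hν u, h0, zero_add]

theorem poly_pmono (h : LocA c ψ E) {N e : ℕ} (he : e < N) : poly ψ (c.pmono N e) = X ^ e := by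
  ext i
  rw [h.hom.coeff_poly, coeff_X_pow, Cx.pmono]
  by_cases hi : i < N
  · rw [List.getD_eq_getElem _ _ (by simpa using hi)]
    simp only [List.getElem_map, List.getElem_range]
    split_ifs
    · rw [h.hom.scal, Nat.cast_one]
    · exact h.hom.nil
  · rw [List.getD_eq_default _ _ (by simpa using hi), if_neg (by omega), h.hom.nil]

theorem rel_rmono (h : LocA c ψ E) {N e b : ℕ} (he : e < N) (hb : b < E.r) :
    E.rel ψ (c.rmono N e b) = E.of (X ^ e) * E.Y ^ b := by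
  refine E.ext_comp fun j hj => ?_
  rw [Cx.rmono, a3r_comp h _ hj, E.comp_of_mul_Y_pow _ hb]
  split_ifs
  · exact poly_pmono h he
  · exact poly_nil ψ

theorem rel_rprod (h : LocA c ψ E) (l : List RE) : E.rel ψ (c.rprod l) = (l.map (E.rel ψ)).prod := by
  induction l with
  | nil => rw [Cx.rprod, List.foldr_nil, rel_single, h.hom.pone, map_one]; rfl
  | cons u l ih =>
    rw [Cx.rprod, List.foldr_cons, rel_rmul h, List.map_cons, List.prod_cons, ← ih]; rfl

omit [Fintype F] in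
theorem a3r_prod_range {M : Type*} [CommMonoid M] (n : ℕ) (f : ℕ → M) :
    ((List.range n).map f).prod = ∏ i ∈ Finset.range n, f i := by
  induction n with
  | zero => simp
  | succ n ih => rw [List.range_succ, List.map_append, List.prod_append, ih, Finset.prod_range_succ]; simp

theorem poly_rnorm (h : LocA c ψ E) (u : RE) : poly ψ (c.rnorm u) = E.nm (E.rel ψ u) := by
  rw [Cx.rnorm, ← comp_rel (E := E) ψ _ E.r_pos, rel_rprod h, List.map_map, a3r_prod_range, Cv.nm, ← h.r]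
  simp only [Function.comp, rel_rsig h]

omit [Fintype F] in
theorem spn_cons (ψ : Vec → F) (u : RE) (G : List RE) :
    E.spn ψ (u :: G) = Ideal.span {E.rel ψ u} ⊔ E.spn ψ G := by
  rw [Cv.spn, Cv.spn, ← Ideal.span_insert, ← Set.image_insert_eq]
  congr 2
  ext v
  simp

omit [Fintype F] in
@[simp] theorem spn_nil (ψ : Vec → F) : E.spn ψ [] = ⊥ := by
  simp [Cv.spn]

omit [Fintype F] in
theorem idl_eq (ψ : Vec → F) (I : ID) :
    E.idl ψ I = Ideal.span {E.of (poly ψ I.1)} ⊔ E.spn ψ I.2 := by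
  rw [Cv.idl, Cx.gens, spn_cons, rel_single]

omit [Fintype F] in
theorem rel_mem_spn (ψ : Vec → F) {G : List RE} {u : RE} (hu : u ∈ G) : E.rel ψ u ∈ E.spn ψ G :=
  Ideal.subset_span ⟨u, hu, rfl⟩

omit [Fintype F] in
theorem spn_le {ψ : Vec → F} {G : List RE} {J : Ideal E.R} :
    E.spn ψ G ≤ J ↔ ∀ u ∈ G, E.rel ψ u ∈ J := by
  rw [Cv.spn, Ideal.span_le, Set.image_subset_iff]
  rfl

/-- `Ideal.span_mul_span'` -/
theorem spn_mul (h : LocA c ψ E) (G G' : List RE) :
    E.spn ψ (G.flatMap fun u => G'.map (c.rmul u)) = E.spn ψ G * E.spn ψ G' := by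
  rw [Cv.spn, Cv.spn, Cv.spn, Ideal.span_mul_span']
  congr 1
  ext z
  simp only [Set.mem_image, Set.mem_ofPred_eq, List.mem_flatMap, List.mem_map, Set.mem_mul]
  constructor
  · rintro ⟨_, ⟨u, hu, v, hv, rfl⟩, rfl⟩
    exact ⟨_, ⟨u, hu, rfl⟩, _, ⟨v, hv, rfl⟩, (rel_rmul h u v).symm⟩
  · rintro ⟨_, ⟨u, hu, rfl⟩, _, ⟨v, hv, rfl⟩, rfl⟩
    exact ⟨_, ⟨u, hu, v, hv, rfl⟩, rel_rmul h u v⟩

/-- `Cv.sI_span` -/
theorem spn_rsig (h : LocA c ψ E) (i : ℕ) (G : List RE) :
    E.spn ψ (G.map (c.rsig i)) = E.sI i (E.spn ψ G) := by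
  rw [Cv.spn, Cv.spn, Cv.sI_span]
  congr 1
  ext z
  simp only [Set.mem_image, Set.mem_ofPred_eq, List.mem_map]
  constructor
  · rintro ⟨_, ⟨u, hu, rfl⟩, rfl⟩
    exact ⟨_, ⟨u, hu, rfl⟩, (rel_rsig h i u).symm⟩
  · rintro ⟨_, ⟨u, hu, rfl⟩, rfl⟩
    exact ⟨_, ⟨u, hu, rfl⟩, rel_rsig h i u⟩

end Crest.Agent.R312
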