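import Crest.Agent.R312.A3Mk
import Crest.Agent.R312.A3Ob

/-!
# R312 / A3Sat1 : the start of the saturation
Read `A3Prog.lean` and `A3Defs.lean` first.  Keep the statements; auxiliary lemmas get the prefix `a3t_`.
-/

set_option autoImplicit false

noncomputable section

namespace Crest.Agent.R312

open Crest.Agent.Lib.PT Polynomial Finset

variable {F : Type} [Field F] [Fintype F] {c : Cx} {ψ : Vec → F} {E : Cv F}
  {S : Type} {φ : Vec → S → F} {Es : S → Cv F}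

/-- `mon_good` (`m_add_pow_ne`, or `Cv.nm_Y_add`, `nm_ne`, `Y_add_ne`), `mkI_good`, `obs_good`.  The class:
`rel_pair`, `Cv.cl_drop_Y_add` (`of μ ∈ (Y + g_l)` by `dvd_of_nm`, `nm_Y_add`), then `Cv.Wsum_congr` with
`Fac.blocks` (`r - 1 ≡ -1`; `getD_mkv`, `rd_eq`). -/
theorem satE_good (h : Ok c φ Es) {gs : List Pol} (hf : ∀ a, (Es a).Fac (pt φ a) gs) {l : ℕ}
    (hl : l < gs.length) :
    Good (GE φ Es gs) (fun t => t.2.1 = 1 ∧
      (∀ j < gs.length, t.2.2.1.getD j 0 = if j = l then c.r - 1 else 0) ∧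
      ∀ a, (Es a).Val (pt φ a) t.1 ∧ (Es a).Ob (pt φ a) gs t.1.1 t.2.2.2 ∧
        (Es a).clA ((Es a).idl (pt φ a) t.1) =
          (Es a).Wsum (bw (pt φ a) gs fun j => (t.2.2.1.getD j 0 : ℕ))) (c.satE gs l) := by
  obtain ⟨a₀⟩ := h.ne
  have hp : ∀ a, poly (pt φ a) (c.A.padd c.g (c.A.ppow (gs.getD l []) c.r)) =
      (Es a).nm ((Es a).Y + (Es a).of (poly (pt φ a) (gs.getD l []))) := fun a => by
    rw [(h.loc a).hom.padd, (h.loc a).hom.ppow, (h.loc a).g, Cv.nm_Y_add, (h.loc a).r]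
  have hv : ∀ j < gs.length, (mkv c.r gs.length fun j => if j = l then c.r - 1 else 0).getD j 0 =
      if j = l then c.r - 1 else 0 := fun j hj => by
    have := h.rprime.pos
    rw [getD_mkv _ _ hj, rd_eq this, Nat.mod_eq_of_lt (by split_ifs <;> omega)]
  refine (mon_good h gs ⟨a₀, ?_⟩).bnd fun μ hμ => (mkI_good h gs (fun a => (hμ a).1) _).bnd fun t ht =>
    (obs_good h hf fun a => (ht a).1).bnd fun o ho => ⟨rfl, hv, fun a => ⟨(ht a).1, ho a, ?_⟩⟩
  · rw [hp]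
    exact (Es a₀).nm_ne ((Es a₀).Y_add_ne _)
  · obtain ⟨μ', N, hc, hd, -, he⟩ := (ht a).2
    have h1 := (hμ a).2
    rw [hp] at h1
    obtain ⟨β, hβ1, hβ2, -, -, hβ5⟩ := (hf a).blocks
    simp only
    rw [he, spn_cons, spn_nil, sup_bot_eq, rel_pair, (h.loc a).hom.pone, map_one, one_mul, add_comm,
      (Es a).cl_drop_Y_add _ (hμ a).1.monic.ne_zero
        (Ideal.mem_span_singleton.2 (((Es a).dvd_of_nm _).trans (map_dvd _ h1.dvd))) hc hd]
    refine (Es a).Wsum_congr fun α hα => ?_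
    rw [hβ5 _ α hα, hv _ (hβ1 α hα)]
    by_cases e : β α = l
    · rw [if_pos ((hβ2 l hl α).2 ⟨hα, e⟩), if_pos e, ← (h.loc a).r, Nat.cast_pred (Es a).r_pos]
      exact Int.modEq_iff_dvd.2 ⟨1, by ring⟩
    · rw [if_neg fun h0 => e ((hβ2 l hl α).1 h0).2, if_neg e]
      rfl

/-- `good_mapR` (`c.ent T l` unfolds to `T.getD l _`).  `DInv.top`: `φ_Wsum`.  `DInv.ind`: by `wsum_bw_sum` and
`Fac.wsum_eq_zero_iff` the numbers `∑_l n_l S_(l,j)` (`j < D`) are all `≡ t`; `j = D - 1` gives `t ≡ 0`, `j = l` gives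
`r ∣ n_l (r - 1)`. -/
theorem satInit_good (h : Ok c φ Es) {gs : List Pol} (hf : ∀ a, (Es a).Fac (pt φ a) gs) :
    Good (GE φ Es gs) (fun T => ∀ a, SatI c (pt φ a) (Es a) gs T) (c.satInit gs) := by
  refine (good_mapR fun l hl => satE_good h hf (l := l) (by omega)).mono fun T hT a => ?_
  obtain ⟨hl, hT⟩ := hT
  have hpos := (hf a).pos
  have h1 : ∀ l < T.length, (c.ent T l).2.1 = 1 := fun l h0 => (hT l (hl ▸ h0)).1
  have h2 : ∀ l < T.length, ∀ j < gs.length,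
      (c.ent T l).2.2.1.getD j 0 = if j = l then c.r - 1 else 0 := fun l h0 => (hT l (hl ▸ h0)).2.1
  have h3 : ∀ l < T.length, (Es a).clA ((Es a).idl (pt φ a) (c.ent T l).1) =
      (Es a).Wsum (bw (pt φ a) gs fun j => ((c.ent T l).2.2.1.getD j 0 : ℕ)) :=
    fun l h0 => ((hT l (hl ▸ h0)).2.2 a).2.2
  have h4 : ∀ l < T.length, ((Es a).φ ^ ((c.ent T l).2.1 - 1)) ((Es a).clA ((Es a).idl (pt φ a) (c.ent T l).1)) =
      (Es a).Wsum (bw (pt φ a) gs fun j => ((c.ent T l).2.2.1.getD j 0 : ℕ)) := fun l h0 => by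
    rw [h1 l h0, Nat.sub_self, pow_zero, ← h3 l h0]; rfl
  refine ⟨by omega, fun l h0 => ((hT l (hl ▸ h0)).2.2 a).1, fun l h0 => ((hT l (hl ▸ h0)).2.2 a).2.1,
    ⟨fun l h0 => (h1 l h0).ge, fun l h0 => ?_, fun n hn l h0 => ?_⟩, h4⟩
  · rw [h1 l h0, pow_one, h3 l h0, Cv.φ_Wsum]
  · rw [Finset.sum_congr rfl fun l hl => by rw [h4 l (Finset.mem_range.1 hl)], wsum_bw_sum,
      (hf a).wsum_eq_zero_iff] at hn
    obtain ⟨t, ht⟩ := hn
    have h5 := ht T.length (by omega)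
    have h6 := ht l (by omega)
    rw [Finset.sum_eq_zero fun i hi => by
      have := Finset.mem_range.1 hi
      rw [h2 i this _ (by omega), if_neg (by omega)]; simp] at h5
    rw [Finset.sum_eq_single l (fun i hi hne => by
      rw [h2 i (Finset.mem_range.1 hi) _ (by omega), if_neg hne.symm]; simp)
      (fun hi => absurd (Finset.mem_range.2 h0) hi), h2 l h0 _ (by omega), if_pos rfl, ← (h.loc a).r,
      Nat.cast_pred (Es a).r_pos] at h6
    obtain ⟨k, hk⟩ := (h6.trans h5.symm).dvd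
    exact ⟨n l + k, by linear_combination hk⟩

end Crest.Agent.R312
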