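import Crest.Agent.R312.A3Prog
import Crest.Agent.R312.A0PT
import Crest.Agent.R312.A0KerA

/-!
# R312 / A3Size : unconditional size bounds for the programs of `A3Prog.lean`
Everything is syntactic (no semantics): use the `length_*`, `pn_*`, `nrm_*`, `Alg.Sm.*`, `bd_*` lemmas of
`A0Poly, A0Div, A0KerA, A0PT` and `Good.bnd`, `Good.mono`, `good_mapR`, `iter_inv` of `A3Prog`.
Keep the statements; auxiliary lemmas get the prefix `a3s_`.
-/

set_option autoImplicit false

namespace Crest.Agent.R312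

open Crest.Agent.Lib.PT

/-- bounded exceptions -/
def EB (N k : ℕ) (e : Exc) : Prop := e.elim (Bd N) fun gs => gs.length ≤ k ∧ ∀ P ∈ gs, Bd N P

theorem EB.bd {N k K : ℕ} {e : Exc} (h : EB N k e) (hN : N ≤ K) (hk : k ≤ K) : Bd K e := by
  cases e with
  | inl w => exact Bd.mono (x := w) h hN
  | inr gs => exact ⟨h.1.trans hk, fun P hP => Bd.mono (h.2 P hP) hN⟩

theorem a3s_ebk {N k k' : ℕ} {e : Exc} (h : EB N k e) (hk : k ≤ k') : EB N k' e := by
  cases e with
  | inl w => exact h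
  | inr gs => exact ⟨h.1.trans hk, h.2⟩

theorem a3s_getD {γ : Type*} {p : γ → Prop} {l : List γ} {d : γ} (h : ∀ x ∈ l, p x) (hd : p d) (i : ℕ) :
    p (l.getD i d) := by
  rw [List.getD_eq_getElem?_getD]
  cases hi : l[i]? with
  | none => exact hd
  | some x => exact h x (List.mem_of_getElem? hi)

theorem a3s_all {γ : Type*} {p : γ → Prop} {l : List γ} {d : γ} (h : ∀ i < l.length, p (l.getD i d)) :
    ∀ x ∈ l, p x := fun x hx => by
  obtain ⟨i, hi, rfl⟩ := List.getElem_of_mem hx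
  rw [← List.getD_eq_getElem _ d hi]
  exact h i hi

theorem a3s_pow {N M : ℕ} (h : M + 2 ≤ (N + 2) ^ 6) : (M + 2) ^ 7 ≤ (N + 2) ^ 42 :=
  (Nat.pow_le_pow_left h 7).trans_eq (by rw [← pow_mul])

theorem a3s_le42 (M : ℕ) : M + 2 ≤ (M + 2) ^ 42 := Nat.le_self_pow (by norm_num) _

theorem Good.bd {β : Type} [Enc β] [Bdd β] {N k K : ℕ} {s : Exc ⊕ β} (h : Good (EB N k) (Bd K) s)
    (hN : N ≤ K) (hk : k ≤ K) : Bd K s := by
  cases s with
  | inl e => exact EB.bd (e := e) h hN hk
  | inr b => exact h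

/-- `length_le_sz`, `sz_le_of_mem`, `lt_two_pow_sz` -/
theorem bd_sz_vec (v : Vec) : Bd (sz v) v := ⟨by have := length_le_sz v; omega, fun x hx =>
    (lt_two_pow_sz x).trans_le (Nat.pow_le_pow_right (by norm_num) (sz_le_of_mem hx))⟩
theorem bd_sz_pol (P : Pol) : Bd (sz P) P := ⟨by have := length_le_sz P; omega, fun v hv => Bd.mono (bd_sz_vec v) (sz_le_of_mem hv)⟩
theorem bd_sz_pols (l : List Pol) : Bd (sz l) l := ⟨by have := length_le_sz l; omega, fun P hP => Bd.mono (bd_sz_pol P) (sz_le_of_mem hP)⟩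

namespace Cx

/-- all parameters are at most `N` -/
structure Sm (c : Cx) (N : ℕ) : Prop where
  A : c.A.Sm N
  r : c.r ≤ N
  L : c.L ≤ N
  g : c.g.length ≤ N
  gm : Bd N c.gm

variable {c : Cx} {N M k : ℕ}

theorem Sm.mono (h : c.Sm N) (hM : N ≤ M) : c.Sm M := ⟨h.A.mono hM, h.r.trans hM, h.L.trans hM, h.g.trans hM, Bd.mono h.gm hM⟩

/-- `sz c` is by `rfl` the size of the tuple of the fields, `sz c.A` that of `(p, one, tab)` -/
theorem sm_sz (c : Cx) : c.Sm (sz c) := by
  have h1 : sz c = sz (c.A, c.ru, c.q, c.γ0, c.x, c.g, c.gm, c.Lu) := rfl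
  have h2 : sz c.A = sz (c.A.p, c.A.one, c.A.tab) := rfl
  simp only [sz_mk, sz_un] at h1 h2
  have h3 := length_le_sz c.A.one
  have h4 := length_le_sz c.g
  refine ⟨⟨by unfold Alg.dim; omega, (lt_two_pow_sz _).trans_le
    (Nat.pow_le_pow_right (by norm_num) (by omega))⟩, by unfold r; omega, by unfold L; omega, by omega,
    Bd.mono (bd_sz_pol _) (by omega)⟩

theorem a3s_rmul (c : Cx) {u v : RE} {a b : ℕ} (hu : ∀ P ∈ u, P.length ≤ a) (hv : ∀ P ∈ v, P.length ≤ b) :
    ∀ P ∈ c.rmul u v, c.A.PN P ∧ P.length ≤ c.g.length + a + b := fun P hP => by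
  obtain ⟨j, -, rfl⟩ := List.mem_map.1 hP
  refine ⟨Alg.pn_psum _ _, length_psum_le _ fun Q hQ => ?_⟩
  obtain ⟨i, -, rfl⟩ := List.mem_map.1 hQ
  have h1 := a3s_getD (p := fun P : Pol => P.length ≤ a) hu (d := []) (Nat.zero_le _) i
  have h2 := fun k => a3s_getD (p := fun P : Pol => P.length ≤ b) hv (d := []) (Nat.zero_le _) k
  split_ifs
  · have := h2 (j - i)
    rw [length_pmul]; omega
  · have := h2 (j + c.r - i)
    rw [length_pmul, length_pmul]; omega

theorem a3s_rprod (h : c.Sm N) {l : List RE} (hu : ∀ u ∈ l, ∀ P ∈ u, P.length ≤ N) :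
    (c.rprod l).length ≤ N + 1 ∧ ∀ P ∈ c.rprod l, c.A.PN P ∧ P.length ≤ l.length * (N + N) + 1 := by
  induction l with
  | nil =>
    refine ⟨by simp [rprod], fun P hP => ?_⟩
    rw [List.mem_singleton.1 hP]
    exact ⟨Alg.pn_pone _, by simp [Alg.pone]⟩
  | cons u l ih =>
    have h1 := ih fun v hv => hu v (List.mem_cons_of_mem _ hv)
    refine ⟨?_, fun P hP => ?_⟩
    · have := h.r
      simp only [rprod, List.foldr_cons, rmul, List.length_map, List.length_range]
      omega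
    · obtain ⟨h2, h3⟩ := a3s_rmul c (hu u List.mem_cons_self) (fun Q hQ => (h1.2 Q hQ).2) P hP
      have := h.g
      refine ⟨h2, h3.trans ?_⟩
      rw [List.length_cons, add_mul]
      omega

/-- Induction on `l`: all components are `PN` and have length `≤ l.length * (N + N) + 1`
(`length_psum_le`, `length_pmul`; `(u.getD i []).length ≤ N`); there are `1` or `r` components. -/
theorem rprod_bd (h : c.Sm N) {l : List RE} (hl : l.length ≤ N) (hu : ∀ u ∈ l, ∀ P ∈ u, P.length ≤ N) :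
    Bd (2 * N ^ 2 + N + 1) (c.rprod l) := by
  obtain ⟨h1, h2⟩ := a3s_rprod h hu
  refine ⟨by omega, fun P hP => (h.A.mono (by omega)).pbd (h2 P hP).1 ((h2 P hP).2.trans ?_)⟩
  have := Nat.mul_le_mul_right (N + N) hl
  nlinarith

/-- `basisA_sublist`, `length_basisA_le`, `Alg.Sm.pmod` -/
theorem nrmI_bd (h : c.Sm N) {ν : Pol} (hν : Bd N ν) (G : List RE) : Bd (N ^ 3 + N) (c.nrmI ν G) := by
  refine ⟨Bd.mono hν (by omega), (length_basisA_le _ _ _ _).trans ?_, fun u hu => ?_⟩
  · have := Nat.mul_le_mul (Nat.mul_le_mul hν.1 h.r) h.A.1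
    nlinarith
  · obtain ⟨v, -, rfl⟩ := List.mem_map.1 ((basisA_sublist _ _ _ _).subset hu)
    refine Bd.mono (N := N) (bd_map (by simpa using h.r) fun b _ => h.A.pmod _ ?_) (by omega)
    exact hν.1.trans (Nat.le_succ _)

theorem length_iprod (c : Cx) (l : List ID) :
    (c.iprod l).1.length ≤ (l.map fun I => I.1.length - 1).sum + 1 := by
  induction l with
  | nil => simp [iprod, ione, Alg.pone]
  | cons I l ih =>
    change (c.A.pmul I.1 (c.iprod l).1).length ≤ _
    rw [length_pmul, List.map_cons, List.sum_cons]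
    omega

theorem iprod_bd (h : c.Sm N) {l : List ID} (hl : (l.map fun I => I.1.length - 1).sum + 1 ≤ N) :
    Bd (N ^ 3 + N) (c.iprod l) := by
  have h1 := (length_iprod c l).trans hl
  cases l with
  | nil => exact ⟨Bd.mono (h.A.pbd (Alg.pn_pone _) h1) (by omega), bd_nil⟩
  | cons I l => exact nrmI_bd h (h.A.pbd (Alg.pn_pmul _ _ _) h1) _

theorem length_isp (c : Cx) (I : ID) (k : ℕ) : (c.isp I k).1.length ≤ c.r * (I.1.length - 1) + 1 := by
  refine (length_iprod _ _).trans (Nat.succ_le_succ ?_)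
  rw [List.map_map]
  have : ((fun I : ID => I.1.length - 1) ∘ fun i => c.isig i I) = fun _ => I.1.length - 1 := rfl
  rw [this, List.map_const', List.sum_replicate, List.length_range, smul_eq_mul]
  exact Nat.mul_le_mul_right _ (cm_le _ _)

/-- `monicize_nrm` (`pgcd` unfolds to `monicize`) -/
theorem gcd_bd (h : c.Sm N) (k : ℕ) (μ : Pol) (G : List Pol) :
    Good (EB N k) (fun d => c.A.PN d ∧ d.length ≤ μ.length) (c.gcd μ G) := by
  unfold gcd
  cases hg : c.A.pgcd c.q μ G with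
  | inl w => exact h.A.pgcd_inl hg
  | inr d =>
    exact ⟨fun x hx => (Alg.monicize_nrm c.A).2 d hg x (List.mem_of_mem_take hx),
      List.length_take_le _ _⟩

/-- `ptrim_prefix` -/
theorem mon_bd (h : c.Sm N) (k : ℕ) (P : Pol) :
    Good (EB N k) (fun d => c.A.PN d ∧ d.length ≤ P.length) (c.mon P) := by
  unfold mon
  cases hg : c.A.monicize c.q P with
  | inl w => exact h.A.bd ((Alg.monicize_nrm c.A).1 w hg)
  | inr d =>
    refine ⟨(Alg.monicize_nrm c.A).2 d hg, ?_⟩
    unfold Alg.monicize at hg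
    split_ifs at hg
    · cases hg
      exact Nat.zero_le _
    · cases hg
      rw [length_psmul]
      exact (ptrim_prefix _ _).length_le

/-- the modulus has length `≤ r (M - 1) + 1 ≤ (M + 2)^2` -/
theorem mkI_bd (h : c.Sm N) (hM : N ≤ M) (k : ℕ) {μ : Pol} (hμ : μ.length ≤ M) (G : List RE) :
    Good (EB N k) (Bd ((M + 2) ^ 7)) (c.mkI μ G) := by
  unfold mkI
  refine (gcd_bd h k _ _).bnd fun e _ => ?_
  have hJ := length_isp c (c.A.pdiv μ e, G) c.r
  generalize c.isp (c.A.pdiv μ e, G) c.r = J at hJ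
  refine (gcd_bd h k _ _).bnd fun ν hν => ?_
  have h1 : M ≤ (M + 2) ^ 2 := by nlinarith
  have h2 := h.mono (hM.trans h1)
  have h3 : ν.length ≤ (M + 2) ^ 2 := by
    refine hν.2.trans (hJ.trans ?_)
    have h4 : (c.A.pdiv μ e).length - 1 ≤ M := by rw [length_pdiv]; omega
    have := Nat.mul_le_mul (h.r.trans hM) h4
    nlinarith
  refine good_inr.2 (Bd.mono (nrmI_bd h2 (h2.A.pbd hν.1 h3) _) ?_)
  have h5 : (M + 2) ^ 2 ≤ (M + 2) ^ 6 := Nat.pow_le_pow_right (by omega) (by norm_num)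
  rw [← pow_mul, pow_succ _ 6]
  have h6 := Nat.mul_le_mul_left ((M + 2) ^ 6) (Nat.le_add_left 2 M)
  change (M + 2) ^ 6 + _ ≤ _
  omega

theorem a3s_obl (h : c.Sm N) {gs : List Pol} (hgs : ∀ P ∈ gs, Bd N P) (ν : Pol) (l : ℕ) :
    Good (EB N (gs.length + 2)) (· ≤ N) (c.obl gs ν l) := by
  unfold obl
  cases hf : (List.range c.r).findSome? (c.obTry gs ν l) with
  | none => exact Nat.zero_le _
  | some x =>
    obtain ⟨o, ho, hx⟩ := List.exists_of_findSome?_eq_some hf
    have hl : Bd N (gs.getD l []) := a3s_getD hgs bd_nil l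
    unfold obTry at hx
    have h1 := gcd_bd h (gs.length + 2) (gs.getD l [])
      [c.A.psub (c.A.ppowMod ν ((c.q - 1) / c.r) (gs.getD l [])) [c.A.pow c.ζ o]]
    generalize c.gcd _ _ = s at hx h1
    cases s with
    | inl e => cases hx; exact h1
    | inr d =>
      simp only [Sum.elim_inr] at hx
      split_ifs at hx
      · cases hx
        exact (List.mem_range.1 ho).le.trans h.r
      · cases hx
        refine ⟨?_, fun P hP => ?_⟩
        · have := List.length_eraseIdx_le gs l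
          simp only [List.length_cons]
          omega
        · rcases List.mem_cons.1 hP with rfl | hP
          · exact h.A.pbd h1.1 (h1.2.trans hl.1)
          rcases List.mem_cons.1 hP with rfl | hP
          · exact h.A.pdiv hl.1 _
          · exact hgs P (List.mem_of_mem_eraseIdx hP)

theorem obs_bd (h : c.Sm N) {gs : List Pol} (hgs : ∀ P ∈ gs, Bd N P) (hM : N ≤ M) (hl : gs.length ≤ M)
    (ν : Pol) : Good (EB N (gs.length + 2)) (Bd M) (c.obs gs ν) := by
  refine (good_mapR (R := fun _ o => o ≤ N) fun i _ => a3s_obl h hgs ν i).mono fun l hl' => ?_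
  exact ⟨hl'.1.le.trans hl, a3s_all (d := 0) fun i hi => bd_of_le ((hl'.2 i (hl'.1 ▸ hi)).trans hM)⟩

/-- The components of `c.du _ _ _ 0` have length `r * gm.length ≤ N^2` (`cm _ 0 = 0`), so the norm has length
`≤ (N + 2)^5` (`rprod_bd` for `(N+1)^2`), then `mkI_bd` with `M = (N + 2)^5`. -/
theorem divide_bd (h : c.Sm N) (k : ℕ) (I : ID) (j : ℕ) :
    Good (EB N k) (Bd ((N + 2) ^ 42)) (c.divide I j) := by
  unfold divide dfin
  generalize c.dB _ _ = B
  generalize List.headD _ _ = lam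
  refine (mon_bd h k _).bnd fun μ hμ => ?_
  have h1 : N ≤ (N + 2) ^ 5 := (Nat.le_add_right _ _).trans (Nat.le_self_pow (by norm_num) _)
  have h2 : (c.rnorm (c.du I.1 B lam 0)).length ≤ (N + 2) ^ 5 := by
    have h3 := rprod_bd (h.mono (show N ≤ N ^ 2 + N by omega))
      (l := (List.range c.r).map fun i => c.rsig i (c.du I.1 B lam 0))
      (by have := h.r; simp; omega) fun u hu P hP => by
        obtain ⟨i, -, rfl⟩ := List.mem_map.1 hu
        obtain ⟨b, -, rfl⟩ := List.mem_map.1 hP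
        rw [length_psmul]
        refine a3s_getD (p := fun P : Pol => P.length ≤ N ^ 2 + N) (fun Q hQ => ?_) (Nat.zero_le _) b
        obtain ⟨b', -, rfl⟩ := List.mem_map.1 hQ
        have := Nat.mul_le_mul h.r h.gm.1
        simp only [List.length_map, List.length_range, dE, cm, Nat.sub_zero, Nat.sub_self, mul_zero,
          zero_mul, add_zero]
        nlinarith
    refine (Bd.getD h3 bd_nil 0).1.trans ?_
    have : (N + 2) ^ 5 = 2 * (N ^ 2 + N) ^ 2 + (N ^ 2 + N) + 1 +
        (N ^ 5 + 8 * N ^ 4 + 36 * N ^ 3 + 77 * N ^ 2 + 79 * N + 31) := by ring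
    omega
  refine (mkI_bd h h1 k (hμ.2.trans h2) _).mono fun J hJ => Bd.mono hJ (a3s_pow ?_)
  have h4 : 2 ≤ (N + 2) ^ 5 := (Nat.le_add_left _ _).trans (Nat.le_self_pow (by norm_num) _)
  rw [pow_succ _ 5]
  nlinarith

/-- Invariant after `j` rounds: `T.length ≤ M` and for `t ∈ T`: `Bd ((N+2)^42) t.1`, `t.2.1 ≤ j + 1`, `Bd M t.2.2`
(`List.mem_or_eq_of_mem_set`, `maxR_le`, `bd_mkv`). -/
theorem sat_bd (h : c.Sm N) {gs : List Pol} (hgs : ∀ P ∈ gs, Bd N P) (hM : N ≤ M) (hl : gs.length ≤ M)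
    {j : ℕ} (hj : j ≤ N) :
    Good (EB N (gs.length + 2)) (Bd ((M + 2) ^ 42)) ((c.satStep gs)^[j] (c.satInit gs)) := by
  have hr : c.r < 2 ^ M := (h.r.trans hM).trans_lt Nat.lt_two_pow_self
  have key := iter_inv (f := c.satStep gs) (s := c.satInit gs)
    (fun j s => Good (EB N (gs.length + 2)) (fun T : List Ent => T.length ≤ M ∧ ∀ t ∈ T,
      Bd ((N + 2) ^ 42) t.1 ∧ t.2.1 ≤ j + 1 ∧ Bd M t.2.2) s) j ?_ ?_
  · refine key.mono fun T hT => ⟨hT.1.trans ((Nat.le_add_right _ _).trans (a3s_le42 M)), fun t ht => ?_⟩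
    obtain ⟨h1, h2, h3⟩ := hT.2 t ht
    have := a3s_le42 M
    exact ⟨Bd.mono h1 (Nat.pow_le_pow_left (by omega) _), bd_of_le (by omega), Bd.mono h3 (by omega)⟩
  · refine (good_mapR (R := fun _ (t : Ent) => Bd ((N + 2) ^ 42) t.1 ∧ t.2.1 ≤ 0 + 1 ∧ Bd M t.2.2)
      fun l _ => ?_).mono fun T hT => ⟨by omega, a3s_all fun i hi => hT.2 i (hT.1 ▸ hi)⟩
    refine (mon_bd h _ _).bnd fun μ hμ => ?_
    have h1 : μ.length ≤ N ^ 2 + N + 1 := by
      refine hμ.2.trans ?_
      have h2 := length_ppow_le c.A (gs.getD l []) c.r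
      have h3 : (gs.getD l []).length - 1 ≤ N :=
        (Nat.sub_le _ _).trans (a3s_getD (p := Bd N) hgs bd_nil l).1
      have h4 := Nat.mul_le_mul h.r h3
      have h5 := h.g
      rw [length_padd, max_le_iff]
      constructor <;> nlinarith
    refine (mkI_bd h (by omega) _ h1 _).bnd fun t ht => (obs_bd h hgs hM hl _).bnd fun o ho => ?_
    refine ⟨Bd.mono ht (a3s_pow ?_), le_rfl, bd_mkv hl hr _, ho⟩
    have h6 : (N + 2) ^ 2 ≤ (N + 2) ^ 6 := Nat.pow_le_pow_right (by omega) (by norm_num)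
    nlinarith
  · intro i _ s hs
    refine hs.bnd fun T hT => ?_
    generalize List.head? _ = o
    cases o with
    | none => exact ⟨hT.1, fun t ht => ⟨(hT.2 t ht).1, (hT.2 t ht).2.1.trans (by omega), (hT.2 t ht).2.2⟩⟩
    | some cs =>
      refine (divide_bd h _ _ _).bnd fun t ht => (obs_bd h hgs hM hl _).bnd fun o ho => ?_
      refine ⟨by simpa using hT.1, fun t' ht' => ?_⟩
      rcases List.mem_or_eq_of_mem_set ht' with ht' | rfl
      · exact ⟨(hT.2 t' ht').1, (hT.2 t' ht').2.1.trans (by omega), (hT.2 t' ht').2.2⟩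
      · refine ⟨ht, Nat.succ_le_succ (maxR_le fun l _ => ?_), bd_mkv hl hr _, ho⟩
        split_ifs
        · exact Nat.zero_le _
        · exact a3s_getD (p := fun t : Ent => t.2.1 ≤ i + 1) (fun t ht => (hT.2 t ht).2.1)
            (Nat.zero_le _) l

/-- Invariant after `j` rounds: `Bd ((N+2)^42) s.1`, `s.2.length ≤ j`, `∀ v ∈ s.2, Bd M v` (`bd_solve`). -/
theorem expand_bd (h : c.Sm N) {gs : List Pol} (hgs : ∀ P ∈ gs, Bd N P) (hM : N ≤ M)
    (hl : gs.length ≤ M) {T : List Ent} (hT : T.length + 1 ≤ M) {j : ℕ} (hj : j ≤ N) :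
    Good (EB N (gs.length + 2)) (Bd ((M + 2) ^ 42)) ((c.expStep gs T)^[j] c.expInit) := by
  have hr : c.r < 2 ^ M := (h.r.trans hM).trans_lt Nat.lt_two_pow_self
  have key := iter_inv (f := c.expStep gs T) (s := c.expInit)
    (fun j s => Good (EB N (gs.length + 2)) (fun s : ID × List Vec =>
      Bd ((N + 2) ^ 42) s.1 ∧ s.2.length ≤ j ∧ ∀ v ∈ s.2, Bd M v) s) j ?_ ?_
  · have := a3s_le42 M
    exact key.mono fun s hs => ⟨Bd.mono hs.1 (Nat.pow_le_pow_left (by omega) _), by omega,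
      fun v hv => Bd.mono (hs.2.2 v hv) (by omega)⟩
  · refine (mkI_bd h (Nat.le_add_right N 2) _ (by simp [Alg.pX]) _).bnd fun J hJ =>
      ⟨Bd.mono hJ (a3s_pow ?_), le_rfl, fun v hv => by simp at hv⟩
    have h6 : (N + 2) ^ 2 ≤ (N + 2) ^ 6 := Nat.pow_le_pow_right (by omega) (by norm_num)
    nlinarith
  · intro i _ s hs
    refine hs.bnd fun s hs => (obs_bd h hgs hM hl _).bnd fun o _ => (divide_bd h _ _ _).bnd fun J hJ =>
      ⟨hJ, by simpa using hs.2.1, fun v hv => ?_⟩
    rcases List.mem_append.1 hv with hv | hv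
    · exact hs.2.2 v hv
    · rw [List.mem_singleton.1 hv]
      exact bd_solve (by simpa [obM] using hT) hr _

/-- `digs_fold` -/
theorem finW_bd (h : c.Sm N) (gs : List Pol) (cv : Vec) : Bd N (c.finW gs cv) := by
  unfold finW
  cases hf : List.find? _ _ with
  | none => exact bd_nil
  | some w =>
    obtain ⟨s, -, h1⟩ := List.mem_flatMap.1 (List.mem_of_find?_eq_some hf)
    obtain ⟨j, -, h2⟩ := List.mem_flatMap.1 h1
    obtain ⟨E, hE, h3⟩ := List.mem_flatten.1 h2
    exact h.A.bd (((Alg.digs_fold c.A _ _ _ _ _ (Alg.nrm_pow c.A _ _) _).2.2 E hE).2 w h3)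

theorem run_bd (h : c.Sm N) {gs : List Pol} (hgs : ∀ P ∈ gs, Bd N P) :
    EB N (gs.length + 2) (c.run gs) := by
  have h1 : Good (EB N (gs.length + 2)) (Bd N) (bnd (c.sat gs) fun T => bnd (c.expand gs T) fun s =>
      Sum.inr (c.finW gs ((List.range gs.length).map (c.finC T s.2)))) :=
    (sat_bd h hgs (Nat.le_add_right N gs.length) (Nat.le_add_left _ _) h.L).bnd fun T hT =>
      (expand_bd h hgs (M := N + gs.length + T.length + 1) (by omega) (by omega) (by omega) h.L).bnd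
        fun s _ => finW_bd h _ _
  unfold run
  generalize bnd (c.sat gs) _ = s at h1
  cases s with
  | inl e => exact h1
  | inr w => exact h1

theorem out_bd (h : c.Sm N) (j : ℕ) : EB N (2 * j + 1) (c.outStep^[j] (Sum.inr [c.gm])) := by
  induction j with
  | zero => exact ⟨le_rfl, fun P hP => by rw [List.mem_singleton.1 hP]; exact h.gm⟩
  | succ j ih =>
    rw [Function.iterate_succ_apply']
    generalize c.outStep^[j] _ = e at ih
    cases e with
    | inl w => exact ih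
    | inr gs => exact a3s_ebk (run_bd h ih.2) (by have := ih.1; omega)

end Cx

end Crest.Agent.R312
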