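import Crest.Agent.R312.B0Basic2

/-!
# R312 / B0Basic3 : divisors, Möbius function (port of R17/Basic3)
-/

set_option autoImplicit false
set_option linter.unusedSectionVars false
set_option linter.unusedVariables false

noncomputable section

open scoped Classical ComplexConjugate NumberField
open Crest.Agent.R17 (omC)

namespace Crest.Agent.R312

variable {K : Type} [Field K] [NumberField K] [Fld K] [Loc K] [Setup K]

theorem mem_pdiv {n e : R K} (hn : n ≠ 0) : e ∈ pdiv n ↔ Prim e ∧ e ∣ n := by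
  rw [pdiv, Finset.mem_filter, mem_ball]
  exact ⟨fun h => ⟨h.1.1, h.2⟩, fun h => ⟨⟨h.1, N_le_of_dvd hn h.2⟩, h.2⟩⟩

theorem one_mem_pdiv {n : R K} (hn : n ≠ 0) : 1 ∈ pdiv n := (mem_pdiv hn).2 ⟨Prim.one, one_dvd _⟩

theorem b3_pdiv_of_isUnit {u : R K} (hu : IsUnit u) : pdiv u = {1} := by
  ext e
  rw [mem_pdiv hu.ne_zero, Finset.mem_singleton]
  exact ⟨fun h => h.1.eq_one_of_isUnit (isUnit_of_dvd_unit h.2 hu),
    fun h => h ▸ ⟨Prim.one, one_dvd _⟩⟩

theorem b3_card_mul {a b : R K} (ha : a ≠ 0) (hb : b ≠ 0) :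
    (pdiv (a * b)).card ≤ (pdiv a).card * (pdiv b).card := by
  refine le_trans (Finset.card_le_card fun e he => ?_) (Finset.card_image₂_le (· * ·) _ _)
  obtain ⟨h1, h2⟩ := (mem_pdiv (mul_ne_zero ha hb)).1 he
  obtain ⟨e1, e2, p1, p2, d1, d2, rfl⟩ := h1.mul_of_dvd h2
  exact Finset.mem_image₂_of_mem ((mem_pdiv ha).2 ⟨p1, d1⟩) ((mem_pdiv hb).2 ⟨p2, d2⟩)

theorem b3_card_prime {p : R K} (hp : Prime p) : (pdiv p).card ≤ 2 := by
  rw [← Finset.insert_erase (one_mem_pdiv hp.ne_zero)]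
  refine (Finset.card_insert_le _ _).trans (Nat.succ_le_succ (Finset.card_le_one.2 ?_))
  have h : ∀ e ∈ (pdiv p).erase 1, Prim e ∧ Associated p e := fun e he => by
    obtain ⟨h1, h2⟩ := Finset.mem_erase.1 he
    obtain ⟨h3, h4⟩ := (mem_pdiv hp.ne_zero).1 h2
    exact ⟨h3, (hp.irreducible.dvd_iff.1 h4).resolve_left fun h => h1 (h3.eq_one_of_isUnit h)⟩
  exact fun a ha b hb => (h a ha).1.eq_of_associated (h b hb).1 ((h a ha).2.symm.trans (h b hb).2)

theorem card_pdiv_le_N {n : R K} (hn : n ≠ 0) : ((pdiv n).card : ℝ) ≤ N n := by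
  induction n using UniqueFactorizationMonoid.induction_on_prime with
  | h₁ => exact absurd rfl hn
  | h₂ u hu => rw [b3_pdiv_of_isUnit hu, Finset.card_singleton, Nat.cast_one]; exact one_le_N hn
  | h₃ a p ha hp ih =>
    have h1 : ((pdiv (p * a)).card : ℝ) ≤ 2 * (pdiv a).card := by
      exact_mod_cast (b3_card_mul hp.ne_zero ha).trans (Nat.mul_le_mul_right _ (b3_card_prime hp))
    rw [N_mul]
    exact h1.trans (mul_le_mul (Prime.two_le_N hp) (ih ha) (Nat.cast_nonneg _) (N_nonneg _))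

theorem b3_pow_card (A : ℝ) {ε : ℝ} (hε : 0 < ε) : ∃ C, ∀ n : R K, n ≠ 0 →
    A ^ ((pdiv n).filter Prime).card ≤ C * N n ^ ε := by
  obtain ⟨A', hK1, hK⟩ : ∃ A' : ℝ, 1 ≤ A' ∧ |A| ≤ A' := ⟨max 1 |A|, le_max_left _ _, le_max_right _ _⟩
  refine ⟨A' ^ (ball K (A' ^ ε⁻¹)).card, fun n hn => ?_⟩
  set P := (pdiv n).filter Prime with hP
  have hmem : ∀ p ∈ P, Prime p ∧ Prim p ∧ p ∣ n := fun p hp =>
    ⟨(Finset.mem_filter.1 hp).2, (mem_pdiv hn).1 (Finset.mem_filter.1 hp).1⟩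
  have h1 : ∏ p ∈ P, p ∣ n := Finset.prod_dvd_of_coprime
    (fun p hp q hq h => Prim.isCoprime_of_ne (hmem p hp).1 (hmem p hp).2.1 (hmem q hq).1
      (hmem q hq).2.1 h) fun p hp => (hmem p hp).2.2
  have h2 : ∏ p ∈ P, N p ^ ε ≤ N n ^ ε := by
    rw [Real.finsetProd_rpow _ _ fun p _ => N_nonneg p, ← N_prod]
    exact Real.rpow_le_rpow (N_nonneg _) (N_le_of_dvd hn h1) hε.le
  have h3 : ∏ p ∈ P, (if p ∈ ball K (A' ^ ε⁻¹) then A' else 1) ≤ A' ^ (ball K (A' ^ ε⁻¹)).card := by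
    rw [Finset.prod_ite, Finset.prod_const_one, mul_one, Finset.prod_const]
    exact pow_le_pow_right₀ hK1 (Finset.card_le_card fun p hp => (Finset.mem_filter.1 hp).2)
  calc A ^ P.card ≤ A' ^ P.card :=
        (le_abs_self _).trans ((abs_pow _ _).le.trans (pow_le_pow_left₀ (abs_nonneg _) hK _))
    _ = ∏ _p ∈ P, A' := (Finset.prod_const _).symm
    _ ≤ ∏ p ∈ P, (if p ∈ ball K (A' ^ ε⁻¹) then A' else 1) * N p ^ ε := by
        refine Finset.prod_le_prod (fun _ _ => by linarith) fun p hp => ?_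
        have h0 := (hmem p hp).1.ne_zero
        split_ifs with h
        · exact le_mul_of_one_le_right (by linarith) (Real.one_le_rpow (one_le_N h0) hε.le)
        · rw [mem_ball, not_and, not_le] at h
          rw [one_mul]
          exact (Real.rpow_inv_le_iff_of_pos (by linarith) (N_nonneg _) hε).1 (h (hmem p hp).2.1).le
    _ ≤ _ := by
        rw [Finset.prod_mul_distrib]
        exact mul_le_mul h3 h2 (Finset.prod_nonneg fun p _ => Real.rpow_nonneg (N_nonneg _) _)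
          (by positivity)

theorem b3_smooth {σ : ℝ} (hσ : 0 < σ) (T : Finset (R K)) (hT : ∀ p ∈ T, Prime p ∧ Prim p)
    (S : Finset (R K)) (hS : ∀ f ∈ S, Prim f ∧ ∀ q, Prime q → q ∣ f → ∃ p ∈ T, Associated q p) :
    ∑ f ∈ S, N f ^ (-σ) ≤ (1 - (2 : ℝ) ^ (-σ))⁻¹ ^ T.card := by
  have hr0 : 0 ≤ (2 : ℝ) ^ (-σ) := by positivity
  have hr1 : (2 : ℝ) ^ (-σ) < 1 := Real.rpow_lt_one_of_one_lt_of_neg one_lt_two (by linarith)
  induction T using Finset.induction_on generalizing S with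
  | empty =>
    have h1 : S ⊆ {1} := fun f hf => by
      rw [Finset.mem_singleton]
      by_contra h
      obtain ⟨q, hq, -, hd⟩ := (hS f hf).1.exists_prime_dvd h
      simpa using (hS f hf).2 q hq hd
    refine (Finset.sum_le_sum_of_subset_of_nonneg h1 fun f _ _ => Real.rpow_nonneg (N_nonneg _) _).trans ?_
    simp
  | insert p T hp ih =>
    obtain ⟨hp', hp''⟩ := hT p (Finset.mem_insert_self _ _)
    have h1 : ∀ f : R K, ∃ x : ℕ × R K, f ≠ 0 → ¬ p ∣ x.2 ∧ f = p ^ x.1 * x.2 := fun f => by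
      by_cases h : f = 0
      · exact ⟨(0, 0), fun h' => absurd h h'⟩
      · obtain ⟨i, a, h2⟩ := WfDvdMonoid.max_power_factor h hp'.irreducible
        exact ⟨(i, a), fun _ => h2⟩
    choose g hg using h1
    have h2 := ih (fun q hq => hT q (Finset.mem_insert_of_mem hq)) (S.image fun f => (g f).2)
      fun f' hf' => by
        obtain ⟨f, hf, rfl⟩ := Finset.mem_image.1 hf'
        obtain ⟨h3, h4⟩ := hg f (hS f hf).1.ne_zero
        refine ⟨Prim.of_mul_left (h4 ▸ (hS f hf).1) (hp''.pow _), fun q hq hd => ?_⟩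
        obtain ⟨p', h5, h6⟩ := (hS f hf).2 q hq (hd.trans (Dvd.intro_left _ h4.symm))
        refine ⟨p', (Finset.mem_insert.1 h5).resolve_left fun h => h3 ?_, h6⟩
        exact (h ▸ h6.symm.dvd).trans hd
    have h3 : ∑ i ∈ S.image (fun f => (g f).1), N (p ^ i) ^ (-σ) ≤ (1 - (2 : ℝ) ^ (-σ))⁻¹ := by
      rw [← tsum_geometric_of_lt_one hr0 hr1]
      refine le_trans (Finset.sum_le_sum fun i _ => ?_)
        ((summable_geometric_of_lt_one hr0 hr1).sum_le_tsum _ fun i _ => pow_nonneg hr0 i)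
      rw [N_pow, ← Real.rpow_pow_comm (N_nonneg p)]
      exact pow_le_pow_left₀ (Real.rpow_nonneg (N_nonneg p) _)
        (Real.rpow_le_rpow_of_nonpos two_pos (Prime.two_le_N hp') (by linarith)) i
    have h4 : S ⊆ (S.image (fun f => (g f).1) ×ˢ S.image fun f => (g f).2).image
        fun x => p ^ x.1 * x.2 := fun f hf =>
      Finset.mem_image.2 ⟨g f, Finset.mem_product.2 ⟨Finset.mem_image_of_mem _ hf,
        Finset.mem_image_of_mem _ hf⟩, (hg f (hS f hf).1.ne_zero).2.symm⟩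
    refine (Finset.sum_le_sum_of_subset_of_nonneg h4 fun f _ _ =>
      Real.rpow_nonneg (N_nonneg _) _).trans ((Finset.sum_image_le_of_nonneg fun f _ =>
        Real.rpow_nonneg (N_nonneg _) _).trans ?_)
    simp only [N_mul, Real.mul_rpow (N_nonneg _) (N_nonneg _)]
    rw [Finset.sum_product' (f := fun i f => N (p ^ i) ^ (-σ) * N f ^ (-σ)), ← Finset.sum_mul_sum,
      Finset.card_insert_of_notMem hp, pow_succ']
    exact mul_le_mul h3 h2 (Finset.sum_nonneg fun f _ => Real.rpow_nonneg (N_nonneg _) _)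
      (inv_nonneg.2 (by linarith))

theorem b3_sum_smooth {σ ε : ℝ} (hσ : 0 < σ) (hε : 0 < ε) : ∃ C, ∀ H : R K, H ≠ 0 →
    ∀ S : Finset (R K), (∀ f ∈ S, Prim f ∧ ∃ j : ℕ, f ∣ H ^ j) → ∑ f ∈ S, N f ^ (-σ) ≤ C * N H ^ ε := by
  obtain ⟨C, hC⟩ := b3_pow_card (K := K) (1 - (2 : ℝ) ^ (-σ))⁻¹ hε
  refine ⟨C, fun H hH S hS => ?_⟩
  refine (b3_smooth hσ ((pdiv H).filter Prime) (fun p hp => ?_) S fun f hf => ?_).trans (hC H hH)
  · exact ⟨(Finset.mem_filter.1 hp).2, ((mem_pdiv hH).1 (Finset.mem_filter.1 hp).1).1⟩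
  · obtain ⟨h0, j, hj⟩ := hS f hf
    refine ⟨h0, fun q hq hd => ?_⟩
    obtain ⟨p, h4, h5, h6⟩ := exists_prim_prime hq
    exact ⟨p, Finset.mem_filter.2 ⟨(mem_pdiv hH).2
      ⟨h5, h6.symm.dvd.trans (hq.dvd_of_dvd_pow (hd.trans hj))⟩, h4⟩, h6⟩

theorem b3_card_dvd {ε : ℝ} (hε : 0 < ε) : ∃ C, ∀ n : R K, n ≠ 0 → ∀ S : Finset (R K),
    (∀ e ∈ S, Prim e ∧ e ∣ n) → (S.card : ℝ) ≤ C * N n ^ ε := by
  obtain ⟨C, hC⟩ := b3_sum_smooth (K := K) (half_pos hε) (half_pos hε)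
  refine ⟨C, fun n hn S hS => ?_⟩
  have h1 := mul_le_mul_of_nonneg_left (hC n hn S fun e he => ⟨(hS e he).1, 1, by simpa using (hS e he).2⟩)
    (Real.rpow_nonneg (N_nonneg n) (ε / 2))
  rw [mul_left_comm, ← Real.rpow_add (N_pos hn), add_halves, Finset.mul_sum] at h1
  refine le_trans ?_ h1
  rw [Finset.card_eq_sum_ones, Nat.cast_sum, Nat.cast_one]
  refine Finset.sum_le_sum fun e he => ?_
  have h0 := N_pos (hS e he).1.ne_zero
  rw [Real.rpow_neg h0.le, ← div_eq_mul_inv, one_le_div (Real.rpow_pos_of_pos h0 _)]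
  exact Real.rpow_le_rpow h0.le (N_le_of_dvd hn (hS e he).2) (half_pos hε).le

/-- divisor bound -/
theorem card_pdiv_le {ε : ℝ} (hε : 0 < ε) : ∃ C, ∀ n : R K, n ≠ 0 →
    ((pdiv n).card : ℝ) ≤ C * N n ^ ε := by
  obtain ⟨C, hC⟩ := b3_card_dvd (K := K) hε
  exact ⟨C, fun n hn => hC n hn _ fun e he => (mem_pdiv hn).1 he⟩

theorem card_dvd_le {ε : ℝ} (hε : 0 < ε) : ∃ C, ∀ n : R K, n ≠ 0 → ∀ S : Finset (R K),
    (∀ e ∈ S, Prim e ∧ e ∣ n) → (S.card : ℝ) ≤ C * N n ^ ε := b3_card_dvd hε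

theorem pdiv_of_isUnit {u : R K} (hu : IsUnit u) : pdiv u = {1} := b3_pdiv_of_isUnit hu

/-- `A^{ω(n)} ≪ N(n)^ε` -/
theorem pow_card_primes_le (A : ℝ) {ε : ℝ} (hε : 0 < ε) : ∃ C, ∀ n : R K, n ≠ 0 →
    A ^ ((pdiv n).filter Prime).card ≤ C * N n ^ ε := b3_pow_card A hε

theorem card_pdiv_mul_le {a b : R K} (ha : a ≠ 0) (hb : b ≠ 0) :
    (pdiv (a * b)).card ≤ (pdiv a).card * (pdiv b).card := b3_card_mul ha hb

/-- divisors of a coprime product -/
theorem sum_pdiv_mul {M : Type*} [AddCommMonoid M] {a b : R K} (ha : a ≠ 0) (hb : b ≠ 0)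
    (hab : IsCoprime a b) (f : R K → M) :
    ∑ e ∈ pdiv (a * b), f e = ∑ e1 ∈ pdiv a, ∑ e2 ∈ pdiv b, f (e1 * e2) := by
  rw [← Finset.sum_product' (f := fun e1 e2 => f (e1 * e2))]
  symm
  refine Finset.sum_nbij (fun x => x.1 * x.2) (fun x hx => ?_) (fun x hx y hy h => ?_)
    (fun e he => ?_) fun _ _ => rfl
  · obtain ⟨h1, h2⟩ := Finset.mem_product.1 hx
    rw [mem_pdiv ha] at h1
    rw [mem_pdiv hb] at h2
    exact (mem_pdiv (mul_ne_zero ha hb)).2 ⟨h1.1.mul h2.1, mul_dvd_mul h1.2 h2.2⟩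
  · obtain ⟨h1, h2⟩ := Finset.mem_product.1 (Finset.mem_coe.1 hx)
    obtain ⟨h3, h4⟩ := Finset.mem_product.1 (Finset.mem_coe.1 hy)
    rw [mem_pdiv ha] at h1 h3
    rw [mem_pdiv hb] at h2 h4
    have h5 : x.1 = y.1 := h1.1.eq_of_associated h3.1 (associated_of_dvd_dvd
      ((hab.mono h1.2 h4.2).dvd_of_dvd_mul_right (Dvd.intro _ h))
      ((hab.mono h3.2 h2.2).dvd_of_dvd_mul_right (Dvd.intro _ h.symm)))
    refine Prod.ext h5 (mul_left_cancel₀ h1.1.ne_zero ?_)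
    exact h.trans (by rw [h5])
  · obtain ⟨h1, h2⟩ := (mem_pdiv (mul_ne_zero ha hb)).1 (Finset.mem_coe.1 he)
    obtain ⟨e1, e2, p1, p2, d1, d2, rfl⟩ := h1.mul_of_dvd h2
    exact ⟨(e1, e2), Finset.mem_coe.2 (Finset.mem_product.2
      ⟨(mem_pdiv ha).2 ⟨p1, d1⟩, (mem_pdiv hb).2 ⟨p2, d2⟩⟩), rfl⟩

theorem pdiv_prime_pow {p : R K} (hp : Prime p) (hp' : Prim p) (j : ℕ) :
    pdiv (p ^ j) = (Finset.range (j + 1)).image (fun i => p ^ i) := by
  ext e
  rw [mem_pdiv (pow_ne_zero j hp.ne_zero), Finset.mem_image, dvd_prime_pow hp]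
  constructor
  · rintro ⟨h1, i, hi, h2⟩
    exact ⟨i, Finset.mem_range.2 (Nat.lt_succ_of_le hi), (h1.eq_of_associated (hp'.pow i) h2).symm⟩
  · rintro ⟨i, hi, rfl⟩
    exact ⟨hp'.pow i, i, Nat.le_of_lt_succ (Finset.mem_range.1 hi), Associated.refl _⟩

theorem mu_prod_primes {I : Finset (R K)} (hI : ∀ p ∈ I, Prime p ∧ Prim p) :
    mu (∏ p ∈ I, p) = (-1) ^ I.card := by
  induction I using Finset.induction_on with
  | empty => simp [mu_one]
  | insert q I hq ih =>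
    have h1 := hI q (Finset.mem_insert_self _ _)
    have h2 : ∀ p ∈ I, Prime p ∧ Prim p := fun p hp => hI p (Finset.mem_insert_of_mem hp)
    rw [Finset.prod_insert hq, mu_mul (IsCoprime.prod_right fun p hp =>
      Prim.isCoprime_of_ne h1.1 h1.2 (h2 p hp).1 (h2 p hp).2 fun h => hq (h ▸ hp)), ih h2,
      mu_prime h1.1, Finset.card_insert_of_notMem hq, pow_succ']

theorem b3_cop {p e : R K} (hp : Prime p) (h : ¬ p ∣ e) : IsCoprime p e :=
  hp.irreducible.coprime_iff_not_dvd.2 h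

/-- pairing `e ↔ p e` kills a Möbius sum -/
theorem b3_sum_mu_pair {A : Finset (R K)} {p : R K} (hp : Prime p)
    (hA : ∀ e, ¬ p ∣ e → (e ∈ A ↔ p * e ∈ A)) : ∑ e ∈ A, mu e = 0 := by
  rw [← Finset.sum_filter_add_sum_filter_not A (p ∣ ·), add_eq_zero_iff_eq_neg,
    ← Finset.sum_neg_distrib, ← Finset.sum_filter_of_ne (p := fun e => ¬ p * p ∣ e)
      fun e _ h h' => h (mu_eq_zero fun hs => hp.not_isUnit (hs p h'))]
  symm
  refine Finset.sum_nbij (fun e => p * e) (fun e he => ?_)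
    (fun x _ y _ h => mul_left_cancel₀ hp.ne_zero h) (fun e he => ?_) fun e he => ?_
  · obtain ⟨h1, h2⟩ := Finset.mem_filter.1 he
    exact Finset.mem_filter.2 ⟨Finset.mem_filter.2 ⟨(hA e h2).1 h1, dvd_mul_right _ _⟩,
      fun h => h2 ((mul_dvd_mul_iff_left hp.ne_zero).1 h)⟩
  · obtain ⟨h1, h2⟩ := Finset.mem_filter.1 (Finset.mem_coe.1 he)
    obtain ⟨h3, e', rfl⟩ := Finset.mem_filter.1 h1
    have h4 : ¬ p ∣ e' := fun h => h2 (mul_dvd_mul_left p h)
    exact ⟨e', Finset.mem_coe.2 (Finset.mem_filter.2 ⟨(hA e' h4).2 h3, h4⟩), rfl⟩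
  · rw [mu_mul (b3_cop hp (Finset.mem_filter.1 he).2), mu_prime hp, neg_one_mul]

theorem b3_pair {n p e : R K} (hn : n ≠ 0) (hp : Prime p) (hp' : Prim p) (hpn : p ∣ n)
    (he : ¬ p ∣ e) : e ∈ pdiv n ↔ p * e ∈ pdiv n := by
  rw [mem_pdiv hn, mem_pdiv hn]
  exact ⟨fun h => ⟨hp'.mul h.1, (b3_cop hp he).mul_dvd hpn h.2⟩,
    fun h => ⟨h.1.of_mul_left hp', (dvd_mul_left _ _).trans h.2⟩⟩

theorem b3_common {g d : R K} (hg : Prim g) (h : ¬ IsCoprime d g) :
    ∃ p, Prime p ∧ Prim p ∧ p ∣ d ∧ p ∣ g := by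
  by_contra hc
  refine h (isCoprime_of_prime_dvd (fun h => hg.ne_zero h.2) fun q hq h1 h2 => ?_)
  obtain ⟨p, a1, a2, a3⟩ := exists_prim_prime hq
  exact hc ⟨p, a1, a2, a3.symm.dvd.trans h1, a3.symm.dvd.trans h2⟩

/-- Möbius inversion: for primary `n` -/
theorem sum_mu_pdiv {n : R K} (hn : Prim n) : ∑ e ∈ pdiv n, mu e = if n = 1 then 1 else 0 := by
  split_ifs with h
  · rw [h, b3_pdiv_of_isUnit isUnit_one, Finset.sum_singleton, mu_one]
  · obtain ⟨p, h1, h2, h3⟩ := hn.exists_prime_dvd h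
    exact b3_sum_mu_pair h1 fun e he => b3_pair hn.ne_zero h1 h2 h3 he

/-- coprimality detector: `g` primary, `d` arbitrary (possibly `0`) -/
theorem sum_mu_coprime {g : R K} (hg : Prim g) (d : R K) :
    ∑ e ∈ (pdiv g).filter (fun e => e ∣ d), mu e = if IsCoprime d g then 1 else 0 := by
  split_ifs with h
  · rw [Finset.sum_eq_single_of_mem (s := (pdiv g).filter (fun e => e ∣ d)) 1
      (Finset.mem_filter.2 ⟨one_mem_pdiv hg.ne_zero, one_dvd _⟩), mu_one]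
    intro e he h1
    obtain ⟨h2, h3⟩ := Finset.mem_filter.1 he
    rw [mem_pdiv hg.ne_zero] at h2
    exact absurd (h2.1.eq_one_of_isUnit (h.isUnit_of_dvd' h3 h2.2)) h1
  · obtain ⟨p, h1, h2, h3, h4⟩ := b3_common hg h
    refine b3_sum_mu_pair h1 fun e he => ?_
    rw [Finset.mem_filter, Finset.mem_filter, ← b3_pair hg.ne_zero h1 h2 h4 he]
    exact and_congr_right fun _ => ⟨(b3_cop h1 he).mul_dvd h3, (dvd_mul_left _ _).trans⟩

/-- squarefree detector for primary `n` -/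
theorem sum_mu_sq {n : R K} (hn : Prim n) :
    ∑ h ∈ (pdiv n).filter (fun h => h ^ 2 ∣ n), mu h = if Squarefree n then 1 else 0 := by
  split_ifs with h
  · rw [Finset.sum_eq_single_of_mem 1 (Finset.mem_filter.2 ⟨one_mem_pdiv hn.ne_zero, by simp⟩),
      mu_one]
    intro e he h1
    obtain ⟨h2, h3⟩ := Finset.mem_filter.1 he
    rw [mem_pdiv hn.ne_zero] at h2
    exact absurd (h2.1.eq_one_of_isUnit (h e (sq e ▸ h3))) h1
  · rw [squarefree_iff_irreducible_sq_not_dvd_of_ne_zero hn.ne_zero] at h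
    push Not at h
    obtain ⟨q, hq, hd⟩ := h
    obtain ⟨p, h1, h2, h3⟩ := exists_prim_prime hq.prime
    have h4 : p ^ 2 ∣ n := sq p ▸ (mul_dvd_mul h3.symm.dvd h3.symm.dvd).trans hd
    refine b3_sum_mu_pair h1 fun e he => ?_
    rw [Finset.mem_filter, Finset.mem_filter,
      ← b3_pair hn.ne_zero h1 h2 ((dvd_pow_self p two_ne_zero).trans h4) he, mul_pow]
    exact and_congr_right fun _ => ⟨(b3_cop h1 he).pow.mul_dvd h4, (dvd_mul_left _ _).trans⟩

/-- `μ(m) 1_{(m,H)=1} = ∑_{f ∣ m, f ∣ H^∞} μ(m/f)` -/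
theorem mu_coprime_expand {m H : R K} (hm : Prim m) (hH : H ≠ 0) :
    (if IsCoprime m H then mu m else 0) =
      ∑ f ∈ (pdiv m).filter (fun f => ∃ j : ℕ, f ∣ H ^ j), mu (dv m f) := by
  have h0 := hm.ne_zero
  split_ifs with h
  · rw [Finset.sum_eq_single_of_mem 1 (Finset.mem_filter.2 ⟨one_mem_pdiv h0, 0, one_dvd _⟩), dv_one]
    intro e he h1
    obtain ⟨h2, j, h3⟩ := Finset.mem_filter.1 he
    rw [mem_pdiv h0] at h2
    exact absurd (h2.1.eq_one_of_isUnit (h.pow_right.isUnit_of_dvd' h2.2 h3)) h1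
  · obtain ⟨p, h1, h2, h3, h4⟩ := b3_common hm fun h' => h h'.symm
    symm
    refine Eq.trans ?_ (b3_sum_mu_pair
      (A := (pdiv m).filter fun g => ∃ (f : R K) (j : ℕ), m = g * f ∧ f ∣ H ^ j) h1 fun e he => ?_)
    · refine Finset.sum_nbij (fun f => dv m f) (fun f hf => ?_) (fun x hx y hy hxy => ?_)
        (fun g hg => ?_) fun _ _ => rfl
      · obtain ⟨a1, j, a2⟩ := Finset.mem_filter.1 hf
        rw [mem_pdiv h0] at a1
        exact Finset.mem_filter.2 ⟨(mem_pdiv h0).2 ⟨hm.dv a1.1 a1.2, dv_dvd a1.2⟩,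
          f, j, (dv_mul a1.2).symm, a2⟩
      · have a1 := (mem_pdiv h0).1 (Finset.mem_filter.1 (Finset.mem_coe.1 hx)).1
        have a2 := (mem_pdiv h0).1 (Finset.mem_filter.1 (Finset.mem_coe.1 hy)).1
        have a3 := mul_dv a1.2
        have a4 := mul_dv a2.2
        refine mul_right_cancel₀ (hm.dv a2.1 a2.2).ne_zero ?_
        rw [a4, ← show dv m x = dv m y from hxy, a3]
      · obtain ⟨a1, f, j, a2, a3⟩ := Finset.mem_filter.1 (Finset.mem_coe.1 hg)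
        rw [mem_pdiv h0] at a1
        have a4 : Prim f := Prim.of_mul_left (a2 ▸ hm) a1.1
        refine ⟨f, Finset.mem_coe.2 (Finset.mem_filter.2
          ⟨(mem_pdiv h0).2 ⟨a4, Dvd.intro_left _ a2.symm⟩, j, a3⟩), ?_⟩
        simp only [a2]
        exact dv_mul_right a4.ne_zero g
    · rw [Finset.mem_filter, Finset.mem_filter, ← b3_pair h0 h1 h2 h4 he]
      refine and_congr_right fun _ => ⟨?_, ?_⟩
      · rintro ⟨f, j, a1, a2⟩
        obtain ⟨f', rfl⟩ := (h1.dvd_or_dvd (a1 ▸ h4)).resolve_left he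
        exact ⟨f', j, by rw [a1]; ring, (dvd_mul_left _ _).trans a2⟩
      · rintro ⟨f, j, a1, a2⟩
        exact ⟨p * f, j + 1, by rw [a1]; ring, pow_succ' H j ▸ mul_dvd_mul h3 a2⟩

/-- Rankin: sums over `H`-smooth elements, uniformly in `H` -/
theorem sum_smooth_le {σ ε : ℝ} (hσ : 0 < σ) (hε : 0 < ε) : ∃ C, ∀ H : R K, H ≠ 0 →
    ∀ S : Finset (R K), (∀ f ∈ S, Prim f ∧ ∃ j : ℕ, f ∣ H ^ j) → ∑ f ∈ S, N f ^ (-σ) ≤ C * N H ^ ε := b3_sum_smooth hσ hε

/-- unique decomposition of a primary element as squarefree × powerful, coprime -/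
theorem exists_sqfree_powerful {n : R K} (hn : Prim n) :
    ∃ s f, Prim s ∧ Prim f ∧ Squarefree s ∧ IsCoprime s f ∧ (∀ p, Prime p → p ∣ f → p ^ 2 ∣ f) ∧
      n = s * f := by
  refine Prim.induction (P := fun n => ∃ s f, Prim s ∧ Prim f ∧ Squarefree s ∧ IsCoprime s f ∧
    (∀ p, Prime p → p ∣ f → p ^ 2 ∣ f) ∧ n = s * f) ⟨1, 1, Prim.one, Prim.one, squarefree_one,
      isCoprime_one_left, fun p hp h => absurd (isUnit_of_dvd_one h) hp.not_isUnit, (mul_one 1).symm⟩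
    ?_ hn
  rintro p a hp hp' - ⟨s, f, h1, h2, h3, h4, h5, rfl⟩
  by_cases hf : p ∣ f
  · refine ⟨s, p * f, h1, hp'.mul h2, h3, (h4.of_isCoprime_of_dvd_right hf).mul_right h4,
      fun q hq hd => ?_, by ring⟩
    rcases hq.dvd_or_dvd hd with h | h
    · exact sq q ▸ mul_dvd_mul h (h.trans hf)
    · exact (h5 q hq h).trans (dvd_mul_left _ _)
  by_cases hs : p ∣ s
  · obtain ⟨s', rfl⟩ := hs
    have h6 : IsCoprime s' p :=
      (b3_cop hp fun h => hp.not_isUnit (h3 p (mul_dvd_mul_left p h))).symm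
    refine ⟨s', p * p * f, h1.of_mul_left hp', (hp'.mul hp').mul h2, h3.of_mul_right,
      (h6.mul_right h6).mul_right h4.of_mul_left_right, fun q hq hd => ?_, by ring⟩
    rcases hq.dvd_or_dvd hd with h | h
    · have h7 : q ∣ p := (hq.dvd_or_dvd h).elim id id
      exact sq q ▸ (mul_dvd_mul h7 h7).trans (dvd_mul_right _ _)
    · exact (h5 q hq h).trans (dvd_mul_left _ _)
  · exact ⟨p * s, f, hp'.mul h1, h2, squarefree_mul_iff.2
      ⟨(b3_cop hp hs).isRelPrime, hp.squarefree, h3⟩,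
      (b3_cop hp hf).mul_left h4, h5, by ring⟩

/-- a powerful element is a square times a cube -/
theorem b3_sq_mul_cube {f : R K} (h : ∀ p, Prime p → p ∣ f → p ^ 2 ∣ f) :
    ∃ a b, f = a ^ 2 * b ^ 3 := by
  induction f using UniqueFactorizationMonoid.induction_on_coprime with
  | h0 => exact ⟨0, 0, by simp⟩
  | h1 hu =>
    obtain ⟨u, rfl⟩ := hu
    exact ⟨↑u⁻¹, u, by rw [pow_succ (u : R K) 2, ← mul_assoc, ← mul_pow, Units.inv_mul]; simp⟩
  | @hpr p i hp =>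
    have h1 : i ≠ 1 := by
      rintro rfl
      have := h p hp (by simp)
      exact absurd ((pow_dvd_pow_iff hp.ne_zero hp.not_isUnit).1 this) (by norm_num)
    obtain ⟨s, t, rfl⟩ : ∃ s t, i = s * 2 + t * 3 := by
      rcases Nat.even_or_odd' i with ⟨k, rfl | rfl⟩
      · exact ⟨k, 0, by omega⟩
      · exact ⟨k - 1, 1, by omega⟩
    exact ⟨p ^ s, p ^ t, by rw [pow_add, pow_mul, pow_mul]⟩
  | @hcp x y hxy ihx ihy =>
    obtain ⟨a, b, rfl⟩ := ihx fun p hp hd =>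
      (hxy.isCoprime.of_isCoprime_of_dvd_left hd).pow_left.dvd_of_dvd_mul_right
        (h p hp (hd.trans (dvd_mul_right _ _)))
    obtain ⟨c, d, rfl⟩ := ihy fun p hp hd =>
      (hxy.isCoprime.symm.of_isCoprime_of_dvd_left hd).pow_left.dvd_of_dvd_mul_left
        (h p hp (hd.trans (dvd_mul_left _ _)))
    exact ⟨a * c, b * d, by ring⟩

theorem b3_sq_mul_cube' {f : R K} (hf : Prim f) (h : ∀ p, Prime p → p ∣ f → p ^ 2 ∣ f) :
    ∃ a b, Prim a ∧ Prim b ∧ f = a ^ 2 * b ^ 3 := by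
  obtain ⟨a, b, h3⟩ := b3_sq_mul_cube h
  have h0 := hf.ne_zero
  have ha : a ≠ 0 := by rintro rfl; exact h0 (by rw [h3]; simp)
  have hb : b ≠ 0 := by rintro rfl; exact h0 (by rw [h3]; simp)
  obtain ⟨a', pa, ea⟩ := exists_prim_assoc ha
  obtain ⟨b', pb, eb⟩ := exists_prim_assoc hb
  exact ⟨a', b', pa, pb, hf.eq_of_associated ((pa.pow 2).mul (pb.pow 3))
    (h3 ▸ ea.pow_pow.mul_mul eb.pow_pow)⟩

/-- `∑_{f powerful, N f ≤ X} N(f)^{-1/2} ≪ X^ε` -/
theorem sum_powerful_le {ε : ℝ} (hε : 0 < ε) : ∃ C, ∀ X : ℝ, 1 ≤ X → ∀ S : Finset (R K),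
    (∀ f ∈ S, Prim f ∧ N f ≤ X ∧ ∀ p, Prime p → p ∣ f → p ^ 2 ∣ f) →
    ∑ f ∈ S, N f ^ (-(1 / 2 : ℝ)) ≤ C * X ^ ε := by
  obtain ⟨C, hC⟩ := sum_ball_inv (K := K)
  have hs := summable_N_rpow (K := K) (σ := 3 / 2) (by norm_num)
  refine ⟨|C| * (1 + 1 / ε) * ∑' n : R K, if Prim n then N n ^ (-(3 / 2 : ℝ)) else 0, fun X hX S hS => ?_⟩
  have h1 : S ⊆ (ball K X ×ˢ ball K X).image fun x => x.1 ^ 2 * x.2 ^ 3 := fun f hf => by
    obtain ⟨h0, h1, h2⟩ := hS f hf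
    obtain ⟨a, b, pa, pb, h3⟩ := b3_sq_mul_cube' h0 h2
    have ha : a ∣ f := h3 ▸ (dvd_pow_self a two_ne_zero).trans (dvd_mul_right _ _)
    have hb : b ∣ f := h3 ▸ (dvd_pow_self b three_ne_zero).trans (dvd_mul_left _ _)
    exact Finset.mem_image.2 ⟨(a, b), Finset.mem_product.2
      ⟨mem_ball.2 ⟨pa, (N_le_of_dvd h0.ne_zero ha).trans h1⟩,
        mem_ball.2 ⟨pb, (N_le_of_dvd h0.ne_zero hb).trans h1⟩⟩, h3.symm⟩
  have h2 : ∀ a b : R K, N (a ^ 2 * b ^ 3) ^ (-(1 / 2 : ℝ)) = (N a)⁻¹ * N b ^ (-(3 / 2 : ℝ)) := by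
    intro a b
    rw [N_mul, N_pow, N_pow, Real.mul_rpow (pow_nonneg (N_nonneg _) _) (pow_nonneg (N_nonneg _) _),
      ← Real.rpow_natCast, ← Real.rpow_natCast, ← Real.rpow_mul (N_nonneg _),
      ← Real.rpow_mul (N_nonneg _), ← Real.rpow_neg_one]
    norm_num
  have h3 : 1 + Real.log X ≤ (1 + 1 / ε) * X ^ ε := by
    have a1 := Real.log_le_rpow_div (by linarith : 0 ≤ X) hε
    have a2 := Real.one_le_rpow hX hε.le
    rw [add_mul, one_mul, one_div_mul_eq_div]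
    linarith
  have h4 : ∑ n ∈ ball K X, (N n)⁻¹ ≤ |C| * (1 + 1 / ε) * X ^ ε := by
    rw [mul_assoc]
    exact (hC X hX).trans (mul_le_mul (le_abs_self C) h3 (by linarith [Real.log_nonneg hX])
      (abs_nonneg C))
  have h5 : ∑ n ∈ ball K X, N n ^ (-(3 / 2 : ℝ)) ≤
      ∑' n : R K, if Prim n then N n ^ (-(3 / 2 : ℝ)) else 0 := by
    rw [← Finset.sum_congr rfl fun n hn => if_pos (mem_ball.1 hn).1]
    refine hs.sum_le_tsum _ fun n _ => ?_
    split_ifs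
    · exact Real.rpow_nonneg (N_nonneg _) _
    · exact le_rfl
  refine (Finset.sum_le_sum_of_subset_of_nonneg h1 fun f _ _ =>
    Real.rpow_nonneg (N_nonneg _) _).trans ((Finset.sum_image_le_of_nonneg fun f _ =>
      Real.rpow_nonneg (N_nonneg _) _).trans ?_)
  simp only [h2]
  rw [Finset.sum_product' (f := fun a b => (N a)⁻¹ * N b ^ (-(3 / 2 : ℝ))), ← Finset.sum_mul_sum,
    mul_right_comm]
  exact mul_le_mul h4 h5 (Finset.sum_nonneg fun n _ => Real.rpow_nonneg (N_nonneg _) _) (by positivity)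

/-- reindexing a sum over multiples of a primary `e` -/
theorem tsum_prim_dvd {e : R K} (he : Prim e) (f : R K → ℂ) :
    ∑' n : R K, (if Prim n ∧ e ∣ n then f n else 0) = ∑' m : R K, (if Prim m then f (e * m) else 0) := by
  rw [← (mul_right_injective₀ he.ne_zero).tsum_eq fun n hn => ?_]
  · refine tsum_congr fun m => if_congr ?_ rfl rfl
    exact ⟨fun h => h.1.of_mul_left he, fun h => ⟨he.mul h, dvd_mul_right _ _⟩⟩
  · by_contra h
    exact hn (if_neg fun h' => h (h'.2.imp fun m hm => hm.symm))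

theorem tsum_dvd {e : R K} (he : e ≠ 0) (f : R K → ℂ) :
    ∑' n : R K, (if e ∣ n then f n else 0) = ∑' m : R K, f (e * m) := by
  rw [← (mul_right_injective₀ he).tsum_eq fun n hn => ?_]
  · exact tsum_congr fun m => if_pos (dvd_mul_right _ _)
  · by_contra h
    exact hn (if_neg fun h' => h (h'.imp fun m hm => hm.symm))

/-- Ramanujan expansion of a divisibility condition: `1_{l ∣ m} = N(l)⁻¹ ∑_{e ∣ l} c_e(m)` for
squarefree primary `l`, with `c_e = gs e 1_{(·,e)=1}` -/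
theorem dvd_eq_sum_ramanujan {l : R K} (hl : Prim l) (hs : Squarefree l) (m : R K) :
    (if l ∣ m then (1 : ℂ) else 0) =
      (N l : ℂ)⁻¹ * ∑ e ∈ pdiv l, gs e (fun x => if IsCoprime x e then 1 else 0) m := by
  revert hs
  refine Prim.induction (P := fun l => Squarefree l → (if l ∣ m then (1 : ℂ) else 0) =
    (N l : ℂ)⁻¹ * ∑ e ∈ pdiv l, gs e (fun x => if IsCoprime x e then 1 else 0) m) (fun _ => ?_)
    (fun p a hp hp' ha ih hs => ?_) hl
  · rw [b3_pdiv_of_isUnit isUnit_one, Finset.sum_singleton, (s3_unit isUnit_one (s3_princ 1) m).2]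
    simp
  · have hc : IsCoprime p a := b3_cop hp fun hd => hp.not_isUnit (hs p (mul_dvd_mul_left p hd))
    have h2 : pdiv p = {1, p} := by
      ext e
      rw [mem_pdiv hp.ne_zero, Finset.mem_insert, Finset.mem_singleton]
      refine ⟨fun h => (hp.irreducible.dvd_iff.1 h.2).imp h.1.eq_one_of_isUnit
        fun h' => (hp'.eq_of_associated h.1 h').symm, ?_⟩
      rintro (rfl | rfl)
      exacts [⟨Prim.one, one_dvd _⟩, ⟨hp', dvd_rfl⟩]
    have h3 : ∀ e1 ∈ pdiv p, ∀ e2 ∈ pdiv a,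
        gs (e1 * e2) (fun x => if IsCoprime x (e1 * e2) then 1 else 0) m =
          gs e1 (fun x => if IsCoprime x e1 then 1 else 0) m *
            gs e2 (fun x => if IsCoprime x e2 then 1 else 0) m := fun e1 h1 e2 h2 => by
      rw [mem_pdiv hp.ne_zero] at h1
      rw [mem_pdiv ha.ne_zero] at h2
      have hc' := (hc.of_isCoprime_of_dvd_left h1.2).of_isCoprime_of_dvd_right h2.2
      have := gs_mul h1.1.ne_zero h2.1.ne_zero hc' (s3_princ e1) (s3_princ e2) m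
      rw [if_pos hc', if_pos hc'.symm, one_mul, one_mul] at this
      rw [← this]
      simp only [IsCoprime.mul_right_iff, ite_and, mul_ite, mul_one, mul_zero]
      congr 1
      funext x
      split_ifs <;> rfl
    have hN : (N p : ℂ) ≠ 0 := by exact_mod_cast (N_pos hp.ne_zero).ne'
    rw [sum_pdiv_mul hp.ne_zero ha.ne_zero hc, Finset.sum_congr rfl fun e1 h1 =>
      Finset.sum_congr rfl (h3 e1 h1), ← Finset.sum_mul_sum, N_mul, Complex.ofReal_mul, mul_inv,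
      mul_mul_mul_comm, ← ih hs.of_mul_right, h2, Finset.sum_pair hp.ne_one.symm,
      (s3_unit isUnit_one (s3_princ 1) m).2,
      gs_prime_princ hp (s3_princ p) (by rintro ⟨n, h, h'⟩; exact h' (if_pos h))]
    by_cases hpm : p ∣ m
    · by_cases ham : a ∣ m
      · simp [hpm, ham, hc.mul_dvd hpm ham, hN]
      · simp [ham, mt dvd_of_mul_left_dvd ham]
    · simp [hpm, mt dvd_of_mul_right_dvd hpm]

end Crest.Agent.R312
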