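import Crest.Agent.R312.B0Class

/-!
# R312 / B0Chars : twists and class characters (ReadB, B0 (e))
-/

set_option autoImplicit false
set_option linter.unusedSectionVars false
set_option linter.unusedVariables false

noncomputable section

open scoped Classical ComplexConjugate NumberField
open Crest.Agent.R17 (omC)

namespace Crest.Agent.R312

variable {K : Type} [Field K] [NumberField K] [Fld K] [Loc K] [Setup K]

theorem Tw.v_mul (ν : Tw K) (a b : R K) : ν.v (a * b) = ν.v a * ν.v b := ν.mul _ _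

theorem Tw.v_one (ν : Tw K) : ν.v 1 = 1 := ν.one

theorem Tw.v_zero (ν : Tw K) : ν.v 0 = 0 := ν.zero

theorem bch_f_pow (ν : Tw K) (x : K) (j : ℕ) : ν.f (x ^ j) = ν.f x ^ j := by
  induction j with
  | zero => rw [pow_zero, pow_zero, ν.one]
  | succ j ih => rw [pow_succ, pow_succ, ν.mul, ih]

theorem Tw.v_pow (ν : Tw K) (a : R K) (j : ℕ) : ν.v (a ^ j) = ν.v a ^ j := by
  induction j with
  | zero => rw [pow_zero, pow_zero, ν.v_one]
  | succ j ih => rw [pow_succ, pow_succ, ν.v_mul, ih]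

theorem Tw.norm_v (ν : Tw K) {a : R K} (ha : a ≠ 0) : ‖ν.v a‖ = 1 := ν.norm _ (bc_ne ha)

theorem Tw.norm_v_le (ν : Tw K) (a : R K) : ‖ν.v a‖ ≤ 1 := by
  rcases eq_or_ne a 0 with rfl | ha
  · rw [ν.v_zero, norm_zero]; exact zero_le_one
  · exact (ν.norm_v ha).le

theorem Tw.v_unit (ν : Tw K) {u : R K} (hu : IsUnit u) : ν.v u = 1 := by
  obtain ⟨u, rfl⟩ := hu
  exact ν.unit u

theorem Tw.v_assoc (ν : Tw K) {a b : R K} (h : Associated a b) : ν.v a = ν.v b := by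
  obtain ⟨u, rfl⟩ := h
  rw [ν.v_mul, ν.v_unit u.isUnit, mul_one]

theorem Tw.v_mul_conj (ν : Tw K) {a : R K} (ha : a ≠ 0) : ν.v a * conj (ν.v a) = 1 := bc_mul_conj (ν.norm_v ha)

theorem Tw.f_inv (ν : Tw K) (x : K) : ν.f x⁻¹ = conj (ν.f x) := by
  rcases eq_or_ne x 0 with rfl | hx
  · rw [inv_zero, ν.zero, map_zero]
  · have h1 : ν.f x * ν.f x⁻¹ = 1 := by rw [← ν.mul, mul_inv_cancel₀ hx, ν.one]
    have h2 : ν.f x * conj (ν.f x) = 1 := bc_mul_conj (ν.norm x hx)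
    linear_combination (conj (ν.f x)) * h1 - ν.f x⁻¹ * h2

theorem Tw.f_div (ν : Tw K) (a b : R K) : ν.f ((a : K) / (b : K)) = ν.v a * conj (ν.v b) := by
  rw [div_eq_mul_inv, ν.mul, ν.f_inv]
  rfl

@[simp] theorem Tw.mul_v (a b : Tw K) (n : R K) : (a * b).v n = a.v n * b.v n := rfl

@[simp] theorem Tw.inv_v (a : Tw K) (n : R K) : a⁻¹.v n = conj (a.v n) := rfl

theorem Tw.one_v {n : R K} (hn : n ≠ 0) : (1 : Tw K).v n = 1 := by
  show (if (n : K) = 0 then (0 : ℂ) else 1) = 1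
  rw [if_neg (bc_ne hn)]

theorem Tw.pow_v (a : Tw K) (j : ℕ) {n : R K} (hn : n ≠ 0) : (a ^ j).v n = a.v n ^ j := by
  induction j with
  | zero => rw [pow_zero, pow_zero, Tw.one_v hn]
  | succ j ih => rw [pow_succ, pow_succ, Tw.mul_v, ih]

theorem Tw.pow_ξ (a : Tw K) (j : ℕ) : (a ^ j).ξ = j • a.ξ := by
  induction j with
  | zero => rw [pow_zero, zero_smul, Tw.one_ξ]
  | succ j ih => rw [pow_succ, Tw.mul_ξ, ih, succ_nsmul]

theorem Tw.sz_nonneg (ν : Tw K) : 0 ≤ ν.sz := norm_nonneg _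

theorem Tw.sz_mul_le (a b : Tw K) : (a * b).sz ≤ a.sz + b.sz := norm_add_le _ _

theorem Tw.sz_inv (a : Tw K) : a⁻¹.sz = a.sz := norm_neg _

theorem Tw.sz_one : (1 : Tw K).sz = 0 := norm_zero

/-- a twist is determined by its values on primary elements (`xi_eq_zero`) -/
theorem Tw.eq_one_of_v {ν : Tw K} (h : ∀ n, Prim n → ν.v n = 1) : ν = 1 := by
  have h1 : ∀ a : R K, a ≠ 0 → ν.v a = 1 := by
    intro a ha
    obtain ⟨u, b, hu, hb, rfl⟩ := exists_eq_unit_prim ha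
    rw [ν.v_mul, ν.v_unit hu, h b hb, mul_one]
  have h2 : ∀ x : K, x ≠ 0 → ν.f x = 1 := by
    intro x hx
    obtain ⟨a, b, hb, rfl⟩ := exists_div x
    have ha : a ≠ 0 := by
      rintro rfl
      simp at hx
    rw [ν.f_div, h1 a ha, h1 b hb, map_one, mul_one]
  have h3 : ν.ξ = 0 := by
    refine xi_eq_zero (c := Loc.Q K ^ Setup.lev K) (pow_ne_zero _ Loc.Q_ne) (fun y j => ?_)
    have hc : (1 + Loc.Q K ^ Setup.lev K * j).Coprime (Loc.Q K) := by
      obtain ⟨m, hm⟩ := Nat.exists_eq_add_of_le (Setup.lev_pos (K := K))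
      rw [hm, pow_add, pow_one, mul_assoc, Nat.coprime_add_mul_left_left]
      exact Nat.coprime_one_left _
    have hU : InU (Setup.lev K) (1 + ((Loc.Q K ^ Setup.lev K : ℕ) : K) * y /
        ((1 + Loc.Q K ^ Setup.lev K * j : ℕ) : K)) :=
      ⟨_, (SInt.coe y).mul (SInt.inv_natCast hc), by
        rw [Nat.cast_pow, div_eq_mul_inv, mul_assoc]⟩
    rw [← ν.ray _ hU]
    exact h2 _ (hU.ne_zero Setup.lev_pos)
  refine Tw.ext (funext fun x => ?_) h3
  rw [Tw.one_f]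
  split_ifs with hx
  · rw [hx, ν.zero]
  · exact h2 x hx

theorem Tw.ext_v {ν ν' : Tw K} (h : ∀ n, Prim n → ν.v n = ν'.v n) : ν = ν' := by
  rw [← mul_inv_eq_one]
  refine Tw.eq_one_of_v (fun n hn => ?_)
  rw [Tw.mul_v, Tw.inv_v, h n hn]
  exact ν'.v_mul_conj hn.ne_zero

theorem bch_clN {ν : Tw K} (h0 : ν.ξ = 0) (h6 : ∀ x, x ≠ 0 → ν.f x ^ 6 = 1) {x y : K} (hx : x ≠ 0)
    (hy : y ≠ 0) (e : clN (Setup.lev K) x = clN (Setup.lev K) y) : ν.f x = ν.f y := by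
  obtain ⟨u, z, hu, hz, rfl⟩ := (clN_eq_iff Setup.lev_pos hx hy).1 e
  rw [ν.mul, ν.mul, ν.ray u hu, h0, ch_zero, bch_f_pow, h6 z hz, mul_one, mul_one]

theorem bch_finite : {ν : Tw K | ν.ξ = 0 ∧ ∀ x, x ≠ 0 → ν.f x ^ 6 = 1}.Finite := by
  choose s hs hs' using (fun g : G K => clN_surj g)
  have hf : {z : ℂ | z ^ 6 = 1}.Finite :=
    (Polynomial.nthRoots 6 (1 : ℂ)).finite_toSet.subset
      (fun z hz => (Polynomial.mem_nthRoots (by norm_num)).2 hz)
  refine Set.Finite.of_injOn (f := fun ν : Tw K => fun g : G K => ν.f (s g))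
    (t := Set.pi Set.univ (fun _ : G K => {z : ℂ | z ^ 6 = 1})) ?_ ?_
    (Set.Finite.pi (fun _ => hf))
  · intro ν hν g _
    exact hν.2 _ (hs g)
  · intro ν hν ν' hν' e
    refine Tw.ext (funext fun x => ?_) (hν.1.trans hν'.1.symm)
    rcases eq_or_ne x 0 with rfl | hx
    · rw [ν.zero, ν'.zero]
    · have e1 := congrFun e (clN (Setup.lev K) x)
      rw [bch_clN hν.1 hν.2 hx (hs _) (hs' _).symm, bch_clN hν'.1 hν'.2 hx (hs _) (hs' _).symm]
      exact e1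

/-- such a twist factors through the finite group `G`, with values in `μ₆` -/
theorem mem_hchars {ν : Tw K} : ν ∈ hchars K ↔ ν.ξ = 0 ∧ ∀ x, x ≠ 0 → ν.f x ^ 6 = 1 := by
  unfold hchars
  rw [dif_pos bch_finite, Set.Finite.mem_toFinset]
  rfl

theorem one_mem_hchars : (1 : Tw K) ∈ hchars K := mem_hchars.2 ⟨rfl, fun x hx => by rw [Tw.one_f, if_neg hx, one_pow]⟩

theorem mul_mem_hchars {ν ν' : Tw K} (h : ν ∈ hchars K) (h' : ν' ∈ hchars K) : ν * ν' ∈ hchars K := by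
  rw [mem_hchars] at h h' ⊢
  refine ⟨by rw [Tw.mul_ξ, h.1, h'.1, add_zero], fun x hx => ?_⟩
  rw [Tw.mul_f, mul_pow, h.2 x hx, h'.2 x hx, mul_one]

theorem inv_mem_hchars {ν : Tw K} (h : ν ∈ hchars K) : ν⁻¹ ∈ hchars K := by
  rw [mem_hchars] at h ⊢
  refine ⟨by rw [Tw.inv_ξ, h.1, neg_zero], fun x hx => ?_⟩
  rw [Tw.inv_f, ← map_pow, h.2 x hx, map_one]

theorem sz_of_mem_hchars {ν : Tw K} (h : ν ∈ hchars K) : ν.sz = 0 := by
  unfold Tw.sz
  rw [(mem_hchars.1 h).1, norm_zero]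

theorem sz_mul_hchar (ν : Tw K) {θ : Tw K} (h : θ ∈ hchars K) : (ν * θ).sz = ν.sz := by
  unfold Tw.sz
  rw [Tw.mul_ξ, (mem_hchars.1 h).1, add_zero]

theorem hchar_clN {ν : Tw K} (h : ν ∈ hchars K) {x y : K} (hx : x ≠ 0) (hy : y ≠ 0)
    (e : clN (Setup.lev K) x = clN (Setup.lev K) y) : ν.f x = ν.f y := bch_clN (mem_hchars.1 h).1 (mem_hchars.1 h).2 hx hy e

theorem hchar_cl {ν : Tw K} (h : ν ∈ hchars K) {a b : R K} (ha : a ≠ 0) (hb : b ≠ 0)
    (e : cl a = cl b) : ν.v a = ν.v b := hchar_clN h (bc_ne ha) (bc_ne hb) e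

theorem bch_grp1 {Γ : Type} [CommGroup Γ] (h6 : ∀ g : Γ, g ^ 6 = 1) {a b a' b' : Γ}
    (e : a * b = a' * b') : b * b' ^ 5 = a' * a ^ 5 := by
  calc b * b' ^ 5 = a ^ 6 * (b * b' ^ 5) := by rw [h6, one_mul]
    _ = a ^ 5 * (a * b) * b' ^ 5 := by rw [pow_succ a 5]; simp only [mul_assoc]
    _ = a' * a ^ 5 * b' ^ 6 := by
      rw [e, pow_succ' b' 5]; simp only [mul_assoc, mul_left_comm, mul_comm]
    _ = a' * a ^ 5 := by rw [h6, mul_one]

theorem bch_grp2 {Γ : Type} [CommGroup Γ] (h6 : ∀ g : Γ, g ^ 6 = 1) {b b' : Γ}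
    (e : b * b' ^ 5 = 1) : b = b' := by
  calc b = b * b' ^ 6 := by rw [h6, mul_one]
    _ = b * b' ^ 5 * b' := by rw [pow_succ b' 5, mul_assoc]
    _ = b' := by rw [e, one_mul]

theorem bch_grp3 {Γ : Type} [CommGroup Γ] (a b a' b' : Γ) :
    a * b * (a' * b') = a * a' * (b * b') := mul_mul_mul_comm _ _ _ _

theorem bch_dec (g : G K) : ∃ n u : R K, Prim n ∧ IsUnit u ∧ g = cl u * cl n := by
  obtain ⟨r, hr, rfl, -⟩ := exists_cl g (q := 1) one_ne_zero 0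
  obtain ⟨u, b, hu, hb, rfl⟩ := exists_eq_unit_prim hr
  exact ⟨b, u, hb, hu, cl_mul hu.ne_zero hb.ne_zero⟩

theorem bch_uniq {n u n' u' : R K} (hn : Prim n) (hu : IsUnit u) (hn' : Prim n') (hu' : IsUnit u')
    (e : cl u * cl n = cl u' * cl n') : cl n = cl n' := by
  have h1 := bch_grp1 (Γ := G K) G_pow_six e
  have h2 : cl (n * n' ^ 5) = cl n * cl n' ^ 5 := by
    rw [cl_mul hn.ne_zero (pow_ne_zero _ hn'.ne_zero), cl_pow hn'.ne_zero]
  have h3 : cl (u' * u ^ 5) = cl u' * cl u ^ 5 := by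
    rw [cl_mul hu'.ne_zero (pow_ne_zero _ hu.ne_zero), cl_pow hu.ne_zero]
  have h4 := (hn.mul (hn'.pow 5)).cl_eq_unit (hu'.mul (hu.pow 5)) (h2.trans (h1.trans h3.symm))
  exact bch_grp2 (Γ := G K) G_pow_six (h1.trans (h3.symm.trans h4))

/-- the projection `G = cl(Prim) × cl(R^*) → cl(Prim)` -/
theorem exists_proj : ∃ π : G K →* G K, (∀ n, Prim n → π (cl n) = cl n) ∧
    ∀ u : R K, IsUnit u → π (cl u) = 1 := by
  choose n u hn hu e using (bch_dec (K := K))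
  refine ⟨MonoidHom.mk' (fun g => cl (n g)) (fun g h => ?_), fun a ha => ?_, fun a ha => ?_⟩
  · rw [← cl_mul (hn g).ne_zero (hn h).ne_zero]
    refine bch_uniq (hn _) (hu (g * h)) ((hn g).mul (hn h)) ((hu g).mul (hu h)) ?_
    rw [← e, cl_mul (hn g).ne_zero (hn h).ne_zero, cl_mul (hu g).ne_zero (hu h).ne_zero]
    refine Eq.trans ?_ (bch_grp3 (Γ := G K) _ _ _ _)
    exact congrArg₂ (· * ·) (e g) (e h)
  · refine bch_uniq (hn _) (hu (cl a)) ha isUnit_one ?_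
    rw [← e, cl_one, GG_one_mul]
  · refine (bch_uniq (hn _) (hu (cl a)) Prim.one ha ?_).trans cl_one
    rw [← e, cl_one, GG_mul_one]

/-- a character of `G` trivial on `cl(R^*)` is a class character -/
theorem exists_hchar_of_hom (φ : G K →* ℂ) (hu : ∀ u : R K, IsUnit u → φ (cl u) = 1) :
    ∃ θ ∈ hchars K, ∀ x : K, x ≠ 0 → θ.f x = φ (clN (Setup.lev K) x) := by
  have h6 : ∀ g, φ g ^ 6 = 1 := fun g => by rw [← map_pow, G_pow_six, map_one]
  refine ⟨{ f := fun x => if x = 0 then 0 else φ (clN (Setup.lev K) x)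
            ξ := 0
            zero := if_pos rfl
            one := by rw [if_neg one_ne_zero, clN_one, map_one]
            mul := fun x y => ?_
            norm := fun x hx => by
              rw [if_neg hx]
              exact Complex.norm_eq_one_of_pow_eq_one (h6 _) (by norm_num)
            unit := fun u => by
              rw [if_neg (bc_ne u.ne_zero)]
              exact hu _ u.isUnit
            ray := fun x hx => by
              rw [if_neg (hx.ne_zero Setup.lev_pos), clN_of_inU hx, map_one, ch_zero]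
            sum_zero := by simp }, mem_hchars.2 ⟨rfl, fun x hx => ?_⟩, fun x hx => if_neg hx⟩
  · by_cases hx : x = 0
    · simp [hx]
    · by_cases hy : y = 0
      · simp [hy]
      · rw [if_neg hx, if_neg hy, if_neg (mul_ne_zero hx hy), clN_mul _ hx hy, map_mul]
  · show (if x = 0 then 0 else φ (clN (Setup.lev K) x)) ^ 6 = 1
    rw [if_neg hx, h6]

theorem exists_hchar {φ : G K → ℂ} (h1 : φ 1 = 1) (hmul : ∀ g h, φ (g * h) = φ g * φ h) :
    ∃ θ ∈ hchars K, ∀ n, Prim n → θ.v n = φ (cl n) := by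
  obtain ⟨π, hπ, hπ'⟩ := exists_proj (K := K)
  obtain ⟨θ, hθ, h⟩ := exists_hchar_of_hom
    (MonoidHom.comp ({ toFun := φ, map_one' := h1, map_mul' := hmul } : G K →* ℂ) π)
    (fun u hu => by
      show φ (π (cl u)) = 1
      rw [hπ' u hu, h1])
  refine ⟨θ, hθ, fun n hn => (h _ (bc_ne hn.ne_zero)).trans ?_⟩
  show φ (π (cl n)) = φ (cl n)
  rw [hπ n hn]

theorem exists_hchar_sg (r : R K) : ∃ θ ∈ hchars K, ∀ n, Prim n → θ.v n = sg n r := exists_hchar (φ := fun g => HH g (cl r)) (HH_one_left _) (fun g h => HH_mul_left g h _)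

theorem exists_hchar_sg' (r : R K) : ∃ θ ∈ hchars K, ∀ n, Prim n → θ.v n = sg r n := exists_hchar (φ := fun g => HH (cl r) g) (HH_one_right _) (fun g h => HH_mul_right _ g h)

theorem exists_hchar_unit {u : R K} (hu : IsUnit u) :
    ∃ θ ∈ hchars K, ∀ n, Prim n → θ.v n = chi n u := by
  obtain ⟨θ, hθ, h⟩ := exists_hchar_sg u
  exact ⟨θ, hθ, fun n hn => (h n hn).trans (chi_unit hn.ne_zero hu).symm⟩

theorem bch_fourier {α : Type} [AddCommGroup α] [Fintype α] (F : α → ℂ) (hF : ∀ a, ‖F a‖ ≤ 1) :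
    ∃ c : AddChar α ℂ → ℂ, (∀ ψ, ‖c ψ‖ ≤ 1) ∧ ∀ g, F g = ∑ ψ, c ψ * ψ g := by
  have hc : (0 : ℝ) < Fintype.card α := by exact_mod_cast Fintype.card_pos
  have hc' : (Fintype.card α : ℂ) ≠ 0 := by exact_mod_cast Fintype.card_ne_zero
  refine ⟨fun ψ => (Fintype.card α : ℂ)⁻¹ * ∑ a, F a * ψ (-a), fun ψ => ?_, fun g => ?_⟩
  · rw [norm_mul, norm_inv, Complex.norm_natCast, inv_mul_le_iff₀ hc, mul_one]
    refine (norm_sum_le _ _).trans ?_
    calc ∑ a, ‖F a * ψ (-a)‖ ≤ ∑ _a : α, (1 : ℝ) := by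
          refine Finset.sum_le_sum (fun a _ => ?_)
          rw [norm_mul, AddChar.norm_apply, mul_one]
          exact hF a
      _ = Fintype.card α := by simp
  · have : ∀ ψ : AddChar α ℂ, ((Fintype.card α : ℂ)⁻¹ * ∑ a, F a * ψ (-a)) * ψ g
        = ∑ a, (Fintype.card α : ℂ)⁻¹ * F a * ψ (g - a) := by
      intro ψ
      rw [Finset.mul_sum, Finset.sum_mul]
      refine Finset.sum_congr rfl (fun a _ => ?_)
      rw [sub_eq_add_neg, AddChar.map_add_eq_mul]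
      ring
    simp only [this]
    rw [Finset.sum_comm]
    simp only [← Finset.mul_sum, AddChar.sum_apply_eq_ite, sub_eq_zero, mul_ite, mul_zero]
    rw [Finset.sum_ite_eq, if_pos (Finset.mem_univ _)]
    field_simp

theorem bch_expand {Γ : Type} [CommGroup Γ] [Finite Γ] (π : Γ →* Γ) (φ : Γ → ℂ)
    (hb : ∀ g, ‖φ g‖ ≤ 1) :
    ∃ (ι : Type) (_ : Fintype ι) (χ : ι → Γ → ℂ) (c : ι → ℂ), (∀ i, χ i 1 = 1) ∧
      (∀ i g h, χ i (g * h) = χ i g * χ i h) ∧ (∀ i, ‖c i‖ ≤ 1) ∧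
      (∀ i j, (∀ g, χ i g = χ j g) → i = j) ∧ (∀ i g h, π g = π h → χ i g = χ i h) ∧
      ∀ g, φ (π g) = ∑ i, c i * χ i g := by
  let _ : Fintype (Additive π.range) := Fintype.ofFinite _
  obtain ⟨c, hc, hF⟩ := bch_fourier (α := Additive π.range)
    (fun a => φ ((Additive.toMul a : π.range) : Γ)) (fun a => hb _)
  refine ⟨AddChar (Additive π.range) ℂ, inferInstance,
    fun ψ g => ψ (Additive.ofMul (π.rangeRestrict g)), c, fun ψ => ?_, fun ψ g h => ?_, hc,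
    fun ψ ψ' e => ?_, fun ψ g h e => ?_, fun g => hF (Additive.ofMul (π.rangeRestrict g))⟩
  · simp only [map_one, ofMul_one, AddChar.map_zero_eq_one]
  · simp only [map_mul, ofMul_mul, AddChar.map_add_eq_mul]
  · ext a
    obtain ⟨g, hg⟩ := π.rangeRestrict_surjective (Additive.toMul a)
    have := e g
    simp only [hg, ofMul_toMul] at this
    exact this
  · have : π.rangeRestrict g = π.rangeRestrict h := Subtype.ext e
    simp only [this]

/-- Fourier expansion of `φ ∘ π` on `G`; only characters trivial on `cl(R^*)` occur -/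
theorem expand_class {φ : G K → ℂ} (hb : ∀ g, ‖φ g‖ ≤ 1) :
    ∃ c : Tw K → ℂ, (∀ ν, ‖c ν‖ ≤ 1) ∧ ∀ n, Prim n → φ (cl n) = ∑ ν ∈ hchars K, c ν * ν.v n := by
  obtain ⟨π, hπ, hπ'⟩ := exists_proj (K := K)
  obtain ⟨ι, _, χ, c, h1, hm, hc, hi, hd, hF⟩ := bch_expand π φ hb
  choose T hT hT' using fun i => exists_hchar (h1 i) (hm i)
  have hinj : Function.Injective T := by
    intro i j h
    refine hi i j (fun g => ?_)
    obtain ⟨n, u, hn, hu, rfl⟩ := bch_dec g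
    have e : π (cl u * cl n) = π (cl n) := by rw [map_mul, hπ' u hu, GG_one_mul]
    rw [hd i _ _ e, hd j _ _ e, ← hT' i n hn, ← hT' j n hn, h]
  refine ⟨fun ν => ∑ ψ ∈ Finset.univ.filter (fun ψ => T ψ = ν), c ψ, fun ν => ?_, fun n hn => ?_⟩
  · by_cases h : ∃ ψ, T ψ = ν
    · obtain ⟨ψ, rfl⟩ := h
      have : Finset.univ.filter (fun ψ' => T ψ' = T ψ) = {ψ} := by
        ext ψ'
        simp [hinj.eq_iff]
      simp only [this, Finset.sum_singleton]
      exact hc ψ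
    · push Not at h
      have : Finset.univ.filter (fun ψ' => T ψ' = ν) = ∅ := by
        ext ψ'
        simp [h ψ']
      simp [this]
  · rw [← hπ n hn, hF, ← Finset.sum_fiberwise_of_maps_to (s := Finset.univ) (t := hchars K)
      (g := T) (fun ψ _ => hT ψ)]
    refine Finset.sum_congr rfl (fun ν _ => ?_)
    rw [Finset.sum_mul]
    refine Finset.sum_congr rfl (fun ψ hψ => ?_)
    rw [← (Finset.mem_filter.1 hψ).2, hT' ψ n hn]

theorem expand_class2 {φ : G K → G K → ℂ} (hb : ∀ g h, ‖φ g h‖ ≤ 1) :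
    ∃ c : Tw K → Tw K → ℂ, (∀ ν ν', ‖c ν ν'‖ ≤ 1) ∧ ∀ a b, Prim a → Prim b →
      φ (cl a) (cl b) = ∑ ν ∈ hchars K, ∑ ν' ∈ hchars K, c ν ν' * ν.v a * ν'.v b := by
  have hex : ∀ F : G K → ℂ, ∃ c : Tw K → ℂ, (∀ ν, ‖c ν‖ ≤ 1) ∧
      ((∀ g, ‖F g‖ ≤ 1) → ∀ n, Prim n → F (cl n) = ∑ ν ∈ hchars K, c ν * ν.v n) := by
    intro F
    by_cases h : ∀ g, ‖F g‖ ≤ 1
    · obtain ⟨c, hc, hF⟩ := expand_class h
      exact ⟨c, hc, fun _ => hF⟩
    · exact ⟨0, fun _ => by simp, fun h1 => absurd h1 h⟩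
  choose C hC hC' using hex
  refine ⟨fun ν => C (fun h => C (fun g => φ g h) ν), fun ν ν' => hC _ _, fun a b ha hb' => ?_⟩
  have h1 := hC' (fun g => φ g (cl b)) (fun g => hb _ _) a ha
  rw [h1]
  refine Finset.sum_congr rfl (fun ν _ => ?_)
  have h2 := hC' (fun h => C (fun g => φ g h) ν) (fun h => hC _ _) b hb'
  rw [h2, Finset.sum_mul]
  refine Finset.sum_congr rfl (fun ν' _ => ?_)
  ring

theorem expand_sg : ∃ c : Tw K → Tw K → ℂ, (∀ ν ν', ‖c ν ν'‖ ≤ 1) ∧ ∀ a b, Prim a → Prim b →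
    sg a b = ∑ ν ∈ hchars K, ∑ ν' ∈ hchars K, c ν ν' * ν.v a * ν'.v b := expand_class2 (φ := HH) (fun g h => (norm_HH g h).le)

theorem expand_f1 : ∃ c : Tw K → ℂ, (∀ ν, ‖c ν‖ ≤ 1) ∧
    ∀ n, Prim n → f1 n = ∑ ν ∈ hchars K, c ν * ν.v n := by
  obtain ⟨φ, h1, h2⟩ := exists_f1_cl (K := K)
  obtain ⟨c, hc, h⟩ := expand_class (φ := φ) (fun g => (h1 g).le)
  exact ⟨c, hc, fun n hn => (h2 n hn.ne_zero).trans (h n hn)⟩

end Crest.Agent.R312
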