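import Crest.Agent.R312.B0Prim

/-!
# R312 / B0Basic2 : counting primary elements (port of R17/Basic2)
-/

set_option autoImplicit false
set_option linter.unusedSectionVars false
set_option linter.unusedVariables false

noncomputable section

open scoped Classical ComplexConjugate NumberField
open Crest.Agent.R17 (omC)

namespace Crest.Agent.R312

variable {K : Type} [Field K] [NumberField K] [Fld K] [Loc K] [Setup K]

/-- ideals of norm `≤ X` not divisible by the ideals of `P` -/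
def b2S (P : Finset (Ideal (𝓞 K))) (X : ℝ) : Set (Ideal (𝓞 K)) :=
  {I | (Ideal.absNorm I : ℝ) ≤ X ∧ ∀ p ∈ P, ¬ p ∣ I}

theorem b2S_finite (P : Finset (Ideal (𝓞 K))) (X : ℝ) : (b2S P X).Finite :=
  (Ideal.finite_setOfPred_absNorm_le ⌊X⌋₊).subset fun I hI => Nat.le_floor hI.1

theorem b2S_insert {P : Finset (Ideal (𝓞 K))} (hP : ∀ q ∈ P, Prime q) {p : Ideal (𝓞 K)}
    (hp : Prime p) (hpP : p ∉ P) (X : ℝ) :
    (b2S P X).ncard = (b2S (insert p P) X).ncard + (b2S P (X / Ideal.absNorm p)).ncard := by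
  have hN : (0 : ℝ) < Ideal.absNorm p :=
    Nat.cast_pos.2 (Nat.pos_of_ne_zero fun h => hp.ne_zero (Ideal.absNorm_eq_zero_iff.1 h))
  have hinj : Function.Injective fun I : Ideal (𝓞 K) => p * I := mul_right_injective₀ hp.ne_zero
  rw [← Set.ncard_image_of_injective (b2S P (X / Ideal.absNorm p)) hinj,
    ← Set.ncard_union_eq _ (b2S_finite _ _) ((b2S_finite _ _).image _)]
  · congr 1
    ext I
    constructor
    · rintro ⟨h1, h2⟩
      by_cases h : p ∣ I
      · obtain ⟨J, rfl⟩ := h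
        refine Or.inr ⟨J, ⟨?_, fun q hq hqJ => h2 q hq (hqJ.mul_left p)⟩, rfl⟩
        rw [map_mul, Nat.cast_mul] at h1
        rw [le_div_iff₀ hN]
        linarith
      · refine Or.inl ⟨h1, fun q hq => ?_⟩
        rcases Finset.mem_insert.1 hq with rfl | hq
        exacts [h, h2 q hq]
    · rintro (⟨h1, h2⟩ | ⟨J, ⟨h1, h2⟩, rfl⟩)
      · exact ⟨h1, fun q hq => h2 q (Finset.mem_insert_of_mem hq)⟩
      · refine ⟨?_, fun q hq hqJ => ?_⟩
        · rw [le_div_iff₀ hN] at h1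
          simp only [map_mul, Nat.cast_mul]
          linarith
        · rcases (hP q hq).dvd_or_dvd hqJ with h | h
          · have := associated_iff_eq.1 (((hP q hq).associated_of_dvd hp) h)
            exact hpP (this ▸ hq)
          · exact h2 q hq h
  · rw [Set.disjoint_left]
    rintro I ⟨-, h2⟩ ⟨J, -, rfl⟩
    exact h2 p (Finset.mem_insert_self _ _) (dvd_mul_right p J)

theorem b2S_tendsto (P : Finset (Ideal (𝓞 K))) (hP : ∀ q ∈ P, Prime q) : ∃ c : ℝ, 0 < c ∧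
    Filter.Tendsto (fun X : ℝ => ((b2S P X).ncard : ℝ) / X) Filter.atTop (nhds c) := by
  induction P using Finset.induction_on with
  | empty =>
    refine ⟨_, NumberField.dedekindZeta_residue_pos K, ?_⟩
    refine (NumberField.Ideal.tendsto_norm_le_div_atTop K).congr fun X => ?_
    congr 2
    rw [← Nat.card_coe_set_eq]
    exact Nat.card_congr (Equiv.subtypeEquivRight fun I => by simp [b2S])
  | insert p P hpP ih =>
    have hP' : ∀ q ∈ P, Prime q := fun q hq => hP q (Finset.mem_insert_of_mem hq)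
    have hp : Prime p := hP p (Finset.mem_insert_self _ _)
    obtain ⟨c, hc, ht⟩ := ih hP'
    have h0 : Ideal.absNorm p ≠ 0 := fun h => hp.ne_zero (Ideal.absNorm_eq_zero_iff.1 h)
    have h1 : Ideal.absNorm p ≠ 1 := fun h =>
      hp.not_isUnit (Ideal.isUnit_iff.2 (Ideal.absNorm_eq_one_iff.1 h))
    have hN : (1 : ℝ) < Ideal.absNorm p := by exact_mod_cast (by omega : 1 < Ideal.absNorm p)
    have hN0 : (0 : ℝ) < Ideal.absNorm p := by linarith
    refine ⟨c - c / Ideal.absNorm p, sub_pos.2 (div_lt_self hc hN), ?_⟩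
    have ht2 := (ht.comp (Filter.tendsto_id.atTop_div_const hN0)).div_const (Ideal.absNorm p : ℝ)
    refine (ht.sub ht2).congr' ?_
    filter_upwards [Filter.eventually_gt_atTop 0] with X hX
    rw [b2S_insert hP' hp hpP X]
    simp only [Function.comp, id]
    push_cast
    field_simp
    ring

theorem b2_finite (X : ℝ) : {d : R K | Prim d ∧ N d ≤ X}.Finite := by
  refine Set.Finite.of_injOn (f := idl) (t := b2S ∅ X) (fun d hd => ⟨?_, by simp⟩) ?_
    (b2S_finite _ _)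
  · rw [absNorm_idl]; exact hd.2
  · exact fun a ha b hb h => ha.1.eq_of_associated hb.1 (idl_eq_iff.1 h)

/-- `idl` is injective on primary elements and there are finitely many ideals of bounded norm -/
theorem mem_ball {X : ℝ} {d : R K} : d ∈ ball K X ↔ Prim d ∧ N d ≤ X := by
  unfold ball
  rw [dif_pos (b2_finite X), Set.Finite.mem_toFinset]
  rfl

theorem ball_mono {X Y : ℝ} (h : X ≤ Y) : ball K X ⊆ ball K Y := by
  intro d hd
  rw [mem_ball] at hd ⊢
  exact ⟨hd.1, hd.2.trans h⟩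

theorem ball_eq_empty {X : ℝ} (h : X < 1) : ball K X = ∅ := by
  refine Finset.eq_empty_of_forall_notMem fun d hd => ?_
  rw [mem_ball] at hd
  linarith [one_le_N hd.1.ne_zero, hd.2]

/-- `NumberField.Ideal.tendsto_norm_le_div_atTop` -/
theorem card_ball_le : ∃ C : ℝ, 0 ≤ C ∧ ∀ X : ℝ, 0 ≤ X → ((ball K X).card : ℝ) ≤ C * X := by
  obtain ⟨c, hc, ht⟩ := b2S_tendsto (K := K) ∅ (by simp)
  obtain ⟨X₀, hX₀⟩ := Filter.eventually_atTop.1 (ht.eventually (gt_mem_nhds (lt_add_one c)))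
  have hle : ∀ X : ℝ, ((ball K X).card : ℝ) ≤ (b2S (K := K) ∅ X).ncard := by
    intro X
    rw [← Set.ncard_coe_finset, Nat.cast_le]
    refine Set.ncard_le_ncard_of_injOn idl (fun d hd => ⟨?_, by simp⟩) ?_ (b2S_finite _ _)
    · rw [absNorm_idl]; exact (mem_ball.1 hd).2
    · exact fun a ha b hb h => (mem_ball.1 ha).1.eq_of_associated (mem_ball.1 hb).1 (idl_eq_iff.1 h)
  refine ⟨c + 1 + (ball K X₀).card, by positivity, fun X hX => ?_⟩
  rcases lt_or_ge X 1 with h1 | h1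
  · rw [ball_eq_empty h1, Finset.card_empty, Nat.cast_zero]
    positivity
  have h2 : (0 : ℝ) ≤ (ball K X₀).card := Nat.cast_nonneg _
  rcases le_total X₀ X with h3 | h3
  · have h4 := hX₀ X h3
    rw [div_lt_iff₀ (by linarith)] at h4
    nlinarith [hle X]
  · have h4 : ((ball K X).card : ℝ) ≤ (ball K X₀).card := by
      exact_mod_cast Finset.card_le_card (ball_mono h3)
    nlinarith

/-- every non-zero ideal of norm `≤ X` is `𝔰 𝔞`, `𝔰 ∣ Q^∞`, `𝔞` coprime to `Q`.  With `A(X) = #ball X ≤ CX`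
and `∑_𝔰 N𝔰⁻¹ < ∞`: `cX ≤ ∑_𝔰 A(X/N𝔰) ≤ #{𝔰 : N𝔰 ≤ T} A(X) + C X ∑_{N𝔰 > T} N𝔰⁻¹`; choose `T` large. -/
theorem card_ball_ge : ∃ c : ℝ, 0 < c ∧ ∀ X : ℝ, 1 ≤ X → c * X ≤ ((ball K X).card : ℝ) := by
  set J : Ideal (𝓞 K) := Ideal.span {((Loc.Q K : ℕ) : 𝓞 K)} with hJ
  have hJ0 : J ≠ ⊥ := by
    rw [hJ, Ne, Ideal.span_singleton_eq_bot]
    exact Nat.cast_ne_zero.2 Loc.Q_ne
  set P := (UniqueFactorizationMonoid.normalizedFactors J).toFinset with hP
  obtain ⟨c, hc, ht⟩ := b2S_tendsto P fun q hq =>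
    UniqueFactorizationMonoid.prime_of_normalized_factor q (Multiset.mem_toFinset.1 hq)
  obtain ⟨X₀, hX₀⟩ := Filter.eventually_atTop.1 (ht.eventually (lt_mem_nhds (half_lt_self hc)))
  have hcop : ∀ X : ℝ, ∀ I ∈ b2S P X, IsCoprime I J := by
    intro X I hI
    rw [Ideal.isCoprime_iff_sup_eq]
    by_contra h
    obtain ⟨m, hm, hle⟩ := Ideal.exists_le_maximal _ h
    refine hI.2 m (Multiset.mem_toFinset.2 ((Ideal.mem_normalizedFactors_iff hJ0).2
      ⟨hm.isPrime, le_sup_right.trans hle⟩)) (Ideal.dvd_iff_le.2 (le_sup_left.trans hle))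
  have hle : ∀ X : ℝ, ((b2S P X).ncard : ℝ) ≤ (ball K X).card := by
    intro X
    rw [← Set.ncard_coe_finset, Nat.cast_le]
    refine Set.ncard_le_ncard_of_injOn gen (fun I hI => mem_ball.2 ⟨?_, ?_⟩) ?_
      (Finset.finite_toSet _)
    · exact (gen_spec (ne_bot_of_isCoprime (hcop X I hI))).1
    · rw [N, nm_gen (hcop X I hI)]; exact hI.1
    · intro I hI I' hI' h
      rw [← idl_gen (hcop X I hI), ← idl_gen (hcop X I' hI'), h]
  have hM : 0 < max X₀ 1 := lt_of_lt_of_le one_pos (le_max_right _ _)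
  refine ⟨min (c / 2) (max X₀ 1)⁻¹, lt_min (half_pos hc) (inv_pos.2 hM), fun X hX => ?_⟩
  rcases le_total X₀ X with h3 | h3
  · have h4 := hX₀ X h3
    rw [lt_div_iff₀ (by linarith)] at h4
    exact (mul_le_mul_of_nonneg_right (min_le_left _ _) (by linarith)).trans (h4.le.trans (hle X))
  · have h4 : (1 : ℝ) ≤ (ball K X).card := by
      exact_mod_cast Finset.card_pos.2 ⟨1, mem_ball.2 ⟨Prim.one, by rwa [N_one]⟩⟩
    refine (mul_le_mul_of_nonneg_right (min_le_right _ _) (by linarith)).trans (le_trans ?_ h4)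
    rw [inv_mul_le_iff₀ hM, mul_one]
    exact h3.trans (le_max_left _ _)

theorem b2_shell : ∃ C₀ : ℝ, 0 ≤ C₀ ∧ ∀ {Y b : ℝ}, 0 < Y → 0 ≤ b → ∀ f : R K → ℝ,
    (∀ n, Y < N n → N n ≤ 2 * Y → f n ≤ b) →
    ∑ n ∈ ball K (2 * Y), f n ≤ ∑ n ∈ ball K Y, f n + C₀ * Y * b := by
  obtain ⟨C, hC, hcard⟩ := card_ball_le (K := K)
  refine ⟨2 * C, by positivity, fun {Y b} hY hb f h => ?_⟩
  have hsub : ball K Y ⊆ ball K (2 * Y) := ball_mono (by linarith)
  rw [← Finset.sum_sdiff hsub, add_comm]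
  refine add_le_add le_rfl ((Finset.sum_le_card_nsmul _ _ b fun n hn => ?_).trans ?_)
  · rw [Finset.mem_sdiff, mem_ball, mem_ball] at hn
    exact h n (not_le.1 fun h1 => hn.2 ⟨hn.1.1, h1⟩) hn.1.2
  · rw [nsmul_eq_mul]
    refine mul_le_mul_of_nonneg_right ?_ hb
    have h1 : ((ball K (2 * Y) \ ball K Y).card : ℝ) ≤ (ball K (2 * Y)).card := by
      exact_mod_cast Finset.card_le_card Finset.sdiff_subset
    linarith [hcard (2 * Y) (by linarith)]

theorem b2_tail {σ : ℝ} (hσ : 1 < σ) : ∃ C, 0 ≤ C ∧ ∀ X : ℝ, 0 < X → ∀ s : Finset (R K),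
    ∑ n ∈ s, (if Prim n ∧ X < N n then N n ^ (-σ) else 0) ≤ C * X ^ (1 - σ) := by
  obtain ⟨C₀, hC₀, hsh⟩ := b2_shell (K := K)
  have hr : (2 : ℝ) ^ (1 - σ) < 1 := Real.rpow_lt_one_of_one_lt_of_neg (by norm_num) (by linarith)
  have hC : 0 ≤ C₀ / (1 - (2 : ℝ) ^ (1 - σ)) := div_nonneg hC₀ (by linarith)
  refine ⟨C₀ / (1 - 2 ^ (1 - σ)), hC, fun X hX s => ?_⟩
  have h0 : ∀ n : R K, 0 ≤ (if Prim n ∧ X < N n then N n ^ (-σ) else 0) := fun n => by
    split_ifs
    · exact Real.rpow_nonneg (N_nonneg n) _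
    · exact le_rfl
  have key : ∀ J : ℕ, ∑ n ∈ ball K (2 ^ J * X), (if Prim n ∧ X < N n then N n ^ (-σ) else 0) ≤
      C₀ / (1 - 2 ^ (1 - σ)) * (X ^ (1 - σ) - (2 ^ J * X) ^ (1 - σ)) := by
    intro J
    induction J with
    | zero =>
      rw [pow_zero, one_mul, sub_self, mul_zero]
      exact (Finset.sum_eq_zero fun n hn =>
        if_neg fun h => (not_lt.2 (mem_ball.1 hn).2) h.2).le
    | succ J ih =>
      have hY : 0 < 2 ^ J * X := by positivity
      rw [pow_succ', mul_assoc]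
      generalize 2 ^ J * X = Y at ih hY
      refine (hsh hY (Real.rpow_nonneg hY.le (-σ)) _ fun n h1 _ => ?_).trans ?_
      · split_ifs
        · exact Real.rpow_le_rpow_of_nonpos hY h1.le (by linarith)
        · exact Real.rpow_nonneg hY.le _
      · rw [Real.mul_rpow (by norm_num) hY.le]
        have e1 : Y ^ (1 - σ) = Y * Y ^ (-σ) := by
          rw [sub_eq_add_neg, Real.rpow_add hY, Real.rpow_one]
        have e2 : C₀ * Y * Y ^ (-σ) =
            C₀ / (1 - 2 ^ (1 - σ)) * (Y ^ (1 - σ) - 2 ^ (1 - σ) * Y ^ (1 - σ)) := by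
          have : 1 - (2 : ℝ) ^ (1 - σ) ≠ 0 := by linarith
          rw [e1]; field_simp
        rw [e2]
        linarith
  obtain ⟨J, hJ⟩ := pow_unbounded_of_one_lt ((∑ n ∈ s, N n) / X) (one_lt_two (α := ℝ))
  rw [div_lt_iff₀ hX] at hJ
  have h1 : ∑ n ∈ s, (if Prim n ∧ X < N n then N n ^ (-σ) else 0) ≤
      ∑ n ∈ ball K (2 ^ J * X), (if Prim n ∧ X < N n then N n ^ (-σ) else 0) := by
    rw [← Finset.sum_filter_ne_zero s]
    refine Finset.sum_le_sum_of_subset_of_nonneg (fun n hn => ?_) fun n _ _ => h0 n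
    obtain ⟨hn, h2⟩ := Finset.mem_filter.1 hn
    refine mem_ball.2 ⟨?_, ?_⟩
    · by_contra h3
      exact h2 (if_neg fun h => h3 h.1)
    · exact (Finset.single_le_sum (fun n _ => N_nonneg n) hn).trans hJ.le
  refine h1.trans ((key J).trans (mul_le_mul_of_nonneg_left ?_ hC))
  have : 0 ≤ (2 ^ J * X) ^ (1 - σ) := by positivity
  linarith

theorem summable_N_rpow {σ : ℝ} (hσ : 1 < σ) :
    Summable (fun n : R K => if Prim n then N n ^ (-σ) else 0) := by
  obtain ⟨C, -, hC⟩ := b2_tail (K := K) hσ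
  refine summable_of_sum_le (c := C * (1 / 2) ^ (1 - σ)) (fun n => ?_) fun s => ?_
  · simp only [Pi.zero_apply]
    split_ifs
    · exact Real.rpow_nonneg (N_nonneg n) _
    · exact le_rfl
  refine le_of_eq_of_le (Finset.sum_congr rfl fun n _ => ?_) (hC (1 / 2) (by norm_num) s)
  by_cases h : Prim n
  · rw [if_pos h, if_pos ⟨h, by linarith [one_le_N h.ne_zero]⟩]
  · rw [if_neg h, if_neg fun h' => h h'.1]

theorem sum_tail_N_rpow {σ : ℝ} (hσ : 1 < σ) : ∃ C, 0 ≤ C ∧ ∀ X : ℝ, 0 < X → ∀ s : Finset (R K),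
    ∑ n ∈ s, (if Prim n ∧ X < N n then N n ^ (-σ) else 0) ≤ C * X ^ (1 - σ) :=
  b2_tail hσ

theorem tsum_tail_N_rpow {σ : ℝ} (hσ : 1 < σ) : ∃ C, ∀ X : ℝ, 0 < X →
    ∑' n : R K, (if Prim n ∧ X < N n then N n ^ (-σ) else 0) ≤ C * X ^ (1 - σ) := by
  obtain ⟨C, hC0, hC⟩ := b2_tail (K := K) hσ
  exact ⟨C, fun X hX => tsum_le_of_sum_le' (by positivity) (hC X hX)⟩

theorem sum_ball_rpow {σ : ℝ} (hσ : σ < 1) : ∃ C, ∀ X : ℝ, 1 ≤ X →
    ∑ n ∈ ball K X, N n ^ (-σ) ≤ C * X ^ (1 - σ) := by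
  obtain ⟨C₀, hC₀, hsh⟩ := b2_shell (K := K)
  have hr : (2 : ℝ) ^ (σ - 1) < 1 := Real.rpow_lt_one_of_one_lt_of_neg (by norm_num) (by linarith)
  have hC : 0 ≤ C₀ / 2 * (1 + 2 ^ σ) / (1 - (2 : ℝ) ^ (σ - 1)) := div_nonneg (by positivity) (by linarith)
  refine ⟨C₀ / 2 * (1 + 2 ^ σ) / (1 - 2 ^ (σ - 1)), fun X hX => ?_⟩
  have key : ∀ (J : ℕ) (X : ℝ), 0 < X → X < 2 ^ J → ∑ n ∈ ball K X, N n ^ (-σ) ≤
      C₀ / 2 * (1 + 2 ^ σ) / (1 - 2 ^ (σ - 1)) * X ^ (1 - σ) := by
    intro J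
    induction J with
    | zero =>
      intro X hX h1
      rw [ball_eq_empty (by simpa using h1), Finset.sum_empty]
      positivity
    | succ J ih =>
      intro X hX h1
      have h2 := ih (X / 2) (by positivity) (by rw [pow_succ] at h1; linarith)
      have h3 := hsh (Y := X / 2) (b := (1 + 2 ^ σ) * X ^ (-σ)) (by positivity) (by positivity)
        (fun n => N n ^ (-σ)) fun n h4 h5 => by
          have a1 : 0 ≤ X ^ (-σ) := by positivity
          have a2 : (0 : ℝ) ≤ 2 ^ σ := by positivity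
          rcases le_total 0 σ with h6 | h6
          · have := Real.rpow_le_rpow_of_nonpos (by positivity) h4.le (neg_nonpos.2 h6)
            rw [Real.div_rpow hX.le (by norm_num), Real.rpow_neg (x := 2) (by norm_num),
              div_inv_eq_mul] at this
            nlinarith
          · have := Real.rpow_le_rpow (N_nonneg n) (show N n ≤ X by linarith) (neg_nonneg.2 h6)
            nlinarith [mul_nonneg a1 a2]
      rw [mul_div_cancel₀ X two_ne_zero] at h3
      have e1 : X ^ (1 - σ) = X * X ^ (-σ) := by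
        rw [sub_eq_add_neg, Real.rpow_add hX, Real.rpow_one]
      have e2 : (X / 2) ^ (1 - σ) = 2 ^ (σ - 1) * X ^ (1 - σ) := by
        rw [Real.div_rpow hX.le (by norm_num), ← neg_sub σ 1, Real.rpow_neg (x := 2) (by norm_num),
          div_inv_eq_mul, mul_comm]
      have e3 : C₀ * (X / 2) * ((1 + 2 ^ σ) * X ^ (-σ)) = C₀ / 2 * (1 + 2 ^ σ) / (1 - 2 ^ (σ - 1)) *
          (X ^ (1 - σ) - 2 ^ (σ - 1) * X ^ (1 - σ)) := by
        have : 1 - (2 : ℝ) ^ (σ - 1) ≠ 0 := by linarith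
        rw [e1]; field_simp
      rw [e2] at h2
      rw [e3] at h3
      linarith
  obtain ⟨J, hJ⟩ := pow_unbounded_of_one_lt X (one_lt_two (α := ℝ))
  exact key J X (by linarith) hJ

theorem sum_ball_inv : ∃ C, ∀ X : ℝ, 1 ≤ X → ∑ n ∈ ball K X, (N n)⁻¹ ≤ C * (1 + Real.log X) := by
  obtain ⟨C₀, hC₀, hsh⟩ := b2_shell (K := K)
  have hl1 := Real.log_two_gt_d9
  have hl2 := Real.log_two_lt_d9
  have key : ∀ (J : ℕ) (X : ℝ), 1 / 2 ≤ X → X < 2 ^ J → ∑ n ∈ ball K X, (N n)⁻¹ ≤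
      2 * C₀ * (1 + Real.log X) := by
    have h0 : ∀ X : ℝ, 1 / 2 ≤ X → X < 1 → ∑ n ∈ ball K X, (N n)⁻¹ ≤ 2 * C₀ * (1 + Real.log X) := by
      intro X hX h1
      rw [ball_eq_empty h1, Finset.sum_empty]
      have := Real.log_le_log (by norm_num) hX
      rw [one_div, Real.log_inv] at this
      exact mul_nonneg (by positivity) (by linarith)
    intro J
    induction J with
    | zero => exact fun X hX h1 => h0 X hX (by simpa using h1)
    | succ J ih =>
      intro X hX h1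
      rcases lt_or_ge X 1 with h6 | h6
      · exact h0 X hX h6
      have h2 := ih (X / 2) (by linarith) (by rw [pow_succ] at h1; linarith)
      have h3 := hsh (Y := X / 2) (b := (X / 2)⁻¹) (by positivity) (by positivity)
        (fun n => (N n)⁻¹) fun n h4 _ => inv_anti₀ (by positivity) h4.le
      rw [mul_div_cancel₀ X two_ne_zero, mul_assoc, mul_inv_cancel₀ (by positivity)] at h3
      rw [Real.log_div (by positivity) two_ne_zero] at h2
      nlinarith
  refine ⟨2 * C₀, fun X hX => ?_⟩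
  obtain ⟨J, hJ⟩ := pow_unbounded_of_one_lt X (one_lt_two (α := ℝ))
  exact key J X (by linarith) hJ

end Crest.Agent.R312
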