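import Crest.Agent.R312.B0Chars
import Crest.Agent.R312.B0Basic2

/-!
# R312 / B0Hecke : twists versus Hecke characters
-/

set_option autoImplicit false
set_option linter.unusedSectionVars false
set_option linter.unusedVariables false

noncomputable section

open scoped Classical ComplexConjugate NumberField
open Crest.Agent.R17 (omC)

namespace Crest.Agent.R312

variable {K : Type} [Field K] [NumberField K] [Fld K] [Loc K] [Setup K]

theorem hk_cop (I : Ideal (𝓞 K)) :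
    IsCoprime I (Ideal.span {((Loc.Q K ^ Setup.lev K : ℕ) : 𝓞 K)}) ↔
      IsCoprime I (Ideal.span {((Loc.Q K : ℕ) : 𝓞 K)}) := by
  rw [Nat.cast_pow, ← Ideal.span_singleton_pow, IsCoprime.pow_right_iff Setup.lev_pos]

theorem hk_elt {x : 𝓞 K} (h : ((Loc.Q K : ℕ) : 𝓞 K) ^ Setup.lev K ∣ x - 1) :
    IsCoprime x ((Loc.Q K : ℕ) : 𝓞 K) ∧ x ≠ 0 := by
  constructor
  · obtain ⟨c, hc⟩ := (dvd_pow_self _ (Nat.one_le_iff_ne_zero.1 Setup.lev_pos)).trans h
    exact ⟨1, -c, by linear_combination hc⟩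
  · rintro rfl
    exact (InU.of_dvd h).ne_zero Setup.lev_pos (by simp)

theorem Tw.toH_idl (ν : Tw K) {a : R K} (ha : a ≠ 0) : ν.toH (idl a) = ν.v a := by
  rw [Tw.toH, if_pos (idl_isCoprime ha), ν.v_assoc (gen_idl_assoc ha)]

theorem Tw.toH_hChar (ν : Tw K) : HChar (Loc.Q K ^ Setup.lev K) ν.ξ ν.toH := by
  refine ⟨two_le_Q.trans (Nat.le_self_pow (Nat.one_le_iff_ne_zero.1 Setup.lev_pos) _), ν.sum_zero,
    ?_, fun I J => ?_, fun I hI => ?_, fun I hI => ?_, fun x hx => ?_⟩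
  · rw [Tw.toH, if_pos isCoprime_one_left, gen_one, ν.v_one]
  · unfold Tw.toH
    by_cases hI : IsCoprime I (Ideal.span {((Loc.Q K : ℕ) : 𝓞 K)})
    · by_cases hJ : IsCoprime J (Ideal.span {((Loc.Q K : ℕ) : 𝓞 K)})
      · rw [if_pos hI, if_pos hJ, if_pos (hI.mul_left hJ),
          gen_mul (ne_bot_of_isCoprime hI) (ne_bot_of_isCoprime hJ), ν.v_mul]
      · rw [if_neg hJ, if_neg fun h => hJ h.of_mul_left_right, mul_zero]
    · rw [if_neg hI, if_neg fun h => hI h.of_mul_left_left, zero_mul]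
  · rw [hk_cop] at hI
    exact if_neg hI
  · rw [hk_cop] at hI
    rw [Tw.toH, if_pos hI, ν.norm_v (gen_spec (ne_bot_of_isCoprime hI)).1.ne_zero]
  · rw [Nat.cast_pow] at hx
    obtain ⟨h1, h2⟩ := hk_elt hx
    rw [Tw.toH, if_pos ((Ideal.isCoprime_span_singleton_iff _ _).2 h1), ν.v_assoc (gen_span h2)]
    exact ν.ray _ (InU.of_dvd hx)

theorem Tw.dser_eq (ν : Tw K) (s : ℂ) : dser ν.v s = Lser ν.toH s := by
  rw [dser, tsum_prim_eq fun n => ν.v n * (N n : ℂ) ^ (-s), Lser]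
  refine tsum_congr fun I => ?_
  unfold Tw.toH
  split_ifs with h
  · rw [N, nm_gen h, Complex.ofReal_natCast]
  · rw [zero_mul]

theorem Tw.toH_one : (1 : Tw K).toH = one0 (Loc.Q K ^ Setup.lev K) := by
  funext I
  rw [Tw.toH, one0]
  by_cases h : IsCoprime I (Ideal.span {((Loc.Q K : ℕ) : 𝓞 K)})
  · rw [if_pos h, if_pos ((hk_cop I).2 h), Tw.one_v (gen_spec (ne_bot_of_isCoprime h)).1.ne_zero]
  · rw [if_neg h, if_neg fun h' => h ((hk_cop I).1 h')]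

theorem Tw.toH_eq_one0_iff {ν : Tw K} : ν.toH = one0 (Loc.Q K ^ Setup.lev K) ↔ ν = 1 := by
  refine ⟨fun h => Tw.eq_one_of_v fun n hn => ?_, fun h => h ▸ Tw.toH_one⟩
  rw [← ν.toH_idl hn.ne_zero, h, one0, if_pos ((hk_cop _).2 (idl_isCoprime hn.ne_zero))]

/-- `ν(a/b) = ψ(idl a) conj ψ(idl b)`; on `U` use `InU.exists_div` -/
theorem exists_tw {f : ℕ} (hf : f ∣ Loc.Q K) {ξ : Pl K → ℝ} {ψ : Ideal (𝓞 K) → ℂ} (h : HChar f ξ ψ) :
    ∃ ν : Tw K, ν.ξ = ξ ∧ (∀ a : R K, a ≠ 0 → ν.v a = ψ (idl a)) ∧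
      ∀ I, IsCoprime I (Ideal.span {((Loc.Q K : ℕ) : 𝓞 K)}) → ν.toH I = ψ I := by
  choose num den hden hx using exists_div (K := K)
  have hfQ : (f : 𝓞 K) ∣ ((Loc.Q K : ℕ) : 𝓞 K) := Nat.cast_dvd_cast hf
  have hn : ∀ a : R K, a ≠ 0 → ‖ψ (idl a)‖ = 1 := fun a ha =>
    h.norm _ ((idl_isCoprime ha).of_isCoprime_of_dvd_right
      (Ideal.dvd_iff_le.2 (Ideal.span_singleton_le_span_singleton.2 hfQ)))
  have hc : ∀ a : R K, a ≠ 0 → ψ (idl a) * conj (ψ (idl a)) = 1 := fun a ha => by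
    rw [Complex.mul_conj', hn a ha]
    simp
  have hm : ∀ a b : R K, ψ (idl (a * b)) = ψ (idl a) * ψ (idl b) := fun a b => by
    rw [idl_mul, h.mul]
  have h1 : ψ (idl (1 : R K)) = 1 := by rw [idl_one, h.one]
  have hcoe : ∀ a : R K, a ≠ 0 → (a : K) ≠ 0 := fun a ha e => ha (Subtype.ext e)
  obtain ⟨F, hF0, hF⟩ : ∃ F : K → ℂ, F 0 = 0 ∧ ∀ a b : R K, a ≠ 0 → b ≠ 0 →
      F ((a : K) / (b : K)) = ψ (idl a) * conj (ψ (idl b)) := by
    refine ⟨fun x => if x = 0 then 0 else ψ (idl (num x)) * conj (ψ (idl (den x))), if_pos rfl,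
      fun a b ha hb => ?_⟩
    have hab : (a : K) / (b : K) ≠ 0 := div_ne_zero (hcoe a ha) (hcoe b hb)
    have e1 := hx ((a : K) / (b : K))
    have e2 := hden ((a : K) / (b : K))
    simp only [if_neg hab]
    generalize num ((a : K) / (b : K)) = a' at e1 ⊢
    generalize den ((a : K) / (b : K)) = b' at e1 e2 ⊢
    rw [div_eq_div_iff (hcoe b hb) (hcoe b' e2)] at e1
    have e3 : a * b' = a' * b := Subtype.ext e1
    have e4 := congrArg (fun z => ψ (idl z)) e3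
    simp only [hm] at e4
    linear_combination (-(ψ (idl a') * conj (ψ (idl b')))) * hc b hb +
      ψ (idl a) * conj (ψ (idl b)) * hc b' e2 - conj (ψ (idl b)) * conj (ψ (idl b')) * e4
  have hR : ∀ a : R K, a ≠ 0 → F (a : K) = ψ (idl a) := fun a ha => by
    have := hF a 1 ha one_ne_zero
    rwa [h1, map_one, mul_one, OneMemClass.coe_one, div_one] at this
  have hrep : ∀ x : K, x ≠ 0 → ∃ a b : R K, a ≠ 0 ∧ b ≠ 0 ∧ x = (a : K) / (b : K) := fun x hx0 =>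
    ⟨num x, den x, fun e => hx0 (by rw [hx x, e]; simp), hden x, hx x⟩
  have hray : ∀ y : 𝓞 K, ((Loc.Q K : ℕ) : 𝓞 K) ^ Setup.lev K ∣ y - 1 →
      toR y ≠ 0 ∧ ψ (idl (toR y)) = ch ξ (y : K) := fun y hy => by
    obtain ⟨c1, c2⟩ := hk_elt hy
    refine ⟨fun e => c2 (toR_injective (e.trans (map_zero _).symm)), ?_⟩
    rw [idl_toR c1]
    exact h.ray y (hfQ.trans ((dvd_pow_self _ (Nat.one_le_iff_ne_zero.1 Setup.lev_pos)).trans hy))
  refine ⟨⟨F, ξ, hF0, ?_, fun x y => ?_, fun x hx0 => ?_, fun u => ?_, fun x hx0 => ?_, h.sum_zero⟩,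
    rfl, hR, fun I hI => ?_⟩
  · exact (hR 1 one_ne_zero).trans h1
  · by_cases hx0 : x = 0
    · rw [hx0, zero_mul, hF0, zero_mul]
    by_cases hy0 : y = 0
    · rw [hy0, mul_zero, hF0, mul_zero]
    obtain ⟨a, b, ha, hb, rfl⟩ := hrep x hx0
    obtain ⟨a', b', ha', hb', rfl⟩ := hrep y hy0
    have := hF (a * a') (b * b') (mul_ne_zero ha ha') (mul_ne_zero hb hb')
    rw [MulMemClass.coe_mul, MulMemClass.coe_mul] at this
    rw [div_mul_div_comm, this, hF a b ha hb, hF a' b' ha' hb', hm, hm, map_mul]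
    ring
  · obtain ⟨a, b, ha, hb, rfl⟩ := hrep x hx0
    rw [hF a b ha hb, norm_mul, Complex.norm_conj, hn a ha, hn b hb, mul_one]
  · rw [hR _ u.ne_zero, idl_eq_iff.2 (associated_one_iff_isUnit.2 u.isUnit), h1]
  · obtain ⟨x1, x2, c1, c2, c3, rfl⟩ := hx0.exists_div Setup.lev_pos
    obtain ⟨d1, d2⟩ := hray x1 c1
    obtain ⟨d3, d4⟩ := hray x2 c2
    have := hF (toR x1) (toR x2) d1 d3
    rw [coe_toR, coe_toR] at this
    rw [this, d2, d4, div_eq_mul_inv,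
      ch_mul ξ (x := (x1 : K)) (hcoe _ d1) (inv_ne_zero (a := (x2 : K)) (hcoe _ d3)), ch_inv]
  · rw [Tw.toH, if_pos hI]
    exact (hR _ (gen_spec (ne_bot_of_isCoprime hI)).1.ne_zero).trans (by rw [idl_gen hI])

theorem summable_dser {a : R K → ℂ} (ha : ∀ n, Prim n → ‖a n‖ ≤ 1) {s : ℂ} (hs : 1 < s.re) :
    Summable (fun n : R K => ‖if Prim n then a n * (N n : ℂ) ^ (-s) else 0‖) := by
  refine Summable.of_nonneg_of_le (fun _ => norm_nonneg _) (fun n => ?_) (summable_N_rpow hs)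
  split_ifs with hn
  · rw [norm_mul, Complex.norm_cpow_eq_rpow_re_of_pos (N_pos hn.ne_zero), Complex.neg_re]
    exact mul_le_of_le_one_left (Real.rpow_nonneg (N_nonneg n) _) (ha n hn)
  · rw [norm_zero]

end Crest.Agent.R312
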