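import Crest.Agent.R312.B0Basic3
import Crest.Agent.R312.B0Hecke

/-!
# R312 / B0Dser : Dirichlet series over primary elements on `Re s > 1`
-/

set_option autoImplicit false
set_option linter.unusedSectionVars false
set_option linter.unusedVariables false

noncomputable section

open scoped Classical ComplexConjugate NumberField

namespace Crest.Agent.R312

variable {K : Type} [Field K] [NumberField K] [Fld K] [Loc K] [Setup K]

theorem N_cpow_mul (a b : R K) (w : ℂ) :
    (N (a * b) : ℂ) ^ w = (N a : ℂ) ^ w * (N b : ℂ) ^ w := by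
  rw [N_mul, Complex.ofReal_mul, Complex.mul_cpow_ofReal_nonneg (N_nonneg a) (N_nonneg b)]

theorem dser_prim (f : R K → ℂ) (s : ℂ) : dser (prim f) s = dser f s := by
  unfold dser prim
  refine tsum_congr fun n => ?_
  by_cases h : Prim n <;> simp [h]

theorem dser_congr {f g : R K → ℂ} (h : ∀ n, Prim n → f n = g n) (s : ℂ) : dser f s = dser g s := by
  unfold dser
  refine tsum_congr fun n => ?_
  split_ifs with hn
  · rw [h n hn]
  · rfl

theorem dser_norm_term_le {f : R K → ℂ} (hb : ∀ n, Prim n → ‖f n‖ ≤ 1) (s : ℂ) {n : R K}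
    (hn : Prim n) : ‖f n * (N n : ℂ) ^ (-s)‖ ≤ N n ^ (-s.re) := by
  rw [norm_mul, Complex.norm_cpow_eq_rpow_re_of_pos (N_pos hn.ne_zero), Complex.neg_re]
  exact mul_le_of_le_one_left (Real.rpow_nonneg (N_nonneg n) _) (hb n hn)

theorem dser_summable_term {f : R K → ℂ} (hb : ∀ n, Prim n → ‖f n‖ ≤ 1) {s : ℂ} (hs : 1 < s.re)
    (P : R K → Prop) [DecidablePred P] (hP : ∀ n, P n → Prim n) :
    Summable (fun n : R K => if P n then f n * (N n : ℂ) ^ (-s) else 0) := by
  refine Summable.of_norm_bounded (summable_N_rpow hs) fun n => ?_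
  by_cases h : P n
  · rw [if_pos h, if_pos (hP n h)]
    exact dser_norm_term_le hb s (hP n h)
  · rw [if_neg h, norm_zero]
    split_ifs
    · exact Real.rpow_nonneg (N_nonneg n) _
    · exact le_rfl

/-- `|dser f s| ≤ ∑ N^{-σ}` for `Re s ≥ σ > 1` -/
theorem norm_dser_le {σ : ℝ} (hσ : 1 < σ) : ∃ C, 0 ≤ C ∧ ∀ f : R K → ℂ, (∀ n, Prim n → ‖f n‖ ≤ 1) →
    ∀ s : ℂ, σ ≤ s.re → ‖dser f s‖ ≤ C := by
  refine ⟨∑' n : R K, if Prim n then N n ^ (-σ) else 0, tsum_nonneg fun n => ?_, fun f hf s hs => ?_⟩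
  · split_ifs
    · exact Real.rpow_nonneg (N_nonneg n) _
    · exact le_rfl
  · refine tsum_of_norm_bounded (summable_N_rpow hσ).hasSum fun n => ?_
    split_ifs with hn
    · exact (dser_norm_term_le hf s hn).trans
        (Real.rpow_le_rpow_of_exponent_le (one_le_N hn.ne_zero) (by linarith))
    · simp

theorem dser_differentiableOn {f : R K → ℂ} (hb : ∀ n, Prim n → ‖f n‖ ≤ 1) :
    DifferentiableOn ℂ (dser f) {s | 1 < s.re} := by
  intro s hs
  have hs' : 1 < s.re := hs
  have hU : IsOpen {z : ℂ | (1 + s.re) / 2 < z.re} := isOpen_lt continuous_const Complex.continuous_re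
  have h := Complex.differentiableOn_tsum_of_summable_norm
    (summable_N_rpow (K := K) (σ := (1 + s.re) / 2) (by linarith))
    (F := fun (n : R K) (z : ℂ) => if Prim n then f n * (N n : ℂ) ^ (-z) else 0)
    (fun n => ?_) hU (fun n z hz => ?_)
  · exact (h.differentiableAt (hU.mem_nhds (show (1 + s.re) / 2 < s.re by linarith))).differentiableWithinAt
  · split_ifs with hn
    · exact ((differentiable_const _).mul (differentiable_id.neg.const_cpow
        (Or.inl (Complex.ofReal_ne_zero.2 (N_pos hn.ne_zero).ne')))).differentiableOn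
    · exact differentiableOn_const _
  · have hz' : (1 + s.re) / 2 < z.re := hz
    split_ifs with hn
    · exact (dser_norm_term_le hb z hn).trans
        (Real.rpow_le_rpow_of_exponent_le (one_le_N hn.ne_zero) (by linarith))
    · simp

theorem dser_remove_one {f : R K → ℂ} (hb : ∀ n, Prim n → ‖f n‖ ≤ 1) {p : R K} (hp : Prim p) {c : ℂ}
    (hf : ∀ m, Prim m → f (p * m) = c * f m) {s : ℂ} (hs : 1 < s.re) :
    dser (fun n => if ¬ p ∣ n then f n else 0) s = dser f s * (1 - c * (N p : ℂ) ^ (-s)) := by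
  unfold dser
  have h1 := dser_summable_term hb hs Prim (fun n h => h)
  have h2 := dser_summable_term hb hs (fun n => Prim n ∧ p ∣ n) (fun n h => h.1)
  have h3 := tsum_prim_dvd hp (fun n => f n * (N n : ℂ) ^ (-s))
  have h4 : ∑' m : R K, (if Prim m then f (p * m) * (N (p * m) : ℂ) ^ (-s) else 0) =
      (∑' n : R K, if Prim n then f n * (N n : ℂ) ^ (-s) else 0) * (c * (N p : ℂ) ^ (-s)) := by
    rw [← tsum_mul_right]
    refine tsum_congr fun m => ?_
    split_ifs with h
    · rw [hf m h, N_cpow_mul]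
      ring
    · simp
  rw [mul_sub, mul_one, ← h4, ← h3, ← h1.tsum_sub h2]
  refine tsum_congr fun n => ?_
  by_cases h : Prim n <;> by_cases h' : p ∣ n <;> simp [h, h']

theorem dser_remove_set {ψ : R K → ℂ} (hψ : ∀ a b, Prim a → Prim b → ψ (a * b) = ψ a * ψ b)
    (hb : ∀ n, Prim n → ‖ψ n‖ ≤ 1)
    {s : ℂ} (hs : 1 < s.re) (S : Finset (R K)) (hS : ∀ p ∈ S, Prime p ∧ Prim p) :
    dser (fun n => if ∀ p ∈ S, ¬ p ∣ n then ψ n else 0) s =
      dser ψ s * ∏ p ∈ S, (1 - ψ p * (N p : ℂ) ^ (-s)) := by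
  induction S using Finset.induction_on with
  | empty => simp
  | insert p S hpS ih =>
    have hp := hS p (Finset.mem_insert_self _ _)
    have hS' : ∀ p ∈ S, Prime p ∧ Prim p := fun r hr => hS r (Finset.mem_insert_of_mem hr)
    rw [Finset.prod_insert hpS, mul_comm (1 - _), ← mul_assoc, ← ih hS',
      ← dser_remove_one (c := ψ p) (fun n hn => ?_) hp.2 (fun m hm => ?_) hs]
    · congr 1
      funext n
      by_cases h : p ∣ n
      · simp [h]
      · simp [h]
    · split_ifs
      · exact hb n hn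
      · simp
    · have : (∀ r ∈ S, ¬ r ∣ p * m) ↔ (∀ r ∈ S, ¬ r ∣ m) := by
        refine forall₂_congr fun r hr => not_congr ⟨fun h => ?_, fun h => h.mul_left _⟩
        rcases (hS' r hr).1.dvd_or_dvd h with h1 | h1
        · have h2 := (hS' r hr).2.eq_of_associated hp.2
            ((hS' r hr).1.associated_of_dvd hp.1 h1)
          exact absurd (h2 ▸ hr) hpS
        · exact h1
      simp only [this]
      split_ifs
      · exact hψ _ _ hp.2 hm
      · simp

theorem isCoprime_iff_pdiv {n a : R K} (ha : a ≠ 0) :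
    IsCoprime n a ↔ ∀ p ∈ (pdiv a).filter Prime, ¬ p ∣ n := by
  constructor
  · intro h p hp hpn
    rw [Finset.mem_filter, mem_pdiv ha] at hp
    exact hp.2.not_isUnit (h.isUnit_of_dvd' hpn hp.1.2)
  · intro h
    refine isCoprime_of_prime_dvd (fun h0 => ha h0.2) fun z hz hzn hza => ?_
    obtain ⟨p, hp, hp', hass⟩ := exists_prim_prime hz
    refine h p ?_ (hass.symm.dvd.trans hzn)
    rw [Finset.mem_filter, mem_pdiv ha]
    exact ⟨⟨hp', hass.symm.dvd.trans hza⟩, hp⟩

/-- removing finitely many Euler factors -/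
theorem dser_remove {ψ : R K → ℂ} (hψ : ∀ a b, Prim a → Prim b → ψ (a * b) = ψ a * ψ b)
    (hb : ∀ n, Prim n → ‖ψ n‖ ≤ 1) {a : R K} (ha : a ≠ 0) {s : ℂ} (hs : 1 < s.re) :
    dser (fun n => if IsCoprime n a then ψ n else 0) s =
      dser ψ s * ∏ p ∈ (pdiv a).filter Prime, (1 - ψ p * (N p : ℂ) ^ (-s)) := by
  rw [← dser_remove_set hψ hb hs _ (fun p hp => ?_)]
  · simp only [isCoprime_iff_pdiv ha]
  · rw [Finset.mem_filter, mem_pdiv ha] at hp
    exact ⟨hp.2, hp.1.1⟩

/-- `L · (1/L) = 1` on `Re s > 1` (Dirichlet convolution over primary elements, `sum_mu_pdiv`) -/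
theorem dser_mul_mu {ψ : R K → ℂ} (h1 : ψ 1 = 1)
    (hψ : ∀ a b, Prim a → Prim b → ψ (a * b) = ψ a * ψ b)
    (hb : ∀ n, Prim n → ‖ψ n‖ ≤ 1) {s : ℂ} (hs : 1 < s.re) :
    dser ψ s * dser (fun n => mu n * ψ n) s = 1 := by
  let H : R K → R K → ℂ := fun n e =>
    if Prim e then (if Prim n ∧ e ∣ n then mu e * (ψ n * (N n : ℂ) ^ (-s)) else 0) else 0
  have hfin : ∀ n e, e ∉ pdiv n → H n e = 0 := by
    intro n e he
    simp only [H]
    split_ifs with h2 h3
    · exact absurd ((mem_pdiv h3.1.ne_zero).2 ⟨h2, h3.2⟩) he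
    · rfl
    · rfl
  have hHb : ∀ n e, ‖H n e‖ ≤ N n ^ (-s.re) := by
    intro n e
    have h0 := Real.rpow_nonneg (N_nonneg n) (-s.re)
    simp only [H]
    split_ifs with h2 h3
    · rw [norm_mul]
      exact (mul_le_of_le_one_left (norm_nonneg _) (norm_mu_le e)).trans
        (dser_norm_term_le hb s h3.1)
    · simpa using h0
    · simpa using h0
  have hsum : Summable (Function.uncurry H) := by
    refine Summable.of_norm ?_
    rw [summable_prod_of_nonneg (fun _ => norm_nonneg _)]
    refine ⟨fun n => summable_of_ne_finset_zero (s := pdiv n) fun e he => ?_, ?_⟩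
    · simp [hfin n e he]
    · obtain ⟨C, hC⟩ := card_pdiv_le (K := K) (ε := (s.re - 1) / 2) (by linarith)
      refine Summable.of_nonneg_of_le (fun n => tsum_nonneg fun _ => norm_nonneg _) (fun n => ?_)
        ((summable_N_rpow (σ := (s.re + 1) / 2) (by linarith)).mul_left |C|)
      rw [tsum_eq_sum (s := pdiv n) (fun e he => by simp [hfin n e he])]
      by_cases hn : Prim n
      · have hN := N_pos hn.ne_zero
        refine (Finset.sum_le_card_nsmul _ _ _ fun e _ => hHb n e).trans ?_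
        rw [nsmul_eq_mul, if_pos hn]
        calc _ ≤ (|C| * N n ^ ((s.re - 1) / 2)) * N n ^ (-s.re) :=
              mul_le_mul_of_nonneg_right ((hC n hn.ne_zero).trans
                (mul_le_mul_of_nonneg_right (le_abs_self C) (by positivity))) (by positivity)
          _ = _ := by
              rw [mul_assoc, ← Real.rpow_add hN]
              congr 2
              ring
      · rw [if_neg hn, mul_zero]
        exact le_of_eq (Finset.sum_eq_zero fun e _ => by simp [H, hn])
  have h2 : dser ψ s * dser (fun n => mu n * ψ n) s = ∑' e, ∑' n, H n e := by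
    rw [dser.eq_1 (fun n => mu n * ψ n), ← tsum_mul_left]
    refine tsum_congr fun e => ?_
    simp only [H]
    split_ifs with he
    · rw [tsum_prim_dvd he (fun n => mu e * (ψ n * (N n : ℂ) ^ (-s))), dser, ← tsum_mul_right]
      refine tsum_congr fun m => ?_
      split_ifs with hm
      · rw [hψ _ _ he hm, N_cpow_mul]
        ring
      · simp
    · simp
  rw [h2, hsum.tsum_comm]
  have h3 : ∀ n, ∑' e, H n e = if n = 1 then 1 else 0 := by
    intro n
    rw [tsum_eq_sum (s := pdiv n) (hfin n)]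
    by_cases hn : Prim n
    · have h4 : ∑ e ∈ pdiv n, H n e = (∑ e ∈ pdiv n, mu e) * (ψ n * (N n : ℂ) ^ (-s)) := by
        rw [Finset.sum_mul]
        refine Finset.sum_congr rfl fun e he => ?_
        rw [mem_pdiv hn.ne_zero] at he
        simp only [H, he.1, he.2, hn, and_self, if_true]
      rw [h4, sum_mu_pdiv hn]
      split_ifs with h5
      · subst h5
        simp [h1]
      · simp
    · have h5 : n ≠ 1 := fun h => hn (h ▸ Prim.one)
      rw [if_neg h5]
      exact Finset.sum_eq_zero fun e _ => by simp [H, hn]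
  simp only [h3]
  exact tsum_ite_eq 1 1

theorem Tw.dser_mul_mu (ν : Tw K) {s : ℂ} (hs : 1 < s.re) :
    dser ν.v s * dser (fun n => mu n * ν.v n) s = 1 :=
  R312.dser_mul_mu ν.v_one (fun a b _ _ => ν.v_mul a b) (fun n _ => ν.norm_v_le n) hs

/-- `exists_tw` with the values of `toH` on all ideals -/
theorem exists_tw' {f : ℕ} (hf : f ∣ Loc.Q K) {ξ : Pl K → ℝ} {ψ : Ideal (𝓞 K) → ℂ}
    (h : HChar f ξ ψ) : ∃ ν : Tw K, ν.ξ = ξ ∧ (∀ a : R K, a ≠ 0 → ν.v a = ψ (idl a)) ∧
      ν.toH = fun I => if IsCoprime I (Ideal.span {((Loc.Q K : ℕ) : 𝓞 K)}) then ψ I else 0 := by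
  obtain ⟨ν, h1, h2, h3⟩ := exists_tw hf h
  refine ⟨ν, h1, h2, funext fun I => ?_⟩
  split_ifs with hI
  · exact h3 I hI
  · exact if_neg hI

end Crest.Agent.R312
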