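import Crest.Agent.R312.B0Block2
import Crest.Agent.R17.Contour

/-!
# R312 / B0Kernel : kernel lemma (port of R17/Kernel; `R17.shift_line`, `R17.shift_line_pole` are generic)
-/

set_option autoImplicit false
set_option linter.unusedSectionVars false
set_option linter.unusedVariables false

noncomputable section

open scoped Classical ComplexConjugate NumberField
open MeasureTheory
open Crest.Agent.R17 (omC)

namespace Crest.Agent.R312

variable {K : Type} [Field K] [NumberField K] [Fld K] [Loc K] [Setup K]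

/-- the kernel attached to a gamma factor `γ`, on the line `Re w = σ` -/
def kern (γ : ℂ → ℂ) (σ t u : ℝ) : ℂ :=
  (1 / (2 * Real.pi) : ℂ) * ∫ τ : ℝ, γ (1 / 2 + t * Complex.I + (σ + τ * Complex.I)) *
    (Real.sqrt Real.pi * Complex.exp ((σ + τ * Complex.I) ^ 2 / 4 + (σ + τ * Complex.I) * u))

namespace Kn

open Complex Filter Topology

/-- the integrand of `kern` -/
def ki (G : ℂ → ℂ) (t u : ℝ) (w : ℂ) : ℂ :=
  G (1 / 2 + t * I + w) * (Real.sqrt Real.pi * cexp (w ^ 2 / 4 + w * u))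

theorem kern_eq (G : ℂ → ℂ) (σ t u : ℝ) :
    kern G σ t u = (1 / (2 * Real.pi) : ℂ) * ∫ τ : ℝ, ki G t u (σ + τ * I) := rfl

theorem bound {G : ℂ → ℂ} {C a b : ℝ} (t : ℝ)
    (hg : ∀ s : ℂ, 1 / 2 + a ≤ s.re → s.re ≤ 1 / 2 + b → ‖G s‖ ≤ C * Real.exp (C * |s.im|)) :
    ∃ A, 0 ≤ A ∧ ∀ σ τ u : ℝ, a ≤ σ → σ ≤ b → ‖ki G t u (σ + τ * I)‖ ≤
      A * Real.exp (σ ^ 2 / 4 + σ * u) * Real.exp (-(1 / 8) * τ ^ 2) := by
  refine ⟨|C| * Real.exp (|C| * |t| + 2 * C ^ 2) * Real.sqrt Real.pi, by positivity,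
    fun σ τ u h1 h2 => ?_⟩
  have h3 := hg (1 / 2 + t * I + (σ + τ * I)) (by simpa using h1) (by simpa using h2)
  have e1 : (1 / 2 + t * I + (σ + τ * I) : ℂ).im = t + τ := by simp
  have e2 : ((σ + τ * I : ℂ) ^ 2 / 4 + (σ + τ * I) * u).re = σ ^ 2 / 4 + σ * u - τ ^ 2 / 4 := by
    simp [pow_two, div_ofNat_re]
    ring
  rw [e1] at h3
  have h4 : C * |t + τ| ≤ |C| * |t| + 2 * C ^ 2 + τ ^ 2 / 8 := by
    have a1 : C * |t + τ| ≤ |C| * (|t| + |τ|) :=
      mul_le_mul (le_abs_self C) (abs_add_le t τ) (abs_nonneg _) (abs_nonneg _)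
    have a2 : |C| * |τ| ≤ 2 * C ^ 2 + τ ^ 2 / 8 := by
      rw [← sq_abs C, ← sq_abs τ]
      nlinarith [sq_nonneg (4 * |C| - |τ|)]
    linarith
  have h5 : ‖G (1 / 2 + t * I + (σ + τ * I))‖ ≤
      |C| * Real.exp (|C| * |t| + 2 * C ^ 2 + τ ^ 2 / 8) :=
    h3.trans (mul_le_mul (le_abs_self C) (Real.exp_le_exp.2 h4) (Real.exp_pos _).le (abs_nonneg C))
  rw [ki, norm_mul, norm_mul, norm_exp, e2, Complex.norm_real,
    Real.norm_of_nonneg (Real.sqrt_nonneg _)]
  refine (mul_le_mul_of_nonneg_right h5 (by positivity)).trans (le_of_eq ?_)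
  have e3 : Real.exp (|C| * |t| + 2 * C ^ 2 + τ ^ 2 / 8) * Real.exp (σ ^ 2 / 4 + σ * u - τ ^ 2 / 4) =
      Real.exp (|C| * |t| + 2 * C ^ 2) * Real.exp (σ ^ 2 / 4 + σ * u) *
        Real.exp (-(1 / 8) * τ ^ 2) := by
    simp only [← Real.exp_add]
    congr 1
    ring
  linear_combination (|C| * Real.sqrt Real.pi) * e3

theorem ki_diff {G : ℂ → ℂ} {a b : ℝ} (t u : ℝ)
    (hG : DifferentiableOn ℂ G {s | 1 / 2 + a ≤ s.re ∧ s.re ≤ 1 / 2 + b}) :
    DifferentiableOn ℂ (ki G t u) {s | a ≤ s.re ∧ s.re ≤ b} := by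
  unfold ki
  refine DifferentiableOn.mul (hG.comp (by fun_prop) fun w hw => ?_) (by fun_prop)
  simpa using hw

theorem shift {G : ℂ → ℂ} {C a b : ℝ} (hab : a ≤ b) (t u : ℝ)
    (hG : DifferentiableOn ℂ G {s | 1 / 2 + a ≤ s.re ∧ s.re ≤ 1 / 2 + b})
    (hg : ∀ s : ℂ, 1 / 2 + a ≤ s.re → s.re ≤ 1 / 2 + b → ‖G s‖ ≤ C * Real.exp (C * |s.im|)) :
    kern G a t u = kern G b t u := by
  obtain ⟨A, hA, hb⟩ := bound t hg
  rw [kern_eq, kern_eq]
  congr 1
  set R := |a| + |b| with hR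
  refine Crest.Agent.R17.shift_line hab (ki_diff t u hG)
    (g := fun τ => A * Real.exp (R ^ 2 / 4 + R * |u|) * Real.exp (-(1 / 8) * τ ^ 2))
    ((integrable_exp_neg_mul_sq (by norm_num)).const_mul _) ?_ fun σ τ h1 h2 => ?_
  · have := (tendsto_rpow_abs_mul_exp_neg_mul_sq_cocompact (a := 1 / 8) (by norm_num) 0).const_mul
      (A * Real.exp (R ^ 2 / 4 + R * |u|))
    simpa using this
  · refine (hb σ τ u h1 h2).trans (mul_le_mul_of_nonneg_right (mul_le_mul_of_nonneg_left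
      (Real.exp_le_exp.2 ?_) hA) (Real.exp_pos _).le)
    have a1 : |σ| ≤ R := abs_le.2 ⟨by linarith [neg_abs_le a, abs_nonneg b],
      by linarith [le_abs_self b, abs_nonneg a]⟩
    have a2 : σ ^ 2 ≤ R ^ 2 := by
      rw [← sq_abs σ]
      exact pow_le_pow_left₀ (abs_nonneg _) a1 2
    have a3 : σ * u ≤ R * |u| := by
      refine (le_abs_self _).trans ?_
      rw [abs_mul]
      exact mul_le_mul_of_nonneg_right a1 (abs_nonneg _)
    linarith

theorem cpow_eq {x : ℝ} (hx : 0 < x) (w : ℂ) : (x : ℂ) ^ w = cexp (w * Real.log x) := by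
  rw [cpow_def_of_ne_zero (ofReal_ne_zero.2 hx.ne'), ← ofReal_log hx.le, mul_comm]

end Kn

open Complex in
/-- **Kernel lemma.**  Let `D` be entire, equal to `dser a` far to the right, with
`D(s) = ρ^{1/2-s} γ(s) dser b (1-s)` far to the left, all of growth `e^{C|t|}` on strips, `γ`
holomorphic on `Re s < s₁`.  Then `pb a y t = ρ^{-it} ∑ b(n) N(n)^{-1/2+it} kern(log N n + y - log ρ)`
for any line `1/2 + σ < s₁`.  Proof: `blks_mellin` on `Re w = j`, `shift_line` to `Re w = -j`,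
functional equation, Fubini, and `shift_line` for each term. -/
theorem kernel_lemma {a b : R K → ℂ} (ha : PolyBd a) (hb : PolyBd b) {D γ : ℂ → ℂ} {ρ s1 : ℝ}
    (hρ : 0 < ρ) (hD : Differentiable ℂ D) (hγ : DifferentiableOn ℂ γ {s | s.re < s1})
    (hDa : ∃ σ0 : ℝ, ∀ s : ℂ, σ0 < s.re → D s = dser a s)
    (hDb : ∃ σ0 : ℝ, ∀ s : ℂ, s.re < σ0 → D s = (ρ : ℂ) ^ (1 / 2 - s) * γ s * dser b (1 - s))
    (hgD : ∀ σ1 σ2 : ℝ, ∃ C, ∀ s : ℂ, σ1 ≤ s.re → s.re ≤ σ2 → ‖D s‖ ≤ C * Real.exp (C * |s.im|))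
    (hgγ : ∀ σ1 σ2 : ℝ, σ2 < s1 → ∃ C, ∀ s : ℂ, σ1 ≤ s.re → s.re ≤ σ2 →
      ‖γ s‖ ≤ C * Real.exp (C * |s.im|))
    {σ : ℝ} (hσ : 1 / 2 + σ < s1) (y t : ℝ) :
    Summable (fun n : R K => ‖if Prim n then b n * (N n : ℂ) ^ (-(1 / 2 : ℂ) + t * Complex.I) *
        kern γ σ t (Real.log (N n) + y - Real.log ρ) else 0‖) ∧
    pb a y t = (ρ : ℂ) ^ (-(t * Complex.I)) * ∑' n : R K, if Prim n then
      b n * (N n : ℂ) ^ (-(1 / 2 : ℂ) + t * Complex.I) *
        kern γ σ t (Real.log (N n) + y - Real.log ρ) else 0 := by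
  obtain ⟨xa, hxa⟩ := polySummable ha
  obtain ⟨xb, hxb⟩ := polySummable hb
  obtain ⟨σa, hσa⟩ := hDa
  obtain ⟨σb, hσb⟩ := hDb
  set j : ℝ := |xa| + |xb| + |σa| + |σb| + |σ| + 1 with hj
  have p1 := le_abs_self xa
  have p2 := le_abs_self xb
  have p3 := le_abs_self σa
  have p4 := neg_abs_le σb
  have p5 := neg_abs_le σ
  have q1 := abs_nonneg xa
  have q2 := abs_nonneg xb
  have q3 := abs_nonneg σa
  have q4 := abs_nonneg σb
  have q5 := abs_nonneg σ
  -- right line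
  have h1 : pb a y t = kern D j t y := by
    rw [pb, blks_mellin y j _ (hxa _ (by simp; linarith)), kern]
    congr 1
    refine integral_congr_ae (Filter.Eventually.of_forall fun τ => ?_)
    simp only
    rw [hσa _ (by simp; linarith)]
  obtain ⟨CD, hCD⟩ := hgD (1 / 2 + -j) (1 / 2 + j)
  have h2 : kern D (-j) t y = kern D j t y :=
    Kn.shift (by linarith) t y hD.differentiableOn hCD
  obtain ⟨Cγ, hCγ⟩ := hgγ (1 / 2 + -j) (1 / 2 + σ) hσ
  have hγ' : DifferentiableOn ℂ γ {s | 1 / 2 + -j ≤ s.re ∧ s.re ≤ 1 / 2 + σ} :=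
    hγ.mono fun s hs => lt_of_le_of_lt hs.2 hσ
  have h3 : ∀ u, kern γ (-j) t u = kern γ σ t u := fun u => Kn.shift (by linarith) t u hγ' hCγ
  obtain ⟨A, hA, hbd⟩ := Kn.bound t hCγ
  let F : R K → ℝ → ℂ := fun n τ => if Prim n then
    b n * (N n : ℂ) ^ (-(1 / 2 : ℂ) + t * I) *
      Kn.ki γ t (Real.log (N n) + y - Real.log ρ) ((-j : ℝ) + τ * I) else 0
  set B := A * Real.exp ((-j) ^ 2 / 4 + -j * (y - Real.log ρ)) with hB
  have hFb : ∀ n τ, ‖F n τ‖ ≤
      (if Prim n then ‖b n‖ * N n ^ (-(1 / 2 + j)) else 0) * B * Real.exp (-(1 / 8) * τ ^ 2) := by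
    intro n τ
    simp only [F]
    split_ifs with hn
    swap
    · simp
    · have hN := N_pos hn.ne_zero
      have a1 := hbd (-j) τ (Real.log (N n) + y - Real.log ρ) le_rfl (by linarith)
      rw [norm_mul, norm_mul, norm_cpow_eq_rpow_re_of_pos hN]
      refine (mul_le_mul_of_nonneg_left a1 (by positivity)).trans (le_of_eq ?_)
      have e1 : (-(1 / 2 : ℂ) + t * I).re = -(1 / 2) := by simp
      have e2 : N n ^ (-(1 / 2) : ℝ) *
          Real.exp ((-j) ^ 2 / 4 + -j * (Real.log (N n) + y - Real.log ρ)) =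
          N n ^ (-(1 / 2 + j)) * Real.exp ((-j) ^ 2 / 4 + -j * (y - Real.log ρ)) := by
        rw [Real.rpow_def_of_pos hN, Real.rpow_def_of_pos hN, ← Real.exp_add, ← Real.exp_add]
        congr 1
        ring
      rw [e1, hB]
      linear_combination (‖b n‖ * A * Real.exp (-(1 / 8) * τ ^ 2)) * e2
  have hgi : Integrable (fun τ : ℝ => Real.exp (-(1 / 8) * τ ^ 2)) :=
    integrable_exp_neg_mul_sq (by norm_num)
  have hFi : ∀ n, Integrable (F n) := by
    intro n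
    refine Integrable.mono' (hgi.const_mul _) (Continuous.aestronglyMeasurable ?_)
      (Filter.Eventually.of_forall (hFb n))
    simp only [F]
    split_ifs
    swap
    · exact continuous_const
    · refine continuous_const.mul ?_
      refine (Kn.ki_diff t _ hγ').continuousOn.comp_continuous (by fun_prop) fun τ => ?_
      simp
      linarith
  have hFs : Summable (fun n => ∫ τ, ‖F n τ‖) := by
    refine Summable.of_nonneg_of_le (fun n => integral_nonneg fun τ => norm_nonneg _) (fun n => ?_)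
      (((hxb (1 / 2 + j) (by linarith)).mul_right B).mul_right
        (∫ τ : ℝ, Real.exp (-(1 / 8) * τ ^ 2)))
    rw [← integral_const_mul]
    exact integral_mono (hFi n).norm (hgi.const_mul _) (hFb n)
  have hsum := hasSum_integral_of_summable_integral_norm hFi hFs
  have hterm : ∀ n : R K, (if Prim n then b n * (N n : ℂ) ^ (-(1 / 2 : ℂ) + t * Complex.I) *
      kern γ σ t (Real.log (N n) + y - Real.log ρ) else 0) =
      (1 / (2 * Real.pi) : ℂ) * ∫ τ, F n τ := by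
    intro n
    simp only [F]
    split_ifs
    swap
    · simp
    · rw [← h3, Kn.kern_eq, integral_const_mul]
      ring
  simp only [hterm]
  refine ⟨Summable.of_nonneg_of_le (fun n => norm_nonneg _) (fun n => ?_)
    (hFs.mul_left ‖(1 / (2 * Real.pi) : ℂ)‖), ?_⟩
  · rw [norm_mul]
    exact mul_le_mul_of_nonneg_left (norm_integral_le_integral_norm _) (norm_nonneg _)
  · rw [h1, ← h2, tsum_mul_left, hsum.tsum_eq, Kn.kern_eq, mul_left_comm,
      ← integral_const_mul ((ρ : ℂ) ^ (-(t * I)))]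
    congr 1
    refine integral_congr_ae (Filter.Eventually.of_forall fun τ => ?_)
    simp only
    rw [Kn.ki, hσb _ (by simp; linarith), dser, ← tsum_mul_left, ← tsum_mul_left, ← tsum_mul_right]
    refine tsum_congr fun n => ?_
    simp only [F]
    split_ifs with hn
    swap
    · simp
    · have hN := N_pos hn.ne_zero
      rw [Kn.ki, Kn.cpow_eq hρ, Kn.cpow_eq hρ, Kn.cpow_eq hN, Kn.cpow_eq hN]
      set w : ℂ := (-j : ℝ) + τ * I
      have e : cexp ((1 / 2 - (1 / 2 + t * I + w)) * Real.log ρ) *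
          cexp (-(1 - (1 / 2 + t * I + w)) * Real.log (N n)) * cexp (w ^ 2 / 4 + w * y) =
          cexp (-(t * I) * Real.log ρ) * cexp ((-(1 / 2 : ℂ) + t * I) * Real.log (N n)) *
            cexp (w ^ 2 / 4 + w * ((Real.log (N n) + y - Real.log ρ : ℝ) : ℂ)) := by
        simp only [← Complex.exp_add]
        congr 1
        push_cast
        ring
      linear_combination (γ (1 / 2 + t * I + w) * b n * (Real.sqrt Real.pi : ℂ)) * e

end Crest.Agent.R312
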