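import Crest.Agent.R312.B0Basic3

/-!
# R312 / B0Key : `tau`, `tt`, the key identity (port of R17/RecKey)
-/

set_option autoImplicit false
set_option linter.unusedSectionVars false
set_option linter.unusedVariables false

noncomputable section

open scoped Classical ComplexConjugate NumberField
open Crest.Agent.R17 (omC)

namespace Crest.Agent.R312

variable {K : Type} [Field K] [NumberField K] [Fld K] [Loc K] [Setup K]

theorem rkey_cube {m m0 c d : R K} (hc : Prim c) (hd : Prim d) (hs : Squarefree m0)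
    (h : m * c ^ 3 = m0 * d ^ 3) : ∃ a, Prim a ∧ d = c * a ∧ m = m0 * a ^ 3 := by
  obtain ⟨g, a, b, hg, ha, hb, rfl, rfl, hab⟩ := exists_prim_gcd hc hd
  have h1 : m * a ^ 3 = m0 * b ^ 3 :=
    mul_left_cancel₀ (pow_ne_zero 3 hg.ne_zero) (by linear_combination h)
  have h2 : a ^ 3 ∣ m0 :=
    (hab.pow (m := 3) (n := 3)).dvd_of_dvd_mul_right ⟨m, by rw [← h1, mul_comm]⟩
  have h3 : a = 1 := ha.eq_one_of_isUnit (hs a (Dvd.dvd.trans ⟨a, by ring⟩ h2))
  subst h3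
  exact ⟨b, hb, by ring, by simpa using h1⟩

theorem tau_eq {m0 c : R K} (hm : Prim m0) (hs : Squarefree m0) (hc : Prim c) :
    tau (m0 * c ^ 3) = conj (g3 m0) * (Real.sqrt (N c) : ℂ) := by
  have h0 : m0 * c ^ 3 ≠ 0 := (hm.mul (hc.pow 3)).ne_zero
  have h1 : dv (m0 * c ^ 3) (c ^ 3) = m0 := dv_mul_right (hc.pow 3).ne_zero _
  rw [tau, Finset.sum_eq_single_of_mem c
    ((mem_pdiv h0).2 ⟨hc, Dvd.dvd.mul_left (dvd_pow_self c (by norm_num)) _⟩), h1,
    if_pos ⟨dvd_mul_left _ _, hs⟩]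
  intro d hd hne
  refine if_neg fun h => hne ?_
  have hd' := ((mem_pdiv h0).1 hd).1
  obtain ⟨a, ha, e1, e2⟩ := rkey_cube hc hd' h.2 (m := m0)
    (dv_mul h.1).symm
  have h3 : a = 1 := ha.eq_one_of_isUnit (hs a (e2 ▸ Dvd.dvd.mul_left ⟨a, by ring⟩ _))
  rw [e1, h3, mul_one]

theorem tau_ne_zero {m : R K} (hm : Prim m) (h : tau m ≠ 0) :
    ∃ m0 c, Prim m0 ∧ Squarefree m0 ∧ Prim c ∧ m = m0 * c ^ 3 := by
  obtain ⟨c, hc, h1⟩ := Finset.exists_ne_zero_of_sum_ne_zero h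
  have hc' := ((mem_pdiv hm.ne_zero).1 hc).1
  have h2 : c ^ 3 ∣ m ∧ Squarefree (dv m (c ^ 3)) := by
    by_contra h2
    exact h1 (if_neg h2)
  exact ⟨dv m (c ^ 3), c, hm.dv (hc'.pow 3) h2.1, h2.2, hc', (dv_mul h2.1).symm⟩

theorem rkey_norm_tau {m0 c : R K} (hm : Prim m0) (hs : Squarefree m0) (hc : Prim c) :
    ‖tau (m0 * c ^ 3)‖ = Real.sqrt (N c) := by
  rw [tau_eq hm hs hc, norm_mul, Complex.norm_conj, norm_g3 hm.ne_zero hs, one_mul,
    Complex.norm_real, Real.norm_of_nonneg (Real.sqrt_nonneg _)]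

theorem rkey_tau_ne {m0 c : R K} (hm : Prim m0) (hs : Squarefree m0) (hc : Prim c) :
    tau (m0 * c ^ 3) ≠ 0 := by
  rw [← norm_ne_zero_iff, rkey_norm_tau hm hs hc]
  exact (Real.sqrt_pos.2 (N_pos hc.ne_zero)).ne'

theorem tau_mul_cube {m c : R K} (hm : Prim m) (hc : Prim c) :
    tau (m * c ^ 3) = tau m * (Real.sqrt (N c) : ℂ) := by
  by_cases h : tau m = 0
  · rw [h, zero_mul]
    by_contra h1
    obtain ⟨m0, d, hm0, hs, hd, e⟩ := tau_ne_zero (hm.mul (hc.pow 3)) h1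
    obtain ⟨a, ha, -, rfl⟩ := rkey_cube hc hd hs e
    exact rkey_tau_ne hm0 hs ha h
  · obtain ⟨m0, d, hm0, hs, hd, rfl⟩ := tau_ne_zero hm h
    rw [mul_assoc, ← mul_pow, tau_eq hm0 hs (hd.mul hc), tau_eq hm0 hs hd, N_mul,
      Real.sqrt_mul (N_nonneg _), Complex.ofReal_mul, mul_assoc]

theorem norm_tau_le {m : R K} (hm : Prim m) : ‖tau m‖ ≤ N m ^ (1 / 6 : ℝ) := by
  by_cases h : tau m = 0
  · rw [h, norm_zero]
    exact Real.rpow_nonneg (N_nonneg _) _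
  · obtain ⟨m0, d, hm0, hs, hd, rfl⟩ := tau_ne_zero hm h
    have h1 : Real.sqrt (N d) = (N d ^ 3) ^ (1 / 6 : ℝ) := by
      rw [Real.sqrt_eq_rpow, ← Real.rpow_natCast, ← Real.rpow_mul (N_nonneg _)]
      norm_num
    rw [rkey_norm_tau hm0 hs hd, h1, N_mul, N_pow]
    refine Real.rpow_le_rpow (pow_nonneg (N_nonneg _) _) ?_ (by norm_num)
    exact le_mul_of_one_le_left (pow_nonneg (N_nonneg _) _) (one_le_N hm0.ne_zero)

theorem tau_one : tau (1 : R K) = 1 := by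
  have := tau_eq (m0 := (1 : R K)) (c := 1) Prim.one squarefree_one Prim.one
  simpa [g3_one] using this

theorem tau_sqfree {m : R K} (hm : Prim m) (hs : Squarefree m) : tau m = conj (g3 m) := by
  have := tau_eq hm hs Prim.one
  simpa using this

theorem key_cube {n d : R K} (hn : n ≠ 0) (h : IsCoprime d n) : cub n d ^ 3 = 1 := by
  rw [cub, sym_pow_eq (k := 3) (by simp) hn, if_pos h]

theorem key_cub_cubes {a0 b0 c d : R K} (ha0 : a0 ≠ 0) (hc : c ≠ 0)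
    (hab : IsCoprime (a0 * c ^ 3) (b0 * d ^ 3)) : cub (a0 * c ^ 3) (b0 * d ^ 3) = cub a0 b0 := by
  have h1 : IsCoprime d a0 :=
    (IsCoprime.pow_right_iff (by norm_num)).1 hab.of_mul_left_left.of_mul_right_right |>.symm
  have h2 : IsCoprime (b0 * d ^ 3) c :=
    (IsCoprime.pow_left_iff (by norm_num)).1 hab.of_mul_left_right |>.symm
  have e1 : cub (a0 * c ^ 3) (b0 * d ^ 3) = cub a0 (b0 * d ^ 3) * cub c (b0 * d ^ 3) ^ 3 := by
    unfold cub
    rw [sym_mul_left 3 ha0 (pow_ne_zero 3 hc), sym_pow_left 3 hc]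
  have hχ := cub_isChar ha0
  rw [e1, key_cube hc h2, mul_one, hχ.mul, IsChar_pow hχ, key_cube ha0 h1, mul_one]

theorem tau_mul {a b : R K} (ha : Prim a) (hb : Prim b) (hab : IsCoprime a b) :
    tau (a * b) = tau a * tau b * conj (cub a b * cub b a) := by
  by_cases h : tau a ≠ 0 ∧ tau b ≠ 0
  · obtain ⟨a0, c, ha0, hs, hc, rfl⟩ := tau_ne_zero ha h.1
    obtain ⟨b0, d, hb0, hs', hd, rfl⟩ := tau_ne_zero hb h.2
    have h0 : IsCoprime a0 b0 := hab.of_mul_left_left.of_mul_right_left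
    rw [key_cub_cubes ha0.ne_zero hc.ne_zero hab, key_cub_cubes hb0.ne_zero hd.ne_zero hab.symm,
      show a0 * c ^ 3 * (b0 * d ^ 3) = a0 * b0 * (c * d) ^ 3 by ring,
      tau_eq (ha0.mul hb0) (squarefree_mul_iff.2 ⟨h0.isRelPrime, hs, hs'⟩) (hc.mul hd),
      tau_eq ha0 hs hc, tau_eq hb0 hs' hd, g3_mul ha0.ne_zero hb0.ne_zero h0, N_mul,
      Real.sqrt_mul (N_nonneg _), map_mul, map_mul, Complex.ofReal_mul]
    ring
  · have h1 : tau a * tau b = 0 := by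
      rw [mul_eq_zero]
      tauto
    rw [h1, zero_mul]
    by_contra h2
    obtain ⟨m0, e, hm0, hs, he, h3⟩ := tau_ne_zero (ha.mul hb) h2
    obtain ⟨e1, e2, he1, he2, d1, d2, rfl⟩ := he.mul_of_dvd (a := a) (b := b)
      (h3 ▸ Dvd.dvd.mul_left (dvd_pow_self e (by norm_num)) _)
    obtain ⟨a0, rfl⟩ : e1 ^ 3 ∣ a :=
      ((hab.of_isCoprime_of_dvd_left d1).pow_left (m := 3)).dvd_of_dvd_mul_right
        ⟨m0 * e2 ^ 3, by rw [h3]; ring⟩
    obtain ⟨b0, rfl⟩ : e2 ^ 3 ∣ b :=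
      ((hab.symm.of_isCoprime_of_dvd_left d2).pow_left (m := 3)).dvd_of_dvd_mul_left
        ⟨m0 * e1 ^ 3, by rw [h3]; ring⟩
    have h4 : a0 * b0 = m0 :=
      mul_left_cancel₀ (pow_ne_zero 3 he.ne_zero) (by linear_combination h3)
    subst h4
    refine h ⟨?_, ?_⟩
    · rw [mul_comm]
      exact rkey_tau_ne (ha.of_mul_left (he1.pow 3)) hs.of_mul_left he1
    · rw [mul_comm]
      exact rkey_tau_ne (hb.of_mul_left (he2.pow 3)) hs.of_mul_right he2

theorem norm_tt (m : R K) : ‖tt m‖ = ‖tau m‖ := by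
  rw [tt, norm_mul, norm_angN, mul_one]

theorem norm_tt_le {m : R K} (hm : Prim m) : ‖tt m‖ ≤ N m ^ (1 / 6 : ℝ) := by
  rw [norm_tt]; exact norm_tau_le hm

theorem tt_mul {a b : R K} (ha : Prim a) (hb : Prim b) (hab : IsCoprime a b) :
    tt (a * b) = tt a * tt b * conj (cub a b * cub b a) := by
  rw [tt, tt, tt, tau_mul ha hb hab, angN_mul ha.ne_zero hb.ne_zero]
  ring

theorem tt_mul_cube {m c : R K} (hm : Prim m) (hc : Prim c) :
    tt (m * c ^ 3) = tt m * angN c ^ 3 * (Real.sqrt (N c) : ℂ) := by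
  rw [tt, tt, tau_mul_cube hm hc, angN_mul hm.ne_zero (hc.pow 3).ne_zero, angN_pow hc.ne_zero]
  ring

theorem tt_prime {p : R K} (hp : Prime p) (hp' : Prim p) : tt p = -(g3 p) ^ 2 := by
  have h1 : g3 p * conj (g3 p) = 1 := by
    rw [Complex.mul_conj', norm_g3 hp.ne_zero hp.squarefree]; simp
  rw [tt, tau_sqfree hp' hp.squarefree, angN_prime hp]
  linear_combination (-(g3 p) ^ 2) * h1

theorem polyBd_tau : PolyBd (tau (K := K)) := by
  refine ⟨1, 1, fun n hn => (norm_tau_le hn).trans ?_⟩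
  rw [one_mul, pow_one]
  exact (Real.rpow_le_rpow_of_exponent_le (one_le_N hn.ne_zero) (by norm_num)).trans
    (Real.rpow_one _).le

/-- **Key identity** -/
theorem key_identity {m : R K} (hm : Prim m) (hs : Squarefree m) : mu m * gt m = f1 m * tt m := by
  rw [key_sqfree hs, tt, tau_sqfree hm hs]

end Crest.Agent.R312
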