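import Crest.Agent.R312.B0Ring
import Crest.Agent.R312.B0Basic3
import Crest.Agent.R312.B0LocalSup
import Crest.Agent.R312.B0Kernel
import Crest.Agent.R312.B0Key
import Crest.Agent.R312.B0Chars
import Crest.Agent.R312.B0Hecke
import Crest.Agent.R312.B0Dser

/-! # R312 / B0Api : umbrella for the whole B0 API -/
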