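import Crest.Agent.R312.B0Loc

/-!
# R312 / B0Arch : archimedean places, `eT`, `ch`, `ang`
-/

set_option autoImplicit false
set_option linter.unusedSectionVars false
set_option linter.unusedVariables false

noncomputable section

open scoped Classical ComplexConjugate NumberField
open Crest.Agent.R17 (omC)

namespace Crest.Agent.R312

variable {K : Type} [Field K] [NumberField K] [Fld K]

theorem omC_ne_conj : omC ≠ conj omC := by
  intro h
  have h1 := congrArg Complex.im h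
  have h2 : 0 < Real.sqrt 3 := Real.sqrt_pos.2 (by norm_num)
  simp [omC] at h1
  linarith

/-- every embedding sends `ω` to `omC` or `conj omC` -/
theorem emb_om_cases (φ : K →+* ℂ) :
    φ ((Fld.om : 𝓞 K) : K) = omC ∨ φ ((Fld.om : 𝓞 K) : K) = conj omC := by
  have h1 : φ ((Fld.om : 𝓞 K) : K) ^ 2 + φ ((Fld.om : 𝓞 K) : K) + 1 = 0 := by
    have := congrArg (fun z : 𝓞 K => φ (z : K)) (Fld.om_eq (K := K))
    simpa using this
  have h2 : conj omC = -1 - omC := by
    apply Complex.ext <;> simp [omC]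
    norm_num
  rw [h2, ← sub_eq_zero, ← sub_eq_zero (b := -1 - omC), ← mul_eq_zero]
  linear_combination h1 - R17.omC_sq

/-- the embeddings, indexed by two copies of the places -/
def arch_e : Pl K ⊕ Pl K → (K →+* ℂ) :=
  Sum.elim (fun v => v.1) fun v => NumberField.ComplexEmbedding.conjugate v.1

theorem arch_conj_conj (φ : K →+* ℂ) :
    NumberField.ComplexEmbedding.conjugate (NumberField.ComplexEmbedding.conjugate φ) = φ := by
  ext x
  simp

theorem arch_e_bij : Function.Bijective (arch_e (K := K)) := by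
  have key : ∀ v w : Pl K, v.1 ≠ NumberField.ComplexEmbedding.conjugate w.1 := by
    intro v w h
    apply omC_ne_conj
    have h1 := congrArg (fun φ : K →+* ℂ => φ ((Fld.om : 𝓞 K) : K)) h
    simp only [NumberField.ComplexEmbedding.conjugate_coe_eq] at h1
    rwa [v.2, w.2] at h1
  constructor
  · rintro (v | v) (w | w) h
    · exact congrArg _ (Subtype.ext h)
    · exact absurd h (key v w)
    · exact absurd h.symm (key w v)
    · refine congrArg _ (Subtype.ext ?_)
      have h1 := congrArg NumberField.ComplexEmbedding.conjugate h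
      simpa only [arch_e, Sum.elim_inr, arch_conj_conj] using h1
  · intro φ
    rcases emb_om_cases φ with h | h
    · exact ⟨Sum.inl ⟨φ, h⟩, rfl⟩
    · refine ⟨Sum.inr ⟨NumberField.ComplexEmbedding.conjugate φ, ?_⟩, arch_conj_conj φ⟩
      rw [NumberField.ComplexEmbedding.conjugate_coe_eq, h, Complex.conj_conj]

/-- the embeddings are the `v` and their conjugates -/
theorem sum_embeddings {M : Type} [AddCommMonoid M] (F : (K →+* ℂ) → M) :
    ∑ φ : K →+* ℂ, F φ = ∑ v : Pl K, (F v.1 + F (NumberField.ComplexEmbedding.conjugate v.1)) := by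
  rw [← arch_e_bij.sum_comp F, Fintype.sum_sum_type, Finset.sum_add_distrib]
  rfl

theorem prod_embeddings {M : Type} [CommMonoid M] (F : (K →+* ℂ) → M) :
    ∏ φ : K →+* ℂ, F φ = ∏ v : Pl K, (F v.1 * F (NumberField.ComplexEmbedding.conjugate v.1)) := by
  rw [← arch_e_bij.prod_comp F, Fintype.prod_sum_type, Finset.prod_mul_distrib]
  rfl

theorem arch_two_dd : 2 * dd K = Module.finrank ℚ K := by
  rw [← NumberField.Embeddings.card K ℂ, ← Fintype.card_of_bijective arch_e_bij, Fintype.card_sum,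
    two_mul, dd]

theorem arch_dd_pos : 0 < dd K := by
  have h1 := arch_two_dd (K := K)
  have h2 : 0 < Module.finrank ℚ K := Module.finrank_pos
  omega

instance : Nonempty (Pl K) := by
  exact Fintype.card_pos_iff.1 arch_dd_pos

theorem dd_pos : 0 < dd K := by
  exact arch_dd_pos

theorem two_mul_dd' : 2 * dd K = Module.finrank ℚ K := by
  exact arch_two_dd

@[simp] theorem emb_zero (v : Pl K) : emb v (0 : K) = 0 := map_zero v.1

@[simp] theorem emb_one (v : Pl K) : emb v (1 : K) = 1 := map_one v.1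

theorem emb_add (v : Pl K) (x y : K) : emb v (x + y) = emb v x + emb v y := map_add v.1 x y

theorem emb_mul (v : Pl K) (x y : K) : emb v (x * y) = emb v x * emb v y := map_mul v.1 x y

theorem emb_inv (v : Pl K) (x : K) : emb v x⁻¹ = (emb v x)⁻¹ := map_inv₀ v.1 x

theorem emb_div (v : Pl K) (x y : K) : emb v (x / y) = emb v x / emb v y := map_div₀ v.1 x y

theorem emb_pow (v : Pl K) (x : K) (j : ℕ) : emb v (x ^ j) = emb v x ^ j := map_pow v.1 x j

theorem emb_ne_zero (v : Pl K) {x : K} (hx : x ≠ 0) : emb v x ≠ 0 := (map_ne_zero v.1).2 hx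

theorem emb_om (v : Pl K) : emb v ((Fld.om : 𝓞 K) : K) = omC := v.2

theorem dl_pos (v : Pl K) : 0 < dl v := by
  exact norm_pos_iff.2 (emb_ne_zero v (by exact_mod_cast Fld.δ_ne (K := K)))

theorem trace_eq (x : K) : ((Algebra.trace ℚ K x : ℚ) : ℝ) = ∑ v : Pl K, 2 * (emb v x).re := by
  apply Complex.ofReal_injective
  have h1 := trace_eq_sum_embeddings ℂ (K := ℚ) (L := K) (x := x)
  rw [← Equiv.sum_comp (RingHom.equivRatAlgHom K ℂ)] at h1
  have h2 := sum_embeddings (K := K) fun φ => φ x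
  push_cast
  refine (h1.trans h2).trans (Finset.sum_congr rfl fun v _ => ?_)
  rw [NumberField.ComplexEmbedding.conjugate_coe_eq, Complex.add_conj]
  simp [emb]

theorem norm_eq (x : K) : ((Algebra.norm ℚ x : ℚ) : ℝ) = ∏ v : Pl K, ‖emb v x‖ ^ 2 := by
  apply Complex.ofReal_injective
  have h1 := Algebra.norm_eq_prod_embeddings ℚ ℂ x
  rw [← Equiv.prod_comp (RingHom.equivRatAlgHom K ℂ)] at h1
  have h2 := prod_embeddings (K := K) fun φ => φ x
  push_cast
  refine (h1.trans h2).trans (Finset.prod_congr rfl fun v _ => ?_)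
  rw [NumberField.ComplexEmbedding.conjugate_coe_eq, Complex.mul_conj']
  rfl

theorem absNorm_span_eq (x : 𝓞 K) :
    (Ideal.absNorm (Ideal.span {x}) : ℝ) = ∏ v : Pl K, ‖emb v (x : K)‖ ^ 2 := by
  have h1 := norm_eq (x : K)
  have h0 : 0 ≤ ∏ v : Pl K, ‖emb v (x : K)‖ ^ 2 := Finset.prod_nonneg fun v _ => sq_nonneg _
  rw [← Algebra.coe_norm_int] at h1
  rw [Ideal.absNorm_span_singleton, Nat.cast_natAbs, Int.cast_abs, ← abs_of_nonneg h0, ← h1]
  simp

theorem one_le_prod_dl' : 1 ≤ ∏ v : Pl K, dl v := by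
  have h1 := absNorm_span_eq (Fld.δ : 𝓞 K)
  have h2 : Ideal.absNorm (Ideal.span {(Fld.δ : 𝓞 K)}) ≠ 0 := by
    rw [Ne, Ideal.absNorm_eq_zero_iff, Ideal.span_singleton_eq_bot]
    exact Fld.δ_ne
  have h3 : (1 : ℝ) ≤ Ideal.absNorm (Ideal.span {(Fld.δ : 𝓞 K)}) := by
    exact_mod_cast Nat.one_le_iff_ne_zero.2 h2
  rw [h1, Finset.prod_pow] at h3
  exact (one_le_sq_iff₀ (Finset.prod_nonneg fun v _ => (dl_pos v).le)).1 h3

theorem lg_mul {x y : K} (hx : x ≠ 0) (hy : y ≠ 0) (v : Pl K) : lg (x * y) v = lg x v + lg y v := by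
  unfold lg
  rw [emb_mul, norm_mul, mul_pow, Real.log_mul (pow_ne_zero _ (norm_ne_zero_iff.2 (emb_ne_zero v hx)))
    (pow_ne_zero _ (norm_ne_zero_iff.2 (emb_ne_zero v hy)))]

theorem lg_one (v : Pl K) : lg (1 : K) v = 0 := by
  simp [lg]

theorem lg_inv (x : K) (v : Pl K) : lg x⁻¹ v = -lg x v := by
  unfold lg
  rw [emb_inv, norm_inv, inv_pow, Real.log_inv]

theorem ch_mul (ξ : Pl K → ℝ) {x y : K} (hx : x ≠ 0) (hy : y ≠ 0) : ch ξ (x * y) = ch ξ x * ch ξ y := by
  unfold ch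
  rw [← Complex.exp_add]
  congr 1
  simp only [lg_mul hx hy, mul_add, Finset.sum_add_distrib]
  push_cast
  ring

theorem ch_one (ξ : Pl K → ℝ) : ch ξ (1 : K) = 1 := by
  simp [ch, lg_one]

theorem ch_zero (x : K) : ch (0 : Pl K → ℝ) x = 1 := by
  simp [ch]

theorem ch_inv (ξ : Pl K → ℝ) (x : K) : ch ξ x⁻¹ = conj (ch ξ x) := by
  rw [← ch_neg]
  simp [ch, lg_inv]

theorem norm_ch (ξ : Pl K → ℝ) (x : K) : ‖ch ξ x‖ = 1 := by
  exact Complex.norm_exp_ofReal_mul_I _

/-- `ch ξ` is trivial on `ℚ^*` when `∑ ξ = 0` -/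
theorem ch_ratCast {ξ : Pl K → ℝ} (h : ∑ v, ξ v = 0) (a : ℚ) : ch ξ (a : K) = 1 := by
  have h1 : ∀ v : Pl K, lg (a : K) v = Real.log (‖(a : ℂ)‖ ^ 2) := fun v => by
    unfold lg emb
    rw [map_ratCast]
  unfold ch
  simp only [h1]
  rw [← Finset.sum_mul, h]
  simp

theorem arch_deriv (z : ℂ) :
    HasDerivAt (fun t : ℝ => Real.log (‖1 + (t : ℂ) * z‖ ^ 2)) (2 * z.re) 0 := by
  have e : (fun t : ℝ => Real.log (‖1 + (t : ℂ) * z‖ ^ 2)) =
      fun t : ℝ => Real.log (1 + 2 * z.re * t + ‖z‖ ^ 2 * (t * t)) := by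
    funext t
    congr 1
    simp only [Complex.sq_norm, Complex.normSq_apply]
    simp
    ring
  rw [e]
  have h1 : HasDerivAt (fun t : ℝ => 1 + 2 * z.re * t + ‖z‖ ^ 2 * (t * t))
      (2 * z.re * 1 + ‖z‖ ^ 2 * (1 * 0 + 0 * 1)) 0 :=
    (((hasDerivAt_id' (0 : ℝ)).const_mul _).const_add 1).add
      (((hasDerivAt_id' (0 : ℝ)).mul (hasDerivAt_id' 0)).const_mul _)
  have h2 := h1.log (by simp)
  simpa using h2

theorem arch_lin {ξ : Pl K → ℝ} {c : ℕ} (hc : c ≠ 0)
    (h : ∀ (y : 𝓞 K) (j : ℕ), ch ξ (1 + (c : K) * y / ((1 + c * j : ℕ) : K)) = 1) (y : 𝓞 K) :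
    ∑ v, ξ v * (2 * (emb v (y : K)).re) = 0 := by
  have h1 : HasDerivAt (fun t : ℝ => ∑ v, ξ v * Real.log (‖1 + (t : ℂ) * emb v (y : K)‖ ^ 2))
      (∑ v, ξ v * (2 * (emb v (y : K)).re)) 0 :=
    HasDerivAt.fun_sum fun v _ => (arch_deriv _).const_mul _
  have h2 := (h1.ofReal_comp.mul_const Complex.I).cexp
  rw [hasDerivAt_iff_tendsto_slope_zero] at h2
  let t : ℕ → ℝ := fun j => (c : ℝ) / ((1 + c * j : ℕ) : ℝ)
  have c0 : (0 : ℝ) < c := by exact_mod_cast Nat.pos_of_ne_zero hc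
  have ht : Filter.Tendsto t Filter.atTop (nhdsWithin 0 {0}ᶜ) := by
    refine tendsto_nhdsWithin_iff.2 ⟨?_, Filter.Eventually.of_forall fun j => ?_⟩
    · refine Filter.Tendsto.const_div_atTop (tendsto_natCast_atTop_atTop.comp ?_) _
      refine Filter.tendsto_atTop_mono (fun j => ?_) Filter.tendsto_id
      have := Nat.mul_le_mul_right j (Nat.one_le_iff_ne_zero.2 hc)
      simp only [id]
      omega
    · exact (div_pos c0 (by positivity)).ne'
  have h3 := h2.comp ht
  have h4 : ∀ j, Complex.exp (((∑ v, ξ v * Real.log (‖1 + ((t j : ℝ) : ℂ) * emb v (y : K)‖ ^ 2) : ℝ) : ℂ) *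
      Complex.I) = 1 := by
    intro j
    refine Eq.trans ?_ (h y j)
    unfold ch lg
    congr 3
    refine Finset.sum_congr rfl fun v _ => ?_
    congr 4
    simp only [t, emb, map_add, map_one, map_div₀, map_mul, map_natCast]
    push_cast
    ring
  have h5 : ((fun s : ℝ => s⁻¹ • (Complex.exp (((∑ v, ξ v *
      Real.log (‖1 + ((0 + s : ℝ) : ℂ) * emb v (y : K)‖ ^ 2) : ℝ) : ℂ) * Complex.I) -
      Complex.exp (((∑ v, ξ v * Real.log (‖1 + ((0 : ℝ) : ℂ) * emb v (y : K)‖ ^ 2) : ℝ) : ℂ) *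
        Complex.I))) ∘ t) = fun _ => 0 := by
    funext j
    simp only [Function.comp, zero_add, h4]
    simp
  rw [h5] at h3
  have h6 := tendsto_nhds_unique h3 tendsto_const_nhds
  rw [mul_eq_zero, mul_eq_zero] at h6
  rcases h6 with h6 | h6 | h6
  · exact absurd h6 (Complex.exp_ne_zero _)
  · exact_mod_cast h6
  · exact absurd h6 Complex.I_ne_zero

/-- Take `x = 1 + c y / b` with `b → ∞`, `b ≡ 1 mod c`: `∑ ξ_v log|x_v|² ∈ 2πℤ` tends to `0`, so vanishes;
multiply by `b` and let `b → ∞`: `∑ ξ_v (v + conj v)(y) = 0` for all `y ∈ 𝓞`; Dedekind independence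
(`linearIndependent_monoidHom`). -/
theorem xi_eq_zero {ξ : Pl K → ℝ} {c : ℕ} (hc : c ≠ 0)
    (h : ∀ (y : 𝓞 K) (j : ℕ), ch ξ (1 + (c : K) * y / ((1 + c * j : ℕ) : K)) = 1) : ξ = 0 := by
  let ι : Pl K ⊕ Pl K → (𝓞 K →* ℂ) := fun i => ((arch_e i).comp (algebraMap (𝓞 K) K)).toMonoidHom
  have hι : Function.Injective ι := fun i j hij => arch_e_bij.1
    (IsFractionRing.ringHom_ext (A := 𝓞 K) fun x => DFunLike.congr_fun hij x)
  have h1 := (linearIndependent_monoidHom (𝓞 K) ℂ).comp ι hι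
  rw [Fintype.linearIndependent_iff] at h1
  have h2 := h1 (Sum.elim (fun v => (ξ v : ℂ)) fun v => (ξ v : ℂ)) (by
    funext y
    have h3 := congrArg (fun r : ℝ => (r : ℂ)) (arch_lin hc h y)
    simp only [Complex.ofReal_sum, Complex.ofReal_zero] at h3
    rw [Finset.sum_apply, Fintype.sum_sum_type, ← Finset.sum_add_distrib, Pi.zero_apply, ← h3]
    refine Finset.sum_congr rfl fun v _ => ?_
    change (ξ v : ℂ) * emb v (y : K) + (ξ v : ℂ) * conj (emb v (y : K)) = _
    rw [← mul_add, Complex.add_conj]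
    push_cast
    ring)
  funext v
  simpa using h2 (Sum.inl v)

theorem ang_mul (x y : K) : ang (x * y) = ang x * ang y := by
  unfold ang
  rw [← Finset.prod_mul_distrib]
  refine Finset.prod_congr rfl fun v _ => ?_
  rw [emb_mul, norm_mul, Complex.ofReal_mul, mul_div_mul_comm]

theorem ang_one : ang (1 : K) = 1 := by
  simp [ang]

theorem norm_ang {x : K} (hx : x ≠ 0) : ‖ang x‖ = 1 := by
  unfold ang
  rw [norm_prod]
  refine Finset.prod_eq_one fun v _ => ?_
  rw [norm_div, Complex.norm_real, norm_norm, div_self (norm_ne_zero_iff.2 (emb_ne_zero v hx))]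

theorem eT_add (x y : K) : eT (x + y) = eT x * eT y := by
  unfold eT
  rw [← Complex.exp_add, add_div, map_add]
  push_cast
  rw [mul_add]

theorem eT_zero : eT (0 : K) = 1 := by
  simp [eT]

theorem norm_eT (x : K) : ‖eT x‖ = 1 := by
  unfold eT
  rw [← Complex.norm_exp_ofReal_mul_I
    (2 * Real.pi * ((Algebra.trace ℚ K (x / ((Fld.δ : 𝓞 K) : K)) : ℚ) : ℝ))]
  congr 2
  push_cast
  ring

theorem eT_neg (x : K) : eT (-x) = conj (eT x) := by
  unfold eT
  rw [← Complex.exp_conj, neg_div, map_neg]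
  congr 1
  simp [Complex.conj_ofNat]

theorem eT_of_isIntegral {x : K} (hx : IsIntegral ℤ x) : eT x = 1 := by
  obtain ⟨n, hn⟩ := (Fld.dual x).2 hx 1
  unfold eT
  rw [show ((1 : 𝓞 K) : K) = 1 from rfl, mul_one] at hn
  rw [hn, mul_comm]
  exact_mod_cast Complex.exp_int_mul_two_pi_mul_I n

/-- self-duality of `𝓞` -/
theorem isIntegral_of_eT {x : K} (h : ∀ y : 𝓞 K, eT (x * y) = 1) : IsIntegral ℤ x := by
  refine (Fld.dual x).1 fun y => ?_
  obtain ⟨n, hn⟩ := Complex.exp_eq_one_iff.1 (h y)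
  refine ⟨n, ?_⟩
  rw [mul_comm (n : ℂ)] at hn
  have h1 := mul_left_cancel₀ Complex.two_pi_I_ne_zero hn
  exact_mod_cast h1

theorem gau_pos (x : K) (T : ℝ) : 0 < gau x T := by
  exact Real.exp_pos _

theorem gau_zero (T : ℝ) : gau (0 : K) T = 1 := by
  simp [gau]

end Crest.Agent.R312
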