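import Crest.Agent.R312.B0Arch

/-!
# R312 / B0Basic1 : norms, ideals of `R` versus ideals of `𝓞`, `dv`, `units6`, `toC`, `mu`
-/

set_option autoImplicit false
set_option linter.unusedSectionVars false
set_option linter.unusedVariables false

noncomputable section

open scoped Classical ComplexConjugate NumberField
open Crest.Agent.R17 (omC)

namespace Crest.Agent.R312

variable {K : Type} [Field K] [NumberField K] [Fld K] [Loc K]

/-- the ideal of `𝓞` below `x R` -/
def idl (x : R K) : Ideal (𝓞 K) := (Ideal.span {x}).comap toR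

theorem mem_idl {x : R K} {y : 𝓞 K} : y ∈ idl x ↔ x ∣ toR y := by
  rw [idl, Ideal.mem_comap, Ideal.mem_span_singleton]

theorem map_idl (x : R K) : (idl x).map toR = Ideal.span {x} := by
  refine le_antisymm Ideal.map_comap_le ((Ideal.span_singleton_le_iff_mem _).2 ?_)
  obtain ⟨n, y, hy⟩ := exists_toR x
  rw [← Ideal.unit_mul_mem_iff_mem _ (isUnit_Q.pow n), ← hy]
  exact Ideal.mem_map_of_mem _ (mem_idl.2 (hy ▸ dvd_mul_left _ _))

theorem idl_ne_bot {x : R K} (hx : x ≠ 0) : idl x ≠ ⊥ := by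
  intro h
  have := map_idl x
  rw [h, Ideal.map_bot] at this
  exact hx (Ideal.span_singleton_eq_bot.1 this.symm)

theorem b1a_nat {x : R K} (hx : x ≠ 0) : ∃ b : ℕ, b.Coprime (Loc.Q K) ∧ x ∣ (b : R K) := by
  obtain ⟨c, hc, hi⟩ := loc_den ((x : K)⁻¹)
  obtain ⟨c1, c2, m, rfl, h1, h2⟩ := loc_split (Loc.Q K) c hc
  refine ⟨c2, h2, (isUnit_natCast_of_dvd h1).dvd_mul_left.1 ((coe_dvd_iff hx).2 ⟨⟨_, 0, by simpa using hi⟩, ?_⟩)⟩
  push_cast
  rw [div_eq_mul_inv]

theorem b1a_zero : idl (0 : R K) = ⊥ := by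
  rw [idl, Ideal.span_singleton_eq_bot.2 rfl]
  exact Ideal.comap_bot_of_injective _ toR_injective

theorem idl_isCoprime {x : R K} (hx : x ≠ 0) :
    IsCoprime (idl x) (Ideal.span {((Loc.Q K : ℕ) : 𝓞 K)}) := by
  obtain ⟨b, hb, h⟩ := b1a_nat hx
  refine IsCoprime.of_isCoprime_of_dvd_left ((Ideal.isCoprime_span_singleton_iff _ _).2 hb.cast) ?_
  rw [Ideal.dvd_iff_le, Ideal.span_singleton_le_iff_mem, mem_idl, map_natCast]
  exact h

/-- extension and contraction are inverse on ideals coprime to `Q` -/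
theorem comap_map_toR {I : Ideal (𝓞 K)} (hI : IsCoprime I (Ideal.span {((Loc.Q K : ℕ) : 𝓞 K)})) :
    (I.map (toR (K := K))).comap toR = I := by
  refine le_antisymm (fun y hy => ?_) Ideal.le_comap_map
  have key : ∀ z ∈ I.map (toR (K := K)), ∃ (n : ℕ) (w : 𝓞 K), w ∈ I ∧ toR w = (Loc.Q K : R K) ^ n * z := by
    intro z hz
    induction hz using Submodule.span_induction with
    | mem z hz =>
      obtain ⟨w, hw, rfl⟩ := hz
      exact ⟨0, w, hw, by simp⟩
    | zero => exact ⟨0, 0, I.zero_mem, by simp⟩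
    | add a b _ _ ha hb =>
      obtain ⟨n, w, hw, e⟩ := ha
      obtain ⟨m, w', hw', e'⟩ := hb
      refine ⟨n + m, (Loc.Q K : 𝓞 K) ^ m * w + (Loc.Q K : 𝓞 K) ^ n * w',
        I.add_mem (I.mul_mem_left _ hw) (I.mul_mem_left _ hw'), ?_⟩
      simp only [map_add, map_mul, map_pow, map_natCast, e, e']
      ring
    | smul a b _ hb =>
      obtain ⟨n, w, hw, e⟩ := hb
      obtain ⟨m, w', e'⟩ := exists_toR a
      refine ⟨n + m, w' * w, I.mul_mem_left _ hw, ?_⟩
      rw [map_mul, e, e', smul_eq_mul]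
      ring
  obtain ⟨n, w, hw, e⟩ := key _ hy
  have e2 : w = (Loc.Q K : 𝓞 K) ^ n * y := toR_injective (by rw [e, map_mul, map_pow, map_natCast])
  obtain ⟨i, hi, j, hj, e3⟩ := Ideal.isCoprime_iff_exists.1 (hI.pow_right (n := n))
  rw [Ideal.span_singleton_pow, Ideal.mem_span_singleton] at hj
  obtain ⟨k, rfl⟩ := hj
  rw [show y = y * i + k * w by rw [e2]; linear_combination -y * e3]
  exact I.add_mem (I.mul_mem_left _ hi) (I.mul_mem_left _ hw)

theorem exists_idl {I : Ideal (𝓞 K)} (hI : IsCoprime I (Ideal.span {((Loc.Q K : ℕ) : 𝓞 K)})) :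
    ∃ x : R K, x ≠ 0 ∧ idl x = I := by
  obtain ⟨x, hx⟩ := (IsPrincipalIdealRing.principal (I.map (toR (K := K)))).principal
  have e : idl x = I := by
    rw [idl, ← comap_map_toR hI, hx]
  refine ⟨x, ?_, e⟩
  rintro rfl
  rw [← e, b1a_zero, ← Ideal.span_singleton_eq_bot.2 rfl, Ideal.isCoprime_span_singleton_iff,
    isCoprime_zero_left] at hI
  exact (InU.of_dvd (n := 1) (x := (0 : 𝓞 K)) (hI.pow 1).dvd).ne_zero le_rfl (by simp)

theorem idl_mul (x y : R K) : idl (x * y) = idl x * idl y := by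
  rcases eq_or_ne x 0 with rfl | hx
  · rw [zero_mul, b1a_zero, Ideal.bot_mul]
  rcases eq_or_ne y 0 with rfl | hy
  · rw [mul_zero, b1a_zero, Ideal.mul_bot]
  rw [← comap_map_toR ((idl_isCoprime hx).mul_left (idl_isCoprime hy)), Ideal.map_mul, map_idl, map_idl,
    Ideal.span_singleton_mul_span_singleton, idl]

theorem idl_one : idl (1 : R K) = 1 := by
  rw [idl, Ideal.span_singleton_one, Ideal.comap_top, Ideal.one_eq_top]

theorem idl_dvd_iff {x y : R K} : idl x ∣ idl y ↔ x ∣ y := by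
  rw [Ideal.dvd_iff_le, ← Ideal.span_singleton_le_span_singleton]
  refine ⟨fun h => ?_, fun h => Ideal.comap_mono h⟩
  rw [← map_idl, ← map_idl]
  exact Ideal.map_mono h

theorem idl_eq_iff {x y : R K} : idl x = idl y ↔ Associated x y := by
  rw [← dvd_dvd_iff_associated, ← idl_dvd_iff, ← idl_dvd_iff, Ideal.dvd_iff_le, Ideal.dvd_iff_le]
  exact ⟨fun h => ⟨h.ge, h.le⟩, fun h => le_antisymm h.2 h.1⟩

theorem idl_toR {y : 𝓞 K} (hy : IsCoprime y ((Loc.Q K : ℕ) : 𝓞 K)) : idl (toR y) = Ideal.span {y} := by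
  rw [← comap_map_toR ((Ideal.isCoprime_span_singleton_iff _ _).2 hy), Ideal.map_span, Set.image_singleton, idl]

theorem idl_isPrime_iff {x : R K} (hx : x ≠ 0) : (idl x).IsPrime ↔ Prime x := by
  refine ⟨fun h => ⟨hx, fun hu => h.ne_top ?_, fun a b hab => ?_⟩, fun h => ?_⟩
  · rw [idl, Ideal.span_singleton_eq_top.2 hu, Ideal.comap_top]
  · obtain ⟨n, a', ha⟩ := exists_toR a
    obtain ⟨m, b', hb⟩ := exists_toR b
    have : a' * b' ∈ idl x := by
      rw [mem_idl, map_mul, ha, hb, mul_mul_mul_comm]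
      exact hab.mul_left _
    refine (h.mem_or_mem this).imp (fun h => ?_) (fun h => ?_)
    · rwa [mem_idl, ha, (isUnit_Q.pow n).dvd_mul_left] at h
    · rwa [mem_idl, hb, (isUnit_Q.pow m).dvd_mul_left] at h
  · have := (Ideal.span_singleton_prime hx).2 h
    exact Ideal.IsPrime.comap _

theorem idl_isCoprime_iff {x y : R K} (hx : x ≠ 0) (hy : y ≠ 0) :
    IsCoprime (idl x) (idl y) ↔ IsCoprime x y := by
  rw [← Ideal.isCoprime_span_singleton_iff x y, Ideal.isCoprime_iff_sup_eq, Ideal.isCoprime_iff_sup_eq, ← map_idl,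
    ← map_idl, ← Ideal.map_sup]
  refine ⟨fun h => by rw [h, Ideal.map_top], fun h => ?_⟩
  rw [← comap_map_toR (IsCoprime.of_isCoprime_of_dvd_left (idl_isCoprime hx)
    (Ideal.dvd_iff_le.2 (le_sup_left (b := idl y)))), h, Ideal.comap_top]

/-- `𝓞 → R/x` is onto -/
theorem exists_toR_congr {q : R K} (hq : q ≠ 0) (x : R K) : ∃ y : 𝓞 K, q ∣ x - toR y := by
  obtain ⟨b, hb, h⟩ := b1a_nat hq
  obtain ⟨n, y, hy⟩ := exists_toR x
  obtain ⟨u, v, e⟩ := (hb.pow_right n).cast (R := 𝓞 K)
  have e2 := congrArg toR e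
  simp only [map_add, map_mul, map_natCast, map_one, Nat.cast_pow, map_pow] at e2
  refine ⟨v * y, h.trans ⟨x * toR u, ?_⟩⟩
  rw [map_mul, hy]
  linear_combination -x * e2

theorem absNorm_idl (x : R K) : Ideal.absNorm (idl x) = nm x := by
  rcases eq_or_ne x 0 with rfl | hx
  · rw [b1a_zero, Ideal.absNorm_bot, nm, Ideal.span_singleton_eq_bot.2 rfl,
      Nat.card_congr (RingEquiv.quotientBot (R K)).toEquiv, Nat.card_eq_zero_of_infinite]
  rw [Ideal.absNorm_apply, Submodule.cardQuot_apply, nm, idl]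
  refine Nat.card_eq_of_bijective (Ideal.quotientMap (Ideal.span {x}) toR le_rfl)
    ⟨Ideal.quotientMap_injective, fun z => ?_⟩
  obtain ⟨z, rfl⟩ := Ideal.Quotient.mk_surjective z
  obtain ⟨y, hy⟩ := exists_toR_congr hx z
  refine ⟨Ideal.Quotient.mk _ y, ?_⟩
  rw [Ideal.quotientMap_mk, eq_comm, Ideal.Quotient.eq, Ideal.mem_span_singleton]
  exact hy

theorem finite_quot {q : R K} (hq : q ≠ 0) : Finite (R K ⧸ Ideal.span {q}) := by
  refine Nat.finite_of_card_ne_zero ?_
  change nm q ≠ 0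
  rw [← absNorm_idl, Ne, Ideal.absNorm_eq_zero_iff]
  exact idl_ne_bot hq

theorem nm_mul (x y : R K) : nm (x * y) = nm x * nm y := by
  rw [← absNorm_idl, ← absNorm_idl, ← absNorm_idl, idl_mul, map_mul]

theorem nm_eq_zero {x : R K} : nm x = 0 ↔ x = 0 := by
  rw [← absNorm_idl, Ideal.absNorm_eq_zero_iff]
  exact ⟨fun h => by_contra fun hx => idl_ne_bot hx h, fun h => h ▸ b1a_zero⟩

theorem nm_pos {x : R K} (hx : x ≠ 0) : 0 < nm x := by
  exact Nat.pos_of_ne_zero fun h => hx (nm_eq_zero.1 h)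

@[simp] theorem nm_zero : nm (0 : R K) = 0 := by
  exact nm_eq_zero.2 rfl

@[simp] theorem nm_one : nm (1 : R K) = 1 := by
  rw [← absNorm_idl, idl_one, map_one]

theorem nm_pow (x : R K) (j : ℕ) : nm (x ^ j) = nm x ^ j := by
  induction j with
  | zero => rw [pow_zero, pow_zero, nm_one]
  | succ j ih => rw [pow_succ, pow_succ, nm_mul, ih]

theorem nm_assoc {a b : R K} (h : Associated a b) : nm a = nm b := by
  rw [← absNorm_idl, ← absNorm_idl, idl_eq_iff.2 h]

theorem nm_dvd {a b : R K} (h : a ∣ b) : nm a ∣ nm b := by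
  obtain ⟨c, rfl⟩ := h
  exact ⟨nm c, nm_mul _ _⟩

theorem dvd_nm (x : R K) : x ∣ (nm x : R K) := by
  have := mem_idl.1 (Ideal.absNorm_mem (idl x))
  rwa [absNorm_idl, map_natCast] at this

theorem nm_coprime_Q {x : R K} (hx : x ≠ 0) : (nm x).Coprime (Loc.Q K) := by
  obtain ⟨b, hb, h⟩ := b1a_nat hx
  refine Nat.Coprime.coprime_dvd_left ?_ (hb.pow_left (Module.finrank ℤ (𝓞 K)))
  rw [← absNorm_idl, ← Ideal.absNorm_span_natCast]
  refine Ideal.absNorm_dvd_absNorm_of_le ?_
  rw [Ideal.span_singleton_le_iff_mem, mem_idl, map_natCast]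
  exact h

theorem nm_toR {y : 𝓞 K} (hy : IsCoprime y ((Loc.Q K : ℕ) : 𝓞 K)) :
    nm (toR y) = Ideal.absNorm (Ideal.span {y}) := by
  rw [← absNorm_idl, idl_toR hy]

theorem N_toR {y : 𝓞 K} (hy : IsCoprime y ((Loc.Q K : ℕ) : 𝓞 K)) :
    N (toR y) = ∏ v : Pl K, ‖emb v (y : K)‖ ^ 2 := by
  rw [N, nm_toR hy, absNorm_span_eq]

theorem N_nonneg (x : R K) : 0 ≤ N x := by
  exact Nat.cast_nonneg _

theorem N_mul (x y : R K) : N (x * y) = N x * N y := by
  rw [N, nm_mul, Nat.cast_mul, N, N]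

theorem N_pow (x : R K) (j : ℕ) : N (x ^ j) = N x ^ j := by
  rw [N, nm_pow, Nat.cast_pow, N]

@[simp] theorem N_one : N (1 : R K) = 1 := by
  rw [N, nm_one, Nat.cast_one]

theorem N_prod {ι : Type*} (s : Finset ι) (f : ι → R K) : N (∏ i ∈ s, f i) = ∏ i ∈ s, N (f i) := by
  induction s using Finset.induction_on with
  | empty => simp
  | insert a s ha ih => rw [Finset.prod_insert ha, Finset.prod_insert ha, N_mul, ih]

@[simp] theorem N_zero : N (0 : R K) = 0 := by
  rw [N, nm_zero, Nat.cast_zero]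

@[simp] theorem N_neg (x : R K) : N (-x) = N x := by
  rw [N, nm_assoc (Associated.refl x).neg_left, N]

theorem N_pos {x : R K} (hx : x ≠ 0) : 0 < N x := by
  exact Nat.cast_pos.2 (nm_pos hx)

theorem one_le_N {x : R K} (hx : x ≠ 0) : 1 ≤ N x := by
  exact Nat.one_le_cast.2 (nm_pos hx)

theorem N_assoc {a b : R K} (h : Associated a b) : N a = N b := by
  rw [N, nm_assoc h, N]

theorem N_le_of_dvd {a b : R K} (hb : b ≠ 0) (h : a ∣ b) : N a ≤ N b := by
  exact Nat.cast_le.2 (Nat.le_of_dvd (nm_pos hb) (nm_dvd h))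

theorem isUnit_iff_nm {x : R K} : IsUnit x ↔ nm x = 1 := by
  rw [← absNorm_idl, Ideal.absNorm_eq_one_iff, ← Ideal.one_eq_top, ← idl_one, idl_eq_iff,
    associated_one_iff_isUnit]

theorem N_unit {u : R K} (hu : IsUnit u) : N u = 1 := by
  rw [N, isUnit_iff_nm.1 hu, Nat.cast_one]

theorem Prime.two_le_N {p : R K} (hp : Prime p) : 2 ≤ N p := by
  have h1 := nm_pos hp.ne_zero
  have h2 : nm p ≠ 1 := fun h => hp.not_isUnit (isUnit_iff_nm.2 h)
  unfold N
  exact_mod_cast (by omega : 2 ≤ nm p)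

theorem om_sq_add : omR K ^ 2 + omR K + 1 = 0 := by
  have := congrArg toR (Fld.om_eq (K := K))
  rw [map_add, map_add, map_pow, map_one, map_zero] at this
  exact this

theorem om_cube : omR K ^ 3 = 1 := by
  linear_combination (omR K - 1) * om_sq_add (K := K)

theorem mem_units6_iff {u : R K} : u ∈ units6 K ↔ u ^ 6 = 1 := by
  have e : (u - 1) * ((u + 1) * ((u - omR K) * ((u + omR K) * ((u - omR K ^ 2) * (u + omR K ^ 2))))) =
      u ^ 6 - 1 := by
    linear_combination (-(omR K ^ 2 - omR K + 1) * u ^ 4 + omR K ^ 2 * (omR K ^ 2 - omR K + 1) * u ^ 2 -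
      (omR K - 1) * (omR K ^ 3 + 1)) * om_sq_add (K := K)
  rw [← sub_eq_zero, ← e]
  simp only [units6, Finset.mem_insert, Finset.mem_singleton, mul_eq_zero, sub_eq_zero, add_eq_zero_iff_eq_neg]

theorem b1b_prim {F : Type} [CommRing F] [Nontrivial F] {w : F} (e : w ^ 2 + w + 1 = 0) (h2 : (2 : F) ≠ 0)
    (h3 : (3 : F) ≠ 0) : IsPrimitiveRoot (-w) 6 := by
  refine IsPrimitiveRoot.mk_of_lt _ (by norm_num) (by linear_combination (w - 1) * (w ^ 3 + 1) * e)
    fun l h0 h6 h => ?_
  interval_cases l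
  · exact one_ne_zero (α := F) (by linear_combination e + w * h)
  · exact h3 (by linear_combination h - (w - 2) * (e - h))
  · exact h2 (by linear_combination -h - (w - 1) * e)
  · exact h3 (by linear_combination e - (w + 2) * (h - w * (w - 1) * e))
  · exact one_ne_zero (α := F) (by linear_combination e - (w + 1) * (e + (h + w ^ 2 * (w - 1) * e)))

theorem card_units6 : (units6 K).card = 6 := by
  rw [← (b1b_prim (om_sq_add (K := K)) isUnit_two.ne_zero isUnit_three.ne_zero).card_nthRootsFinset]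
  congr 1
  ext u
  rw [mem_units6_iff, Polynomial.mem_nthRootsFinset (by norm_num)]

/-- `-ω` has order `6` in the finite field `R/p` (`2, 3` are units) -/
theorem nm_prime_mod_six {p : R K} (hp : Prime p) : nm p % 6 = 1 := by
  have hm := PrincipalIdealRing.isMaximal_of_irreducible hp.irreducible
  let _ := Ideal.Quotient.field (Ideal.span {p})
  have := finite_quot hp.ne_zero
  let _ := Fintype.ofFinite (R K ⧸ Ideal.span {p})
  have e := congrArg (Ideal.Quotient.mk (Ideal.span {p})) (om_sq_add (K := K))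
  rw [map_add, map_add, map_pow, map_one, map_zero] at e
  have h := b1b_prim e (isUnit_two.map (Ideal.Quotient.mk (Ideal.span {p}))).ne_zero
    (isUnit_three.map (Ideal.Quotient.mk (Ideal.span {p}))).ne_zero
  have h6 := h.dvd_of_pow_eq_one _ (FiniteField.pow_card_sub_one_eq_one _ (h.ne_zero (by norm_num)))
  rw [← Nat.card_eq_fintype_card] at h6
  have h1 := nm_pos hp.ne_zero
  change 6 ∣ nm p - 1 at h6
  omega

theorem nm_mod_six {x : R K} (hx : x ≠ 0) : nm x % 6 = 1 := by
  induction x using UniqueFactorizationMonoid.induction_on_prime with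
  | h₁ => exact absurd rfl hx
  | h₂ x hu => rw [isUnit_iff_nm.1 hu]
  | h₃ a p ha hp ih => rw [nm_mul, Nat.mul_mod, nm_prime_mod_six hp, ih ha]

/-- `toC0` restricted to `R K`, as a ring homomorphism -/
def toC : R K →+* ℂ :=
  (Classical.choice (inferInstance : Nonempty (Pl K))).1.comp (RR K (Loc.Q K)).subtype

theorem toC0_coe (x : R K) : toC0 (x : K) = toC x := by
  rw [toC0, dif_pos (inferInstance : Nonempty (Pl K))]
  rfl

theorem toC_injective : Function.Injective (toC (K := K)) := by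
  exact (Classical.choice (inferInstance : Nonempty (Pl K))).1.injective.comp Subtype.val_injective

theorem toC_om : toC (omR K) = omC := by
  exact (Classical.choice (inferInstance : Nonempty (Pl K))).2

/-- on sixth roots of unity all places agree -/
theorem emb_eq_toC (v : Pl K) {u : R K} (hu : u ^ 6 = 1) : emb v (u : K) = toC u := by
  have h1 : (v.1.comp (RR K (Loc.Q K)).subtype) (omR K) = omC := v.2
  change (v.1.comp (RR K (Loc.Q K)).subtype) u = toC u
  have := mem_units6_iff.2 hu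
  simp only [units6, Finset.mem_insert, Finset.mem_singleton] at this
  rcases this with rfl | rfl | rfl | rfl | rfl | rfl <;> simp only [map_one, map_neg, map_pow, h1, toC_om]

theorem mul_dv {a b : R K} (h : b ∣ a) : b * dv a b = a := by
  rw [dv, dif_pos h]
  exact h.choose_spec.symm

theorem dv_mul {a b : R K} (h : b ∣ a) : dv a b * b = a := by
  rw [mul_comm, mul_dv h]

theorem dv_mul_left {b : R K} (hb : b ≠ 0) (a : R K) : dv (b * a) b = a := by
  exact mul_left_cancel₀ hb (mul_dv (dvd_mul_right _ _))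

theorem dv_mul_right {b : R K} (hb : b ≠ 0) (a : R K) : dv (a * b) b = a := by
  rw [mul_comm, dv_mul_left hb]

theorem dv_one (a : R K) : dv a 1 = a := by
  simpa using mul_dv (one_dvd a)

theorem dv_self {a : R K} (ha : a ≠ 0) : dv a a = 1 := by
  simpa using dv_mul_left ha 1

theorem dv_dvd {a b : R K} (h : b ∣ a) : dv a b ∣ a := by
  exact ⟨b, (dv_mul h).symm⟩

theorem N_dv {a b : R K} (hb : b ≠ 0) (h : b ∣ a) : N (dv a b) = N a / N b := by
  rw [eq_div_iff (N_pos hb).ne', ← N_mul, dv_mul h]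

theorem norm_mu_le (n : R K) : ‖mu n‖ ≤ 1 := by
  by_cases h : Squarefree n
  · simp [mu, h.moebius_eq]
  · simp [mu, UniqueFactorizationMonoid.moebius_of_not_squarefree h]

theorem mu_one : mu (1 : R K) = 1 := by
  rw [mu, UniqueFactorizationMonoid.moebius_one, Int.cast_one]

theorem mu_prime {p : R K} (hp : Prime p) : mu p = -1 := by
  rw [mu, hp.irreducible.moebius_eq, Int.cast_neg, Int.cast_one]

theorem mu_mul {a b : R K} (h : IsCoprime a b) : mu (a * b) = mu a * mu b := by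
  rw [mu, h.isRelPrime.moebius_mul, Int.cast_mul, mu, mu]

theorem mu_eq_zero {a : R K} (h : ¬ Squarefree a) : mu a = 0 := by
  rw [mu, UniqueFactorizationMonoid.moebius_of_not_squarefree h, Int.cast_zero]

theorem mu_sq {a : R K} (h : Squarefree a) : mu a * mu a = 1 := by
  rw [mu, h.moebius_eq, ← Int.cast_mul, ← mul_pow]
  simp

theorem conj_mu (a : R K) : conj (mu a) = mu a := by
  exact map_intCast _ _

/-- Chinese remainder theorem -/
theorem crt {q1 q2 : R K} (h : IsCoprime q1 q2) (x y : R K) : ∃ n, q1 ∣ n - x ∧ q2 ∣ n - y := by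
  obtain ⟨a, b, hab⟩ := h
  refine ⟨y * a * q1 + x * b * q2, ⟨a * (y - x), ?_⟩, ⟨b * (x - y), ?_⟩⟩
  · linear_combination x * hab
  · linear_combination y * hab

theorem cop_congr {q a b : R K} (h : q ∣ a - b) (hb : IsCoprime b q) : IsCoprime a q := by
  obtain ⟨c, hc⟩ := h
  have : a = b + q * c := by linear_combination hc
  rw [this]
  exact hb.add_mul_left_left c

/-- an element all of whose prime factors divide `q` divides a power of `q` -/
theorem dvd_pow_of_primes {q d : R K} (hd : d ≠ 0) (h : ∀ p, Prime p → p ∣ d → p ∣ q) :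
    ∃ j : ℕ, d ∣ q ^ j := by
  induction d using UniqueFactorizationMonoid.induction_on_prime with
  | h₁ => exact absurd rfl hd
  | h₂ x hx => exact ⟨0, hx.dvd⟩
  | h₃ a p ha hp ih =>
    obtain ⟨j, hj⟩ := ih ha (fun p' hp' h' => h p' hp' (h'.mul_left p))
    refine ⟨j + 1, ?_⟩
    rw [pow_succ']
    exact mul_dvd_mul (h p hp (dvd_mul_right p a)) hj

end Crest.Agent.R312
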