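import Crest.Agent.R312.B0Basic1

/-!
# R312 / B0Basic4 : residue systems, `ee`, `ad`, orthogonality (port of R17/Basic4)
-/

set_option autoImplicit false
set_option linter.unusedSectionVars false
set_option linter.unusedVariables false

noncomputable section

open scoped Classical ComplexConjugate NumberField
open Crest.Agent.R17 (omC)

namespace Crest.Agent.R312

variable {K : Type} [Field K] [NumberField K] [Fld K] [Loc K]

/-- the chosen representative modulo `q` -/
def b4_rep (q x : R K) : R K := Quotient.out (Ideal.Quotient.mk (Ideal.span {q}) x)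

theorem b4_mod_congr {q : R K} {x y : R K} (h : q ∣ x - y) : b4_rep q x = b4_rep q y := by
  unfold b4_rep
  rw [Ideal.Quotient.eq.2 (Ideal.mem_span_singleton.2 h)]

theorem b4_mk_rep (q x : R K) :
    Ideal.Quotient.mk (Ideal.span {q}) (b4_rep q x) = Ideal.Quotient.mk (Ideal.span {q}) x :=
  Ideal.Quotient.mk_out _

theorem b4_dvd_sub_mod (q x : R K) : q ∣ x - b4_rep q x :=
  Ideal.mem_span_singleton.1 (Ideal.Quotient.eq.1 (b4_mk_rep q x).symm)

theorem b4_mem_res {q : R K} (hq : q ≠ 0) {x : R K} : x ∈ res q ↔ b4_rep q x = x := by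
  have := finite_quot hq
  unfold res
  rw [dif_pos (Set.finite_range _), Set.Finite.mem_toFinset]
  refine ⟨?_, fun h => ⟨_, h⟩⟩
  rintro ⟨c, rfl⟩
  unfold b4_rep
  rw [Ideal.Quotient.mk_out]

theorem b4_mod_mem_res {q : R K} (hq : q ≠ 0) (x : R K) : b4_rep q x ∈ res q :=
  (b4_mem_res hq).2 (b4_mod_congr (b4_dvd_sub_mod q x)).symm

theorem exists_res {q : R K} (hq : q ≠ 0) (x : R K) : ∃ r ∈ res q, q ∣ x - r :=
  ⟨b4_rep q x, b4_mod_mem_res hq x, b4_dvd_sub_mod q x⟩
theorem res_inj {q : R K} (hq : q ≠ 0) {x y : R K} (hx : x ∈ res q) (hy : y ∈ res q)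
    (h : q ∣ x - y) : x = y := by
  rw [← (b4_mem_res hq).1 hx, ← (b4_mem_res hq).1 hy, b4_mod_congr h]
theorem card_res {q : R K} (hq : q ≠ 0) : (res q).card = nm q := by
  rw [nm, ← Nat.card_eq_finsetCard]
  refine Nat.card_eq_of_bijective (fun x : res q => Ideal.Quotient.mk (Ideal.span {q}) x) ⟨?_, ?_⟩
  · intro x y h
    exact Subtype.ext (res_inj hq x.2 y.2 (Ideal.mem_span_singleton.1 (Ideal.Quotient.eq.1 h)))
  · intro z
    obtain ⟨x, rfl⟩ := Ideal.Quotient.mk_surjective z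
    obtain ⟨r, hr, h⟩ := exists_res hq x
    exact ⟨⟨r, hr⟩, (Ideal.Quotient.eq.2 (Ideal.mem_span_singleton.2 h)).symm⟩
theorem Per.congr {q : R K} {f : R K → ℂ} (hf : Per q f) {x y : R K} (h : q ∣ x - y) : f x = f y := by
  obtain ⟨t, ht⟩ := h
  have : x = y + q * t := by linear_combination ht
  rw [this, hf]
theorem Per.of_dvd {q q' : R K} {f : R K → ℂ} (hf : Per q f) (h : q ∣ q') : Per q' f := by
  obtain ⟨c, rfl⟩ := h
  intro x t
  rw [mul_assoc, hf]
theorem Per.mul {q : R K} {f g : R K → ℂ} (hf : Per q f) (hg : Per q g) :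
    Per q (fun x => f x * g x) := fun x t => by simp only [hf x t, hg x t]

theorem b4_sum_res_map {ι : Type*} {q : R K} (hq : q ≠ 0) {f : R K → ℂ} (hf : Per q f) (T : Finset ι)
    (g : ι → R K) (h1 : ∀ x, ∃ i ∈ T, q ∣ x - g i)
    (h2 : ∀ i ∈ T, ∀ j ∈ T, q ∣ g i - g j → i = j) :
    ∑ i ∈ T, f (g i) = ∑ x ∈ res q, f x := by
  refine Finset.sum_bij (fun i _ => b4_rep q (g i)) (fun i _ => b4_mod_mem_res hq _) ?_ ?_ ?_
  · intro i hi j hj h
    refine h2 i hi j hj ?_
    have := dvd_sub (b4_dvd_sub_mod q (g i)) (b4_dvd_sub_mod q (g j))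
    rw [h] at this
    simpa using this
  · intro x hx
    obtain ⟨i, hi, h⟩ := h1 x
    exact ⟨i, hi, (b4_mod_congr h).symm.trans ((b4_mem_res hq).1 hx)⟩
  · intro i _
    exact hf.congr (b4_dvd_sub_mod q _)

/-- any complete residue system gives the same sum -/
theorem sum_res_eq {q : R K} (hq : q ≠ 0) {f : R K → ℂ} (hf : Per q f) (S : Finset (R K))
    (h1 : ∀ x, ∃ r ∈ S, q ∣ x - r) (h2 : ∀ x ∈ S, ∀ y ∈ S, q ∣ x - y → x = y) :
    ∑ x ∈ S, f x = ∑ x ∈ res q, f x :=
  b4_sum_res_map hq hf S id h1 h2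
theorem sum_res_affine {q : R K} (hq : q ≠ 0) {f : R K → ℂ} (hf : Per q f) {a : R K}
    (ha : IsCoprime a q) (b : R K) : ∑ x ∈ res q, f (a * x + b) = ∑ x ∈ res q, f x := by
  refine b4_sum_res_map hq hf (res q) (fun x => a * x + b) (fun x => ?_) fun x hx y hy h => ?_
  · obtain ⟨u, v, huv⟩ := ha
    obtain ⟨r, hr, c, hc⟩ := exists_res hq (u * (x - b))
    exact ⟨r, hr, a * c + v * (x - b), by linear_combination a * hc - (x - b) * huv⟩
  · refine res_inj hq hx hy (ha.symm.dvd_of_dvd_mul_left ?_)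
    convert h using 1; ring
/-- Chinese remainder theorem for sums -/
theorem sum_res_crt {q1 q2 : R K} (h1 : q1 ≠ 0) (h2 : q2 ≠ 0) (h : IsCoprime q1 q2) {f : R K → ℂ}
    (hf : Per (q1 * q2) f) :
    ∑ x ∈ res (q1 * q2), f x = ∑ x1 ∈ res q1, ∑ x2 ∈ res q2, f (x1 * q2 + x2 * q1) := by
  rw [← Finset.sum_product']
  refine (b4_sum_res_map (mul_ne_zero h1 h2) hf (res q1 ×ˢ res q2)
    (fun p => p.1 * q2 + p.2 * q1) (fun x => ?_) fun x hx y hy hd => ?_).symm
  · obtain ⟨u, v, huv⟩ := h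
    obtain ⟨r1, hr1, c1, hc1⟩ := exists_res h1 (v * x)
    obtain ⟨r2, hr2, c2, hc2⟩ := exists_res h2 (u * x)
    exact ⟨(r1, r2), Finset.mem_product.2 ⟨hr1, hr2⟩, c1 + c2,
      by linear_combination q2 * hc1 + q1 * hc2 - x * huv⟩
  · rw [Finset.mem_product] at hx hy
    obtain ⟨c, hc⟩ := hd
    refine Prod.ext (res_inj h1 hx.1 hy.1 (h.dvd_of_dvd_mul_left ?_))
      (res_inj h2 hx.2 hy.2 (h.symm.dvd_of_dvd_mul_left ?_))
    · exact ⟨q2 * c - (x.2 - y.2), by linear_combination hc⟩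
    · exact ⟨q1 * c - (x.1 - y.1), by linear_combination hc⟩
/-- tower: `x = x1 + q1 x2` -/
theorem sum_res_tower {q1 q2 : R K} (h1 : q1 ≠ 0) (h2 : q2 ≠ 0) {f : R K → ℂ}
    (hf : Per (q1 * q2) f) :
    ∑ x ∈ res (q1 * q2), f x = ∑ x1 ∈ res q1, ∑ x2 ∈ res q2, f (x1 + q1 * x2) := by
  rw [← Finset.sum_product']
  refine (b4_sum_res_map (mul_ne_zero h1 h2) hf (res q1 ×ˢ res q2)
    (fun p => p.1 + q1 * p.2) (fun x => ?_) fun x hx y hy hd => ?_).symm
  · obtain ⟨r1, hr1, c1, hc1⟩ := exists_res h1 x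
    obtain ⟨r2, hr2, c2, hc2⟩ := exists_res h2 c1
    exact ⟨(r1, r2), Finset.mem_product.2 ⟨hr1, hr2⟩, c2, by linear_combination hc1 + q1 * hc2⟩
  · rw [Finset.mem_product] at hx hy
    obtain ⟨c, hc⟩ := hd
    have e1 : x.1 = y.1 := res_inj h1 hx.1 hy.1 ⟨q2 * c - (x.2 - y.2), by linear_combination hc⟩
    refine Prod.ext e1 (res_inj h2 hx.2 hy.2 ⟨c, mul_left_cancel₀ h1 ?_⟩)
    rw [e1] at hc
    linear_combination hc
/-- a summable sum over `R K` split into residue classes -/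
theorem tsum_res {q : R K} (hq : q ≠ 0) {f : R K → ℂ} (hf : Summable f) :
    ∑' n, f n = ∑ x ∈ res q, ∑' t, f (x + q * t) := by
  have hb : Function.Bijective fun p : res q × R K => (p.1 : R K) + q * p.2 := by
    constructor
    · intro x y h
      have h' : (x.1 : R K) + q * x.2 = y.1 + q * y.2 := h
      have e1 : (x.1 : R K) = y.1 := res_inj hq x.1.2 y.1.2 ⟨y.2 - x.2, by linear_combination h'⟩
      refine Prod.ext (Subtype.ext e1) (mul_left_cancel₀ hq ?_)
      rw [e1] at h'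
      exact add_left_cancel h'
    · intro x
      obtain ⟨r, hr, c, hc⟩ := exists_res hq x
      exact ⟨(⟨r, hr⟩, c), by simp only; linear_combination -hc⟩
  let e := Equiv.ofBijective _ hb
  have hs : Summable fun p : res q × R K => f (e p) := (e.summable_iff (f := f)).2 hf
  rw [← e.tsum_eq, hs.tsum_prod, ← Finset.tsum_subtype (res q) fun x => ∑' t, f (x + q * t)]
  rfl

/-- `ee` is well defined: two choices of `r` differ by an element of `R ∩ SInt = 𝓞` -/
theorem ee_eq {x : K} {r : R K} (h : SInt (x - (r : K))) : ee x = eT (x - (r : K)) := by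
  have hex : ∃ r : R K, SInt (x - (r : K)) := ⟨r, h⟩
  have h1 : SInt ((r - hex.choose : R K) : K) := by
    have := hex.choose_spec.sub h
    rw [sub_sub_sub_cancel_left] at this
    simpa using this
  have h2 : x - ((hex.choose : R K) : K) = (x - (r : K)) + ((r - hex.choose : R K) : K) := by
    push_cast; ring
  rw [ee, dif_pos hex, h2, eT_add, eT_of_isIntegral h1.isIntegral, mul_one]

theorem ee_of_sInt {x : K} (h : SInt x) : ee x = eT x := by
  have := ee_eq (x := x) (r := 0) (by simpa using h)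
  simpa using this

theorem ee_add (z w : K) : ee (z + w) = ee z * ee w := by
  obtain ⟨r, hr⟩ := exists_add_sInt z
  obtain ⟨s, hs⟩ := exists_add_sInt w
  have e : z + w - ((r + s : R K) : K) = (z - (r : K)) + (w - (s : K)) := by push_cast; ring
  rw [ee_eq hr, ee_eq hs, ee_eq (r := r + s) (by rw [e]; exact hr.add hs), e, eT_add]

theorem ee_zero : ee (0 : K) = 1 := by rw [ee_of_sInt SInt.zero, eT_zero]

theorem norm_ee (z : K) : ‖ee z‖ = 1 := by
  obtain ⟨r, hr⟩ := exists_add_sInt z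
  rw [ee_eq hr, norm_eT]

theorem ee_neg (z : K) : ee (-z) = conj (ee z) := by
  obtain ⟨r, hr⟩ := exists_add_sInt z
  have e : -z - ((-r : R K) : K) = -(z - (r : K)) := by push_cast; ring
  rw [ee_eq hr, ee_eq (r := -r) (by rw [e]; exact hr.neg), e, eT_neg]

theorem ee_coe (x : R K) : ee (x : K) = 1 := by
  rw [ee_eq (r := x) (by rw [sub_self]; exact SInt.zero), sub_self, eT_zero]

/-- duality: write `x = r + s`; for `y ∈ 𝓞`, `ee (x y) = eT (s y)` -/
theorem mem_of_ee {x : K} (h : ∀ y : R K, ee (x * (y : K)) = 1) : ∃ r : R K, x = r := by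
  obtain ⟨r, hr⟩ := exists_add_sInt x
  have h1 : IsIntegral ℤ (x - (r : K)) := isIntegral_of_eT fun y => by
    have e : x * ((toR y : R K) : K) - ((r * toR y : R K) : K) = (x - (r : K)) * (y : K) := by
      push_cast; rw [coe_toR]; ring
    rw [← e, ← ee_eq (by rw [e]; exact hr.mul (SInt.coe y)), h]
  exact ⟨r + toR ⟨_, h1⟩, by push_cast; rw [coe_toR]; simp⟩

theorem ad_add (q x y : R K) : ad q (x + y) = ad q x * ad q y := by
  unfold ad; push_cast; rw [add_div, ee_add]

theorem ad_zero (q : R K) : ad q 0 = 1 := by unfold ad; push_cast; rw [zero_div, ee_zero]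

theorem norm_ad (q x : R K) : ‖ad q x‖ = 1 := norm_ee _

theorem ad_neg (q x : R K) : ad q (-x) = conj (ad q x) := by
  unfold ad; push_cast; rw [neg_div, ee_neg]

theorem b4_coe_ne_zero {q : R K} (hq : q ≠ 0) : (q : K) ≠ 0 := fun h => hq (Subtype.ext h)

theorem ad_of_dvd {q x : R K} (h : q ∣ x) : ad q x = 1 := by
  obtain ⟨c, rfl⟩ := h
  unfold ad
  by_cases hq : q = 0
  · subst hq; push_cast; rw [div_zero, ee_zero]
  · push_cast; rw [mul_div_cancel_left₀ _ (b4_coe_ne_zero hq), ee_coe]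

theorem ad_per (q k : R K) : Per q (fun x => ad q (k * x)) := fun x t => by
  simp only
  rw [mul_add, ad_add, ad_of_dvd (q := q) (x := k * (q * t)) ⟨k * t, by ring⟩, mul_one]

theorem ad_mul_cancel {q c : R K} (hc : c ≠ 0) (x : R K) : ad (c * q) (c * x) = ad q x := by
  unfold ad
  push_cast
  rw [mul_div_mul_left _ _ (b4_coe_ne_zero hc)]

theorem b4_dvd_of_ad {q k : R K} (hq : q ≠ 0) (h : ∀ y, ad q (k * y) = 1) : q ∣ k := by
  refine (coe_dvd_iff hq).2 (mem_of_ee fun y => ?_)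
  have := h y
  unfold ad at this
  push_cast at this
  rwa [div_mul_eq_mul_div]

/-- orthogonality (primitivity of `ad q`) -/
theorem sum_ad {q : R K} (hq : q ≠ 0) (k : R K) :
    ∑ x ∈ res q, ad q (k * x) = if q ∣ k then (N q : ℂ) else 0 := by
  split_ifs with h
  · rw [Finset.sum_congr rfl fun x _ => ad_of_dvd (h.mul_right x), Finset.sum_const, card_res hq]
    simp [N]
  · have : ∃ y, ad q (k * y) ≠ 1 := by
      by_contra hc
      push Not at hc
      exact h (b4_dvd_of_ad hq hc)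
    obtain ⟨y, hy⟩ := this
    have h1 := sum_res_affine hq (ad_per q k) isCoprime_one_left y
    simp only [one_mul, mul_add, ad_add] at h1
    rw [← Finset.sum_mul] at h1
    have h2 : (∑ x ∈ res q, ad q (k * x)) * (ad q (k * y) - 1) = 0 := by linear_combination h1
    exact (mul_eq_zero.1 h2).resolve_right (sub_ne_zero.2 hy)
/-- Fourier inversion modulo `q` -/
theorem fourier_inv {q : R K} (hq : q ≠ 0) {f : R K → ℂ} (hf : Per q f) (x : R K) :
    f x = (N q : ℂ)⁻¹ * ∑ k ∈ res q, gs q f k * ad q (-(k * x)) := by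
  have hN : (N q : ℂ) ≠ 0 := by exact_mod_cast (N_pos hq).ne'
  obtain ⟨r, hr, hrx⟩ := exists_res hq x
  have e : ∑ k ∈ res q, gs q f k * ad q (-(k * x)) =
      ∑ y ∈ res q, f y * ∑ k ∈ res q, ad q ((y - x) * k) := by
    unfold gs
    simp only [Finset.sum_mul, Finset.mul_sum]
    rw [Finset.sum_comm]
    refine Finset.sum_congr rfl fun y _ => Finset.sum_congr rfl fun k _ => ?_
    rw [mul_assoc, ← ad_add]; congr 2; ring
  rw [e, Finset.sum_eq_single_of_mem r hr]
  · rw [sum_ad hq, if_pos (dvd_sub_comm.1 hrx), hf.congr hrx]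
    field_simp
  · intro y hy hne
    rw [sum_ad hq, if_neg, mul_zero]
    intro hd
    refine hne (res_inj hq hy hr ?_)
    have := dvd_add hd hrx
    simpa using this

end Crest.Agent.R312
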