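import Crest.Agent.R312.B0Basic3

/-!
# R312 / B0Block1 : blocks (port of R17/Block1; sums over primary elements)
-/

set_option autoImplicit false
set_option linter.unusedSectionVars false
set_option linter.unusedVariables false

noncomputable section

open scoped Classical ComplexConjugate NumberField
open Crest.Agent.R17 (omC)

namespace Crest.Agent.R312

variable {K : Type} [Field K] [NumberField K] [Fld K] [Loc K] [Setup K]

theorem gw_pos (u : ℝ) : 0 < gw u := by
  exact Real.exp_pos _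

theorem gw_le_one (u : ℝ) : gw u ≤ 1 := by
  exact Real.exp_le_one_iff.2 (neg_nonpos.2 (sq_nonneg u))

/-- `e^{xu} e^{-(u-y)²} = e^{xy + x²/4} e^{-(u - y - x/2)²}` -/
theorem exp_mul_gw (x u y : ℝ) :
    Real.exp (x * u) * gw (u - y) = Real.exp (x * y + x ^ 2 / 4) * gw (u - (y + x / 2)) := by
  unfold gw
  rw [← Real.exp_add, ← Real.exp_add]
  congr 1
  ring

theorem bl1_pt (x y w : ℝ) {n : R K} (hn : n ≠ 0) :
    N n ^ x * gw (Real.log (N n) - y) ≤
      Real.exp ((x + w) * y + (x + w) ^ 2 / 4) * N n ^ (-w) := by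
  have h0 := N_pos hn
  have e : N n ^ x = Real.exp ((x + w) * Real.log (N n)) * N n ^ (-w) := by
    rw [mul_comm (x + w), ← Real.rpow_def_of_pos h0, ← Real.rpow_add h0]
    congr 1
    ring
  rw [e, mul_right_comm, exp_mul_gw]
  exact mul_le_mul_of_nonneg_right (mul_le_of_le_one_right (Real.exp_pos _).le (gw_le_one _))
    (Real.rpow_nonneg h0.le _)

theorem bl1_nonneg (x y : ℝ) (n : R K) :
    0 ≤ (if Prim n then N n ^ x * gw (Real.log (N n) - y) else 0) := by
  split_ifs
  · exact mul_nonneg (Real.rpow_nonneg (N_nonneg n) _) (gw_pos _).le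
  · exact le_rfl

theorem summable_gw_rpow (x y : ℝ) :
    Summable (fun n : R K => if Prim n then N n ^ x * gw (Real.log (N n) - y) else 0) := by
  refine Summable.of_nonneg_of_le (bl1_nonneg x y) (fun n => ?_)
    ((summable_N_rpow (σ := 2) (by norm_num)).mul_left (Real.exp ((x + 2) * y + (x + 2) ^ 2 / 4)))
  split_ifs with hn
  · exact bl1_pt x y 2 hn.ne_zero
  · simp

/-- the basic trivial bound, valid for every real `y` (split into shells `e^j ≤ N n < e^{j+1}` and use
`card_ball_le`) -/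
theorem tsum_gw_rpow (x : ℝ) : ∃ C, ∀ y : ℝ,
    ∑' n : R K, (if Prim n then N n ^ x * gw (Real.log (N n) - y) else 0) ≤ C * Real.exp ((x + 1) * y) := by
  obtain ⟨C, hC⟩ := tsum_tail_N_rpow (K := K) (σ := 2) (by norm_num)
  obtain ⟨D, -, hD⟩ := card_ball_le (K := K)
  refine ⟨D * Real.exp (x ^ 2 / 4) + C * Real.exp ((x + 2) ^ 2 / 4), fun y => ?_⟩
  have hX : 0 < Real.exp y := Real.exp_pos y
  have hs : Summable fun n : R K => if Prim n ∧ Real.exp y < N n then N n ^ (-(2 : ℝ)) else 0 := by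
    refine Summable.of_nonneg_of_le (fun n => ?_) (fun n => ?_)
      (summable_N_rpow (σ := 2) (by norm_num))
    · split_ifs
      · exact Real.rpow_nonneg (N_nonneg n) _
      · exact le_rfl
    · split_ifs with h1 h2
      · exact le_rfl
      · exact absurd h1.1 h2
      · exact Real.rpow_nonneg (N_nonneg n) _
      · exact le_rfl
  set A := Real.exp (x * y + x ^ 2 / 4) with hA
  set B := Real.exp ((x + 2) * y + (x + 2) ^ 2 / 4) with hB
  have h1 : HasSum (fun n : R K => if n ∈ ball K (Real.exp y) then A else 0)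
      ((ball K (Real.exp y)).card * A) := by
    have := hasSum_sum_of_ne_finset_zero (L := SummationFilter.unconditional (R K))
      (f := fun n : R K => if n ∈ ball K (Real.exp y) then A else 0)
      (s := ball K (Real.exp y)) (fun n hn => if_neg hn)
    rwa [Finset.sum_congr rfl fun n hn => if_pos hn, Finset.sum_const, nsmul_eq_mul] at this
  have h2 := h1.add (hs.hasSum.mul_left B)
  refine (hasSum_le (fun n => ?_) (summable_gw_rpow x y).hasSum h2).trans ?_
  · by_cases hn : Prim n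
    · rw [if_pos hn]
      by_cases hb : N n ≤ Real.exp y
      · rw [if_pos (mem_ball.2 ⟨hn, hb⟩), if_neg fun h => not_lt.2 hb h.2, mul_zero, add_zero]
        simpa using bl1_pt x y 0 hn.ne_zero
      · rw [if_neg fun h => hb (mem_ball.1 h).2, if_pos ⟨hn, not_le.1 hb⟩, zero_add]
        exact bl1_pt x y 2 hn.ne_zero
    · rw [if_neg hn, if_neg fun h => hn (mem_ball.1 h).1, if_neg fun h => hn h.1, mul_zero, add_zero]
  · have e1 : D * Real.exp y * A = D * Real.exp (x ^ 2 / 4) * Real.exp ((x + 1) * y) := by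
      rw [hA, mul_assoc, mul_assoc, ← Real.exp_add, ← Real.exp_add]
      congr 2
      ring
    have e2 : B * (C * Real.exp y ^ (1 - 2 : ℝ)) =
        C * Real.exp ((x + 2) ^ 2 / 4) * Real.exp ((x + 1) * y) := by
      rw [hB, ← Real.exp_mul, mul_left_comm, mul_assoc, ← Real.exp_add, ← Real.exp_add]
      congr 2
      ring
    rw [add_mul, ← e1, ← e2]
    exact add_le_add (mul_le_mul_of_nonneg_right (hD _ hX.le) (by positivity))
      (mul_le_mul_of_nonneg_left (hC _ hX) (by positivity))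

/-- for `y ≤ 0` blocks are tiny -/
theorem tsum_gw_rpow_neg (x : ℝ) (j : ℕ) : ∃ C, ∀ y : ℝ, y ≤ 0 →
    ∑' n : R K, (if Prim n then N n ^ x * gw (Real.log (N n) - y) else 0) ≤ C * Real.exp (j * y) := by
  obtain ⟨C, hC⟩ := tsum_gw_rpow (K := K) (max x j)
  refine ⟨max C 0, fun y hy => ?_⟩
  refine ((summable_gw_rpow x y).tsum_le_tsum (fun n => ?_) (summable_gw_rpow (max x j) y)).trans
    ((hC y).trans ?_)
  · split_ifs with hn
    · exact mul_le_mul_of_nonneg_right
        (Real.rpow_le_rpow_of_exponent_le (one_le_N hn.ne_zero) (le_max_left _ _)) (gw_pos _).le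
    · exact le_rfl
  · refine mul_le_mul (le_max_left _ _) (Real.exp_le_exp.2 ?_) (Real.exp_pos _).le (le_max_right _ _)
    exact mul_le_mul_of_nonpos_right (by linarith [le_max_right x (j : ℝ)]) hy

theorem bl1_norm (a : R K → ℂ) (y : ℝ) (s : ℂ) {n : R K} (hn : n ≠ 0) :
    ‖a n * (N n : ℂ) ^ (-s) * (gw (Real.log (N n) - y) : ℂ)‖ =
      ‖a n‖ * (N n ^ (-s.re) * gw (Real.log (N n) - y)) := by
  rw [norm_mul, norm_mul, Complex.norm_cpow_eq_rpow_re_of_pos (N_pos hn), Complex.norm_real,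
    Real.norm_of_nonneg (gw_pos _).le, Complex.neg_re, mul_assoc]

theorem bl1_pb_le (a : R K → ℂ) (ha : ∀ n, Prim n → ‖a n‖ ≤ 1) (y t : ℝ) :
    ‖pb a y t‖ ≤
      ∑' n : R K, (if Prim n then N n ^ (-(1 / 2) : ℝ) * gw (Real.log (N n) - y) else 0) := by
  refine tsum_of_norm_bounded (summable_gw_rpow _ y).hasSum fun n => ?_
  split_ifs with hn
  · have e : ((1 / 2 : ℂ) + t * Complex.I).re = 1 / 2 := by simp
    rw [bl1_norm a y _ hn.ne_zero, e]
    exact mul_le_of_le_one_left
      (mul_nonneg (Real.rpow_nonneg (N_nonneg n) _) (gw_pos _).le) (ha n hn)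
  · simp

theorem summable_blks {a : R K → ℂ} (ha : PolyBd a) (y : ℝ) (s : ℂ) :
    Summable (fun n : R K => ‖if Prim n then
      a n * (N n : ℂ) ^ (-s) * (gw (Real.log (N n) - y) : ℂ) else 0‖) := by
  obtain ⟨C, j, hC⟩ := ha
  refine Summable.of_nonneg_of_le (fun _ => norm_nonneg _) (fun n => ?_)
    ((summable_gw_rpow (j - s.re) y).mul_left C)
  split_ifs with hn
  · rw [bl1_norm a y s hn.ne_zero, sub_eq_add_neg (j : ℝ), Real.rpow_add (N_pos hn.ne_zero), Real.rpow_natCast,
      mul_assoc, ← mul_assoc C]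
    exact mul_le_mul_of_nonneg_right (hC n hn)
      (mul_nonneg (Real.rpow_nonneg (N_nonneg n) _) (gw_pos _).le)
  · simp

theorem blks_congr {a b : R K → ℂ} (h : ∀ n, Prim n → a n = b n) (y : ℝ) (s : ℂ) :
    blks a y s = blks b y s := by
  refine tsum_congr fun n => ?_
  split_ifs with hn
  · rw [h n hn]
  · rfl

theorem pb_congr {a b : R K → ℂ} (h : ∀ n, Prim n → a n = b n) (y t : ℝ) : pb a y t = pb b y t := by
  exact blks_congr h _ _

theorem polyBd_of_le_one {a : R K → ℂ} (h : ∀ n, Prim n → ‖a n‖ ≤ 1) : PolyBd a := by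
  exact ⟨1, 0, fun n hn => by simpa using h n hn⟩

theorem blks_shift (a : R K → ℂ) (y x : ℝ) (s : ℂ) :
    blks a y (s - x) = (Real.exp (x * y + x ^ 2 / 4) : ℂ) * blks a (y + x / 2) s := by
  unfold blks
  rw [← tsum_mul_left]
  refine tsum_congr fun n => ?_
  split_ifs with hn
  · have h0 := N_pos hn.ne_zero
    have e : (N n : ℂ) ^ (-(s - x)) = (N n : ℂ) ^ (-s) * (Real.exp (x * Real.log (N n)) : ℝ) := by
      rw [mul_comm x, ← Real.rpow_def_of_pos h0, Complex.ofReal_cpow h0.le,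
        ← Complex.cpow_add _ _ (Complex.ofReal_ne_zero.2 h0.ne')]
      congr 1
      ring
    have e2 := congrArg (fun r : ℝ => (r : ℂ)) (exp_mul_gw x (Real.log (N n)) y)
    simp only [Complex.ofReal_mul] at e2
    rw [e]
    linear_combination (a n * (N n : ℂ) ^ (-s)) * e2
  · simp

theorem norm_pb_le : ∃ C, ∀ (a : R K → ℂ), (∀ n, Prim n → ‖a n‖ ≤ 1) → ∀ y t,
    ‖pb a y t‖ ≤ C * Real.exp (y / 2) := by
  obtain ⟨C, hC⟩ := tsum_gw_rpow (K := K) (-(1 / 2))
  refine ⟨C, fun a ha y t => (bl1_pb_le a ha y t).trans ((hC y).trans (le_of_eq ?_))⟩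
  congr 2
  ring

theorem norm_pb_le_neg (j : ℕ) : ∃ C, ∀ (a : R K → ℂ), (∀ n, Prim n → ‖a n‖ ≤ 1) → ∀ y t, y ≤ 0 →
    ‖pb a y t‖ ≤ C * Real.exp (j * y) := by
  obtain ⟨C, hC⟩ := tsum_gw_rpow_neg (K := K) (-(1 / 2)) j
  exact ⟨C, fun a ha y t hy => (bl1_pb_le a ha y t).trans (hC y hy)⟩

theorem blks_dvd {e : R K} (he : Prim e) (a : R K → ℂ) (y : ℝ) (s : ℂ) :
    blks (fun n => if e ∣ n then a n else 0) y s =
      (N e : ℂ) ^ (-s) * blks (fun m => a (e * m)) (y - Real.log (N e)) s := by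
  have h1 := tsum_prim_dvd he fun n => a n * (N n : ℂ) ^ (-s) * (gw (Real.log (N n) - y) : ℂ)
  unfold blks
  rw [← tsum_mul_left]
  refine Eq.trans (tsum_congr fun n => ?_) (h1.trans (tsum_congr fun m => ?_))
  · by_cases h1 : Prim n <;> by_cases h2 : e ∣ n <;> simp [h1, h2]
  · by_cases hm : Prim m
    · rw [if_pos hm, if_pos hm, N_mul, Complex.ofReal_mul,
        Complex.mul_cpow_ofReal_nonneg (N_nonneg e) (N_nonneg m),
        Real.log_mul (N_pos he.ne_zero).ne' (N_pos hm.ne_zero).ne',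
        show Real.log (N e) + Real.log (N m) - y = Real.log (N m) - (y - Real.log (N e)) by ring]
      ring
    · simp [hm]

theorem pb_dvd {e : R K} (he : Prim e) (a : R K → ℂ) (y t : ℝ) :
    pb (fun n => if e ∣ n then a n else 0) y t =
      (N e : ℂ) ^ (-(1 / 2 + t * Complex.I)) * pb (fun m => a (e * m)) (y - Real.log (N e)) t := by
  exact blks_dvd he a y _

end Crest.Agent.R312
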