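import Crest.Agent.R312.B0Block1

/-!
# R312 / B0Block2 : blocks II (port of R17/Block2)
-/

set_option autoImplicit false
set_option linter.unusedSectionVars false
set_option linter.unusedVariables false

noncomputable section

open scoped Classical ComplexConjugate NumberField
open MeasureTheory
open Crest.Agent.R17 (omC)

namespace Crest.Agent.R312

variable {K : Type} [Field K] [NumberField K] [Fld K] [Loc K] [Setup K]

theorem bk2_cpow {n : R K} (hn : n ≠ 0) (s : ℂ) :
    (N n : ℂ) ^ s = Complex.exp ((Real.log (N n) : ℂ) * s) := by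
  have h := N_pos hn
  rw [Complex.cpow_def_of_ne_zero (by exact_mod_cast h.ne'), Complex.ofReal_log h.le]

theorem conj_pb (a : R K → ℂ) (y t : ℝ) : conj (pb a y t) = pb (fun n => conj (a n)) y (-t) := by
  unfold pb blks
  rw [Complex.conj_tsum]
  refine tsum_congr fun n => ?_
  by_cases hn : Prim n
  · rw [if_pos hn, if_pos hn, map_mul, map_mul, Complex.conj_ofReal, bk2_cpow hn.ne_zero, bk2_cpow hn.ne_zero,
      ← Complex.exp_conj]
    congr 3
    simp only [map_mul, map_neg, map_add, map_div₀, map_one, Complex.conj_ofReal, Complex.conj_I,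
      map_ofNat, Complex.ofReal_neg]
    ring
  · simp [hn]

theorem blks_add {a b : R K → ℂ} (ha : PolyBd a) (hb : PolyBd b) (y : ℝ) (s : ℂ) :
    blks (fun n => a n + b n) y s = blks a y s + blks b y s := by
  unfold blks
  rw [← (summable_blks ha y s).of_norm.tsum_add (summable_blks hb y s).of_norm]
  refine tsum_congr fun n => ?_
  split_ifs
  · ring
  · simp

theorem blks_sum {ι : Type*} (S : Finset ι) {a : ι → R K → ℂ} (ha : ∀ i ∈ S, PolyBd (a i)) (y : ℝ)
    (s : ℂ) : blks (fun n => ∑ i ∈ S, a i n) y s = ∑ i ∈ S, blks (a i) y s := by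
  unfold blks
  rw [← Summable.tsum_finsetSum fun i hi => (summable_blks (ha i hi) y s).of_norm]
  refine tsum_congr fun n => ?_
  split_ifs
  · rw [Finset.sum_mul, Finset.sum_mul]
  · simp

theorem blks_smul (c : ℂ) (a : R K → ℂ) (y : ℝ) (s : ℂ) :
    blks (fun n => c * a n) y s = c * blks a y s := by
  unfold blks
  rw [← tsum_mul_left]
  refine tsum_congr fun n => ?_
  split_ifs
  · ring
  · simp

theorem bk2_gw_le {u y y0 : ℝ} (hu : 0 ≤ u) (hy : |y - y0| ≤ 1) :
    gw (u - y) ≤ Real.exp (2 * |y0|) * (Real.exp (u * 2) * gw (u - y0)) := by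
  unfold gw
  rw [← Real.exp_add, ← Real.exp_add]
  refine Real.exp_le_exp.2 ?_
  have h1 : (u - y0) * (y - y0) ≤ u + |y0| := by
    calc (u - y0) * (y - y0) ≤ |(u - y0) * (y - y0)| := le_abs_self _
      _ = |u - y0| * |y - y0| := abs_mul _ _
      _ ≤ |u - y0| * 1 := mul_le_mul_of_nonneg_left hy (abs_nonneg _)
      _ ≤ u + |y0| := by
        rw [mul_one]
        exact (abs_sub _ _).trans (by rw [abs_of_nonneg hu])
  nlinarith [sq_nonneg (y - y0)]

theorem continuous_pb {a : R K → ℂ} (ha : PolyBd a) :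
    Continuous (fun p : ℝ × ℝ => pb a p.1 p.2) := by
  obtain ⟨C, j, hC⟩ := ha
  rw [continuous_iff_continuousAt]
  intro p0
  have hS : {p : ℝ × ℝ | |p.1 - p0.1| ≤ 1} ∈ nhds p0 := by
    have h1 : IsOpen {p : ℝ × ℝ | |p.1 - p0.1| < 1} :=
      isOpen_lt (by fun_prop) continuous_const
    exact Filter.mem_of_superset (h1.mem_nhds (by simp)) fun p (hp : |p.1 - p0.1| < 1) => hp.le
  refine ContinuousOn.continuousAt ?_ hS
  unfold pb blks
  refine continuousOn_tsum (fun n => ?_)
    ((summable_gw_rpow ((j : ℝ) + 2) p0.1).mul_left (C * Real.exp (2 * |p0.1|))) fun n p hp => ?_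
  · by_cases hn : Prim n
    · simp only [if_pos hn, bk2_cpow hn.ne_zero]
      unfold gw
      fun_prop
    · simp only [if_neg hn]
      exact continuousOn_const
  · by_cases hn : Prim n
    · rw [if_pos hn, if_pos hn]
      have h1 := one_le_N hn.ne_zero
      have h0 := N_pos hn.ne_zero
      have hu := Real.log_nonneg h1
      have h2 : ‖(N n : ℂ) ^ (-(1 / 2 + (p.2 : ℂ) * Complex.I))‖ ≤ 1 := by
        rw [Complex.norm_cpow_eq_rpow_re_of_pos h0]
        refine Real.rpow_le_one_of_one_le_of_nonpos h1 ?_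
        simp
      have h3 := bk2_gw_le hu hp
      have h4 := hC n hn
      have h5 := gw_pos (Real.log (N n) - p.1)
      rw [norm_mul, norm_mul, Complex.norm_real, Real.norm_of_nonneg h5.le, Real.rpow_add h0,
        Real.rpow_natCast, Real.rpow_def_of_pos h0]
      calc _ ≤ (C * N n ^ j) * 1 * (Real.exp (2 * |p0.1|) *
            (Real.exp (Real.log (N n) * 2) * gw (Real.log (N n) - p0.1))) :=
          mul_le_mul (mul_le_mul h4 h2 (norm_nonneg _) ((norm_nonneg _).trans h4)) h3 h5.le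
            (by rw [mul_one]; exact (norm_nonneg _).trans h4)
        _ = _ := by ring
    · simp [hn]

/-- removing a coprimality condition (Möbius) for a multiplicative `ψ` -/
theorem pb_coprime {ψ : R K → ℂ} (hψ : ∀ a b, ψ (a * b) = ψ a * ψ b) (hb : ∀ n, ‖ψ n‖ ≤ 1) {a : R K}
    (ha : Prim a) (y t : ℝ) :
    pb (fun n => if IsCoprime n a then ψ n else 0) y t =
      ∑ e ∈ pdiv a, mu e * ψ e * (N e : ℂ) ^ (-(1 / 2 + t * Complex.I)) *
        pb ψ (y - Real.log (N e)) t := by
  have h1 : (fun n => if IsCoprime n a then ψ n else 0) =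
      fun n => ∑ e ∈ pdiv a, mu e * (if e ∣ n then ψ n else 0) := by
    funext n
    have h2 := sum_mu_coprime ha n
    rw [Finset.sum_filter] at h2
    have h3 : (if IsCoprime n a then ψ n else 0) = (if IsCoprime n a then 1 else 0) * ψ n := by
      split_ifs <;> simp
    rw [h3, ← h2, Finset.sum_mul]
    refine Finset.sum_congr rfl fun e _ => ?_
    split_ifs <;> simp
  have h2 : ∀ e, PolyBd fun n => mu e * (if e ∣ n then ψ n else 0) := by
    intro e
    refine polyBd_of_le_one fun n _ => ?_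
    rw [norm_mul]
    refine mul_le_one₀ (norm_mu_le e) (norm_nonneg _) ?_
    split_ifs
    · exact hb n
    · simp
  have h3 : pb (fun n => if IsCoprime n a then ψ n else 0) y t =
      ∑ e ∈ pdiv a, mu e * pb (fun n => if e ∣ n then ψ n else 0) y t := by
    unfold pb
    rw [h1, blks_sum _ fun e _ => h2 e]
    exact Finset.sum_congr rfl fun e _ => blks_smul _ _ _ _
  rw [h3]
  refine Finset.sum_congr rfl fun e he => ?_
  have he' := ((mem_pdiv ha.ne_zero).1 he).1
  have h4 : pb (fun m => ψ (e * m)) (y - Real.log (N e)) t = ψ e * pb ψ (y - Real.log (N e)) t := by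
    unfold pb
    rw [← blks_smul]
    simp only [hψ]
  rw [pb_dvd he', h4]
  ring

theorem bk2_quad (σ v τ : ℝ) :
    ((σ : ℂ) + τ * Complex.I) ^ 2 / 4 + (σ + τ * Complex.I) * v =
      (-1 / 4 : ℂ) * τ ^ 2 + (Complex.I * (σ / 2 + v)) * τ + (σ ^ 2 / 4 + σ * v) := by
  linear_combination (τ ^ 2 / 4 : ℂ) * Complex.I_sq

theorem bk2_integrable (σ v : ℝ) : Integrable fun τ : ℝ =>
    Complex.exp (((σ : ℂ) + τ * Complex.I) ^ 2 / 4 + (σ + τ * Complex.I) * v) := by
  simp only [bk2_quad]
  exact integrable_cexp_quadratic' (by norm_num) _ _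

theorem bk2_integral (σ v : ℝ) :
    ∫ τ : ℝ, Complex.exp (((σ : ℂ) + τ * Complex.I) ^ 2 / 4 + (σ + τ * Complex.I) * v) =
      2 * Real.sqrt Real.pi * (gw v : ℂ) := by
  simp only [bk2_quad]
  rw [integral_cexp_quadratic (by norm_num)]
  have h1 : ((Real.pi : ℂ) / -(-1 / 4)) ^ (1 / 2 : ℂ) = 2 * Real.sqrt Real.pi := by
    have h2 : ((Real.pi : ℂ) / -(-1 / 4)) = ((2 ^ 2 * Real.pi : ℝ) : ℂ) := by push_cast; ring
    have h3 : (1 / 2 : ℂ) = ((1 / 2 : ℝ) : ℂ) := by push_cast; ring
    rw [h2, h3, ← Complex.ofReal_cpow (by positivity), ← Real.sqrt_eq_rpow,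
      Real.sqrt_mul (by positivity), Real.sqrt_sq (by norm_num)]
    push_cast; ring
  rw [h1]
  congr 1
  unfold gw
  rw [Complex.ofReal_exp]
  congr 1
  push_cast
  linear_combination ((σ : ℂ) / 2 + v) ^ 2 * Complex.I_sq

/-- Mellin representation: `gw(u) = (1/2π) ∫ √π e^{w²/4} e^{-wu} dτ`, `w = σ + iτ` -/
theorem blks_mellin {a : R K → ℂ} (y σ : ℝ) (s : ℂ)
    (hs : Summable (fun n : R K => if Prim n then ‖a n‖ * N n ^ (-(s.re + σ)) else 0)) :
    blks a y s = (1 / (2 * Real.pi) : ℂ) * ∫ τ : ℝ, dser a (s + (σ + τ * Complex.I)) *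
      (Real.sqrt Real.pi * Complex.exp ((σ + τ * Complex.I) ^ 2 / 4 + (σ + τ * Complex.I) * y)) := by
  obtain ⟨G, hG⟩ : ∃ G : ℝ → ℂ, G = fun τ : ℝ => (Real.sqrt Real.pi : ℂ) *
      Complex.exp (((σ : ℂ) + τ * Complex.I) ^ 2 / 4 + (σ + τ * Complex.I) * y) := ⟨_, rfl⟩
  obtain ⟨F, hF⟩ : ∃ F : R K → ℝ → ℂ, F = fun n (τ : ℝ) =>
      (if Prim n then a n * (N n : ℂ) ^ (-(s + (σ + τ * Complex.I))) else 0) * G τ := ⟨_, rfl⟩
  have hGi : Integrable G := by rw [hG]; exact (bk2_integrable σ y).const_mul _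
  have hF0 : ∀ n, ¬ Prim n → F n = fun _ => 0 := fun n hn => by rw [hF]; funext τ; simp [hn]
  have hF1 : ∀ n, Prim n → F n = fun τ : ℝ => (a n * (N n : ℂ) ^ (-s) * Real.sqrt Real.pi) *
      Complex.exp (((σ : ℂ) + τ * Complex.I) ^ 2 / 4 +
        (σ + τ * Complex.I) * ((y - Real.log (N n) : ℝ) : ℂ)) := by
    intro n hn
    rw [hF, hG]
    funext τ
    simp only [if_pos hn, bk2_cpow hn.ne_zero]
    have e : Complex.exp ((Real.log (N n) : ℂ) * -(s + (σ + τ * Complex.I))) *
        Complex.exp (((σ : ℂ) + τ * Complex.I) ^ 2 / 4 + (σ + τ * Complex.I) * y) =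
        Complex.exp ((Real.log (N n) : ℂ) * -s) * Complex.exp (((σ : ℂ) + τ * Complex.I) ^ 2 / 4 +
          (σ + τ * Complex.I) * ((y - Real.log (N n) : ℝ) : ℂ)) := by
      rw [← Complex.exp_add, ← Complex.exp_add]
      congr 1
      rw [Complex.ofReal_sub]
      ring
    linear_combination (a n * Real.sqrt Real.pi) * e
  have hFi : ∀ n, Integrable (F n) := by
    intro n
    by_cases hn : Prim n
    · rw [hF1 n hn]; exact (bk2_integrable σ _).const_mul _
    · rw [hF0 n hn]; exact integrable_zero _ _ _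
  have hFs : Summable fun n => ∫ τ, ‖F n τ‖ := by
    refine (hs.mul_right (∫ τ, ‖G τ‖)).congr fun n => ?_
    by_cases hn : Prim n
    · rw [← integral_const_mul]
      refine integral_congr_ae (Filter.Eventually.of_forall fun τ => ?_)
      rw [hF]
      simp only [if_pos hn, norm_mul, Complex.norm_cpow_eq_rpow_re_of_pos (N_pos hn.ne_zero)]
      simp
    · rw [hF0 n hn, if_neg hn]
      simp
  have h1 : ∀ τ : ℝ, dser a (s + (σ + τ * Complex.I)) * (Real.sqrt Real.pi *
      Complex.exp ((σ + τ * Complex.I) ^ 2 / 4 + (σ + τ * Complex.I) * y)) = ∑' n, F n τ := by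
    intro τ
    rw [hF, hG]
    unfold dser
    rw [← tsum_mul_right]
  simp only [h1]
  rw [← integral_tsum_of_summable_integral_norm hFi hFs, ← tsum_mul_left]
  unfold blks
  refine tsum_congr fun n => ?_
  by_cases hn : Prim n
  · rw [if_pos hn, hF1 n hn, integral_const_mul, bk2_integral]
    have h2 : gw (y - Real.log (N n)) = gw (Real.log (N n) - y) := by
      unfold gw; congr 1; ring
    have h3 : (Real.sqrt Real.pi : ℂ) * Real.sqrt Real.pi = Real.pi := by
      rw [← Complex.ofReal_mul, Real.mul_self_sqrt Real.pi_pos.le]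
    have h4 : (Real.pi : ℂ) ≠ 0 := by exact_mod_cast Real.pi_pos.ne'
    rw [h2]
    field_simp
    linear_combination (-(a n * (N n : ℂ) ^ (-s) * (gw (Real.log (N n) - y) : ℂ))) * h3
  · rw [if_neg hn, hF0 n hn]; simp

theorem polySummable {a : R K → ℂ} (ha : PolyBd a) : ∃ x0 : ℝ, ∀ x, x0 ≤ x →
    Summable (fun n : R K => if Prim n then ‖a n‖ * N n ^ (-x) else 0) := by
  obtain ⟨C, j, hC⟩ := ha
  refine ⟨j + 2, fun x hx => Summable.of_nonneg_of_le (fun n => ?_) (fun n => ?_)
    ((summable_N_rpow (σ := 2) (by norm_num)).mul_left C)⟩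
  · split_ifs
    · exact mul_nonneg (norm_nonneg _) (Real.rpow_nonneg (N_nonneg n) _)
    · exact le_rfl
  · split_ifs with hn
    · have h0 := N_pos hn.ne_zero
      have h1 : N n ^ j * N n ^ (-x) ≤ N n ^ (-(2 : ℝ)) := by
        rw [← Real.rpow_natCast, ← Real.rpow_add h0]
        exact Real.rpow_le_rpow_of_exponent_le (one_le_N hn.ne_zero) (by linarith)
      have hC0 : 0 ≤ C := nonneg_of_mul_nonneg_left ((norm_nonneg _).trans (hC n hn)) (pow_pos h0 j)
      calc _ ≤ C * N n ^ j * N n ^ (-x) := mul_le_mul_of_nonneg_right (hC n hn) (Real.rpow_nonneg h0.le _)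
        _ ≤ _ := by rw [mul_assoc]; exact mul_le_mul_of_nonneg_left h1 hC0
    · simp

end Crest.Agent.R312
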