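import Crest.Agent.R312.B0Prim

/-!
# R312 / B0Class : classes, reciprocity bicharacter (ReadB, B0 (d))
-/

set_option autoImplicit false
set_option linter.unusedSectionVars false
set_option linter.unusedVariables false

noncomputable section

open scoped Classical ComplexConjugate NumberField
open Crest.Agent.R17 (omC)

namespace Crest.Agent.R312

variable {K : Type} [Field K] [NumberField K] [Fld K] [Loc K] [Setup K]

instance : Finite (G K) := finite_GG Setup.lev_pos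

instance : Fintype (G K) := Fintype.ofFinite _

theorem bc_ne {a : R K} (ha : a ≠ 0) : (a : K) ≠ 0 := fun h => ha (Subtype.ext h)

theorem cl_mul {a b : R K} (ha : a ≠ 0) (hb : b ≠ 0) : cl (a * b) = cl a * cl b := by
  unfold cl
  rw [Subring.coe_mul, clN_mul _ (bc_ne ha) (bc_ne hb)]

theorem cl_one : cl (1 : R K) = 1 :=
  clN_one _

theorem cl_pow {a : R K} (ha : a ≠ 0) (j : ℕ) : cl (a ^ j) = cl a ^ j := by
  unfold cl
  rw [SubmonoidClass.coe_pow, clN_pow _ (bc_ne ha)]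

theorem cl_pow_six {a : R K} (ha : a ≠ 0) : cl (a ^ 6) = 1 := by
  rw [cl_pow ha, GG_pow_six]

theorem cl_of_inU {a : R K} (ha : InU (Setup.lev K) (a : K)) : cl a = 1 :=
  clN_of_inU ha

theorem G_pow_six (g : G K) : g ^ 6 = 1 :=
  GG_pow_six g

theorem exists_cl (g : G K) {q : R K} (hq : q ≠ 0) (a : R K) : ∃ r, r ≠ 0 ∧ cl r = g ∧ q ∣ r - a :=
  exists_rep Setup.lev_pos g hq a

theorem exists_cl_cop (g : G K) {q : R K} (hq : q ≠ 0) : ∃ r, r ≠ 0 ∧ cl r = g ∧ IsCoprime r q := by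
  obtain ⟨r, h0, h1, h2⟩ := exists_cl g hq 1
  exact ⟨r, h0, h1, cop_congr h2 isCoprime_one_left⟩

/-- if `cl a = 1` some `a s⁶` with `s` coprime to `q` lies in `U` (approximation for `z`) -/
theorem exists_mul_pow_six {a : R K} (ha : a ≠ 0) (h : cl a = 1) {q : R K} (hq : q ≠ 0) :
    ∃ s : R K, s ≠ 0 ∧ IsCoprime s q ∧ InU (Setup.lev K) ((a * s ^ 6 : R K) : K) := by
  obtain ⟨u, z, hu, hz, e⟩ := (clN_eq_iff Setup.lev_pos (bc_ne ha) one_ne_zero).1
    (h.trans (clN_one _).symm)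
  obtain ⟨s, h1, h2⟩ := approx (Setup.lev K) (inv_ne_zero hz) hq 1
  refine ⟨s, ?_, cop_congr h1 isCoprime_one_left, ?_⟩
  · rintro rfl
    exact h2.ne_zero Setup.lev_pos (by simp)
  · have : ((a * s ^ 6 : R K) : K) = u * ((s : K) / z⁻¹) ^ 6 := by
      push_cast
      rw [e, div_inv_eq_mul]
      ring
    rw [this]
    exact hu.mul (h2.pow 6)

theorem Prim.cl_eq_unit {a u : R K} (ha : Prim a) (hu : IsUnit u) (h : cl a = cl u) : cl u = 1 := by
  obtain ⟨v, rfl⟩ := hu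
  exact Setup.prim_cl a v ha h

theorem gam_congr {a b : R K} (ha : a ≠ 0) (hb : b ≠ 0) (h : cl a = cl b) : gam a = gam b := by
  obtain ⟨u, z, hu, hz, e⟩ := (clN_eq_iff Setup.lev_pos (bc_ne ha) (bc_ne hb)).1 h
  exact Setup.gam_cls a b u (z ^ 3) ha hb hu (by rw [e]; ring)

theorem bc_zero {a b : R K} (ha : a ≠ 0) (h : ¬ IsCoprime b a) : chi a b = 0 :=
  ((chi_isChar ha).zero_iff b).2 h

theorem bc_qua_sq {a b : R K} (hb : b ≠ 0) (h : IsCoprime a b) : qua b a * qua b a = 1 := by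
  have := sym_pow_eq (k := 2) (Or.inl rfl) hb a
  rw [if_pos h, sq] at this
  exact this

theorem bc_six {a b : R K} (ha : a ≠ 0) (h : IsCoprime b a) : chi a b ^ 6 = 1 := by
  have := sym_pow_eq (k := 6) (Or.inr (Or.inr rfl)) ha b
  rw [if_pos h] at this
  exact this

theorem bc_norm {a b : R K} (ha : a ≠ 0) (h : IsCoprime b a) : ‖chi a b‖ = 1 :=
  (chi_isChar ha).norm_eq_one ha h

theorem bc_mul_conj {z : ℂ} (h : ‖z‖ = 1) : z * conj z = 1 := by
  rw [Complex.mul_conj, Complex.normSq_eq_norm_sq, h]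
  simp

theorem bc_mul_left {a a' : R K} (ha : a ≠ 0) (ha' : a' ≠ 0) (b : R K) :
    chi (a * a') b = chi a b * chi a' b := sym_mul_left 6 ha ha' b

/-- `a ∈ U`: cubic part `rec3`, quadratic part `gam_mul_cop`, `gam_congr` -/
theorem chi_rec_inU {a b : R K} (ha : InU (Setup.lev K) (a : K)) (hb : b ≠ 0) : chi a b = chi b a := by
  have ha0 : a ≠ 0 := by
    rintro rfl
    exact ha.ne_zero Setup.lev_pos (by simp)
  by_cases hab : IsCoprime a b
  · have h1 : cl a = 1 := cl_of_inU ha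
    have h2 : gam (a * b) = gam b := gam_congr (mul_ne_zero ha0 hb) hb
      (by rw [cl_mul ha0 hb, h1]; exact one_mul (cl b))
    have h3 : gam a = 1 := (gam_congr ha0 one_ne_zero (h1.trans cl_one.symm)).trans gam_one
    have h4 := gam_mul_cop ha0 hb hab
    have h5 : gam b ≠ 0 := by
      intro h
      have := norm_gam hb
      rw [h, norm_zero] at this
      exact zero_ne_one this
    rw [h2, h3, one_mul] at h4
    have h6 : qua a b * qua b a = 1 := mul_left_cancel₀ h5 (by rw [← h4, mul_one])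
    have h7 := bc_qua_sq hb hab
    have h8 : qua a b = qua b a := by
      linear_combination qua b a * h6 - qua a b * h7
    rw [chi_eq_qua_mul ha0, chi_eq_qua_mul hb, h8, Setup.rec3 a b ha hb]
  · rw [bc_zero ha0 fun h => hab h.symm, bc_zero hb hab]

theorem chi_rec_one {a b : R K} (ha : a ≠ 0) (h : cl a = 1) (hb : b ≠ 0) : chi a b = chi b a := by
  by_cases hab : IsCoprime a b
  · obtain ⟨s, hs, hsb, hU⟩ := exists_mul_pow_six ha h hb
    have e := chi_rec_inU hU hb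
    have e1 : chi (s ^ 6) b = chi s b ^ 6 := sym_pow_left 6 hs 6 b
    rwa [bc_mul_left ha (pow_ne_zero 6 hs), e1, bc_six hs hsb.symm, mul_one, (chi_isChar hb).mul,
      chi_pow_six hb, if_pos hsb.symm, mul_one] at e
  · rw [bc_zero ha fun h => hab h.symm, bc_zero hb hab]

/-- the reciprocity quotient -/
def bcR (a b : R K) : ℂ := chi a b * conj (chi b a)

theorem bcR_swap (a b : R K) : bcR b a = conj (bcR a b) := by
  simp [bcR, mul_comm]

theorem bcR_mul {a a' b : R K} (ha : a ≠ 0) (ha' : a' ≠ 0) (hb : b ≠ 0) :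
    bcR (a * a') b = bcR a b * bcR a' b := by
  unfold bcR
  rw [bc_mul_left ha ha', (chi_isChar hb).mul, map_mul]
  ring

theorem bcR_one {a b : R K} (ha : a ≠ 0) (h : cl a = 1) (hb : b ≠ 0) (hab : IsCoprime a b) :
    bcR a b = 1 := by
  unfold bcR
  rw [chi_rec_one ha h hb, bc_mul_conj (bc_norm hb hab)]

theorem bcR_left {a a' b : R K} (ha : a ≠ 0) (ha' : a' ≠ 0) (hb : b ≠ 0) (hab : IsCoprime a b)
    (hab' : IsCoprime a' b) (h : cl a = cl a') : bcR a b = bcR a' b := by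
  obtain ⟨r, hr, h1, h2⟩ := exists_cl_cop (cl a)⁻¹ hb
  have e1 := bcR_one (mul_ne_zero ha hr) (by rw [cl_mul ha hr, h1, mul_inv_cancel]) hb
    (hab.mul_left h2)
  have e2 := bcR_one (mul_ne_zero ha' hr) (by rw [cl_mul ha' hr, h1, h, mul_inv_cancel]) hb
    (hab'.mul_left h2)
  rw [bcR_mul ha hr hb] at e1
  rw [bcR_mul ha' hr hb] at e2
  linear_combination bcR a' b * e1 - bcR a b * e2

theorem bcR_congr {a a' b b' : R K} (ha : a ≠ 0) (ha' : a' ≠ 0) (hb : b ≠ 0) (hb' : b' ≠ 0)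
    (hab : IsCoprime a b) (hab' : IsCoprime a' b') (h : cl a = cl a') (h' : cl b = cl b') :
    bcR a b = bcR a' b' := by
  obtain ⟨r, hr, h1, h2⟩ := exists_cl_cop (cl a) (mul_ne_zero hb hb')
  have c1 : IsCoprime r b := h2.of_mul_right_left
  have c2 : IsCoprime r b' := h2.of_mul_right_right
  rw [bcR_left ha hr hb hab c1 h1.symm, bcR_left ha' hr hb' hab' c2 (h.symm.trans h1.symm),
    bcR_swap b r, bcR_swap b' r, bcR_left hb hb' hr c1.symm c2.symm h']

theorem bc_sg {a b : R K} (ha : a ≠ 0) (hb : b ≠ 0) (hab : IsCoprime a b) : sg a b = bcR a b := by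
  have hx : ∃ p : R K × R K, p.1 ≠ 0 ∧ p.2 ≠ 0 ∧ IsCoprime p.1 p.2 ∧ cl p.1 = cl a ∧ cl p.2 = cl b :=
    ⟨(a, b), ha, hb, hab, rfl, rfl⟩
  unfold sg HH
  rw [dif_pos hx]
  obtain ⟨h1, h2, h3, h4, h5⟩ := hx.choose_spec
  exact bcR_congr h1 ha h2 hb h3 hab h4 h5

theorem bc_rep (g h : G K) : ∃ a b : R K, a ≠ 0 ∧ b ≠ 0 ∧ IsCoprime a b ∧ cl a = g ∧ cl b = h ∧
    HH g h = bcR a b := by
  obtain ⟨b, hb, h1, -⟩ := exists_cl_cop h (one_ne_zero (α := R K))
  obtain ⟨a, ha, h2, h3⟩ := exists_cl_cop g hb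
  refine ⟨a, b, ha, hb, h3, h2, h1, ?_⟩
  rw [← h1, ← h2]
  exact bc_sg ha hb h3

/-- **sextic reciprocity** -/
theorem chi_rec {a b : R K} (ha : a ≠ 0) (hb : b ≠ 0) : chi a b = sg a b * chi b a := by
  by_cases hab : IsCoprime a b
  · rw [bc_sg ha hb hab, bcR, mul_assoc, mul_comm (conj _), bc_mul_conj (bc_norm hb hab), mul_one]
  · rw [bc_zero ha fun h => hab h.symm, bc_zero hb hab, mul_zero]

theorem cub_rec {a b : R K} (ha : a ≠ 0) (hb : b ≠ 0) : cub a b = sg a b ^ 2 * cub b a := by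
  rw [← chi_sq ha, ← chi_sq hb, chi_rec ha hb, mul_pow]

theorem qua_rec {a b : R K} (ha : a ≠ 0) (hb : b ≠ 0) : qua a b = sg a b ^ 3 * qua b a := by
  rw [← chi_cube ha, ← chi_cube hb, chi_rec ha hb, mul_pow]

theorem bc_swap (g h : G K) : HH h g = conj (HH g h) := by
  obtain ⟨a, b, ha, hb, hab, rfl, rfl, e⟩ := bc_rep g h
  have e1 : HH (cl b) (cl a) = _ := bc_sg hb ha hab.symm
  rw [e, e1, bcR_swap]

theorem HH_mul_left (g g' h : G K) : HH (g * g') h = HH g h * HH g' h := by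
  obtain ⟨a, b, ha, hb, hab, rfl, rfl, e⟩ := bc_rep g h
  obtain ⟨a', ha', rfl, hab'⟩ := exists_cl_cop g' hb
  rw [← cl_mul ha ha', e]
  have e1 : HH (cl (a * a')) (cl b) = _ := bc_sg (mul_ne_zero ha ha') hb (hab.mul_left hab')
  have e2 : HH (cl a') (cl b) = _ := bc_sg ha' hb hab'
  rw [e1, e2, bcR_mul ha ha' hb]

theorem HH_mul_right (g h h' : G K) : HH g (h * h') = HH g h * HH g h' := by
  rw [bc_swap (h * h') g, HH_mul_left, map_mul, ← bc_swap, ← bc_swap]

theorem HH_one_left (h : G K) : HH 1 h = 1 := by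
  obtain ⟨a, b, ha, hb, hab, h1, -, e⟩ := bc_rep 1 h
  rw [e, bcR_one ha h1 hb hab]

theorem HH_one_right (g : G K) : HH g 1 = 1 := by
  rw [bc_swap, HH_one_left, map_one]

theorem norm_HH (g h : G K) : ‖HH g h‖ = 1 := by
  obtain ⟨a, b, ha, hb, hab, -, -, e⟩ := bc_rep g h
  rw [e, bcR, norm_mul, Complex.norm_conj, bc_norm ha hab.symm, bc_norm hb hab, mul_one]

theorem HH_swap (g h : G K) : HH h g = conj (HH g h) :=
  bc_swap g h

theorem HH_pow_six (g h : G K) : HH g h ^ 6 = 1 := by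
  obtain ⟨a, b, ha, hb, hab, -, -, e⟩ := bc_rep g h
  rw [e, bcR, mul_pow, ← map_pow, bc_six ha hab.symm, bc_six hb hab, map_one, mul_one]

theorem sg_eq {a b : R K} (ha : a ≠ 0) (hb : b ≠ 0) (hab : IsCoprime a b) :
    sg a b = chi a b * conj (chi b a) :=
  bc_sg ha hb hab

theorem norm_sg (a b : R K) : ‖sg a b‖ = 1 :=
  norm_HH _ _

theorem sg_swap (a b : R K) : sg b a = conj (sg a b) :=
  HH_swap _ _

theorem sg_mul_conj (a b : R K) : sg a b * conj (sg a b) = 1 :=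
  bc_mul_conj (norm_sg a b)

theorem sg_pow_six (a b : R K) : sg a b ^ 6 = 1 :=
  HH_pow_six _ _

theorem sg_one_left (b : R K) : sg 1 b = 1 := by
  rw [sg, cl_one, HH_one_left]

theorem sg_one_right (a : R K) : sg a 1 = 1 := by
  rw [sg, cl_one, HH_one_right]

theorem sg_mul_left {a a' : R K} (ha : a ≠ 0) (ha' : a' ≠ 0) (b : R K) :
    sg (a * a') b = sg a b * sg a' b := by
  rw [sg, cl_mul ha ha', HH_mul_left]
  rfl

theorem sg_mul_right (a : R K) {b b' : R K} (hb : b ≠ 0) (hb' : b' ≠ 0) :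
    sg a (b * b') = sg a b * sg a b' := by
  rw [sg, cl_mul hb hb', HH_mul_right]
  rfl

theorem sg_pow_left {a : R K} (ha : a ≠ 0) (b : R K) (j : ℕ) : sg (a ^ j) b = sg a b ^ j := by
  induction j with
  | zero => rw [pow_zero, pow_zero, sg_one_left]
  | succ j ih => rw [pow_succ, pow_succ, sg_mul_left (pow_ne_zero j ha) ha, ih]

theorem sg_pow_right (a : R K) {b : R K} (hb : b ≠ 0) (j : ℕ) : sg a (b ^ j) = sg a b ^ j := by
  induction j with
  | zero => rw [pow_zero, pow_zero, sg_one_right]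
  | succ j ih => rw [pow_succ, pow_succ, sg_mul_right a (pow_ne_zero j hb) hb, ih]

theorem sg_congr {a a' b b' : R K} (h : cl a = cl a') (h' : cl b = cl b') : sg a b = sg a' b' := by
  rw [sg, sg, h, h']

theorem chi_unit {a u : R K} (ha : a ≠ 0) (hu : IsUnit u) : chi a u = sg a u := by
  have e : chi u a = 1 := sym_unit 6 hu a
  rw [chi_rec ha hu.ne_zero, e, mul_one]

theorem chi_unit_of_cl {a u : R K} (ha : a ≠ 0) (hu : IsUnit u) (h : cl u = 1) : chi a u = 1 := by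
  rw [chi_unit ha hu, sg, h, HH_one_right]

theorem chi_unit_congr {a b u : R K} (ha : a ≠ 0) (hb : b ≠ 0) (h : cl a = cl b) (hu : IsUnit u) :
    chi a u = chi b u := by
  rw [chi_unit ha hu, chi_unit hb hu, sg_congr h rfl]

/-- `d ↦ χ_{m₁}(d) conj χ_{m₂}(d)` is unit invariant when `cl m₁ = cl m₂` -/
theorem chi_conj_unit {m1 m2 : R K} (h1 : m1 ≠ 0) (h2 : m2 ≠ 0) (h : cl m1 = cl m2) (u : (R K)ˣ)
    (d : R K) : chi m1 (u * d) * conj (chi m2 (u * d)) = chi m1 d * conj (chi m2 d) := by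
  rw [(chi_isChar h1).mul, (chi_isChar h2).mul, map_mul, chi_unit h1 u.isUnit, chi_unit h2 u.isUnit,
    sg_congr h rfl]
  linear_combination chi m1 d * conj (chi m2 d) * sg_mul_conj m2 (u : R K)

theorem f1_congr {a b : R K} (ha : a ≠ 0) (hb : b ≠ 0) (h : cl a = cl b) : f1 a = f1 b := by
  rw [f1, f1, chi_unit_congr ha hb h isUnit_four, gam_congr ha hb h]

theorem gam_mul {a b : R K} (ha : a ≠ 0) (hb : b ≠ 0) : gam (a * b) = gam a * gam b * sg a b ^ 3 := by
  obtain ⟨b', hb', h1, h2⟩ := exists_cl_cop (cl b) ha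
  rw [gam_congr (mul_ne_zero ha hb) (mul_ne_zero ha hb') (by rw [cl_mul ha hb, cl_mul ha hb', h1]),
    gam_mul_cop ha hb' h2.symm, gam_congr hb' hb h1, qua_rec ha hb', sg_congr rfl h1, mul_assoc (_ ^ 3),
    bc_qua_sq hb' h2.symm, mul_one]

theorem f1_mul {a b : R K} (ha : a ≠ 0) (hb : b ≠ 0) : f1 (a * b) = f1 a * f1 b * sg a b ^ 3 := by
  rw [f1, f1, f1, gam_mul ha hb, bc_mul_left ha hb, map_mul]
  ring

theorem gt_mul {a b : R K} (ha : a ≠ 0) (hb : b ≠ 0) (hab : IsCoprime a b) :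
    gt (a * b) = gt a * gt b * chi b a ^ 2 * sg a b := by
  rw [gt_mul_cop ha hb hab, chi_rec ha hb]
  ring

/-- `f1`, `gam` as functions on `G` -/
theorem exists_f1_cl : ∃ φ : G K → ℂ, (∀ g, ‖φ g‖ = 1) ∧ ∀ a : R K, a ≠ 0 → f1 a = φ (cl a) := by
  choose r h0 h1 _ using fun g : G K => exists_cl_cop g (one_ne_zero (α := R K))
  exact ⟨fun g => f1 (r g), fun g => norm_f1 (h0 g), fun a ha => f1_congr ha (h0 _) (h1 _).symm⟩

theorem exists_gam_cl : ∃ φ : G K → ℂ, (∀ g, ‖φ g‖ = 1) ∧ ∀ a : R K, a ≠ 0 → gam a = φ (cl a) := by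
  choose r h0 h1 _ using fun g : G K => exists_cl_cop g (one_ne_zero (α := R K))
  exact ⟨fun g => gam (r g), fun g => norm_gam (h0 g), fun a ha => gam_congr ha (h0 _) (h1 _).symm⟩

end Crest.Agent.R312
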