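import Crest.Agent.R312.B0Loc

/-!
# R312 / B0Fin : normalising `S`-valuations; `GG` is finite
-/

set_option autoImplicit false
set_option linter.unusedSectionVars false
set_option linter.unusedVariables false

noncomputable section

open scoped Classical ComplexConjugate NumberField
open Crest.Agent.R17 (omC)

namespace Crest.Agent.R312

variable {K : Type} [Field K] [NumberField K] [Loc K]

theorem b0fin_Q_ne : ((Loc.Q K : ℕ) : 𝓞 K) ≠ 0 := Nat.cast_ne_zero.2 Loc.Q_ne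

theorem b0fin_sInt {M : ℕ} {y : 𝓞 K} (hy : y ≠ 0)
    (h : ∀ P : Ideal (𝓞 K), Prime P → P ∣ Ideal.span {((Loc.Q K : ℕ) : 𝓞 K)} →
      ¬ P ^ M ∣ Ideal.span {y}) : SInt ((Loc.Q K : K) ^ M / (y : K)) := by
  set I : Ideal (𝓞 K) := Ideal.span {y} with hI
  set J : Ideal (𝓞 K) := Ideal.span {((Loc.Q K : ℕ) : 𝓞 K)} with hJ
  have hI0 : I ≠ 0 := by simpa [hI] using hy
  have hJ0 : J ≠ 0 := by simpa [hJ] using b0fin_Q_ne (K := K)
  obtain ⟨a, ha⟩ : I ⊔ J ^ M ∣ I := Ideal.dvd_iff_le.2 le_sup_left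
  obtain ⟨b, hb⟩ : I ⊔ J ^ M ∣ J ^ M := Ideal.dvd_iff_le.2 le_sup_right
  have hD : I ⊔ J ^ M ≠ 0 := fun e => hI0 (by rw [ha, e, zero_mul])
  have hab : a ⊔ b = ⊤ := by
    refine mul_left_cancel₀ hD ?_
    rw [Ideal.mul_sup, ← ha, ← hb, Ideal.mul_top]
  have haJ : a ⊔ J = ⊤ := by
    by_contra hne
    obtain ⟨P, hP, hle⟩ := Ideal.exists_le_maximal _ hne
    have hPJ : P ∣ J := Ideal.dvd_iff_le.2 (le_sup_right.trans hle)
    have hP0 : P ≠ ⊥ := fun e => hJ0 (zero_dvd_iff.1 (by rwa [e] at hPJ))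
    have hp : Prime P := Ideal.prime_of_isPrime hP0 hP.isPrime
    have hPb : ¬ P ∣ b := fun hd => hP.ne_top (top_le_iff.1 (hab ▸ sup_le (le_sup_left.trans hle)
      (Ideal.dvd_iff_le.1 hd)))
    have h1 : P ^ M ∣ I ⊔ J ^ M := hp.pow_dvd_of_dvd_mul_right M hPb (hb ▸ pow_dvd_pow_of_dvd hPJ M)
    exact h P hp hPJ (h1.trans ⟨a, ha⟩)
  obtain ⟨t, ht, s, hs, hts⟩ := Submodule.mem_sup.1 (haJ ▸ Submodule.mem_top : (1 : 𝓞 K) ∈ a ⊔ J)
  obtain ⟨s, rfl⟩ := Ideal.mem_span_singleton'.1 hs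
  have hcop : IsCoprime t ((Loc.Q K : ℕ) : 𝓞 K) := ⟨1, s, by rw [one_mul, hts]⟩
  have hmem : ((Loc.Q K : ℕ) : 𝓞 K) ^ M * t ∈ I := by
    rw [ha]
    exact Ideal.mul_mem_mul (Ideal.mem_sup_right
      (Ideal.pow_mem_pow (Ideal.mem_span_singleton_self _) M)) ht
  obtain ⟨w, hw⟩ := Ideal.mem_span_singleton'.1 hmem
  have ht0 : (t : K) ≠ 0 := by
    intro e
    have e' : t = 0 := by exact_mod_cast e
    rw [e', isCoprime_zero_left] at hcop
    have h1 := (Ideal.span_singleton_eq_top.2 hcop)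
    have h2 := congrArg Ideal.absNorm h1
    rw [Ideal.absNorm_span_natCast, Ideal.absNorm_top] at h2
    have h3 := two_le_Q (K := K)
    rcases Nat.pow_eq_one.1 h2 with h4 | h4
    · omega
    · exact Module.finrank_pos.ne' h4
  have hy0 : (y : K) ≠ 0 := by exact_mod_cast hy
  have e : (Loc.Q K : K) ^ M / (y : K) = (w : K) * (t : K)⁻¹ := by
    have h1 : (w : K) * (y : K) = (Loc.Q K : K) ^ M * (t : K) := by exact_mod_cast congrArg (fun z : 𝓞 K => (z : K)) hw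
    field_simp
    linear_combination -h1
  rw [e]
  exact (SInt.coe w).mul (SInt.inv_of_isCoprime hcop)

theorem b0fin_core {k : ℕ} (hk : 1 ≤ k) (x : 𝓞 K) (hx : x ≠ 0) : ∃ (y w : 𝓞 K) (j : ℕ), y ≠ 0 ∧
    x = y * w ^ k ∧ w ∣ ((Loc.Q K : ℕ) : 𝓞 K) ^ j ∧
    SInt ((Loc.Q K : K) ^ (Fintype.card (ClassGroup (𝓞 K)) * k) / (y : K)) := by
  induction hn : Ideal.absNorm (Ideal.span {x}) using Nat.strong_induction_on generalizing x with
  | _ n ih =>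
    by_cases h : ∀ P : Ideal (𝓞 K), Prime P → P ∣ Ideal.span {((Loc.Q K : ℕ) : 𝓞 K)} →
        ¬ P ^ (Fintype.card (ClassGroup (𝓞 K)) * k) ∣ Ideal.span {x}
    · exact ⟨x, 1, 0, hx, by simp, by simp, b0fin_sInt hx h⟩
    push Not at h
    obtain ⟨P, hP, hPQ, hPx⟩ := h
    have hh : Fintype.card (ClassGroup (𝓞 K)) ≠ 0 := Fintype.card_ne_zero
    have hP0 : P ∈ nonZeroDivisors (Ideal (𝓞 K)) := mem_nonZeroDivisors_of_ne_zero hP.ne_zero
    have hpr : (P ^ Fintype.card (ClassGroup (𝓞 K))).IsPrincipal := by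
      refine (ClassGroup.mk0_eq_one_iff (pow_mem hP0 _)).1 ?_
      have := map_pow (ClassGroup.mk0 (R := 𝓞 K)) ⟨P, hP0⟩ (Fintype.card (ClassGroup (𝓞 K)))
      rw [pow_card_eq_one] at this
      exact this
    obtain ⟨w, hw⟩ := hpr
    rw [Ideal.submodule_span_eq] at hw
    rw [pow_mul, hw, Ideal.span_singleton_pow, Ideal.dvd_span_singleton, Ideal.mem_span_singleton] at hPx
    obtain ⟨x1, rfl⟩ := hPx
    have hx1 : x1 ≠ 0 := right_ne_zero_of_mul hx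
    have hwQ : w ∣ ((Loc.Q K : ℕ) : 𝓞 K) ^ Fintype.card (ClassGroup (𝓞 K)) := by
      rw [← Ideal.mem_span_singleton, ← Ideal.dvd_span_singleton, ← hw, ← Ideal.span_singleton_pow]
      exact pow_dvd_pow_of_dvd hPQ _
    have hlt : Ideal.absNorm (Ideal.span {x1}) < n := by
      rw [← hn, ← Ideal.span_singleton_mul_span_singleton, map_mul, ← Ideal.span_singleton_pow, ← hw,
        map_pow, map_pow, ← pow_mul]
      have h1 : Ideal.absNorm P ≠ 0 := by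
        rw [Ne, Ideal.absNorm_eq_zero_iff]; exact hP.ne_zero
      have h2 : Ideal.absNorm P ≠ 1 := by
        rw [Ne, Ideal.absNorm_eq_one_iff]; exact fun e => hP.not_isUnit (Ideal.isUnit_iff.2 e)
      have h3 : Ideal.absNorm (Ideal.span {x1}) ≠ 0 := by
        rw [Ne, Ideal.absNorm_eq_zero_iff, Ideal.span_singleton_eq_bot]; exact hx1
      exact lt_mul_of_one_lt_left (Nat.pos_of_ne_zero h3)
        (Nat.one_lt_pow (Nat.mul_ne_zero hh (by omega)) (by omega))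
    obtain ⟨y, w', j, hy, e, hw', hs⟩ := ih _ hlt x1 hx1 rfl
    refine ⟨y, w * w', Fintype.card (ClassGroup (𝓞 K)) + j, hy, by rw [e]; ring, ?_, hs⟩
    rw [pow_add]
    exact mul_dvd_mul hwQ hw'

theorem b0fin_R {k : ℕ} (hk : 1 ≤ k) : ∃ M : ℕ, ∀ x : R K, x ≠ 0 → ∃ (y : 𝓞 K) (u : (R K)ˣ),
    y ≠ 0 ∧ x = toR y * (u : R K) ^ k ∧ SInt ((Loc.Q K : K) ^ M / (y : K)) := by
  refine ⟨Fintype.card (ClassGroup (𝓞 K)) * k, fun x hx => ?_⟩
  obtain ⟨n, y0, h0⟩ := exists_toR x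
  obtain ⟨q, hq⟩ := isUnit_Q (K := K)
  have hy0 : y0 ≠ 0 := by
    rintro rfl
    rw [map_zero, ← hq] at h0
    exact hx ((q ^ n).isUnit.mul_right_eq_zero.1 (by simpa using h0.symm))
  obtain ⟨y, w, j, hy, e, hw, hs⟩ := b0fin_core hk (((Loc.Q K : ℕ) : 𝓞 K) ^ (n * (k - 1)) * y0)
    (mul_ne_zero (pow_ne_zero _ b0fin_Q_ne) hy0)
  obtain ⟨u, hu⟩ : IsUnit (toR w) := by
    refine isUnit_of_dvd_unit (map_dvd toR hw) ?_
    rw [map_pow, map_natCast]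
    exact isUnit_Q.pow _
  refine ⟨y, u * q⁻¹ ^ n, hy, ?_, hs⟩
  have e' := congrArg toR e
  rw [map_mul, map_mul, map_pow, map_pow, map_natCast, h0, ← hq, ← hu, ← mul_assoc, ← pow_add,
    show n * (k - 1) + n = n * k by
      obtain ⟨k, rfl⟩ := Nat.exists_eq_add_of_le' hk
      simp [mul_add]] at e'
  rw [Units.val_mul, mul_pow, ← mul_assoc, ← e', Units.val_pow_eq_pow_val, ← pow_mul, mul_right_comm,
    ← mul_pow, Units.mul_inv, one_pow, one_mul]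

/-- Normal form modulo `k`-th powers.  Let `h` be the class number and `M = k h`.  Strong induction on
`absNorm I`: if a prime `P ∣ Q` has `P^M ∣ I`, remove `P^M = (ϖ)^k` (`P^h = (ϖ)`).  Otherwise put
`𝔯 = gcd(I, Q^M)`, `I = 𝔯𝔞`, and `𝔞` is coprime to `Q`.  So `x = z^k y`, `(y) = 𝔯𝔞`, and
`Q^M N(𝔞) ∈ (y)`.  For `x ∈ K` first multiply by the `k`-th power of a denominator. -/
theorem exists_normal {k : ℕ} (hk : 1 ≤ k) : ∃ M : ℕ, ∀ x : K, x ≠ 0 → ∃ (y : 𝓞 K) (z : K),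
    y ≠ 0 ∧ z ≠ 0 ∧ x = (y : K) * z ^ k ∧ SInt ((Loc.Q K : K) ^ M / (y : K)) := by
  obtain ⟨M, hM⟩ := b0fin_R (K := K) hk
  refine ⟨M, fun x hx => ?_⟩
  obtain ⟨a, b, hb, rfl⟩ := exists_div x
  have hb' : (b : K) ≠ 0 := by exact_mod_cast hb
  have ha : a ≠ 0 := by
    rintro rfl
    simp at hx
  obtain ⟨y, u, hy, e, hs⟩ := hM (a * b ^ (k - 1)) (mul_ne_zero ha (pow_ne_zero _ hb))
  have hu : ((u : R K) : K) ≠ 0 := by exact_mod_cast u.ne_zero
  refine ⟨y, ((u : R K) : K) / (b : K), hy, div_ne_zero hu hb', ?_, hs⟩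
  have e' : (a : K) * (b : K) ^ (k - 1) = (y : K) * ((u : R K) : K) ^ k := by
    simpa using congrArg (fun z : R K => (z : K)) e
  obtain ⟨k, rfl⟩ := Nat.exists_eq_add_of_le' hk
  rw [Nat.add_sub_cancel] at e'
  rw [div_pow, ← mul_div_assoc, ← e', pow_succ]
  field_simp

/-- the same inside `R`: the factor removed is a unit of `R` -/
theorem exists_normal_R {k : ℕ} (hk : 1 ≤ k) : ∃ M : ℕ, ∀ x : R K, x ≠ 0 → ∃ (y : 𝓞 K) (u : (R K)ˣ),
    y ≠ 0 ∧ x = toR y * (u : R K) ^ k ∧ SInt ((Loc.Q K : K) ^ M / (y : K)) := by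
  exact b0fin_R hk

/-- two normal forms `y ≡ y' mod Q^(n+M)` have `y'/y ∈ U_n`, and `𝓞/Q^(n+M)` is finite -/
theorem finite_GG {n : ℕ} (hn : 1 ≤ n) : Finite (GG K n) := by
  obtain ⟨M, hM⟩ := exists_normal (K := K) (k := 6) (by norm_num)
  have hex : ∀ g : GG K n, ∃ y : 𝓞 K, y ≠ 0 ∧ clN n (y : K) = g ∧
      SInt ((Loc.Q K : K) ^ M / (y : K)) := fun g => by
    obtain ⟨x, hx, rfl⟩ := clN_surj g
    obtain ⟨y, z, hy, hz, e, hs⟩ := hM x hx
    have hy' : (y : K) ≠ 0 := by exact_mod_cast hy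
    refine ⟨y, hy, ?_, hs⟩
    rw [e, clN_mul n hy' (pow_ne_zero _ hz), clN_pow n hz, GG_pow_six]
    exact (mul_one (M := GG K n) _).symm
  choose y hy0 hy hs using hex
  have := Ideal.finiteQuotientOfFreeOfNeBot (Ideal.span {((Loc.Q K : ℕ) : 𝓞 K) ^ (n + M)})
    (by rw [Ne, Ideal.span_singleton_eq_bot]; exact pow_ne_zero _ b0fin_Q_ne)
  refine Finite.of_injective (fun g => Ideal.Quotient.mk
    (Ideal.span {((Loc.Q K : ℕ) : 𝓞 K) ^ (n + M)}) (y g)) fun g g' h => ?_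
  obtain ⟨t, ht⟩ := Ideal.mem_span_singleton'.1 (Ideal.Quotient.eq.1 h)
  have h1 : (y g : K) ≠ 0 := by exact_mod_cast hy0 g
  have h2 : (y g' : K) ≠ 0 := by exact_mod_cast hy0 g'
  have ht' : (t : K) * (Loc.Q K : K) ^ (n + M) = (y g : K) - (y g' : K) := by
    exact_mod_cast congrArg (fun z : 𝓞 K => (z : K)) ht
  rw [← hy g, ← hy g', clN_eq_iff hn h1 h2]
  refine ⟨(y g : K) / (y g' : K), 1, ⟨_, (hs g').mul (SInt.coe t), ?_⟩, one_ne_zero, by field_simp⟩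
  field_simp
  linear_combination -ht'

end Crest.Agent.R312
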