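import Crest.Agent.R312.B0Sym3

/-!
# R312 / B0Gam : quadratic, cubic and sextic Gauss sums without reciprocity (cf. R17/RecQua, RecKey, RecSex)
-/

set_option autoImplicit false
set_option linter.unusedSectionVars false
set_option linter.unusedVariables false

noncomputable section

open scoped Classical ComplexConjugate NumberField
open Crest.Agent.R17 (omC)

namespace Crest.Agent.R312

variable {K : Type} [Field K] [NumberField K] [Fld K] [Loc K]

theorem gA_sqrt_ne {n : R K} (hn : n ≠ 0) : (Real.sqrt (N n) : ℂ) ≠ 0 :=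
  Complex.ofReal_ne_zero.2 (Real.sqrt_pos.2 (N_pos hn)).ne'

theorem gA_sq {n : R K} (hn : n ≠ 0) : ∑ x ∈ res n, ad n (1 * x ^ 2) = (Real.sqrt (N n) : ℂ) * gam n := by
  simp only [one_mul]
  rw [gam, mul_div_cancel₀ _ (gA_sqrt_ne hn)]

theorem gA_per (n c : R K) : Per n fun x => ad n (c * x ^ 2) := fun x t => by
  simp only
  rw [show c * (x + n * t) ^ 2 = c * x ^ 2 + n * (c * (2 * x * t + n * t ^ 2)) by ring, ad_add,
    ad_of_dvd (dvd_mul_right _ _), mul_one]

theorem gA_single {q : R K} (hq : q ≠ 0) {G : R K → ℂ} (hG : Per q G) (h0 : ∀ x, ¬ q ∣ x → G x = 0) :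
    ∑ x ∈ res q, G x = G 0 := by
  obtain ⟨r, hr, hd⟩ := exists_res hq 0
  rw [Finset.sum_eq_single_of_mem r hr, hG.congr hd]
  intro x hx hne
  refine h0 x fun h => hne (res_inj hq hx hr ?_)
  simpa [sub_eq_add_neg] using dvd_add h hd

theorem gA_unit {u : R K} (hu : IsUnit u) (c : R K) : ∑ x ∈ res u, ad u (c * x ^ 2) = 1 := by
  rw [gA_single hu.ne_zero (gA_per u c) fun x hx => absurd hu.dvd hx, ad_of_dvd hu.dvd]

theorem gA_qq {n : R K} (hn : n ≠ 0) (d : R K) : qua n d * qua n d = if IsCoprime d n then 1 else 0 := by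
  rw [← sq]
  exact sym_pow_eq (Or.inl rfl) hn d

theorem gA_sqrt_mul (a b : R K) :
    (Real.sqrt (N (a * b)) : ℂ) = (Real.sqrt (N a) : ℂ) * (Real.sqrt (N b) : ℂ) := by
  rw [N_mul, Real.sqrt_mul (N_nonneg a), Complex.ofReal_mul]

theorem gam_one : gam (1 : R K) = 1 := by
  have := gA_sq (K := K) one_ne_zero
  rw [gA_unit isUnit_one] at this
  simpa using this.symm

/-- `x = y + n a t`, `t mod a`: the `t`-sum forces `a ∣ 2y` -/
theorem sum_ad_sq_mul_sq {n a c : R K} (hn : n ≠ 0) (ha : a ≠ 0) (hc : IsCoprime a c) :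
    ∑ x ∈ res (n * a ^ 2), ad (n * a ^ 2) (c * x ^ 2) = (N a : ℂ) * ∑ x ∈ res n, ad n (c * x ^ 2) := by
  have hna := mul_ne_zero ha hn
  have e0 : n * a ^ 2 = a * n * a := by ring
  have h1 : ∀ y, ∑ t ∈ res a, ad (a * n * a) (c * (y + a * n * t) ^ 2) =
      if a ∣ y then (N a : ℂ) * ad (a * n * a) (c * y ^ 2) else 0 := by
    intro y
    have e : ∀ t, ad (a * n * a) (c * (y + a * n * t) ^ 2) =
        ad (a * n * a) (c * y ^ 2) * ad a (2 * c * y * t) := fun t => by
      rw [show c * (y + a * n * t) ^ 2 = c * y ^ 2 + a * n * (2 * c * y * t) + a * n * a * (c * n * t ^ 2) by ring,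
        ad_add, ad_add, ad_of_dvd (dvd_mul_right (a * n * a) _), mul_one, ad_mul_cancel hna]
    simp only [e]
    rw [← Finset.mul_sum, sum_ad ha]
    have : a ∣ 2 * c * y ↔ a ∣ y := by
      rw [mul_assoc, isUnit_two.dvd_mul_left]
      exact ⟨fun h => hc.dvd_of_dvd_mul_left h, fun h => h.mul_left _⟩
    simp only [this]
    split_ifs <;> ring
  have h2 : ∀ z, ad (a * n * a) (c * (a * z) ^ 2) = ad n (c * z ^ 2) := fun z => by
    rw [show a * n * a = a * a * n by ring, show c * (a * z) ^ 2 = a * a * (c * z ^ 2) by ring,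
      ad_mul_cancel (mul_ne_zero ha ha)]
  set F : R K → ℂ := fun y => if a ∣ y then (N a : ℂ) * ad (a * n * a) (c * y ^ 2) else 0 with hF
  have hp : Per (a * n) F := fun y t => by
    by_cases hy : a ∣ y
    · obtain ⟨z, rfl⟩ := hy
      simp only [hF, show a * z + a * n * t = a * (z + n * t) by ring, dvd_mul_right, if_true, h2]
      exact congrArg _ (gA_per n c z t)
    · simp only [hF, hy, if_false]
      rw [if_neg]
      rwa [mul_assoc, dvd_add_left (dvd_mul_right _ _)]
  rw [e0, sum_res_tower hna ha (gA_per _ c)]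
  simp only [h1]
  rw [sum_res_tower ha hn hp, gA_single ha (G := fun y => ∑ z ∈ res n, F (y + a * z)), Finset.mul_sum]
  · exact Finset.sum_congr rfl fun z _ => by simp only [hF, zero_add, dvd_mul_right, if_true, h2]
  · intro y t
    have := sum_res_affine hn (f := fun z => F (y + a * z))
      (fun z s => by simp only; rw [← hp (y + a * z) s]; congr 1; ring) isCoprime_one_left t
    simp only at this ⊢
    rw [← this]
    exact Finset.sum_congr rfl fun z _ => by congr 1; ring
  · intro y hy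
    refine Finset.sum_eq_zero fun z _ => if_neg ?_
    rwa [dvd_add_left (dvd_mul_right _ _)]

theorem gam_mul_sq {n a : R K} (hn : n ≠ 0) (ha : a ≠ 0) : gam (n * a ^ 2) = gam n := by
  have h := sum_ad_sq_mul_sq hn ha (c := 1) isCoprime_one_right
  rw [gA_sq hn, gA_sq (mul_ne_zero hn (pow_ne_zero _ ha)), gA_sqrt_mul, N_pow,
    Real.sqrt_sq (N_nonneg a)] at h
  refine mul_left_cancel₀ (mul_ne_zero (gA_sqrt_ne hn) (Complex.ofReal_ne_zero.2 (N_pos ha).ne')) ?_
  linear_combination h

theorem gam_sq_class {n : R K} (hn : n ≠ 0) : gam (n ^ 2) = 1 := by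
  have := gam_mul_sq one_ne_zero hn
  rwa [one_mul, gam_one] at this

/-- `|∑ ad(x²)|² = ∑_h ad(h²) ∑_y ad(2hy)` -/
theorem norm_gam {n : R K} (hn : n ≠ 0) : ‖gam n‖ = 1 := by
  set S := ∑ x ∈ res n, ad n (1 * x ^ 2) with hS
  have h1 : S * conj S = N n := by
    calc S * conj S = ∑ y ∈ res n, ∑ h ∈ res n, ad n (1 * h ^ 2) * ad n (2 * h * y) := by
          rw [map_sum, Finset.mul_sum]
          refine Finset.sum_congr rfl fun y _ => ?_
          rw [hS, ← sum_res_affine hn (gA_per n 1) isCoprime_one_left y, Finset.sum_mul]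
          refine Finset.sum_congr rfl fun h _ => ?_
          rw [← ad_neg, ← ad_add, ← ad_add]
          congr 1; ring
      _ = ∑ h ∈ res n, if n ∣ h then (N n : ℂ) else 0 := by
          rw [Finset.sum_comm]
          refine Finset.sum_congr rfl fun h _ => ?_
          rw [← Finset.mul_sum, sum_ad hn]
          simp only [(isUnit_two (K := K)).dvd_mul_left]
          split_ifs with hh
          · rw [ad_of_dvd ((dvd_pow hh two_ne_zero).mul_left _), one_mul]
          · rw [mul_zero]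
      _ = N n := by
          rw [gA_single hn (G := fun h => if n ∣ h then (N n : ℂ) else 0)
            (fun x t => by simp only [dvd_add_left (dvd_mul_right n t)]) fun x hx => if_neg hx, if_pos (dvd_zero _)]
  rw [hS, gA_sq hn, Complex.mul_conj', norm_mul, Complex.norm_real, Real.norm_of_nonneg (Real.sqrt_nonneg _)] at h1
  have h2 : (Real.sqrt (N n) * ‖gam n‖) ^ 2 = N n := by exact_mod_cast h1
  rw [mul_pow, Real.sq_sqrt (N_nonneg n)] at h2
  have h3 : ‖gam n‖ ^ 2 = 1 := mul_left_cancel₀ (N_pos hn).ne' (by rw [h2, mul_one])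
  exact (pow_eq_one_iff_of_nonneg (norm_nonneg _) two_ne_zero).1 h3

theorem gam_neg (n : R K) : gam (-n) = conj (gam n) := by
  have e : res (-n) = res n := by unfold res; rw [Ideal.span_singleton_neg]
  unfold gam
  rw [e, N_neg, map_div₀, Complex.conj_ofReal, map_sum]
  congr 1
  refine Finset.sum_congr rfl fun x _ => ?_
  unfold ad
  rw [← ee_neg]
  push_cast
  rw [div_neg]

theorem gA_nonPrinc {p : R K} (hp : Prime p) : NonPrinc p (qua p) := by
  obtain ⟨d, hd⟩ := symP_surj (k := 2) (Or.inl rfl) hp (u := -1) (by norm_num)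
  have h4 : qua p d = -1 := by rw [qua, sym_prime 2 hp, hd]; simp
  refine ⟨d, ?_, by rw [h4]; norm_num⟩
  by_contra h
  have := ((qua_isChar hp.ne_zero).zero_iff d).2 h
  rw [h4] at this
  norm_num at this

/-- the number of square roots modulo a prime -/
theorem gA_count {p : R K} (hp : Prime p) {f : R K → ℂ} (hf : Per p f) :
    ∑ x ∈ res p, f (x ^ 2) = ∑ y ∈ res p, (1 + qua p y) * f y := by
  have hp0 := hp.ne_zero
  have hχ := qua_isChar hp0
  set r : R K → ℕ := fun y => ((res p).filter fun x => p ∣ x ^ 2 - y).card with hr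
  have key : ∀ g : R K → ℂ, Per p g → ∑ x ∈ res p, g (x ^ 2) = ∑ y ∈ res p, (r y : ℂ) * g y := by
    intro g hg
    have h1 : ∀ x, g (x ^ 2) = ∑ y ∈ res p, if p ∣ x ^ 2 - y then g y else 0 := by
      intro x
      obtain ⟨y0, hy0, hd⟩ := exists_res hp0 (x ^ 2)
      rw [Finset.sum_eq_single_of_mem y0 hy0, if_pos hd, hg.congr hd]
      intro y hy hne
      refine if_neg fun h => hne (res_inj hp0 hy hy0 ?_)
      have := dvd_sub hd h
      rwa [sub_sub_sub_cancel_left] at this
    simp only [h1]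
    rw [Finset.sum_comm]
    refine Finset.sum_congr rfl fun y _ => ?_
    rw [← Finset.sum_filter, Finset.sum_const, nsmul_eq_mul]
  have hreal : ∀ y, qua p y = ((qua p y).re : ℂ) := fun y =>
    (Complex.conj_eq_iff_re.1 (conj_qua hp0 y)).symm
  have hle : ∀ y ∈ res p, (r y : ℝ) ≤ 1 + (qua p y).re := by
    intro y _
    rcases ((res p).filter fun x => p ∣ x ^ 2 - y).eq_empty_or_nonempty with h | ⟨x0, hx0⟩
    · have h1 : r y = 0 := by rw [hr]; simp only; rw [h, Finset.card_empty]
      have h3 := (Complex.abs_re_le_norm (qua p y)).trans (hχ.norm_le hp0 y)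
      rw [h1, Nat.cast_zero]
      linarith [(abs_le.1 h3).1]
    · obtain ⟨hx0r, hx0d⟩ := Finset.mem_filter.1 hx0
      have h1 : qua p y = if IsCoprime x0 p then 1 else 0 := by
        rw [← hχ.per.congr hx0d, sq, hχ.mul, gA_qq hp0]
      have hfac : ∀ x, p ∣ x ^ 2 - y → p ∣ x - x0 ∨ p ∣ x + x0 := by
        intro x hx
        refine hp.dvd_or_dvd ?_
        have := dvd_sub hx hx0d
        convert this using 1; ring
      rw [h1]
      split_ifs with hc
      · obtain ⟨x1, hx1, hd1⟩ := exists_res hp0 (-x0)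
        have h3 : ((res p).filter fun x => p ∣ x ^ 2 - y) ⊆ {x0, x1} := by
          intro x hx
          obtain ⟨hxr, hxd⟩ := Finset.mem_filter.1 hx
          rw [Finset.mem_insert, Finset.mem_singleton]
          refine (hfac x hxd).imp (res_inj hp0 hxr hx0r) fun h => res_inj hp0 hxr hx1 ?_
          have := dvd_add h hd1
          convert this using 1; ring
        have h4 : r y ≤ 2 := (Finset.card_le_card h3).trans Finset.card_le_two
        have h5 : (r y : ℝ) ≤ 2 := by exact_mod_cast h4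
        simp only [Complex.one_re]
        linarith
      · have hd0 : p ∣ x0 := by
          by_contra h
          exact hc (hp.coprime_iff_not_dvd.2 h).symm
        have h3 : ((res p).filter fun x => p ∣ x ^ 2 - y) ⊆ {x0} := by
          intro x hx
          obtain ⟨hxr, hxd⟩ := Finset.mem_filter.1 hx
          rw [Finset.mem_singleton]
          refine res_inj hp0 hxr hx0r ((hfac x hxd).elim id fun h => ?_)
          have := dvd_sub h (hd0.mul_left 2)
          convert this using 1; ring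
        have h4 : r y ≤ 1 := (Finset.card_le_card h3).trans (by simp)
        have h5 : (r y : ℝ) ≤ 1 := by exact_mod_cast h4
        simpa using h5
  have hsum : ∑ y ∈ res p, (r y : ℝ) = ∑ y ∈ res p, (1 + (qua p y).re) := by
    have h1 := key (fun _ => 1) (fun _ _ => rfl)
    have h3 := hχ.sum_eq_zero hp0 (gA_nonPrinc hp)
    have h4 : ∑ y ∈ res p, (r y : ℂ) = ∑ y ∈ res p, (1 + qua p y) := by
      rw [Finset.sum_add_distrib, h3, add_zero, h1]
      simp only [mul_one]
    have h5 := congrArg Complex.re h4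
    simpa only [Complex.re_sum, Complex.natCast_re, Complex.add_re, Complex.one_re] using h5
  have heq := (Finset.sum_eq_sum_iff_of_le hle).1 hsum
  rw [key f hf]
  refine Finset.sum_congr rfl fun y hy => ?_
  rw [hreal y]
  have h1 := congrArg (fun t : ℝ => (t : ℂ)) (heq y hy)
  simp only [Complex.ofReal_natCast, Complex.ofReal_add, Complex.ofReal_one] at h1
  rw [h1]

theorem gA_prime_sum {p : R K} (hp : Prime p) {c : R K} (hc : ¬ p ∣ c) :
    ∑ x ∈ res p, ad p (c * x ^ 2) = gs p (qua p) c := by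
  rw [gA_count hp (ad_per p c), gs]
  simp only [add_mul, one_mul]
  rw [Finset.sum_add_distrib, sum_ad hp.ne_zero, if_neg hc, zero_add]

theorem gA_gs_prime {p : R K} (hp : Prime p) (k : R K) :
    gs p (qua p) k = qua p k * (Real.sqrt (N p) : ℂ) * gam p := by
  rw [gs_prime_nonprinc hp (qua_isChar hp.ne_zero) (gA_nonPrinc hp), conj_qua hp.ne_zero,
    ← gA_prime_sum hp hp.not_dvd_one, gA_sq hp.ne_zero, mul_assoc]

theorem gA_crt {a b : R K} (ha : a ≠ 0) (hb : b ≠ 0) (hab : IsCoprime a b) (c : R K) :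
    ∑ x ∈ res (a * b), ad (a * b) (c * x ^ 2) =
      (∑ x ∈ res a, ad a (c * b * x ^ 2)) * ∑ x ∈ res b, ad b (c * a * x ^ 2) := by
  rw [sum_res_crt ha hb hab (gA_per _ c), Finset.sum_mul_sum]
  refine Finset.sum_congr rfl fun x1 _ => Finset.sum_congr rfl fun x2 _ => ?_
  rw [show c * (x1 * b + x2 * a) ^ 2 = b * (c * b * x1 ^ 2) + a * (c * a * x2 ^ 2) + a * b * (2 * c * x1 * x2) by
    ring, ad_add, ad_add, ad_of_dvd (dvd_mul_right (a * b) _), mul_one, ad_mul_cancel ha, mul_comm a b,
    ad_mul_cancel hb]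

/-- primes: count square roots; then CRT and `sum_ad_sq_mul_sq` -/
theorem sum_ad_sq {n c : R K} (hn : n ≠ 0) (hc : IsCoprime n c) :
    ∑ x ∈ res n, ad n (c * x ^ 2) = qua n c * (Real.sqrt (N n) : ℂ) * gam n := by
  rw [mul_assoc, ← gA_sq hn]
  induction h : nm n using Nat.strong_induction_on generalizing n c with
  | _ k ih =>
    by_cases hu : IsUnit n
    · rw [gA_unit hu, gA_unit hu, qua, sym_unit 2 hu, one_mul]
    obtain ⟨p, hp, a, rfl⟩ := WfDvdMonoid.exists_irreducible_factor hu hn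
    have hp := hp.prime
    have ha := right_ne_zero_of_mul hn
    have hlt : ∀ m, m ∣ a → nm m < k := fun m hm => by
      have h2 : 2 ≤ nm p := by have := Prime.two_le_N hp; unfold N at this; exact_mod_cast this
      have h3 := Nat.le_of_dvd (nm_pos ha) (nm_dvd hm)
      rw [← h, nm_mul]
      nlinarith [nm_pos ha]
    rcases hp.irreducible.isCoprime_or_dvd a with hpa | ⟨m, rfl⟩
    · have e1 : ∀ d, IsCoprime p d → ∑ x ∈ res p, ad p (d * x ^ 2) = qua p d * (Real.sqrt (N p) : ℂ) * gam p :=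
        fun d hd => by rw [gA_prime_sum hp (hp.coprime_iff_not_dvd.1 hd), gA_gs_prime hp]
      rw [gA_crt hp.ne_zero ha hpa, gA_crt hp.ne_zero ha hpa, e1 _ (hc.of_mul_left_left.mul_right hpa),
        e1 _ (isCoprime_one_right.mul_right hpa),
        ih _ (hlt a dvd_rfl) ha (hc.of_mul_left_right.mul_right hpa.symm) rfl,
        ih _ (hlt a dvd_rfl) ha (isCoprime_one_right.mul_right hpa.symm) rfl, (qua_isChar ha).mul,
        (qua_isChar hp.ne_zero).mul, one_mul, one_mul, show qua (p * a) c = qua p c * qua a c from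
          sym_mul_left 2 hp.ne_zero ha c]
      ring
    · have hm := right_ne_zero_of_mul ha
      have e : qua (p * (p * m)) c = qua m c := by
        have h1 := gA_qq hp.ne_zero c
        rw [if_pos hc.of_mul_left_left.symm] at h1
        rw [show qua (p * (p * m)) c = qua p c * qua (p * m) c from sym_mul_left 2 hp.ne_zero ha c,
          show qua (p * m) c = qua p c * qua m c from sym_mul_left 2 hp.ne_zero hm c, ← mul_assoc, h1, one_mul]
      rw [e, show p * (p * m) = m * p ^ 2 by ring, sum_ad_sq_mul_sq hm hp.ne_zero hc.of_mul_left_left,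
        sum_ad_sq_mul_sq hm hp.ne_zero isCoprime_one_right,
        ih _ (hlt m (dvd_mul_left _ _)) hm hc.of_mul_left_right.of_mul_left_right rfl]
      ring

/-- CRT -/
theorem gam_mul_cop {a b : R K} (ha : a ≠ 0) (hb : b ≠ 0) (hab : IsCoprime a b) :
    gam (a * b) = gam a * gam b * (qua a b * qua b a) := by
  have h1 := gA_crt ha hb hab 1
  rw [gA_sq (mul_ne_zero ha hb), one_mul, one_mul, sum_ad_sq ha hab, sum_ad_sq hb hab.symm, gA_sqrt_mul] at h1
  refine mul_left_cancel₀ (mul_ne_zero (gA_sqrt_ne ha) (gA_sqrt_ne hb)) ?_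
  linear_combination h1

theorem gs_qua {n : R K} (hn : n ≠ 0) (hs : Squarefree n) (k : R K) :
    gs n (qua n) k = qua n k * (Real.sqrt (N n) : ℂ) * gam n := by
  induction n using UniqueFactorizationMonoid.induction_on_prime with
  | h₁ => exact absurd rfl hn
  | h₂ u hu =>
    rw [mul_assoc, ← gA_sq hn, gA_unit hu, (s3_unit hu (qua_isChar hn) k).1, (s3_unit hu (qua_isChar hn) k).2,
      one_mul]
  | h₃ a p ha hp ih =>
    have hc : IsCoprime p a := (squarefree_mul_iff.1 hs).1.isCoprime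
    have e : qua (p * a) = fun x => qua p x * qua a x := funext fun x => sym_mul_left 2 hp.ne_zero ha x
    rw [e, gs_mul hp.ne_zero ha hc (qua_isChar hp.ne_zero) (qua_isChar ha), gA_gs_prime hp,
      ih ha hs.of_mul_right, gA_sqrt_mul, gam_mul_cop hp.ne_zero ha hc]
    simp only
    ring

/-- `gam_neg` and `sum_ad_sq` with `c = -1` -/
theorem qua_neg_one {n : R K} (hn : n ≠ 0) : qua n (-1) = gam n ^ 2 := by
  have h1 := sum_ad_sq hn (c := -1) isCoprime_one_right.neg_right
  have h2 : ∑ x ∈ res n, ad n (-1 * x ^ 2) = conj (∑ x ∈ res n, ad n (1 * x ^ 2)) := by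
    rw [map_sum]
    exact Finset.sum_congr rfl fun x _ => by rw [← ad_neg, neg_mul]
  rw [h2, gA_sq hn, map_mul, Complex.conj_ofReal] at h1
  have h3 : conj (gam n) = qua n (-1) * gam n := mul_left_cancel₀ (gA_sqrt_ne hn) (by linear_combination h1)
  have h4 : gam n * conj (gam n) = 1 := by rw [Complex.mul_conj', norm_gam hn]; simp
  have h5 := gA_qq hn (-1)
  rw [if_pos isCoprime_one_left.neg_left] at h5
  rw [h3] at h4
  linear_combination -qua n (-1) * h4 + gam n ^ 2 * h5

theorem g3_mul {a b : R K} (ha : a ≠ 0) (hb : b ≠ 0) (hab : IsCoprime a b) :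
    g3 (a * b) = g3 a * g3 b * (cub a b * cub b a) := by
  have e : cub (a * b) = fun x => cub a x * cub b x := funext fun x => sym_mul_left 3 ha hb x
  unfold g3
  rw [e, gs_mul ha hb hab (cub_isChar ha) (cub_isChar hb), N_mul, Real.sqrt_mul (N_nonneg a)]
  push_cast
  ring

theorem gt_mul_cop {a b : R K} (ha : a ≠ 0) (hb : b ≠ 0) (hab : IsCoprime a b) :
    gt (a * b) = gt a * gt b * (chi a b * chi b a) := by
  have e : chi (a * b) = fun x => chi a x * chi b x := funext fun x => sym_mul_left 6 ha hb x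
  unfold gt
  rw [e, gs_mul ha hb hab (chi_isChar ha) (chi_isChar hb), N_mul, Real.sqrt_mul (N_nonneg a)]
  push_cast
  ring

theorem gamB_g3_unit {u : R K} (hu : IsUnit u) : g3 u = 1 := by
  rw [g3, (s3_unit hu (cub_isChar hu.ne_zero) 1).2, N_unit hu]
  simp

theorem gamB_gt_unit {u : R K} (hu : IsUnit u) : gt u = 1 := by
  rw [gt, (s3_unit hu (chi_isChar hu.ne_zero) 1).2, N_unit hu]
  simp

theorem gamB_gam_unit {u : R K} (hu : IsUnit u) : gam u = 1 := by
  rw [gam, Finset.sum_congr rfl fun x _ => ad_of_dvd hu.dvd, Finset.sum_const,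
    card_res hu.ne_zero, isUnit_iff_nm.1 hu, N_unit hu]
  simp

theorem gamB_mu_unit {u : R K} (hu : IsUnit u) : mu u = 1 := by
  rw [mu, hu.moebius_eq]
  simp

theorem gamB_mul_conj {z : ℂ} (h : ‖z‖ = 1) : z * conj z = 1 := by
  rw [Complex.mul_conj', h]
  simp

theorem gamB_cop {u : R K} (hu : IsUnit u) (n : R K) : IsCoprime u n := by
  obtain ⟨v, hv⟩ := hu.exists_left_inv
  exact ⟨v, 0, by rw [hv, zero_mul, add_zero]⟩

theorem gamB_four (n : R K) : IsCoprime (4 : R K) n := by
  have := gamB_cop (isUnit_two.mul isUnit_two) n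
  norm_num at this
  exact this

theorem gamB_cub_cube {n d : R K} (hn : n ≠ 0) (h : IsCoprime d n) : cub n d ^ 3 = 1 :=
  (sym_pow_eq (k := 3) (by norm_num) hn d).trans (if_pos h)

theorem g3_one : g3 (1 : R K) = 1 :=
  gamB_g3_unit isUnit_one

theorem gt_one : gt (1 : R K) = 1 :=
  gamB_gt_unit isUnit_one

theorem g3_unit_mul {u n : R K} (hu : IsUnit u) (hn : n ≠ 0) : g3 (u * n) = cub n u * g3 n := by
  obtain ⟨v, hv⟩ := hu.exists_right_inv
  have hv' : IsUnit v := IsUnit.of_mul_eq_one_right _ hv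
  have c := cub_isChar hn
  have e : cub (u * n) = cub n := funext fun x => sym_assoc 3 (associated_unit_mul_left n u hu) x
  have h1 := gs_unit_mul hn c.per hu (v * 1)
  rw [gs_mul_unit hn c (gamB_cop hv' n), mul_one, hv] at h1
  have h2 : conj (cub n v) = cub n u := by
    have h3 := gamB_mul_conj (c.norm_eq_one hn (gamB_cop hv' n))
    have h4 : cub n u * cub n v = 1 := by rw [← c.mul, hv, c.one]
    linear_combination cub n u * h3 - conj (cub n v) * h4
  rw [g3, g3, e, h1, h2, N_mul, N_unit hu, one_mul, mul_div_assoc]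

/-- `g̃(χ̄_n) = χ_n(-1) conj g̃(χ_n)` -/
theorem gs_conj_chi {n : R K} (hn : n ≠ 0) (hs : Squarefree n) (k : R K) :
    gs n (fun x => conj (chi n x)) k = chi n k * chi n (-1) * conj (gt n) * (Real.sqrt (N n) : ℂ) := by
  have c := chi_isChar hn
  have e : (fun x => conj (chi n x)) = fun x => chi n x ^ 5 := funext fun x => conj_chi hn x
  have h1 := gs_chi_pow hn hs (j := 5) (by norm_num) k
  rw [← e, ← conj_chi hn k, Complex.conj_conj] at h1
  have h2 := conj_gs hn (chi n) (-1 * 1)
  rw [gs_mul_unit hn c (gamB_cop isUnit_one.neg n), map_mul, Complex.conj_conj, mul_one,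
    neg_neg] at h2
  have h3 : (Real.sqrt (N n) : ℂ) ≠ 0 := by
    exact_mod_cast (Real.sqrt_pos.2 (N_pos hn)).ne'
  rw [h1, ← h2, gt, map_div₀, Complex.conj_ofReal]
  field_simp

/-- Gauss sums and Jacobi sums -/
theorem rkey_jacobi {p : R K} (hp : Prime p) {ψ φ : R K → ℂ} (hψ : IsChar p ψ) (hφ : IsChar p φ)
    (hn : NonPrinc p fun x => ψ x * φ x) :
    gs p ψ 1 * gs p φ 1 = (∑ x ∈ res p, ψ x * φ (1 - x)) * gs p (fun x => ψ x * φ x) 1 := by
  have h0 := hp.ne_zero
  have hH : ∀ t, ∑ x ∈ res p, ψ x * φ (t - x) =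
      (∑ x ∈ res p, ψ x * φ (1 - x)) * (ψ t * φ t) := by
    intro t
    by_cases ht : p ∣ t
    · have h1 : ψ t = 0 := (hψ.zero_iff t).2 fun hc => hp.coprime_iff_not_dvd.1 hc.symm ht
      rw [h1, zero_mul, mul_zero, ← mul_zero (φ (-1)), ← (hψ.mul_char hφ).sum_eq_zero h0 hn,
        Finset.mul_sum]
      refine Finset.sum_congr rfl fun x _ => ?_
      rw [hφ.per.congr (x := t - x) (y := -1 * x) (by simpa using ht), hφ.mul]
      ring
    · have hper : Per p fun x => ψ x * φ (t - x) := fun x y => by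
        simp only
        rw [hψ.per x y, hφ.per.congr (x := t - (x + p * y)) (y := t - x) ⟨-y, by ring⟩]
      rw [← sum_res_affine h0 hper (hp.coprime_iff_not_dvd.2 ht).symm 0, Finset.sum_mul]
      refine Finset.sum_congr rfl fun x _ => ?_
      rw [add_zero, show t - t * x = t * (1 - x) by ring, hψ.mul, hφ.mul]
      ring
  have h2 : ∀ x, gs p φ 1 = ∑ t ∈ res p, φ (t - x) * ad p (1 * (t - x)) := fun x => by
    have := sum_res_affine h0 (hφ.per.mul (ad_per p 1)) (isCoprime_one_left (x := p)) (-x)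
    rw [gs, ← this]
    simp only [one_mul, sub_eq_add_neg]
  calc gs p ψ 1 * gs p φ 1
      = ∑ x ∈ res p, ψ x * ad p (1 * x) * gs p φ 1 := by
        rw [← Finset.sum_mul]; rfl
    _ = ∑ x ∈ res p, ∑ t ∈ res p, ψ x * φ (t - x) * ad p (1 * t) := by
        refine Finset.sum_congr rfl fun x _ => ?_
        rw [h2 x, Finset.mul_sum]
        refine Finset.sum_congr rfl fun t _ => ?_
        rw [show ad p (1 * t) = ad p (1 * x) * ad p (1 * (t - x)) by
          rw [← ad_add]; congr 1; ring]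
        ring
    _ = _ := by
        rw [Finset.sum_comm, gs, Finset.mul_sum]
        refine Finset.sum_congr rfl fun t _ => ?_
        rw [← Finset.sum_mul, hH t, mul_assoc]

theorem gamB_ind {q : R K} (hq : q ≠ 0) {g : R K → ℂ} (hg : Per q g) (s : R K) :
    ∑ y ∈ res q, (if q ∣ y - s then g y else 0) = g s := by
  obtain ⟨r, hr, h⟩ := exists_res hq s
  have h' : q ∣ r - s := dvd_sub_comm.1 h
  rw [Finset.sum_eq_single_of_mem r hr, if_pos h', hg.congr h']
  intro y hy hne
  exact if_neg fun h1 => hne (res_inj hq hy hr (by simpa using dvd_add h1 h))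

/-- Euler's criterion -/
theorem gamB_euler {p : R K} (hp : Prime p) (h2 : ¬ p ∣ 2) {t : R K} (ht : ¬ p ∣ t)
    (h : p ∣ t ^ ((nm p - 1) / 2) - 1) : ∃ s, p ∣ s ^ 2 - t := by
  have h0 := hp.ne_zero
  have hmax : (Ideal.span {p}).IsMaximal :=
    PrincipalIdealRing.isMaximal_of_irreducible hp.irreducible
  let _ := Ideal.Quotient.field (Ideal.span {p})
  have hsurj : ∀ y : R K ⧸ Ideal.span {p}, ∃ x ∈ res p, Ideal.Quotient.mk _ x = y := fun y => by
    obtain ⟨x, rfl⟩ := Ideal.Quotient.mk_surjective y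
    obtain ⟨r, hr, h⟩ := exists_res h0 x
    exact ⟨r, hr, (Ideal.Quotient.eq.2 (Ideal.mem_span_singleton.2 h)).symm⟩
  have hinj : Set.InjOn (Ideal.Quotient.mk (Ideal.span {p})) (res p) := fun x hx y hy h =>
    res_inj h0 hx hy (Ideal.mem_span_singleton.1 (Ideal.Quotient.eq.1 h))
  let _ : Fintype (R K ⧸ Ideal.span {p}) :=
    ⟨(res p).image (Ideal.Quotient.mk _), fun y => Finset.mem_image.2 (hsurj y)⟩
  have huniv : (Finset.univ : Finset (R K ⧸ Ideal.span {p})) =
      (res p).image (Ideal.Quotient.mk _) := rfl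
  have hcard : Fintype.card (R K ⧸ Ideal.span {p}) = nm p := by
    rw [Fintype.card, huniv, Finset.card_image_of_injOn hinj, card_res h0]
  have hz : ∀ x : R K, Ideal.Quotient.mk (Ideal.span {p}) x = 0 ↔ p ∣ x := fun x => by
    rw [Ideal.Quotient.eq_zero_iff_mem, Ideal.mem_span_singleton]
  have hchar : ringChar (R K ⧸ Ideal.span {p}) ≠ 2 := fun hc => h2 ((hz 2).1 (by
    have := ringChar.Nat.cast_ringChar (R := R K ⧸ Ideal.span {p})
    rw [hc, Nat.cast_ofNat] at this
    rw [map_ofNat]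
    exact this))
  have hodd := nm_prime_mod_six hp
  obtain ⟨y, hy⟩ := (FiniteField.isSquare_iff hchar (mt (hz t).1 ht)).2 (by
    have h1 := (hz _).2 h
    rw [map_sub, map_one, sub_eq_zero, map_pow] at h1
    rwa [hcard, show nm p / 2 = (nm p - 1) / 2 by omega])
  obtain ⟨s, rfl⟩ := Ideal.Quotient.mk_surjective y
  exact ⟨s, (hz _).1 (by rw [map_sub, map_pow, hy, sq, sub_self])⟩

theorem gamB_count {p : R K} (hp : Prime p) (h2 : ¬ p ∣ 2) (t : R K) :
    ∑ y ∈ res p, (if p ∣ t - y ^ 2 then (1 : ℂ) else 0) = 1 + qua p t := by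
  have h0 := hp.ne_zero
  have hρ := qua_isChar h0
  have h1 : ∀ s, ∑ y ∈ res p, (if p ∣ y - s then (1 : ℂ) else 0) = 1 := fun s =>
    gamB_ind h0 (g := fun _ => 1) (fun _ _ => rfl) s
  by_cases ht : p ∣ t
  · rw [(hρ.zero_iff t).2 fun hc => hp.coprime_iff_not_dvd.1 hc.symm ht, add_zero]
    refine Eq.trans (Finset.sum_congr rfl fun y _ => if_congr ?_ rfl rfl) (h1 0)
    rw [sub_zero, dvd_sub_right ht]
    exact ⟨hp.dvd_of_dvd_pow, fun h => dvd_pow h two_ne_zero⟩
  obtain ⟨u, hu1, hu2, hu3⟩ := exists_symP (k := 2) (by norm_num) hp ht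
  have hq : qua p t = toC u := (sym_prime 2 hp t).trans hu3
  rcases sq_eq_one_iff.1 hu1 with rfl | rfl
  · obtain ⟨s, hs⟩ := gamB_euler hp h2 ht hu2
    rw [hq, map_one]
    refine Eq.trans ?_ (congrArg₂ (· + ·) (h1 s) (h1 (-s)))
    rw [← Finset.sum_add_distrib]
    refine Finset.sum_congr rfl fun y _ => ?_
    have h3 : p ∣ t - y ^ 2 ↔ p ∣ y - s ∨ p ∣ y - -s := by
      rw [← hp.dvd_mul, show (y - s) * (y - -s) = -(t - y ^ 2) - (s ^ 2 - t) by ring,
        dvd_sub_left hs, dvd_neg]
    have h4 : ¬ (p ∣ y - s ∧ p ∣ y - -s) := fun h => by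
      have h5 : p ∣ 2 * s := by simpa [two_mul] using dvd_sub h.2 h.1
      rcases hp.dvd_or_dvd h5 with h6 | h6
      · exact h2 h6
      · exact ht (by simpa using dvd_sub (dvd_pow h6 two_ne_zero) hs)
    by_cases ha : p ∣ y - s <;> by_cases hb : p ∣ y - -s <;> simp_all
  · rw [hq, map_neg, map_one, add_neg_cancel]
    refine Finset.sum_eq_zero fun y _ => if_neg fun h => ?_
    have h3 : qua p y ^ 2 = -1 := by
      rw [sq, ← hρ.mul, ← sq, ← hρ.per.congr h, hq, map_neg, map_one]
    have h4 := sym_pow_eq (k := 2) (by norm_num) h0 y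
    change qua p y ^ 2 = _ at h4
    rw [h3] at h4
    split_ifs at h4 <;> norm_num at h4

theorem gamB_sum_sq {p : R K} (hp : Prime p) (h2 : ¬ p ∣ 2) {f : R K → ℂ} (hf : Per p f) :
    ∑ y ∈ res p, f (y ^ 2) = ∑ t ∈ res p, f t * (1 + qua p t) := by
  simp only [← gamB_count hp h2, Finset.mul_sum]
  rw [Finset.sum_comm]
  refine Finset.sum_congr rfl fun y _ => ?_
  rw [← gamB_ind hp.ne_zero hf (y ^ 2)]
  exact Finset.sum_congr rfl fun t _ => by split_ifs <;> simp

theorem gamB_two {p : R K} (hp : Prime p) : ¬ p ∣ 2 := fun h =>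
  hp.not_isUnit (isUnit_of_dvd_unit h isUnit_two)

theorem gamB_exists_om {p : R K} (hp : Prime p) :
    ∃ d, IsCoprime d p ∧ cub p d ≠ 1 ∧ cub p d ^ 2 ≠ 1 := by
  obtain ⟨d, hd⟩ := symP_surj (k := 3) (by norm_num) hp (om_cube (K := K))
  have h1 : cub p d = toC (omR K) := (sym_prime 3 hp d).trans hd
  have h2 : cub p d ^ 2 + cub p d + 1 = 0 := by
    have := congrArg toC (om_sq_add (K := K))
    rwa [map_add, map_add, map_pow, map_one, map_zero, ← h1] at this
  refine ⟨d, ?_, fun h => ?_, fun h => ?_⟩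
  · by_contra hc
    rw [((cub_isChar hp.ne_zero).zero_iff d).2 hc] at h2
    norm_num at h2
  · rw [h] at h2
    norm_num at h2
  · have h3 : cub p d = -2 := by linear_combination h2 - h
    rw [h3] at h
    norm_num at h

/-- Hasse–Davenport duplication for Jacobi sums -/
theorem rkey_dup {p : R K} (hp : Prime p) {ψ : R K → ℂ} (hψ : IsChar p ψ) (hn : NonPrinc p ψ) :
    ψ 4 * ∑ x ∈ res p, ψ x * ψ (1 - x) = ∑ x ∈ res p, qua p x * ψ (1 - x) := by
  have h0 := hp.ne_zero
  have h2 := gamB_two hp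
  have hf : Per p fun t => ψ (1 - t) := fun x y => hψ.per.congr ⟨-y, by ring⟩
  have hg : Per p fun y => ψ (1 - y ^ 2) := fun x y =>
    hψ.per.congr ⟨-(2 * x * y + p * y ^ 2), by ring⟩
  have h1 := sum_res_affine h0 hg (hp.coprime_iff_not_dvd.2 h2).symm (-1)
  have h3 := gamB_sum_sq hp h2 hf
  have h4 : ∑ t ∈ res p, ψ (1 - t) = 0 := by
    rw [← hψ.sum_eq_zero h0 hn,
      ← sum_res_affine h0 hψ.per (isCoprime_one_left (x := p)).neg_left 1]
    exact Finset.sum_congr rfl fun x _ => by congr 1; ring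
  simp only [mul_add, mul_one, Finset.sum_add_distrib, h4, zero_add] at h3
  rw [Finset.mul_sum]
  calc ∑ x ∈ res p, ψ 4 * (ψ x * ψ (1 - x)) = ∑ x ∈ res p, ψ (1 - (2 * x + -1) ^ 2) :=
        Finset.sum_congr rfl fun x _ => by rw [← hψ.mul, ← hψ.mul]; congr 1; ring
    _ = ∑ t ∈ res p, ψ (1 - t) * qua p t := h1.trans h3
    _ = _ := Finset.sum_congr rfl fun x _ => mul_comm _ _

theorem rkey_prime {p : R K} (hp : Prime p) : chi p 4 * (gt p * conj (g3 p)) = gam p * g3 p := by
  have h0 := hp.ne_zero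
  have hχ := chi_isChar h0
  have hρ := qua_isChar h0
  have e1 : (fun x => chi p x * chi p x) = cub p := funext fun x => by rw [← sq, chi_sq h0]
  have e2 : (fun x => qua p x * chi p x) = fun x => conj (cub p x) := funext fun x => by
    rw [conj_cub h0, ← chi_cube h0, ← chi_sq h0]; ring
  obtain ⟨d, d1, d2, d3⟩ := gamB_exists_om hp
  have hn : NonPrinc p (chi p) := ⟨d, d1, fun h => d2 (by rw [← chi_sq h0, h, one_pow])⟩
  have j1 := rkey_jacobi hp hχ hχ (by rw [e1]; exact ⟨d, d1, d2⟩)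
  have j2 := rkey_jacobi hp hρ hχ (by
    rw [e2]
    exact ⟨d, d1, by simpa only [conj_cub h0] using d3⟩)
  have j3 := rkey_dup hp hχ hn
  have j4 : gs p (fun x => conj (cub p x)) 1 = conj (gs p (cub p) 1) := by
    have h4 := conj_gs h0 (cub p) (-1)
    rw [gs_cub h0 hp.squarefree, cub_neg_one h0, map_one, one_mul, neg_neg] at h4
    exact h4.symm
  rw [e1] at j1
  rw [e2, j4, gs_qua h0 hp.squarefree, hρ.one, one_mul] at j2
  have hN : 0 < Real.sqrt (N p) := Real.sqrt_pos.2 (N_pos h0)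
  have hN' : (Real.sqrt (N p) : ℂ) ≠ 0 := by exact_mod_cast hN.ne'
  have hG : gs p (chi p) 1 ≠ 0 := fun h => by
    have := norm_gs_prime hp hχ hn
    rw [h, norm_zero] at this
    exact hN.ne this
  rw [gt, g3, map_div₀, Complex.conj_ofReal]
  field_simp
  refine mul_left_cancel₀ hG ?_
  linear_combination (chi p 4 * conj (gs p (cub p) 1)) * j1 - gs p (cub p) 1 * j2 +
    (gs p (cub p) 1 * conj (gs p (cub p) 1)) * j3

theorem gamB_cube_assoc {a b : R K} (h : Associated a b) : g3 a ^ 3 = g3 b ^ 3 := by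
  obtain ⟨u, rfl⟩ := h
  by_cases ha : a = 0
  · rw [ha, zero_mul]
  rw [mul_comm, g3_unit_mul u.isUnit ha, mul_pow, gamB_cub_cube ha (gamB_cop u.isUnit a), one_mul]

theorem gamB_prod_rel {s t : Multiset (R K)} (h : Multiset.Rel Associated s t) :
    (s.map fun p => -(g3 p) ^ 3).prod = (t.map fun p => -(g3 p) ^ 3).prod := by
  congr 1
  rw [← Multiset.rel_eq, Multiset.rel_map]
  exact h.mono fun a _ b _ hab => by rw [gamB_cube_assoc hab]

theorem angN_unit {u : R K} (hu : IsUnit u) : angN u = 1 := by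
  unfold angN
  rw [UniqueFactorizationMonoid.factors_of_isUnit hu]
  simp

theorem angN_one : angN (1 : R K) = 1 :=
  angN_unit isUnit_one

theorem angN_prime {p : R K} (hp : Prime p) : angN p = -(g3 p) ^ 3 := by
  obtain ⟨b, hb, h⟩ := UniqueFactorizationMonoid.factors_eq_singleton_of_irreducible hp.irreducible
  unfold angN
  rw [h, gamB_cube_assoc hb]
  simp

theorem angN_assoc {a b : R K} (h : Associated a b) : angN a = angN b :=
  gamB_prod_rel (UniqueFactorizationMonoid.factors_rel_of_associated h)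

theorem angN_mul {a b : R K} (ha : a ≠ 0) (hb : b ≠ 0) : angN (a * b) = angN a * angN b := by
  unfold angN
  rw [gamB_prod_rel (UniqueFactorizationMonoid.factors_mul ha hb), Multiset.map_add,
    Multiset.prod_add]

theorem angN_pow {a : R K} (ha : a ≠ 0) (j : ℕ) : angN (a ^ j) = angN a ^ j := by
  induction j with
  | zero => rw [pow_zero, pow_zero, angN_one]
  | succ j ih => rw [pow_succ, angN_mul (pow_ne_zero j ha) ha, ih, pow_succ]

theorem norm_angN (a : R K) : ‖angN a‖ = 1 := by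
  refine Multiset.prod_induction (fun z : ℂ => ‖z‖ = 1) _
    (fun x y hx hy => by rw [norm_mul, hx, hy, one_mul]) norm_one fun z hz => ?_
  obtain ⟨p, hp, rfl⟩ := Multiset.mem_map.1 hz
  have hp' := UniqueFactorizationMonoid.prime_of_factor p hp
  rw [norm_neg, norm_pow, norm_g3 hp'.ne_zero hp'.squarefree, one_pow]

/-- for squarefree `m`: `g3(m)³ = μ(m) angN(m)` -/
theorem g3_cube {m : R K} (hs : Squarefree m) : g3 m ^ 3 = mu m * angN m := by
  induction m using UniqueFactorizationMonoid.induction_on_prime with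
  | h₁ => exact absurd rfl hs.ne_zero
  | h₂ u hu => rw [gamB_g3_unit hu, gamB_mu_unit hu, angN_unit hu, one_pow, one_mul]
  | h₃ a p ha hp ih =>
    obtain ⟨hr, -, hsa⟩ := squarefree_mul_iff.1 hs
    have hc : IsCoprime p a := hr.isCoprime
    rw [g3_mul hp.ne_zero ha hc, mu_mul hc, angN_mul hp.ne_zero ha, mul_pow, mul_pow, mul_pow,
      gamB_cub_cube hp.ne_zero hc.symm, gamB_cub_cube ha hc, ih hsa, mu_prime hp, angN_prime hp]
    ring

theorem norm_f1 {a : R K} (ha : a ≠ 0) : ‖f1 a‖ = 1 := by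
  rw [f1, norm_mul, Complex.norm_conj, norm_gam ha, (chi_isChar ha).norm_eq_one ha (gamB_four a),
    one_mul]

theorem f1_mul_cop {a b : R K} (ha : a ≠ 0) (hb : b ≠ 0) (hab : IsCoprime a b) :
    f1 (a * b) = f1 a * f1 b * (qua a b * qua b a) := by
  have h1 : chi (a * b) 4 = chi a 4 * chi b 4 := sym_mul_left 6 ha hb 4
  rw [f1, f1, f1, h1, gam_mul_cop ha hb hab, map_mul]
  ring

/-- the key identity without `Setup` -/
theorem key_sqfree {m : R K} (hs : Squarefree m) : mu m * gt m = f1 m * (conj (g3 m) * angN m) := by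
  induction m using UniqueFactorizationMonoid.induction_on_prime with
  | h₁ => exact absurd rfl hs.ne_zero
  | h₂ u hu =>
    have h1 : chi u 4 = 1 := sym_unit 6 hu 4
    rw [f1, gamB_g3_unit hu, gamB_gt_unit hu, gamB_mu_unit hu, gamB_gam_unit hu, angN_unit hu, h1]
    simp
  | h₃ a p ha hp ih =>
    obtain ⟨hr, -, hsa⟩ := squarefree_mul_iff.1 hs
    have hc : IsCoprime p a := hr.isCoprime
    have h0 := hp.ne_zero
    have key : mu p * gt p = f1 p * (conj (g3 p) * angN p) := by
      have h4 := rkey_prime hp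
      have h6 := gamB_mul_conj (norm_g3 h0 hp.squarefree)
      have h7 := gamB_mul_conj ((chi_isChar h0).norm_eq_one h0 (gamB_four p))
      rw [mu_prime hp, f1, angN_prime hp]
      linear_combination (-(conj (chi p 4) * g3 p)) * h4 +
        (gt p * chi p 4 * conj (chi p 4)) * h6 + gt p * h7 +
        (gam p * conj (chi p 4) * g3 p ^ 2) * h6
    have h3 := ih hsa
    rw [mu_mul hc, gt_mul_cop h0 ha hc, f1_mul_cop h0 ha hc, g3_mul h0 ha hc, angN_mul h0 ha,
      chi_eq_qua_mul h0, chi_eq_qua_mul ha, map_mul, map_mul, map_mul]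
    linear_combination (mu a * gt a * (qua p a * conj (cub p a) * (qua a p * conj (cub a p)))) * key +
      (f1 p * (conj (g3 p) * angN p) * (qua p a * conj (cub p a) * (qua a p * conj (cub a p)))) * h3

end Crest.Agent.R312
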