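import Crest.Agent.R312.BDefs

/-!
# R312 / B0Loc : `𝓞 ⊆ R K ⊆ K`, `SInt`, `InU`, approximation, finiteness of `GG`
-/

set_option autoImplicit false
set_option linter.unusedSectionVars false
set_option linter.unusedVariables false

noncomputable section

open scoped Classical ComplexConjugate NumberField
open Crest.Agent.R17 (omC)

namespace Crest.Agent.R312

variable {K : Type} [Field K] [NumberField K] [Loc K]

/-- the inclusion `𝓞 K → R K` -/
def toR : 𝓞 K →+* R K :=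
  (algebraMap (𝓞 K) K).codRestrict (RR K (Loc.Q K)) fun x => ⟨0, by simpa using x.isIntegral_coe⟩

@[simp] theorem coe_toR (x : 𝓞 K) : ((toR x : R K) : K) = (x : K) := rfl

theorem loc_nat (m : ℕ) : IsIntegral ℤ (m : K) := by
  exact_mod_cast isIntegral_algebraMap (R := ℤ) (A := K) (x := (m : ℤ))

theorem loc_int (m : ℤ) : IsIntegral ℤ (m : K) := isIntegral_algebraMap (R := ℤ) (A := K) (x := m)

theorem loc_of_eq {x y : K} (h : IsIntegral ℤ x) (e : y = x) : IsIntegral ℤ y := e ▸ h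

theorem loc_mk {x : K} (h : IsIntegral ℤ x) : ∃ y : 𝓞 K, (y : K) = x := ⟨⟨x, h⟩, rfl⟩

theorem loc_Q_ne : ((Loc.Q K : ℕ) : K) ≠ 0 := Nat.cast_ne_zero.2 Loc.Q_ne

theorem loc_bez {a b : ℕ} (h : a.Coprime b) : ∃ u v : ℤ, (u : K) * a + v * b = 1 := by
  obtain ⟨u, v, e⟩ := h.isCoprime
  exact ⟨u, v, by exact_mod_cast congrArg (Int.cast : ℤ → K) e⟩

theorem loc_den (x : K) : ∃ c : ℕ, c ≠ 0 ∧ IsIntegral ℤ ((c : K) * x) := by
  have h : IsAlgebraic ℤ x := (IsFractionRing.isAlgebraic_iff ℤ ℚ K).2 (Algebra.IsAlgebraic.isAlgebraic x)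
  obtain ⟨y, hy, hi⟩ := h.exists_integral_multiple
  rw [zsmul_eq_mul] at hi
  refine ⟨y.natAbs, Int.natAbs_ne_zero.2 hy, ?_⟩
  rcases Int.natAbs_eq y with e | e
  · rwa [e, Int.cast_natCast] at hi
  · rw [e] at hi
    have := hi.neg
    rwa [Int.cast_neg, neg_mul, neg_neg, Int.cast_natCast] at this

theorem loc_split (Q c : ℕ) (hc : c ≠ 0) : ∃ c1 c2 m : ℕ, c = c1 * c2 ∧ c1 ∣ Q ^ m ∧ c2.Coprime Q := by
  induction c using Nat.strong_induction_on with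
  | _ c ih =>
    by_cases h : c.Coprime Q
    · exact ⟨1, c, 0, by simp, by simp, h⟩
    · obtain ⟨c', e⟩ := Nat.gcd_dvd_left c Q
      have h0 : 0 < Nat.gcd c Q := Nat.gcd_pos_of_pos_left _ (Nat.pos_of_ne_zero hc)
      have h1 : 1 < Nat.gcd c Q := lt_of_le_of_ne h0 (Ne.symm h)
      have hc' : c' ≠ 0 := by rintro rfl; exact hc e
      obtain ⟨c1, c2, m, e1, e2, e3⟩ := ih c' (by nlinarith [Nat.pos_of_ne_zero hc']) hc'
      refine ⟨Nat.gcd c Q * c1, c2, m + 1, by rw [mul_assoc, ← e1]; exact e, ?_, e3⟩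
      rw [pow_succ']
      exact mul_dvd_mul (Nat.gcd_dvd_right _ _) e2

theorem toR_injective : Function.Injective (toR (K := K)) := by
  intro x y h
  exact NumberField.RingOfIntegers.ext (congrArg (fun z : R K => (z : K)) h)

/-- clearing denominators -/
theorem exists_toR (x : R K) : ∃ (n : ℕ) (y : 𝓞 K), toR y = (Loc.Q K : R K) ^ n * x := by
  obtain ⟨n, hn⟩ := x.2
  obtain ⟨y, hy⟩ := loc_mk hn
  exact ⟨n, y, Subtype.ext (by rw [coe_toR, hy]; simp)⟩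

theorem exists_toR_of_isIntegral {x : R K} (hx : IsIntegral ℤ (x : K)) : ∃ y : 𝓞 K, toR y = x := by
  exact ⟨⟨_, hx⟩, Subtype.ext rfl⟩

/-- inverse `⟨Q⁻¹, 1, _⟩` -/
theorem isUnit_Q : IsUnit ((Loc.Q K : ℕ) : R K) := by
  refine IsUnit.of_mul_eq_one ⟨((Loc.Q K : ℕ) : K)⁻¹, 1, ?_⟩ (Subtype.ext ?_)
  · rw [pow_one, mul_inv_cancel₀ loc_Q_ne]; exact isIntegral_one
  · simpa using mul_inv_cancel₀ (loc_Q_ne (K := K))

theorem isUnit_natCast_of_dvd {m j : ℕ} (h : m ∣ Loc.Q K ^ j) : IsUnit ((m : ℕ) : R K) := by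
  refine isUnit_of_dvd_unit (Nat.cast_dvd_cast (α := R K) h) ?_
  rw [Nat.cast_pow]
  exact isUnit_Q.pow j

theorem isUnit_six : IsUnit (6 : R K) := by
  exact_mod_cast isUnit_natCast_of_dvd (K := K) (m := 6) (j := 1) (by simpa using Loc.six_dvd)

theorem isUnit_two : IsUnit (2 : R K) := by
  exact isUnit_of_dvd_unit ⟨3, by norm_num⟩ isUnit_six

theorem isUnit_three : IsUnit (3 : R K) := by
  exact isUnit_of_dvd_unit ⟨2, by norm_num⟩ isUnit_six

theorem isUnit_four : IsUnit (4 : R K) := by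
  rw [show (4 : R K) = 2 * 2 by norm_num]
  exact isUnit_two.mul isUnit_two

theorem two_le_Q : 2 ≤ Loc.Q K := by
  exact le_trans (by norm_num) (Nat.le_of_dvd (Nat.pos_of_ne_zero Loc.Q_ne) Loc.six_dvd)

instance : Countable (R K) := by
  have : Countable K := Finsupp.Countable.of_moduleFinite (R := ℚ)
  infer_instance

/-- every element of `K` is a quotient of elements of `R` (even of `𝓞`, denominator a natural number) -/
theorem exists_div (x : K) : ∃ a b : R K, b ≠ 0 ∧ x = (a : K) / (b : K) := by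
  obtain ⟨c, hc, hi⟩ := loc_den x
  have hc' : (c : K) ≠ 0 := Nat.cast_ne_zero.2 hc
  refine ⟨toR ⟨_, hi⟩, c, fun h => hc' (by simpa using congrArg Subtype.val h), ?_⟩
  change x = (c * x) / ((c : R K) : K)
  simp only [SubringClass.coe_natCast]
  field_simp

theorem coe_dvd_iff {a b : R K} (ha : a ≠ 0) : a ∣ b ↔ ∃ r : R K, (b : K) / (a : K) = r := by
  have ha' : (a : K) ≠ 0 := fun h => ha (Subtype.ext h)
  constructor
  · rintro ⟨r, rfl⟩
    exact ⟨r, by push_cast; field_simp⟩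
  · rintro ⟨r, e⟩
    refine ⟨r, Subtype.ext ?_⟩
    push_cast
    rw [← e]; field_simp

/-! ### `SInt` -/

theorem SInt.of_isIntegral {x : K} (h : IsIntegral ℤ x) : SInt x := by
  exact ⟨1, Nat.coprime_one_left _, by simpa using h⟩

theorem SInt.coe (x : 𝓞 K) : SInt (x : K) := by
  exact .of_isIntegral x.isIntegral_coe

theorem SInt.zero : SInt (0 : K) := by
  exact .of_isIntegral isIntegral_zero

theorem SInt.one : SInt (1 : K) := by
  exact .of_isIntegral isIntegral_one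

theorem SInt.natCast (m : ℕ) : SInt (m : K) := by
  exact .of_isIntegral (loc_nat m)

theorem SInt.add {x y : K} (hx : SInt x) (hy : SInt y) : SInt (x + y) := by
  obtain ⟨a, ha, h1⟩ := hx
  obtain ⟨b, hb, h2⟩ := hy
  refine ⟨a * b, Nat.Coprime.mul_left ha hb, ?_⟩
  refine loc_of_eq (((loc_nat b).mul h1).add ((loc_nat a).mul h2)) ?_
  push_cast; ring

theorem SInt.neg {x : K} (hx : SInt x) : SInt (-x) := by
  obtain ⟨a, ha, h1⟩ := hx
  exact ⟨a, ha, by rw [mul_neg]; exact h1.neg⟩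

theorem SInt.sub {x y : K} (hx : SInt x) (hy : SInt y) : SInt (x - y) := by
  rw [sub_eq_add_neg]; exact hx.add hy.neg

theorem SInt.mul {x y : K} (hx : SInt x) (hy : SInt y) : SInt (x * y) := by
  obtain ⟨a, ha, h1⟩ := hx
  obtain ⟨b, hb, h2⟩ := hy
  refine ⟨a * b, Nat.Coprime.mul_left ha hb, ?_⟩
  refine loc_of_eq (h1.mul h2) ?_
  push_cast; ring

theorem SInt.pow {x : K} (hx : SInt x) (j : ℕ) : SInt (x ^ j) := by
  induction j with
  | zero => rw [pow_zero]; exact .one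
  | succ j ih => rw [pow_succ]; exact ih.mul hx

theorem loc_ne {b : ℕ} (hb : b.Coprime (Loc.Q K)) : (b : K) ≠ 0 := by
  rw [Nat.cast_ne_zero]
  rintro rfl
  have := two_le_Q (K := K)
  rw [Nat.coprime_zero_left] at hb
  omega

theorem loc_sint (m : ℤ) : SInt (m : K) := .of_isIntegral (loc_int m)

theorem loc_Qp (j : ℕ) : SInt (((Loc.Q K : ℕ) : K) ^ j) := (SInt.natCast _).pow j

theorem SInt.inv_natCast {b : ℕ} (hb : b.Coprime (Loc.Q K)) : SInt ((b : K)⁻¹) := by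
  exact ⟨b, hb, by rw [mul_inv_cancel₀ (loc_ne hb)]; exact isIntegral_one⟩

/-- `b = N(x)` works: an element of `𝓞` coprime to `Q` is a unit of `SInt` -/
theorem SInt.inv_of_isCoprime {x : 𝓞 K} (hx : IsCoprime x ((Loc.Q K : ℕ) : 𝓞 K)) : SInt ((x : K)⁻¹) := by
  rcases eq_or_ne x 0 with rfl | hx0
  · simpa using SInt.zero
  have : Finite (𝓞 K ⧸ Ideal.span {x}) :=
    Ideal.finiteQuotientOfFreeOfNeBot _ (by simpa using hx0)
  have hQ : IsUnit (Ideal.Quotient.mk (Ideal.span {x}) ((Loc.Q K : ℕ) : 𝓞 K)) := by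
    obtain ⟨u, v, e⟩ := hx
    refine IsUnit.of_mul_eq_one (Ideal.Quotient.mk _ v) ?_
    rw [← map_mul, ← map_one (Ideal.Quotient.mk _), Ideal.Quotient.eq, Ideal.mem_span_singleton]
    exact ⟨-u, by linear_combination e⟩
  obtain ⟨k, hk, e⟩ := isOfFinOrder_iff_pow_eq_one.1 (isOfFinOrder_of_finite hQ.unit)
  have e2 := congrArg Units.val e
  rw [Units.val_pow_eq_pow_val, IsUnit.unit_spec, Units.val_one, ← map_pow, ← map_one (Ideal.Quotient.mk _),
    Ideal.Quotient.eq, Ideal.mem_span_singleton] at e2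
  obtain ⟨y, hy⟩ := e2
  obtain ⟨b, hb⟩ : ∃ b, Loc.Q K ^ k = b + 1 := Nat.exists_eq_succ_of_ne_zero (pow_ne_zero _ Loc.Q_ne)
  refine ⟨b, ?_, ?_⟩
  · exact Nat.Coprime.coprime_dvd_right (dvd_pow_self _ hk.ne') (by rw [hb]; simp)
  · have h1 : (b : 𝓞 K) = x * y := by
      rw [← hy, ← Nat.cast_pow, hb]; push_cast; ring
    have h2 : (b : K) = x * y := by simpa using congrArg (algebraMap (𝓞 K) K) h1
    have h3 : (x : K) ≠ 0 := NumberField.RingOfIntegers.coe_ne_zero_iff.2 hx0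
    rw [h2, mul_comm (x : K), mul_inv_cancel_right₀ h3]
    exact y.isIntegral_coe

/-- conversely (Bezout with `b x⁻¹ ∈ 𝓞`, i.e. `x ∣ b`) -/
theorem isCoprime_of_sInt_inv {x : 𝓞 K} (hx0 : x ≠ 0) (hx : SInt ((x : K)⁻¹)) :
    IsCoprime x ((Loc.Q K : ℕ) : 𝓞 K) := by
  obtain ⟨b, hb, hi⟩ := hx
  have h3 : (x : K) ≠ 0 := NumberField.RingOfIntegers.coe_ne_zero_iff.2 hx0
  refine IsCoprime.of_isCoprime_of_dvd_left hb.cast ⟨⟨_, hi⟩, NumberField.RingOfIntegers.ext ?_⟩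
  change ((b : 𝓞 K) : K) = x * (b * (x : K)⁻¹)
  rw [mul_comm (b : K), mul_inv_cancel_left₀ h3]
  simp

/-- `R ∩ SInt = 𝓞` (Bezout for `b` and `Q^n`) -/
theorem SInt.isIntegral {x : R K} (hx : SInt (x : K)) : IsIntegral ℤ (x : K) := by
  obtain ⟨b, hb, h1⟩ := hx
  obtain ⟨n, h2⟩ := x.2
  obtain ⟨u, v, e⟩ := loc_bez (K := K) (hb.pow_right n)
  refine loc_of_eq (((loc_int u).mul h1).add ((loc_int v).mul h2)) ?_
  push_cast at e
  linear_combination -(x : K) * e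

/-- `K = R + SInt`: `x = y/c`, `c = c₁c₂`, `c₁ ∣ Q^m`, `c₂` coprime to `Q`, Bezout -/
theorem exists_add_sInt (x : K) : ∃ r : R K, SInt (x - (r : K)) := by
  obtain ⟨c, hc, hi⟩ := loc_den x
  obtain ⟨c1, c2, m, rfl, ⟨d, hd⟩, h2⟩ := loc_split (Loc.Q K) c hc
  obtain ⟨u, v, e⟩ := loc_bez (K := K) (a := c1) (b := c2)
    (Nat.Coprime.coprime_dvd_left ⟨d, hd⟩ (h2.symm.pow_left m))
  have hd' : ((Loc.Q K : ℕ) : K) ^ m = c1 * d := by exact_mod_cast congrArg (Nat.cast : ℕ → K) hd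
  refine ⟨⟨v * c2 * x, m, ?_⟩, c2, h2, ?_⟩
  · refine loc_of_eq (((loc_nat d).mul (loc_int v)).mul hi) ?_
    rw [hd']; push_cast; ring
  · refine loc_of_eq ((loc_int u).mul hi) ?_
    push_cast
    linear_combination -(c2 * x) * e

theorem exists_pow_mul_sInt (w : K) : ∃ m : ℕ, SInt ((Loc.Q K : K) ^ m * w) := by
  obtain ⟨r, hr⟩ := exists_add_sInt w
  obtain ⟨m, hm⟩ := r.2
  refine ⟨m, ?_⟩
  convert (SInt.of_isIntegral hm).add ((loc_Qp m).mul hr) using 1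
  ring

/-- `K = R + w·SInt`: choose `m` with `Q^m/w ∈ SInt` and decompose `z/Q^m` -/
theorem approx0 {w : K} (hw : w ≠ 0) (z : K) : ∃ r : R K, SInt ((z - (r : K)) / w) := by
  obtain ⟨m, hm⟩ := exists_pow_mul_sInt w⁻¹
  obtain ⟨r, hr⟩ := exists_add_sInt (z / (Loc.Q K : K) ^ m)
  refine ⟨(Loc.Q K : R K) ^ m * r, ?_⟩
  convert hm.mul hr using 1
  have := loc_Q_ne (K := K)
  push_cast
  field_simp

/-- `SInt / Q^j = 𝓞 / Q^j` -/
theorem SInt.exists_int {s : K} (hs : SInt s) (j : ℕ) :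
    ∃ (y : 𝓞 K) (s' : K), SInt s' ∧ s = (y : K) + (Loc.Q K : K) ^ j * s' := by
  obtain ⟨b, hb, h1⟩ := id hs
  obtain ⟨u, v, e⟩ := loc_bez (K := K) (hb.pow_right j)
  refine ⟨⟨_, (loc_int u).mul h1⟩, v * s, (loc_sint v).mul hs, ?_⟩
  change s = u * (b * s) + _
  push_cast at e
  linear_combination -s * e

/-! ### `InU` -/

theorem InU.one (n : ℕ) : InU n (1 : K) := by
  exact ⟨0, .zero, by simp⟩

theorem InU.mul {n : ℕ} {x y : K} (hx : InU n x) (hy : InU n y) : InU n (x * y) := by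
  obtain ⟨s, hs, rfl⟩ := hx
  obtain ⟨t, ht, rfl⟩ := hy
  exact ⟨_, (hs.add ht).add ((loc_Qp n).mul (hs.mul ht)), by ring⟩

theorem InU.pow {n : ℕ} {x : K} (hx : InU n x) (j : ℕ) : InU n (x ^ j) := by
  induction j with
  | zero => rw [pow_zero]; exact .one n
  | succ j ih => rw [pow_succ]; exact ih.mul hx

theorem InU.mono {m n : ℕ} (h : m ≤ n) {x : K} (hx : InU n x) : InU m x := by
  obtain ⟨s, hs, rfl⟩ := hx
  obtain ⟨k, rfl⟩ := Nat.exists_eq_add_of_le h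
  exact ⟨_, (loc_Qp k).mul hs, by ring⟩

theorem InU.sInt {n : ℕ} {x : K} (hx : InU n x) : SInt x := by
  obtain ⟨s, hs, rfl⟩ := hx
  exact SInt.one.add ((loc_Qp n).mul hs)

/-- `x = (b + Q^n y)/b` and `b + Q^n y` is coprime to `Q` -/
theorem InU.sInt_inv {n : ℕ} (hn : 1 ≤ n) {x : K} (hx : InU n x) : SInt x⁻¹ := by
  obtain ⟨s, ⟨b, hb, hi⟩, rfl⟩ := hx
  obtain ⟨k, rfl⟩ := Nat.exists_eq_add_of_le hn
  obtain ⟨t, ht⟩ := loc_mk hi
  have hc : IsCoprime ((b : 𝓞 K) + ((Loc.Q K : ℕ) : 𝓞 K) * (((Loc.Q K : ℕ) : 𝓞 K) ^ k * t))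
      ((Loc.Q K : ℕ) : 𝓞 K) := IsCoprime.add_mul_left_left hb.cast _
  convert (SInt.natCast b).mul (SInt.inv_of_isCoprime hc) using 1
  have e : (((b : 𝓞 K) + ((Loc.Q K : ℕ) : 𝓞 K) * (((Loc.Q K : ℕ) : 𝓞 K) ^ k * t) : 𝓞 K) : K) =
      b * (1 + (Loc.Q K : K) ^ (1 + k) * s) := by
    simp only [map_add, map_mul, map_pow, map_natCast]
    linear_combination (Loc.Q K : K) ^ (1 + k) * ht
  rw [e, mul_inv, mul_inv_cancel_left₀ (loc_ne hb)]

theorem InU.inv {n : ℕ} (hn : 1 ≤ n) {x : K} (hx : InU n x) : InU n x⁻¹ := by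
  have h0 := hx.ne_zero hn
  have h1 := hx.sInt_inv hn
  obtain ⟨s, hs, e⟩ := hx
  refine ⟨_, (hs.mul h1).neg, ?_⟩
  field_simp
  linear_combination -e

theorem InU.div {n : ℕ} (hn : 1 ≤ n) {x y : K} (hx : InU n x) (hy : InU n y) : InU n (x / y) := by
  rw [div_eq_mul_inv]; exact hx.mul (hy.inv hn)

theorem InU.of_dvd {n : ℕ} {x : 𝓞 K} (h : ((Loc.Q K : ℕ) : 𝓞 K) ^ n ∣ x - 1) : InU n (x : K) := by
  obtain ⟨y, e⟩ := h
  refine ⟨y, .coe y, ?_⟩
  have := congrArg (algebraMap (𝓞 K) K) e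
  simp only [map_sub, map_mul, map_pow, map_natCast, map_one] at this
  linear_combination this

/-- an element of `R ∩ U_n` comes from `𝓞` and is `≡ 1 mod Q^n` there -/
theorem InU.exists_toR {n : ℕ} {x : R K} (hx : InU n (x : K)) :
    ∃ y : 𝓞 K, toR y = x ∧ ((Loc.Q K : ℕ) : 𝓞 K) ^ n ∣ y - 1 := by
  obtain ⟨s, hs, e⟩ := hx
  obtain ⟨r, hr⟩ : ((Loc.Q K : ℕ) : R K) ^ n ∣ x - 1 := (isUnit_Q.pow n).dvd
  have h1 : (r : K) = s := by
    have := congrArg Subtype.val hr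
    push_cast at this
    exact mul_left_cancel₀ (pow_ne_zero n loc_Q_ne) (by linear_combination e - this)
  obtain ⟨y, hy⟩ := exists_toR_of_isIntegral (SInt.isIntegral (h1 ▸ hs))
  refine ⟨1 + ((Loc.Q K : ℕ) : 𝓞 K) ^ n * y, ?_, y, by ring⟩
  simp only [map_add, map_mul, map_pow, map_natCast, map_one, hy]
  linear_combination -hr

/-- `x = x₁/x₂` with `x₁, x₂ ∈ 𝓞`, both `≡ 1 mod Q^n` (multiply `(b + Q^n y)/b` by an inverse of `b`) -/
theorem InU.exists_div {n : ℕ} (hn : 1 ≤ n) {x : K} (hx : InU n x) :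
    ∃ x1 x2 : 𝓞 K, ((Loc.Q K : ℕ) : 𝓞 K) ^ n ∣ x1 - 1 ∧ ((Loc.Q K : ℕ) : 𝓞 K) ^ n ∣ x2 - 1 ∧
      x2 ≠ 0 ∧ x = (x1 : K) / (x2 : K) := by
  obtain ⟨s, ⟨b, hb, hi⟩, rfl⟩ := hx
  obtain ⟨t, ht⟩ := loc_mk hi
  obtain ⟨u, v, e⟩ := (hb.pow_right n).cast (R := 𝓞 K)
  push_cast at e
  have h2 : ((Loc.Q K : ℕ) : 𝓞 K) ^ n ∣ u * b - 1 := ⟨-v, by linear_combination e⟩
  have h3 := (InU.of_dvd h2).ne_zero hn
  refine ⟨u * (b + ((Loc.Q K : ℕ) : 𝓞 K) ^ n * t), u * b, ⟨u * t - v, by linear_combination e⟩, h2,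
    NumberField.RingOfIntegers.coe_ne_zero_iff.1 h3, ?_⟩
  rw [eq_div_iff h3]
  simp only [map_add, map_mul, map_pow, map_natCast]
  linear_combination -(u : K) * (Loc.Q K : K) ^ n * ht

/-- **approximation**: `approx0` with `w = Q^n x / q`, `z = (x - a)/q` -/
theorem approx (n : ℕ) {x : K} (hx : x ≠ 0) {q : R K} (hq : q ≠ 0) (a : R K) :
    ∃ r : R K, q ∣ r - a ∧ InU n ((r : K) / x) := by
  have hq' : (q : K) ≠ 0 := fun h => hq (Subtype.ext h)
  have hQ := loc_Q_ne (K := K)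
  obtain ⟨r, hr⟩ := approx0 (w := (Loc.Q K : K) ^ n * x / q) (by positivity) ((x - a) / q)
  refine ⟨a + q * r, ⟨r, by ring⟩, _, hr.neg, ?_⟩
  push_cast
  field_simp
  ring

/-! ### the classes -/

/-- (`rw [mul_one]` fails on `GG K n`: instance diamond at reducible transparency) -/
@[simp] theorem GG_mul_one {n : ℕ} (g : GG K n) : g * 1 = g := mul_one g

@[simp] theorem GG_one_mul {n : ℕ} (g : GG K n) : 1 * g = g := one_mul g

theorem clN_mul (n : ℕ) {x y : K} (hx : x ≠ 0) (hy : y ≠ 0) : clN n (x * y) = clN n x * clN n y := by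
  simp only [clN, hx, hy, mul_ne_zero hx hy, dif_neg, not_false_eq_true, Units.mk0_mul, QuotientGroup.mk_mul]

theorem clN_one (n : ℕ) : clN n (1 : K) = 1 := by
  simp [clN]

theorem clN_inv (n : ℕ) (x : K) : clN n x⁻¹ = (clN n x)⁻¹ := by
  rcases eq_or_ne x 0 with rfl | hx
  · simp [clN]
  · rw [eq_inv_iff_mul_eq_one, ← clN_mul n (inv_ne_zero hx) hx, inv_mul_cancel₀ hx, clN_one]

theorem clN_pow (n : ℕ) {x : K} (hx : x ≠ 0) (j : ℕ) : clN n (x ^ j) = clN n x ^ j := by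
  induction j with
  | zero => rw [pow_zero, pow_zero, clN_one]
  | succ j ih => rw [pow_succ, pow_succ, clN_mul n (pow_ne_zero _ hx) hx, ih]

theorem clN_of_inU {n : ℕ} {x : K} (hx : InU n x) : clN n x = 1 := by
  unfold clN
  split_ifs with h
  · rfl
  · exact (QuotientGroup.eq_one_iff _).2 (Subgroup.subset_closure (Or.inl hx))

theorem GG_pow_six {n : ℕ} (g : GG K n) : g ^ 6 = 1 := by
  induction g using QuotientGroup.induction_on with
  | _ z => exact (QuotientGroup.eq_one_iff (z ^ 6)).2 (Subgroup.subset_closure (Or.inr ⟨z, rfl⟩))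

theorem clN_surj {n : ℕ} (g : GG K n) : ∃ x : K, x ≠ 0 ∧ clN n x = g := by
  induction g using QuotientGroup.induction_on with
  | _ z => exact ⟨z, z.ne_zero, by simp [clN]⟩

/-- `{u z⁶}` is already a subgroup -/
theorem clN_eq_iff {n : ℕ} (hn : 1 ≤ n) {x y : K} (hx : x ≠ 0) (hy : y ≠ 0) :
    clN n x = clN n y ↔ ∃ u z : K, InU n u ∧ z ≠ 0 ∧ x = y * u * z ^ 6 := by
  constructor
  · intro h
    have h' := h.symm
    simp only [clN, hx, hy, dif_neg, not_false_eq_true] at h'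
    have key : ∀ w ∈ Hsub K n, ∃ u z : K, InU n u ∧ z ≠ 0 ∧ (w : K) = u * z ^ 6 := by
      intro w hw
      induction hw using Subgroup.closure_induction with
      | mem w hw =>
        rcases hw with hw | ⟨z, rfl⟩
        · exact ⟨w, 1, hw, one_ne_zero, by simp⟩
        · exact ⟨1, z, .one n, z.ne_zero, by simp⟩
      | one => exact ⟨1, 1, .one n, one_ne_zero, by simp⟩
      | mul a b _ _ ha hb =>
        obtain ⟨u, z, h1, h2, h3⟩ := ha
        obtain ⟨u', z', h1', h2', h3'⟩ := hb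
        exact ⟨u * u', z * z', h1.mul h1', mul_ne_zero h2 h2', by rw [Units.val_mul, h3, h3']; ring⟩
      | inv a _ ha =>
        obtain ⟨u, z, h1, h2, h3⟩ := ha
        exact ⟨u⁻¹, z⁻¹, h1.inv hn, inv_ne_zero h2, by rw [Units.val_inv_eq_inv_val, h3, mul_inv, inv_pow]⟩
    obtain ⟨u, z, h1, h2, h3⟩ := key _ (QuotientGroup.eq.1 h')
    refine ⟨u, z, h1, h2, ?_⟩
    rw [mul_assoc, ← h3]
    simp [hy]
  · rintro ⟨u, z, h1, h2, rfl⟩
    have hu := h1.ne_zero hn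
    rw [clN_mul n (mul_ne_zero hy hu) (pow_ne_zero _ h2), clN_mul n hy hu, clN_of_inU h1, clN_pow n h2,
      GG_pow_six, GG_mul_one, GG_mul_one]

theorem clN_mono {m n : ℕ} (hm : 1 ≤ m) (h : m ≤ n) {x y : K} (hx : x ≠ 0) (hy : y ≠ 0)
    (e : clN n x = clN n y) : clN m x = clN m y := by
  obtain ⟨u, z, h1, h2, h3⟩ := (clN_eq_iff (hm.trans h) hx hy).1 e
  exact (clN_eq_iff hm hx hy).2 ⟨u, z, h1.mono h, h2, h3⟩

/-- every class is represented in every residue class of `R` -/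
theorem exists_rep {n : ℕ} (hn : 1 ≤ n) (g : GG K n) {q : R K} (hq : q ≠ 0) (a : R K) :
    ∃ r : R K, r ≠ 0 ∧ clN n (r : K) = g ∧ q ∣ r - a := by
  obtain ⟨x, hx, rfl⟩ := clN_surj g
  obtain ⟨r, h1, h2⟩ := approx n hx hq a
  have h3 := h2.ne_zero hn
  refine ⟨r, ?_, ?_, h1⟩
  · rintro rfl
    simp at h3
  · rw [show (r : K) = x * (r / x) by field_simp, clN_mul n hx h3, clN_of_inU h2, GG_mul_one]

end Crest.Agent.R312
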