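import Crest.Agent.R312.B0Ring

/-!
# R312 / B0Prim : primary elements, `gen` (port of the second half of R17/Basic1)
-/

set_option autoImplicit false
set_option linter.unusedSectionVars false
set_option linter.unusedVariables false

noncomputable section

open scoped Classical ComplexConjugate NumberField
open Crest.Agent.R17 (omC)

namespace Crest.Agent.R312

variable {K : Type} [Field K] [NumberField K] [Fld K] [Loc K] [Setup K]

theorem Prim.one : Prim (1 : R K) := by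
  exact Setup.prim_one

theorem Prim.mul {a b : R K} (ha : Prim a) (hb : Prim b) : Prim (a * b) := by
  exact Setup.prim_mul a b ha hb

theorem Prim.pow {a : R K} (ha : Prim a) (j : ℕ) : Prim (a ^ j) := by
  induction j with
  | zero => rw [pow_zero]; exact Prim.one
  | succ j ih => rw [pow_succ]; exact ih.mul ha

theorem Prim.prod {ι : Type*} {s : Finset ι} {f : ι → R K} (h : ∀ i ∈ s, Prim (f i)) :
    Prim (∏ i ∈ s, f i) := by
  exact Finset.prod_induction f Prim (fun _ _ => Prim.mul) Prim.one h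

theorem Prim.ne_zero {a : R K} (ha : Prim a) : a ≠ 0 := by
  exact Setup.prim_ne a ha

theorem Prim.of_mul_left {a b : R K} (hab : Prim (a * b)) (ha : Prim a) : Prim b := by
  have hb : b ≠ 0 := right_ne_zero_of_mul hab.ne_zero
  obtain ⟨u, hu⟩ := Setup.prim_ex b hb
  have h1 : a * (u * b) = a * b := Setup.prim_uniq _ _ (Prim.mul ha hu) hab
    ((associated_unit_mul_left b u u.isUnit).mul_left a)
  have h2 := mul_left_cancel₀ ha.ne_zero h1
  rw [h2] at hu
  exact hu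

theorem Prim.dv {a b : R K} (hb : Prim b) (ha : Prim a) (h : a ∣ b) : Prim (dv b a) := by
  exact Prim.of_mul_left (by rw [mul_dv h]; exact hb) ha

theorem exists_unit_mul_prim {a : R K} (ha : a ≠ 0) : ∃ u, IsUnit u ∧ Prim (u * a) := by
  obtain ⟨u, hu⟩ := Setup.prim_ex a ha
  exact ⟨u, u.isUnit, hu⟩

/-- every non-zero element is `unit · primary` -/
theorem exists_eq_unit_prim {a : R K} (ha : a ≠ 0) : ∃ u b, IsUnit u ∧ Prim b ∧ a = u * b := by
  obtain ⟨u, hu⟩ := Setup.prim_ex a ha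
  exact ⟨(u⁻¹ : (R K)ˣ), u * a, u⁻¹.isUnit, hu, (Units.inv_mul_cancel_left u a).symm⟩

theorem exists_prim_assoc {a : R K} (ha : a ≠ 0) : ∃ b, Prim b ∧ Associated a b := by
  obtain ⟨u, hu, hp⟩ := exists_unit_mul_prim ha
  exact ⟨u * a, hp, associated_unit_mul_right a u hu⟩

theorem exists_prim_prime {p : R K} (hp : Prime p) : ∃ p', Prime p' ∧ Prim p' ∧ Associated p p' := by
  obtain ⟨b, hb, h⟩ := exists_prim_assoc hp.ne_zero
  exact ⟨b, h.prime hp, hb, h⟩

theorem Prim.eq_one_of_isUnit {a : R K} (ha : Prim a) (h : IsUnit a) : a = 1 := by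
  exact Setup.prim_uniq _ _ ha Setup.prim_one (associated_one_iff_isUnit.2 h)

theorem Prim.eq_of_associated {a b : R K} (ha : Prim a) (hb : Prim b) (h : Associated a b) :
    a = b := by
  exact Setup.prim_uniq _ _ ha hb h

/-- a primary element `≠ 1` has a primary prime factor -/
theorem Prim.exists_prime_dvd {a : R K} (ha : Prim a) (h1 : a ≠ 1) :
    ∃ p, Prime p ∧ Prim p ∧ p ∣ a := by
  obtain ⟨q, hq, hqa⟩ := WfDvdMonoid.exists_irreducible_factor
    (fun h => h1 (ha.eq_one_of_isUnit h)) ha.ne_zero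
  obtain ⟨p, h1, h2, h3⟩ := exists_prim_prime hq.prime
  exact ⟨p, h1, h2, h3.symm.dvd.trans hqa⟩

/-- induction over primary elements -/
theorem Prim.induction {P : R K → Prop} (h1 : P 1)
    (hp : ∀ p a, Prime p → Prim p → Prim a → P a → P (p * a)) {a : R K} (ha : Prim a) : P a := by
  induction hn : nm a using Nat.strong_induction_on generalizing a with
  | _ n ih =>
    by_cases h : a = 1
    · rw [h]; exact h1
    · obtain ⟨p, hpp, hpr, b, rfl⟩ := ha.exists_prime_dvd h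
      have hb := ha.of_mul_left hpr
      refine hp p b hpp hpr hb (ih (nm b) ?_ hb rfl)
      have h2 : 2 ≤ nm p := by have := Prime.two_le_N hpp; unfold N at this; exact_mod_cast this
      have h3 := nm_pos hb.ne_zero
      rw [← hn, nm_mul]
      nlinarith

theorem prim_gcd {a : R K} (ha : a ≠ 0) (d : R K) :
    ∃ g x y, Prim g ∧ g ∣ a ∧ g ∣ d ∧ g = x * a + y * d := by
  obtain ⟨g0, hg0⟩ := (IsPrincipalIdealRing.principal (Ideal.span {a, d})).principal
  have h1 : g0 ∣ a := Ideal.mem_span_singleton.1 (by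
    change a ∈ Submodule.span (R K) {g0}
    rw [← hg0]; exact Ideal.subset_span (by simp))
  have h2 : g0 ∣ d := Ideal.mem_span_singleton.1 (by
    change d ∈ Submodule.span (R K) {g0}
    rw [← hg0]; exact Ideal.subset_span (by simp))
  have h3 : g0 ∈ Ideal.span {a, d} := by
    rw [hg0]; exact Submodule.mem_span_singleton_self g0
  obtain ⟨x, y, hxy⟩ := Ideal.mem_span_pair.1 h3
  obtain ⟨u, hu, hp⟩ := exists_unit_mul_prim (ne_zero_of_dvd_ne_zero ha h1)
  exact ⟨u * g0, u * x, u * y, hp, hu.mul_left_dvd.2 h1, hu.mul_left_dvd.2 h2,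
    by rw [← hxy]; ring⟩

theorem prim_unit_coprime {u : R K} (hu : IsUnit u) (q : R K) : IsCoprime u q := by
  obtain ⟨v, hv⟩ := hu.exists_left_inv
  exact ⟨v, 0, by rw [hv, zero_mul, add_zero]⟩

theorem prim_split {q n : R K} (hn : n ≠ 0) :
    ∃ n0 n1 j, n0 ∣ q ^ j ∧ IsCoprime n1 q ∧ n = n0 * n1 := by
  induction n using UniqueFactorizationMonoid.induction_on_prime with
  | h₁ => exact absurd rfl hn
  | h₂ u hu => exact ⟨1, u, 0, one_dvd _, prim_unit_coprime hu q, (one_mul u).symm⟩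
  | h₃ a p ha hp ih =>
    obtain ⟨n0, n1, j, h0, h1, rfl⟩ := ih ha
    by_cases h : p ∣ q
    · exact ⟨p * n0, n1, j + 1, by rw [pow_succ']; exact mul_dvd_mul h h0, h1,
        (mul_assoc _ _ _).symm⟩
    · exact ⟨n0, p * n1, j, h0, (hp.irreducible.coprime_iff_not_dvd.2 h).mul_left h1, by ring⟩

/-- primary gcd of two primary elements -/
theorem exists_prim_gcd {a b : R K} (ha : Prim a) (hb : Prim b) :
    ∃ g a' b', Prim g ∧ Prim a' ∧ Prim b' ∧ a = g * a' ∧ b = g * b' ∧ IsCoprime a' b' := by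
  obtain ⟨g, x, y, hg, ⟨a', ha'⟩, ⟨b', hb'⟩, e⟩ := prim_gcd ha.ne_zero b
  refine ⟨g, a', b', hg, Prim.of_mul_left (ha' ▸ ha) hg, Prim.of_mul_left (hb' ▸ hb) hg, ha', hb',
    x, y, ?_⟩
  apply mul_left_cancel₀ hg.ne_zero
  linear_combination -e - x * ha' - y * hb'

theorem Prim.dvd_antisymm {a b : R K} (ha : Prim a) (hb : Prim b) (h1 : a ∣ b) (h2 : b ∣ a) : a = b := by
  exact ha.eq_of_associated hb (associated_of_dvd_dvd h1 h2)

/-- primary gcd of a primary element and an arbitrary element -/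
theorem exists_prim_gcd' {a : R K} (ha : Prim a) (d : R K) :
    ∃ g, Prim g ∧ g ∣ a ∧ g ∣ d ∧ ∀ e, e ∣ a → e ∣ d → e ∣ g := by
  obtain ⟨g, x, y, hg, h1, h2, e⟩ := prim_gcd ha.ne_zero d
  exact ⟨g, hg, h1, h2, fun c c1 c2 => e ▸ dvd_add (c1.mul_left x) (c2.mul_left y)⟩

/-- splitting off the part supported on the primes of `q` -/
theorem exists_split {q n : R K} (hn : n ≠ 0) :
    ∃ n0 n1 j, n0 ∣ q ^ j ∧ Prim n1 ∧ IsCoprime n1 q ∧ n = n0 * n1 := by
  obtain ⟨n0, n1, j, h0, h1, rfl⟩ := prim_split (q := q) hn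
  obtain ⟨u, hu, hp⟩ := exists_unit_mul_prim (right_ne_zero_of_mul hn)
  obtain ⟨v, hv⟩ := hu.exists_left_inv
  exact ⟨v * n0, u * n1, j, (IsUnit.of_mul_eq_one u hv).mul_left_dvd.2 h0, hp,
    (prim_unit_coprime hu q).mul_left h1, by linear_combination -(n0 * n1) * hv⟩

theorem Prim.exists_split {q n : R K} (hn : Prim n) :
    ∃ n0 n1 j, n0 ∣ q ^ j ∧ Prim n0 ∧ Prim n1 ∧ IsCoprime n1 q ∧ n = n0 * n1 := by
  obtain ⟨n0, n1, j, h0, h1, h2, rfl⟩ := R312.exists_split (q := q) hn.ne_zero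
  exact ⟨n0, n1, j, h0, Prim.of_mul_left (by rwa [mul_comm]) h1, h1, h2, rfl⟩

theorem split_unique {q a0 a1 b0 b1 : R K} {i j : ℕ} (hq : q ≠ 0) (ha0 : a0 ∣ q ^ i) (hb0 : b0 ∣ q ^ j)
    (ha : Prim a1) (hb : Prim b1) (hac : IsCoprime a1 q) (hbc : IsCoprime b1 q)
    (h : a0 * a1 = b0 * b1) : a0 = b0 ∧ a1 = b1 := by
  have h1 : a1 ∣ b1 :=
    (hac.pow_right.of_isCoprime_of_dvd_right hb0).dvd_of_dvd_mul_left (h ▸ dvd_mul_left a1 a0)
  have h2 : b1 ∣ a1 :=
    (hbc.pow_right.of_isCoprime_of_dvd_right ha0).dvd_of_dvd_mul_left (h ▸ dvd_mul_left b1 b0)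
  have h3 := ha.eq_of_associated hb (associated_of_dvd_dvd h1 h2)
  subst h3
  exact ⟨mul_right_cancel₀ ha.ne_zero h, rfl⟩

/-- a primary divisor of a product splits into primary divisors -/
theorem Prim.mul_of_dvd {e a b : R K} (he : Prim e) (h : e ∣ a * b) :
    ∃ e1 e2, Prim e1 ∧ Prim e2 ∧ e1 ∣ a ∧ e2 ∣ b ∧ e = e1 * e2 := by
  obtain ⟨d1, d2, h1, h2, rfl⟩ := exists_dvd_and_dvd_of_dvd_mul h
  obtain ⟨u, hu, hp⟩ := exists_unit_mul_prim (left_ne_zero_of_mul he.ne_zero)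
  obtain ⟨v, hv⟩ := hu.exists_left_inv
  have e : d1 * d2 = u * d1 * (v * d2) := by linear_combination -(d1 * d2) * hv
  exact ⟨u * d1, v * d2, hp, Prim.of_mul_left (e ▸ he) hp, hu.mul_left_dvd.2 h1,
    (IsUnit.of_mul_eq_one u hv).mul_left_dvd.2 h2, e⟩

/-- distinct primary primes are coprime -/
theorem Prim.isCoprime_of_ne {p q : R K} (hp : Prime p) (hp' : Prim p) (hq : Prime q) (hq' : Prim q)
    (h : p ≠ q) : IsCoprime p q := by
  exact hp.irreducible.coprime_iff_not_dvd.2 fun hd =>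
    h (hp'.eq_of_associated hq' (hp.associated_of_dvd hq hd))

/-! ### `gen` -/

theorem prim_mem_map {I : Ideal (𝓞 K)} {x : R K} : x ∈ I.map (toR (K := K)) ↔
    ∃ (n : ℕ) (y : 𝓞 K), y ∈ I ∧ (Loc.Q K : K) ^ n * (x : K) = (y : K) := by
  have key : ∀ (n : ℕ) (y : 𝓞 K) (x : R K), (Loc.Q K : K) ^ n * (x : K) = (y : K) ↔
      toR y = (Loc.Q K : R K) ^ n * x := fun n y x =>
    ⟨fun h => Subtype.ext (by rw [coe_toR, ← h]; simp), fun h => by
      rw [← coe_toR, h]; simp⟩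
  simp only [key]
  constructor
  · intro hx
    refine Submodule.span_induction (p := fun x _ => ∃ (n : ℕ) (y : 𝓞 K), y ∈ I ∧
      toR y = (Loc.Q K : R K) ^ n * x) ?_ ?_ ?_ ?_ hx
    · rintro _ ⟨y, hy, rfl⟩
      exact ⟨0, y, hy, by simp⟩
    · exact ⟨0, 0, I.zero_mem, by simp⟩
    · rintro a b - - ⟨n, y, hy, e⟩ ⟨m, z, hz, e'⟩
      refine ⟨n + m, (Loc.Q K : 𝓞 K) ^ m * y + (Loc.Q K : 𝓞 K) ^ n * z,
        I.add_mem (I.mul_mem_left _ hy) (I.mul_mem_left _ hz), ?_⟩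
      rw [map_add, map_mul, map_mul, map_pow, map_pow, map_natCast, e, e']
      ring
    · rintro r a - ⟨n, y, hy, e⟩
      obtain ⟨m, z, e'⟩ := exists_toR r
      refine ⟨n + m, z * y, I.mul_mem_left _ hy, ?_⟩
      rw [map_mul, e, e', smul_eq_mul]
      ring
  · rintro ⟨n, y, hy, e⟩
    have h1 : toR y ∈ I.map (toR (K := K)) := Ideal.mem_map_of_mem _ hy
    rw [e] at h1
    exact (Ideal.unit_mul_mem_iff_mem _ (isUnit_Q.pow n)).1 h1

theorem gen_eq {I : Ideal (𝓞 K)} {a : R K} (ha : Prim a) (h : I.map toR = Ideal.span {a}) :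
    gen I = a := by
  have h1 : ∀ x : R K, a ∣ x ↔ ∃ (n : ℕ) (y : 𝓞 K), y ∈ I ∧
      (Loc.Q K : K) ^ n * (x : K) = (y : K) := fun x => by
    rw [← prim_mem_map, h, Ideal.mem_span_singleton]
  have h2 : ∃ a : R K, Prim a ∧ ∀ x : R K, a ∣ x ↔ ∃ (n : ℕ) (y : 𝓞 K), y ∈ I ∧
      (Loc.Q K : K) ^ n * (x : K) = (y : K) := ⟨a, ha, h1⟩
  unfold gen
  rw [dif_pos h2]
  obtain ⟨h3, h4⟩ := h2.choose_spec
  exact h3.dvd_antisymm ha ((h4 a).2 ((h1 a).1 dvd_rfl)) ((h1 _).2 ((h4 _).1 dvd_rfl))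

theorem gen_spec {I : Ideal (𝓞 K)} (hI : I ≠ ⊥) :
    Prim (gen I) ∧ I.map toR = Ideal.span {gen I} := by
  obtain ⟨g, hg⟩ := (IsPrincipalIdealRing.principal (I.map (toR (K := K)))).principal
  have hg' : I.map toR = Ideal.span {g} := hg
  have h0 : g ≠ 0 := by
    rintro rfl
    rw [Ideal.span_singleton_zero, Ideal.map_eq_bot_iff_of_injective toR_injective] at hg'
    exact hI hg'
  obtain ⟨b, hb, h⟩ := exists_prim_assoc h0
  have h1 : I.map toR = Ideal.span {b} := hg'.trans (Ideal.span_singleton_eq_span_singleton.2 h)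
  rw [gen_eq hb h1]
  exact ⟨hb, h1⟩

theorem gen_idl {a : R K} (ha : Prim a) : gen (idl a) = a := by
  exact gen_eq ha (map_idl a)

theorem gen_idl_assoc {a : R K} (ha : a ≠ 0) : Associated (gen (idl a)) a := by
  exact Ideal.span_singleton_eq_span_singleton.1
    ((gen_spec (idl_ne_bot ha)).2.symm.trans (map_idl a))

theorem prim_ne_bot {I : Ideal (𝓞 K)}
    (hI : IsCoprime I (Ideal.span {((Loc.Q K : ℕ) : 𝓞 K)})) : I ≠ ⊥ := by
  obtain ⟨x, hx, rfl⟩ := exists_idl hI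
  exact idl_ne_bot hx

theorem idl_gen {I : Ideal (𝓞 K)} (hI : IsCoprime I (Ideal.span {((Loc.Q K : ℕ) : 𝓞 K)})) :
    idl (gen I) = I := by
  unfold idl
  rw [← (gen_spec (prim_ne_bot hI)).2, comap_map_toR hI]

theorem ne_bot_of_isCoprime {I : Ideal (𝓞 K)}
    (hI : IsCoprime I (Ideal.span {((Loc.Q K : ℕ) : 𝓞 K)})) : I ≠ ⊥ := by
  exact prim_ne_bot hI

theorem gen_mul {I J : Ideal (𝓞 K)} (hI : I ≠ ⊥) (hJ : J ≠ ⊥) : gen (I * J) = gen I * gen J := by
  refine gen_eq ((gen_spec hI).1.mul (gen_spec hJ).1) ?_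
  rw [Ideal.map_mul, (gen_spec hI).2, (gen_spec hJ).2, Ideal.span_singleton_mul_span_singleton]

theorem gen_one : gen (1 : Ideal (𝓞 K)) = 1 := by
  rw [← idl_one, gen_idl Prim.one]

theorem gen_span {y : 𝓞 K} (hy : y ≠ 0) : Associated (gen (Ideal.span {y})) (toR y) := by
  refine Ideal.span_singleton_eq_span_singleton.1 ?_
  rw [← (gen_spec (by simpa using hy)).2, Ideal.map_span, Set.image_singleton]

theorem nm_gen {I : Ideal (𝓞 K)} (hI : IsCoprime I (Ideal.span {((Loc.Q K : ℕ) : 𝓞 K)})) :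
    nm (gen I) = Ideal.absNorm I := by
  rw [← absNorm_idl, idl_gen hI]

/-- primary elements correspond to ideals coprime to `Q` -/
def primEquiv : {n : R K | Prim n} ≃
    {I : Ideal (𝓞 K) | IsCoprime I (Ideal.span {((Loc.Q K : ℕ) : 𝓞 K)})} where
  toFun n := ⟨idl n.1, idl_isCoprime (Prim.ne_zero n.2)⟩
  invFun I := ⟨gen I.1, (gen_spec (prim_ne_bot I.2)).1⟩
  left_inv n := Subtype.ext (gen_idl n.2)
  right_inv I := Subtype.ext (idl_gen I.2)

/-- sums over primary elements are sums over ideals coprime to `Q` -/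
theorem tsum_prim_eq (F : R K → ℂ) :
    ∑' n : R K, (if Prim n then F n else 0) =
      ∑' I : Ideal (𝓞 K), if IsCoprime I (Ideal.span {((Loc.Q K : ℕ) : 𝓞 K)}) then F (gen I) else 0 := by
  have h1 := tsum_subtype {n : R K | Prim n} F
  have h2 := tsum_subtype {I : Ideal (𝓞 K) | IsCoprime I (Ideal.span {((Loc.Q K : ℕ) : 𝓞 K)})}
    fun I => F (gen I)
  have h3 := (primEquiv (K := K)).symm.tsum_eq fun n => F n
  simp only [Set.indicator_apply, Set.mem_ofPred_eq] at h1 h2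
  exact h1.symm.trans (h3.symm.trans h2)

theorem summable_prim_iff (F : R K → ℝ) :
    Summable (fun n : R K => if Prim n then F n else 0) ↔
      Summable fun I : Ideal (𝓞 K) =>
        if IsCoprime I (Ideal.span {((Loc.Q K : ℕ) : 𝓞 K)}) then F (gen I) else 0 := by
  have h1 := summable_subtype_iff_indicator (s := {n : R K | Prim n}) (f := F)
  have h2 := summable_subtype_iff_indicator
    (s := {I : Ideal (𝓞 K) | IsCoprime I (Ideal.span {((Loc.Q K : ℕ) : 𝓞 K)})})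
    (f := fun I => F (gen I))
  have h3 := (primEquiv (K := K)).symm.summable_iff (f := F ∘ (↑))
  have e1 : {n : R K | Prim n}.indicator F = fun n => if Prim n then F n else 0 := by
    funext n; simp only [Set.indicator_apply, Set.mem_ofPred_eq]
  have e2 : ({I : Ideal (𝓞 K) | IsCoprime I (Ideal.span {((Loc.Q K : ℕ) : 𝓞 K)})}.indicator
      fun I => F (gen I)) = fun I : Ideal (𝓞 K) =>
        if IsCoprime I (Ideal.span {((Loc.Q K : ℕ) : 𝓞 K)}) then F (gen I) else 0 := by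
    funext n; simp only [Set.indicator_apply, Set.mem_ofPred_eq]
  rw [e1] at h1
  rw [e2] at h2
  exact h1.symm.trans (h3.symm.trans h2)

end Crest.Agent.R312
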