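import Crest.Agent.R312.B0Fin
import Crest.Agent.R312.B0Gam

/-! # R312 / B0Ring : umbrella for the part of the B0 API that does not need `Setup` -/
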