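import Crest.Agent.R312.B0Basic4

/-!
# R312 / B0Sym1 : power residue symbols (port of R17/Sym1; coprimality to `k` becomes `n ≠ 0`)
-/

set_option autoImplicit false
set_option linter.unusedSectionVars false
set_option linter.unusedVariables false

noncomputable section

open scoped Classical ComplexConjugate NumberField
open Crest.Agent.R17 (omC)

namespace Crest.Agent.R312

variable {K : Type} [Field K] [NumberField K] [Fld K] [Loc K] {k : ℕ}

theorem s1_symP_assoc (k : ℕ) {a b : R K} (h : Associated a b) (d : R K) :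
    symP k a d = symP k b d := by
  unfold symP
  simp only [nm_assoc h, h.dvd_iff_dvd_left]

theorem s1_prod_rel (k : ℕ) {s t : Multiset (R K)} (h : Multiset.Rel Associated s t) (d : R K) :
    (s.map fun p => symP k p d).prod = (t.map fun p => symP k p d).prod := by
  congr 1
  rw [← Multiset.rel_eq, Multiset.rel_map]
  exact h.mono fun a _ b _ hab => s1_symP_assoc k hab d

theorem s1_symP_congr (k : ℕ) {p x y : R K} (h : p ∣ x - y) : symP k p x = symP k p y := by
  unfold symP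
  refine Finset.sum_congr rfl fun u _ => ?_
  have h1 := h.trans (sub_dvd_pow_sub_pow x y ((nm p - 1) / k))
  have h2 : p ∣ x ^ ((nm p - 1) / k) - u ↔ p ∣ y ^ ((nm p - 1) / k) - u := by
    have e : x ^ ((nm p - 1) / k) - u =
        (x ^ ((nm p - 1) / k) - y ^ ((nm p - 1) / k)) + (y ^ ((nm p - 1) / k) - u) := by ring
    rw [e, dvd_add_right h1]
  simp only [h2]

/-! ### symbols -/
theorem sym_one (k : ℕ) (d : R K) : sym k 1 d = 1 := by
  unfold sym; rw [UniqueFactorizationMonoid.factors_one]; simp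
theorem sym_unit (k : ℕ) {u : R K} (hu : IsUnit u) (d : R K) : sym k u d = 1 := by
  unfold sym; rw [UniqueFactorizationMonoid.factors_of_isUnit hu]; simp
theorem sym_prime (k : ℕ) {p : R K} (hp : Prime p) (d : R K) : sym k p d = symP k p d := by
  obtain ⟨b, hb, h⟩ := UniqueFactorizationMonoid.factors_eq_singleton_of_irreducible hp.irreducible
  unfold sym
  rw [h, s1_symP_assoc k hb]; simp
theorem sym_assoc (k : ℕ) {a b : R K} (h : Associated a b) (d : R K) : sym k a d = sym k b d :=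
  s1_prod_rel k (UniqueFactorizationMonoid.factors_rel_of_associated h) d
theorem sym_mul_left (k : ℕ) {a b : R K} (ha : a ≠ 0) (hb : b ≠ 0) (d : R K) :
    sym k (a * b) d = sym k a d * sym k b d := by
  unfold sym
  rw [s1_prod_rel k (UniqueFactorizationMonoid.factors_mul ha hb) d, Multiset.map_add,
    Multiset.prod_add]
theorem sym_pow_left (k : ℕ) {a : R K} (ha : a ≠ 0) (j : ℕ) (d : R K) :
    sym k (a ^ j) d = sym k a d ^ j := by
  induction j with
  | zero => rw [pow_zero, pow_zero, sym_one]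
  | succ j ih => rw [pow_succ, sym_mul_left k (pow_ne_zero j ha) ha, ih, pow_succ]
theorem sym_prod_left (k : ℕ) {ι : Type*} {s : Finset ι} {f : ι → R K} (h : ∀ i ∈ s, f i ≠ 0) (d : R K) :
    sym k (∏ i ∈ s, f i) d = ∏ i ∈ s, sym k (f i) d := by
  induction s using Finset.induction_on with
  | empty => simp [sym_one]
  | insert a s ha ih =>
    have h' : ∀ i ∈ s, f i ≠ 0 := fun i hi => h i (Finset.mem_insert_of_mem hi)
    rw [Finset.prod_insert ha, Finset.prod_insert ha,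
      sym_mul_left k (h a (Finset.mem_insert_self a s)) (Finset.prod_ne_zero_iff.2 h'), ih h']
theorem sym_per (k : ℕ) (n : R K) : Per n (sym k n) := by
  intro x t
  unfold sym
  congr 1
  refine Multiset.map_congr rfl fun p hp => s1_symP_congr k ?_
  rw [add_sub_cancel_left]
  exact (UniqueFactorizationMonoid.dvd_of_mem_factors hp).mul_right t

theorem s1_pos (hk : k = 2 ∨ k = 3 ∨ k = 6) : 0 < k := by omega

theorem s1_isUnit (hk : 0 < k) {u : R K} (hu : u ^ k = 1) : IsUnit u :=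
  IsUnit.of_pow_eq_one hu hk.ne'

theorem s1_one_sub_dvd {z : R K} (hz : z ^ k = 1) (h1 : z ≠ 1) : 1 - z ∣ (k : R K) := by
  have h2 : ∑ i ∈ Finset.range k, z ^ i = 0 := by
    have := geom_sum_mul z k
    rw [hz, sub_self] at this
    exact (mul_eq_zero.1 this).resolve_right (sub_ne_zero.2 h1)
  have h3 : (k : R K) = ∑ i ∈ Finset.range k, (1 ^ i - z ^ i) := by
    rw [Finset.sum_sub_distrib, h2]; simp
  rw [h3]
  exact Finset.dvd_sum fun i _ => sub_dvd_pow_sub_pow 1 z i

theorem s1_not_dvd (hk : k = 2 ∨ k = 3 ∨ k = 6) {p : R K} (hp : Prime p) : ¬ p ∣ (k : R K) := by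
  intro h
  refine hp.not_isUnit (isUnit_of_dvd_unit h ?_)
  rcases hk with rfl | rfl | rfl
  · exact_mod_cast isUnit_two
  · exact_mod_cast isUnit_three
  · exact_mod_cast isUnit_six

theorem s1_root_inj (hk : 0 < k) {p : R K} (hpk : ¬ p ∣ (k : R K)) {u v : R K}
    (hu : u ^ k = 1) (hv : v ^ k = 1) (h : p ∣ u - v) : u = v := by
  obtain ⟨j, rfl⟩ : ∃ j, k = j + 1 := ⟨k - 1, by omega⟩
  by_contra hne
  have h1 : (v * u ^ j) ^ (j + 1) = 1 := by
    rw [mul_pow, hv, ← pow_mul, mul_comm j, pow_mul, hu]; simp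
  have h2 : v * u ^ j ≠ 1 := fun h2 => hne (by
    have : v * u ^ (j + 1) = u := by rw [pow_succ, ← mul_assoc, h2, one_mul]
    rw [hu, mul_one] at this
    exact this.symm)
  refine hpk (Dvd.dvd.trans ?_ (s1_one_sub_dvd h1 h2))
  have : 1 - v * u ^ j = (u - v) * u ^ j := by
    rw [sub_mul, ← pow_succ', hu]
  rw [this]
  exact h.mul_right _

theorem s1_dvd_nm (hk : k = 2 ∨ k = 3 ∨ k = 6) {p : R K} (hp : Prime p) :
    ∃ e, 0 < e ∧ nm p = k * e + 1 ∧ (nm p - 1) / k = e := by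
  have h2 : 2 ≤ nm p := by have := Prime.two_le_N hp; unfold N at this; exact_mod_cast this
  have h6 := nm_prime_mod_six hp
  refine ⟨(nm p - 1) / k, ?_⟩
  rcases hk with rfl | rfl | rfl <;> omega

theorem s1_card_quot {p : R K} : Nat.card (R K ⧸ Ideal.span {p}) = nm p := rfl

theorem s1_fermat {p : R K} (hp : Prime p) {d : R K} (hd : ¬ p ∣ d) : p ∣ d ^ (nm p - 1) - 1 := by
  have : (Ideal.span {p}).IsMaximal := PrincipalIdealRing.isMaximal_of_irreducible hp.irreducible
  let := Ideal.Quotient.field (Ideal.span {p})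
  have : Finite (R K ⧸ Ideal.span {p}) :=
    Nat.finite_of_card_ne_zero (by rw [s1_card_quot]; exact (nm_pos hp.ne_zero).ne')
  let := Fintype.ofFinite (R K ⧸ Ideal.span {p})
  have h0 : Ideal.Quotient.mk (Ideal.span {p}) d ≠ 0 := fun h =>
    hd (Ideal.mem_span_singleton.1 (Ideal.Quotient.eq_zero_iff_mem.1 h))
  have h1 := FiniteField.pow_card_sub_one_eq_one _ h0
  rw [← Nat.card_eq_fintype_card, s1_card_quot] at h1
  refine Ideal.mem_span_singleton.1 (Ideal.Quotient.eq.1 ?_)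
  rw [map_pow, h1, map_one]

theorem s1_factor3 {p : R K} (hp : Prime p) {y : R K} (h : p ∣ y ^ 3 - 1) :
    ∃ u : R K, u ^ 3 = 1 ∧ p ∣ y - u := by
  have e : y ^ 3 - 1 = (y - 1) * (y - omR K) * (y - omR K ^ 2) := by
    linear_combination (y ^ 2 - y) * om_sq_add (K := K) + (1 - y) * om_cube (K := K)
  rw [e] at h
  rcases hp.dvd_or_dvd h with h | h
  · rcases hp.dvd_or_dvd h with h | h
    · exact ⟨1, one_pow 3, h⟩
    · exact ⟨omR K, om_cube, h⟩
  · exact ⟨omR K ^ 2, by rw [← pow_mul, mul_comm, pow_mul, om_cube, one_pow], h⟩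

theorem s1_factor (hk : k = 2 ∨ k = 3 ∨ k = 6) {p : R K} (hp : Prime p) {y : R K}
    (h : p ∣ y ^ k - 1) : ∃ u : R K, u ^ k = 1 ∧ p ∣ y - u := by
  rcases hk with rfl | rfl | rfl
  · have e : y ^ 2 - 1 = (y - 1) * (y - -1) := by ring
    rw [e] at h
    rcases hp.dvd_or_dvd h with h | h
    · exact ⟨1, one_pow 2, h⟩
    · exact ⟨-1, by norm_num, h⟩
  · exact s1_factor3 hp h
  · have e : y ^ 6 - 1 = (y ^ 3 - 1) * -((-y) ^ 3 - 1) := by ring
    rw [e] at h
    rcases hp.dvd_or_dvd h with h | h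
    · obtain ⟨u, hu, h⟩ := s1_factor3 hp h
      exact ⟨u, by rw [show 6 = 3 * 2 from rfl, pow_mul, hu, one_pow], h⟩
    · obtain ⟨u, hu, h⟩ := s1_factor3 hp (dvd_neg.1 h)
      refine ⟨-u, by rw [show 6 = 3 * 2 from rfl, pow_mul, neg_pow, hu]; norm_num, ?_⟩
      have : y - -u = -(-y - u) := by ring
      rw [this]
      exact dvd_neg.2 h

/-- characterisation at a prime -/
theorem symP_eq (hk : k = 2 ∨ k = 3 ∨ k = 6) {p : R K} (hp : Prime p) {d u : R K}
    (hu : u ^ k = 1) (h : p ∣ d ^ ((nm p - 1) / k) - u) : symP k p d = toC u := by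
  unfold symP
  have hu6 : u ^ 6 = 1 := by
    obtain ⟨j, hj⟩ : k ∣ 6 := by rcases hk with rfl | rfl | rfl <;> norm_num
    rw [hj, pow_mul, hu, one_pow]
  rw [Finset.sum_eq_single_of_mem u (mem_units6_iff.2 hu6), if_pos ⟨hu, h⟩, toC0_coe]
  intro v _ hne
  refine if_neg fun hv => hne (s1_root_inj (s1_pos hk) (s1_not_dvd hk hp) hv.1 hu ?_)
  have := dvd_sub h hv.2
  simpa using this
theorem exists_symP (hk : k = 2 ∨ k = 3 ∨ k = 6) {p : R K} (hp : Prime p)
    {d : R K} (hd : ¬ p ∣ d) :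
    ∃ u : R K, u ^ k = 1 ∧ p ∣ d ^ ((nm p - 1) / k) - u ∧ symP k p d = toC u := by
  obtain ⟨e, -, he1, he2⟩ := s1_dvd_nm hk hp
  have h1 := s1_fermat hp hd
  have h2 : nm p - 1 = (nm p - 1) / k * k := by rw [he2, he1, mul_comm]; rfl
  rw [h2, pow_mul] at h1
  obtain ⟨u, hu, h⟩ := s1_factor hk hp h1
  exact ⟨u, hu, h, symP_eq hk hp hu h⟩

theorem s1_symP_zero (hk : k = 2 ∨ k = 3 ∨ k = 6) {p : R K} (hp : Prime p)
    {d : R K} (hd : p ∣ d) : symP k p d = 0 := by
  obtain ⟨e, he0, -, he2⟩ := s1_dvd_nm hk hp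
  unfold symP
  refine Finset.sum_eq_zero fun u _ => if_neg fun hu => hp.not_isUnit ?_
  rw [he2] at hu
  have := dvd_sub (dvd_pow hd he0.ne') hu.2
  rw [sub_sub_cancel] at this
  exact isUnit_of_dvd_unit this (s1_isUnit (s1_pos hk) hu.1)

theorem s1_symP_mul (hk : k = 2 ∨ k = 3 ∨ k = 6) {p : R K} (hp : Prime p)
    (a b : R K) : symP k p (a * b) = symP k p a * symP k p b := by
  by_cases ha : p ∣ a
  · rw [s1_symP_zero hk hp ha, s1_symP_zero hk hp (ha.mul_right b), zero_mul]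
  by_cases hb : p ∣ b
  · rw [s1_symP_zero hk hp hb, s1_symP_zero hk hp (hb.mul_left a), mul_zero]
  obtain ⟨u, hu, h1, h2⟩ := exists_symP hk hp ha
  obtain ⟨v, hv, h3, h4⟩ := exists_symP hk hp hb
  rw [h2, h4, ← map_mul]
  refine symP_eq hk hp (by rw [mul_pow, hu, hv, one_mul]) ?_
  have : (a * b) ^ ((nm p - 1) / k) - u * v =
      (a ^ ((nm p - 1) / k) - u) * b ^ ((nm p - 1) / k) + u * (b ^ ((nm p - 1) / k) - v) := by
    rw [mul_pow]; ring
  rw [this]
  exact dvd_add (h1.mul_right _) (h3.mul_left _)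

theorem s1_symP_pow_eq (hk : k = 2 ∨ k = 3 ∨ k = 6) {p : R K} (hp : Prime p)
    (d : R K) : symP k p d ^ k = if IsCoprime d p then 1 else 0 := by
  have hc : IsCoprime d p ↔ ¬ p ∣ d := by rw [isCoprime_comm, hp.irreducible.coprime_iff_not_dvd]
  by_cases hd : p ∣ d
  · rw [s1_symP_zero hk hp hd, if_neg (by rw [hc]; exact not_not.2 hd),
      zero_pow (s1_pos hk).ne']
  · obtain ⟨u, hu, -, h2⟩ := exists_symP hk hp hd
    rw [h2, ← map_pow, hu, map_one, if_pos (hc.2 hd)]

theorem s1_ind {P : R K → Prop} (hu : ∀ u, IsUnit u → P u)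
    (hp : ∀ p a, Prime p → a ≠ 0 → P a → P (p * a)) {n : R K} (hn : n ≠ 0) : P n := by
  induction n using UniqueFactorizationMonoid.induction_on_prime with
  | h₁ => exact absurd rfl hn
  | h₂ x hx => exact hu x hx
  | h₃ a p ha hpp ih => exact hp p a hpp ha (ih ha)

theorem s1_unit_coprime {u : R K} (hu : IsUnit u) (d : R K) : IsCoprime u d := by
  obtain ⟨u, rfl⟩ := hu
  exact ⟨(u⁻¹ : (R K)ˣ), 0, by simp⟩

theorem sym_pow_eq (hk : k = 2 ∨ k = 3 ∨ k = 6) {n : R K} (hn : n ≠ 0) (d : R K) :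
    sym k n d ^ k = if IsCoprime d n then 1 else 0 := by
  refine s1_ind (P := fun n => sym k n d ^ k = if IsCoprime d n then 1 else 0) ?_ ?_ hn
  · intro u hu
    rw [sym_unit k hu, one_pow, if_pos (s1_unit_coprime hu d).symm]
  · intro p a hp ha ih
    rw [sym_mul_left k hp.ne_zero ha, mul_pow, ih, sym_prime k hp, s1_symP_pow_eq hk hp]
    simp only [IsCoprime.mul_right_iff]
    by_cases h1 : IsCoprime d p <;> by_cases h2 : IsCoprime d a <;> simp [h1, h2]

/-- `d ↦ (d/n)_k` is a character modulo `n` -/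
theorem sym_isChar (hk : k = 2 ∨ k = 3 ∨ k = 6) {n : R K} (hn : n ≠ 0) :
    IsChar n (sym k n) := by
  refine ⟨?_, fun a b => ?_, sym_per k n, fun d => ?_⟩
  · refine s1_ind (P := fun n => sym k n 1 = 1) (fun u hu => sym_unit k hu 1) ?_ hn
    intro p a hp ha ih
    rw [sym_mul_left k hp.ne_zero ha, ih, sym_prime k hp,
      symP_eq hk hp (one_pow k) (by simp), map_one, one_mul]
  · refine s1_ind (P := fun n => sym k n (a * b) = sym k n a * sym k n b) (fun u hu => ?_) ?_ hn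
    · simp only [sym_unit k hu, one_mul]
    · intro p c hp hc ih
      simp only [sym_mul_left k hp.ne_zero hc, ih, sym_prime k hp, s1_symP_mul hk hp]
      ring
  · rw [← pow_eq_zero_iff (s1_pos hk).ne', sym_pow_eq hk hn]
    simp
theorem norm_sym_le (hk : k = 2 ∨ k = 3 ∨ k = 6) {n : R K} (hn : n ≠ 0) (d : R K) :
    ‖sym k n d‖ ≤ 1 := by
  rw [← pow_le_one_iff_of_nonneg (norm_nonneg _) (s1_pos hk).ne', ← norm_pow, sym_pow_eq hk hn]
  split_ifs <;> simp
/-- the symbol at a prime has exact order `k`: some `d` has `(d/p)_k = ` any prescribed `k`-th root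
of unity -/
theorem symP_surj (hk : k = 2 ∨ k = 3 ∨ k = 6) {p : R K} (hp : Prime p) {u : R K}
    (hu : u ^ k = 1) : ∃ d, symP k p d = toC u := by
  obtain ⟨e, -, he1, he2⟩ := s1_dvd_nm hk hp
  have : (Ideal.span {p}).IsMaximal := PrincipalIdealRing.isMaximal_of_irreducible hp.irreducible
  let := Ideal.Quotient.field (Ideal.span {p})
  have : Finite (R K ⧸ Ideal.span {p}) :=
    Nat.finite_of_card_ne_zero (by rw [s1_card_quot]; exact (nm_pos hp.ne_zero).ne')
  obtain ⟨g, hg⟩ := IsCyclic.exists_generator (α := (R K ⧸ Ideal.span {p})ˣ)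
  have hord : orderOf g = k * e := by
    rw [orderOf_eq_card_of_forall_mem_zpowers hg, Nat.card_units, s1_card_quot, he1]; rfl
  have hu' : IsUnit (Ideal.Quotient.mk (Ideal.span {p}) u) := (s1_isUnit (s1_pos hk) hu).map _
  obtain ⟨m, hm⟩ := (mem_powers_iff_mem_zpowers.2 (hg hu'.unit) : hu'.unit ∈ Submonoid.powers g)
  have hm' : (g : R K ⧸ Ideal.span {p}) ^ m = Ideal.Quotient.mk (Ideal.span {p}) u := by
    have := congrArg Units.val hm
    simpa using this
  have h1 : g ^ (k * m) = 1 := by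
    apply Units.ext
    rw [mul_comm, pow_mul, Units.val_pow_eq_pow_val, Units.val_pow_eq_pow_val, hm', ← map_pow, hu,
      map_one, Units.val_one]
  have h2 : e ∣ m := by
    have := orderOf_dvd_of_pow_eq_one h1
    rw [hord] at this
    exact Nat.dvd_of_mul_dvd_mul_left (s1_pos hk) this
  obtain ⟨c, rfl⟩ := h2
  obtain ⟨d, hd⟩ := Ideal.Quotient.mk_surjective ((g : R K ⧸ Ideal.span {p}) ^ c)
  refine ⟨d, symP_eq hk hp hu (Ideal.mem_span_singleton.1 (Ideal.Quotient.eq.1 ?_))⟩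
  rw [he2, map_pow, hd, ← pow_mul, mul_comm, hm']

theorem s1_sym_pow {m j : ℕ} (hm : m = 2 ∨ m = 3 ∨ m = 6) (hj : 6 = j * m) {n : R K}
    (hn : n ≠ 0) (d : R K) : sym 6 n d ^ j = sym m n d := by
  have h6 : 6 = 2 ∨ 6 = 3 ∨ 6 = 6 := by simp
  have hj0 : j ≠ 0 := by rintro rfl; omega
  refine s1_ind (P := fun n => sym 6 n d ^ j = sym m n d) (fun u hu => ?_) ?_ hn
  · simp only [sym_unit _ hu, one_pow]
  · intro p a hp ha ih
    rw [sym_mul_left _ hp.ne_zero ha, sym_mul_left _ hp.ne_zero ha, mul_pow, ih, sym_prime _ hp,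
      sym_prime _ hp]
    congr 1
    by_cases hd : p ∣ d
    · rw [s1_symP_zero h6 hp hd, s1_symP_zero hm hp hd, zero_pow hj0]
    · obtain ⟨u, hu, h1, h2⟩ := exists_symP h6 hp hd
      obtain ⟨e, -, he1, he2⟩ := s1_dvd_nm h6 hp
      have he3 : (nm p - 1) / m = e * j := by
        rw [he1, Nat.add_sub_cancel, hj, mul_assoc, mul_comm j, mul_assoc,
          Nat.mul_div_cancel_left _ (s1_pos hm)]
      rw [h2, ← map_pow]
      refine (symP_eq hm hp (by rw [← pow_mul, ← hj, hu]) ?_).symm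
      rw [he3, pow_mul, ← he2]
      exact h1.trans (sub_dvd_pow_sub_pow _ _ _)

theorem s1_conj {j : ℕ} {x : ℂ} (hj : j ≠ 0) {c : Prop} (h : x ^ (j + 1) = if c then 1 else 0) :
    conj x = x ^ j := by
  split_ifs at h
  · have h1 : ‖x‖ = 1 := by
      have := congrArg norm h
      rw [norm_pow, norm_one] at this
      exact (pow_eq_one_iff_of_nonneg (norm_nonneg _) (Nat.succ_ne_zero j)).1 this
    have h2 : x * conj x = 1 := by rw [Complex.mul_conj', h1]; simp
    calc conj x = x ^ (j + 1) * conj x := by rw [h, one_mul]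
      _ = x ^ j * (x * conj x) := by ring
      _ = x ^ j := by rw [h2, mul_one]
  · rw [pow_eq_zero_iff (Nat.succ_ne_zero j)] at h
    rw [h, map_zero, zero_pow hj]

theorem chi_sq {n : R K} (hn : n ≠ 0) (d : R K) : chi n d ^ 2 = cub n d :=
  s1_sym_pow (by simp) rfl hn d
theorem chi_cube {n : R K} (hn : n ≠ 0) (d : R K) : chi n d ^ 3 = qua n d :=
  s1_sym_pow (by simp) rfl hn d
theorem conj_chi {n : R K} (hn : n ≠ 0) (d : R K) : conj (chi n d) = chi n d ^ 5 :=
  s1_conj (by norm_num) (sym_pow_eq (k := 6) (by simp) hn d)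
theorem chi_eq_qua_mul {n : R K} (hn : n ≠ 0) (d : R K) :
    chi n d = qua n d * conj (cub n d) := by
  rw [← chi_cube hn, ← chi_sq hn, map_pow, conj_chi hn]
  have h : chi n d ^ 6 = _ := sym_pow_eq (k := 6) (by simp) hn d
  have e : chi n d ^ 3 * (chi n d ^ 5) ^ 2 = chi n d * (chi n d ^ 6) ^ 2 := by ring
  rw [e]
  split_ifs at h
  · rw [h]; ring
  · rw [pow_eq_zero_iff (by norm_num)] at h
    rw [h]; ring
theorem conj_cub {n : R K} (hn : n ≠ 0) (d : R K) : conj (cub n d) = cub n d ^ 2 :=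
  s1_conj (by norm_num) (sym_pow_eq (k := 3) (by simp) hn d)
theorem conj_qua {n : R K} (hn : n ≠ 0) (d : R K) : conj (qua n d) = qua n d :=
  (s1_conj (by norm_num) (sym_pow_eq (k := 2) (by simp) hn d)).trans (pow_one _)
theorem cub_neg_one {n : R K} (hn : n ≠ 0) : cub n (-1) = 1 := by
  have hc := sym_isChar (k := 3) (by simp) (n := n) hn
  have h := sym_pow_eq (k := 3) (by simp) (n := n) hn (-1)
  rw [if_pos (s1_unit_coprime isUnit_one.neg n)] at h
  have e : (-1 : R K) = -1 * (-1 * -1) := by ring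
  unfold cub
  rw [e, hc.mul, hc.mul, ← h]; ring

/-- `(ω/n)_3 = ω^{(N n - 1)/3}` -/
theorem cub_om {n : R K} (hn : n ≠ 0) : cub n (omR K) = omC ^ ((nm n - 1) / 3) := by
  have h3 : 3 = 2 ∨ 3 = 3 ∨ 3 = 6 := by simp
  have hom : omC ^ 3 = 1 := by rw [← toC_om (K := K), ← map_pow, om_cube, map_one]
  refine s1_ind (P := fun n => sym 3 n (omR K) = omC ^ ((nm n - 1) / 3)) (fun u hu => ?_) ?_
    hn
  · rw [sym_unit _ hu, isUnit_iff_nm.1 hu]; simp
  · intro p a hp ha ih
    obtain ⟨e, -, he1, he2⟩ := s1_dvd_nm h3 hp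
    have h1 := nm_mod_six ha
    obtain ⟨t, ht⟩ : ∃ t, nm a = 3 * t + 1 := ⟨nm a / 3, by omega⟩
    have h2 : (nm a - 1) / 3 = t := by omega
    have h4 : (nm (p * a) - 1) / 3 = 3 * (e * t) + e + t := by
      have : nm (p * a) = 3 * (3 * (e * t) + e + t) + 1 := by rw [nm_mul, he1, ht]; ring
      omega
    rw [sym_mul_left _ hp.ne_zero ha, ih, sym_prime _ hp,
      symP_eq h3 hp (u := omR K ^ e) (by rw [← pow_mul, mul_comm, pow_mul, om_cube, one_pow])
        (by rw [he2]; simp), h2, h4, map_pow, toC_om, pow_add, pow_add, pow_mul, hom]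
    ring

theorem chi_isChar {n : R K} (hn : n ≠ 0) : IsChar n (chi n) := sym_isChar (k := 6) (by simp) hn

theorem cub_isChar {n : R K} (hn : n ≠ 0) : IsChar n (cub n) := sym_isChar (k := 3) (by simp) hn

theorem qua_isChar {n : R K} (hn : n ≠ 0) : IsChar n (qua n) := sym_isChar (k := 2) (by simp) hn

theorem IsChar_pow {q : R K} {ψ : R K → ℂ} (h : IsChar q ψ) (a : R K) (j : ℕ) :
    ψ (a ^ j) = ψ a ^ j := by
  induction j with
  | zero => rw [pow_zero, pow_zero, h.one]
  | succ j ih => rw [pow_succ, pow_succ, h.mul, ih]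

theorem chi_pow_six {n : R K} (hn : n ≠ 0) (a : R K) :
    chi n (a ^ 6) = if IsCoprime n a then 1 else 0 := by
  rw [IsChar_pow (chi_isChar hn), chi, sym_pow_eq (k := 6) (by simp) hn]
  simp only [isCoprime_comm (x := a)]

theorem chi_one_left (d : R K) : chi 1 d = 1 := sym_one 6 d

end Crest.Agent.R312
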