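import Crest.Agent.R312.B0Sym2

/-!
# R312 / B0Sym3 : Gauss sums (port of R17/Sym3)
-/

set_option autoImplicit false
set_option linter.unusedSectionVars false
set_option linter.unusedVariables false

noncomputable section

open scoped Classical ComplexConjugate NumberField
open Crest.Agent.R17 (omC)

namespace Crest.Agent.R312

variable {K : Type} [Field K] [NumberField K] [Fld K] [Loc K]

theorem gs_per (q : R K) (ψ : R K → ℂ) : Per q (gs q ψ) := by
  intro k t
  refine Finset.sum_congr rfl fun x _ => ?_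
  rw [add_mul, ad_add, ad_of_dvd (x := q * t * x) ⟨t * x, mul_assoc _ _ _⟩, mul_one]

theorem norm_gs_le {q : R K} (hq : q ≠ 0) {ψ : R K → ℂ} (h : ∀ n, ‖ψ n‖ ≤ 1) (k : R K) :
    ‖gs q ψ k‖ ≤ N q := by
  refine (norm_sum_le _ _).trans ((Finset.sum_le_card_nsmul _ _ 1 fun x _ => ?_).trans ?_)
  · rw [norm_mul, norm_ad, mul_one]
    exact h x
  · rw [card_res hq, nsmul_one, N]

theorem conj_gs {q : R K} (hq : q ≠ 0) (ψ : R K → ℂ) (k : R K) :
    conj (gs q ψ k) = gs q (fun n => conj (ψ n)) (-k) := by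
  have _ := hq
  simp only [gs, map_sum, map_mul, neg_mul, ad_neg]

/-- homogeneity -/
theorem gs_mul_unit {q : R K} (hq : q ≠ 0) {ψ : R K → ℂ} (h : IsChar q ψ) {c : R K}
    (hc : IsCoprime c q) (k : R K) : gs q ψ (c * k) = conj (ψ c) * gs q ψ k := by
  have h1 := sum_res_affine hq (h.per.mul (ad_per q k)) hc 0
  rw [gs, gs, ← h1, Finset.mul_sum]
  refine Finset.sum_congr rfl fun x _ => ?_
  rw [add_zero, h.mul, ← mul_assoc, ← mul_assoc, Complex.conj_mul', h.norm_eq_one hq hc,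
    mul_left_comm k, mul_assoc c]
  simp

/-- twisted multiplicativity -/
theorem gs_mul {q1 q2 : R K} (h1 : q1 ≠ 0) (h2 : q2 ≠ 0) (hc : IsCoprime q1 q2) {ψ1 ψ2 : R K → ℂ}
    (hψ1 : IsChar q1 ψ1) (hψ2 : IsChar q2 ψ2) (k : R K) :
    gs (q1 * q2) (fun n => ψ1 n * ψ2 n) k = ψ1 q2 * ψ2 q1 * gs q1 ψ1 k * gs q2 ψ2 k := by
  rw [gs, sum_res_crt h1 h2 hc ((hψ1.mul_moduli hψ2).per.mul (ad_per _ k)), gs, gs, mul_assoc,
    Finset.sum_mul_sum, Finset.mul_sum]
  refine Finset.sum_congr rfl fun x _ => ?_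
  rw [Finset.mul_sum]
  refine Finset.sum_congr rfl fun y _ => ?_
  have e1 : ψ1 (x * q2 + y * q1) = ψ1 x * ψ1 q2 := by rw [mul_comm y, hψ1.per, hψ1.mul]
  have e2 : ψ2 (x * q2 + y * q1) = ψ2 y * ψ2 q1 := by
    rw [add_comm, mul_comm x, hψ2.per, hψ2.mul]
  have e3 : ad (q1 * q2) (k * (x * q2 + y * q1)) = ad q1 (k * x) * ad q2 (k * y) := by
    rw [show k * (x * q2 + y * q1) = q2 * (k * x) + q1 * (k * y) by ring, ad_add, ad_mul_cancel h1,
      mul_comm q1, ad_mul_cancel h2]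
  rw [e1, e2, e3]
  ring

/-- a function periodic mod `q1` seen modulo `q1 q2` -/
theorem gs_lift {q1 q2 : R K} (h1 : q1 ≠ 0) (h2 : q2 ≠ 0) {f : R K → ℂ} (hf : Per q1 f) (k : R K) :
    gs (q1 * q2) f k = if q2 ∣ k then (N q2 : ℂ) * gs q1 f (dv k q2) else 0 := by
  rw [gs, sum_res_tower h1 h2 ((hf.of_dvd (dvd_mul_right _ _)).mul (ad_per _ k))]
  have e : ∀ x, ∑ y ∈ res q2, f (x + q1 * y) * ad (q1 * q2) (k * (x + q1 * y)) =
      f x * ad (q1 * q2) (k * x) * if q2 ∣ k then (N q2 : ℂ) else 0 := fun x => by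
    rw [← sum_ad h2, Finset.mul_sum]
    refine Finset.sum_congr rfl fun y _ => ?_
    rw [hf, mul_add, ad_add, mul_left_comm k, ad_mul_cancel h1, mul_assoc]
  simp only [e]
  split_ifs with hk
  · obtain ⟨k, rfl⟩ := hk
    rw [dv_mul_left h2, gs, Finset.mul_sum]
    refine Finset.sum_congr rfl fun x _ => ?_
    rw [mul_comm q1, mul_assoc q2, ad_mul_cancel h2, mul_comm]
  · simp

theorem gs_prime_nonprinc {p : R K} (hp : Prime p) {ψ : R K → ℂ} (h : IsChar p ψ) (hn : NonPrinc p ψ)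
    (k : R K) : gs p ψ k = conj (ψ k) * gs p ψ 1 := by
  by_cases hk : IsCoprime k p
  · simpa using gs_mul_unit hp.ne_zero h hk 1
  · have hpk : p ∣ k := by
      by_contra h'
      exact hk ((hp.irreducible.coprime_iff_not_dvd.2 h').symm)
    rw [(h.zero_iff k).2 hk, map_zero, zero_mul, ← h.sum_eq_zero hp.ne_zero hn]
    exact Finset.sum_congr rfl fun x _ => by rw [ad_of_dvd (hpk.mul_right x), mul_one]

/-- primitive characters have Gauss sums of absolute value `√N` (Fourier inversion at `1`) -/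
theorem s3_norm {q : R K} (hq : q ≠ 0) {ψ : R K → ℂ} (h : IsChar q ψ)
    (hp : ∀ k, gs q ψ k = conj (ψ k) * gs q ψ 1) : ‖gs q ψ 1‖ = Real.sqrt (N q) := by
  have h1 := fourier_inv hq h.per 1
  have h2 : ∑ k ∈ res q, gs q ψ k * ad q (-(k * 1)) = gs q ψ 1 * conj (gs q ψ 1) := by
    conv_rhs => rw [mul_comm]; enter [1]; rw [gs, map_sum]
    rw [Finset.sum_mul]
    refine Finset.sum_congr rfl fun k _ => ?_
    rw [hp k, map_mul, ad_neg, mul_one, one_mul]
    ring
  have hN : (N q : ℂ) ≠ 0 := by exact_mod_cast (N_pos hq).ne'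
  rw [h.one, h2, Complex.mul_conj', eq_inv_mul_iff_mul_eq₀ hN, mul_one] at h1
  rw [show N q = ‖gs q ψ 1‖ ^ 2 by exact_mod_cast h1, Real.sqrt_sq (norm_nonneg _)]

theorem norm_gs_prime {p : R K} (hp : Prime p) {ψ : R K → ℂ} (h : IsChar p ψ) (hn : NonPrinc p ψ) :
    ‖gs p ψ 1‖ = Real.sqrt (N p) := by
  exact s3_norm hp.ne_zero h (gs_prime_nonprinc hp h hn)

theorem gs_prime_princ {p : R K} (hp : Prime p) {ψ : R K → ℂ} (h : IsChar p ψ) (hn : ¬ NonPrinc p ψ)
    (k : R K) : gs p ψ k = if p ∣ k then (N p : ℂ) - 1 else -1 := by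
  obtain ⟨r, hr, hr'⟩ := exists_res hp.ne_zero 0
  rw [zero_sub, dvd_neg] at hr'
  have e : ∀ x ∈ res p, ψ x * ad p (k * x) = ad p (k * x) - if x = r then 1 else 0 := by
    intro x hx
    split_ifs with hxr
    · rw [hxr, (h.zero_iff r).2 fun hc => hp.not_isUnit (hc.isUnit_of_dvd' hr' dvd_rfl),
        ad_of_dvd (hr'.mul_left k), zero_mul, sub_self]
    · have h1 : IsCoprime x p := (hp.irreducible.coprime_iff_not_dvd.2 fun hd =>
        hxr (res_inj hp.ne_zero hx hr (dvd_sub hd hr'))).symm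
      rw [not_not.1 fun h2 => hn ⟨x, h1, h2⟩, one_mul, sub_zero]
  rw [gs, Finset.sum_congr rfl e, Finset.sum_sub_distrib, sum_ad hp.ne_zero, Finset.sum_ite_eq',
    if_pos hr]
  split_ifs <;> simp

theorem s3_unit {u : R K} (hu : IsUnit u) {ψ : R K → ℂ} (h : IsChar u ψ) (k : R K) :
    ψ k = 1 ∧ gs u ψ k = 1 := by
  have h1 : ∀ x, ψ x = 1 := fun x => (h.per.congr hu.dvd).trans h.one
  refine ⟨h1 k, ?_⟩
  simp [gs, h1, ad_of_dvd hu.dvd, card_res hu.ne_zero, isUnit_iff_nm.1 hu]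

theorem s3_sqfree {p a : R K} (hp : Prime p) (h : Squarefree (p * a)) : IsCoprime p a :=
  hp.irreducible.coprime_iff_not_dvd.2 fun hd => hp.not_isUnit (h p (mul_dvd_mul_left p hd))

theorem s3_sym {k j : ℕ} (hk : k = 2 ∨ k = 3 ∨ k = 6) {u : R K} (hu : u ^ k = 1) (hj : u ^ j ≠ 1)
    {n : R K} (hs : Squarefree n) (m : R K) :
    gs n (fun x => sym k n x ^ j) m = conj (sym k n m ^ j) * gs n (fun x => sym k n x ^ j) 1 := by
  have hj0 : j ≠ 0 := by rintro rfl; exact hj (pow_zero u)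
  induction n using UniqueFactorizationMonoid.induction_on_prime with
  | h₁ => exact absurd hs not_squarefree_zero
  | h₂ n hu =>
    have h := (sym_isChar hk hu.ne_zero).pow_char hj0
    rw [(s3_unit hu h m).1, (s3_unit hu h m).2, (s3_unit hu h 1).2, map_one, mul_one]
  | h₃ a p ha hp ih =>
    have h1 := (sym_isChar hk hp.ne_zero).pow_char hj0
    have h2 := (sym_isChar hk ha).pow_char hj0
    have hnp : NonPrinc p fun x => sym k p x ^ j := by
      obtain ⟨d, hd⟩ := symP_surj hk hp hu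
      rw [← sym_prime k hp] at hd
      refine ⟨d, not_not.1 fun hc => ?_, fun hc => hj (toC_injective ?_)⟩
      · have h0 := ((sym_isChar hk hp.ne_zero).zero_iff d).2 hc
        rw [hd, map_eq_zero_iff _ toC_injective] at h0
        rw [h0, zero_pow (by omega)] at hu
        exact zero_ne_one hu
      · rw [map_pow, ← hd, map_one]
        exact hc
    simp only [sym_mul_left k hp.ne_zero ha, mul_pow]
    rw [gs_mul hp.ne_zero ha (s3_sqfree hp hs) h1 h2, gs_mul hp.ne_zero ha (s3_sqfree hp hs) h1 h2,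
      gs_prime_nonprinc hp h1 hnp m, ih hs.of_mul_right, map_mul]
    ring

/-- powers `χ_n^j`, `6 ∤ j`, are primitive for squarefree `n` -/
theorem gs_chi_pow {n : R K} (hn : n ≠ 0) (hs : Squarefree n) {j : ℕ} (hj : ¬ 6 ∣ j) (k : R K) :
    gs n (fun x => chi n x ^ j) k = conj (chi n k ^ j) * gs n (fun x => chi n x ^ j) 1 := by
  have h := om_sq_add (K := K)
  have h6 : (-omR K) ^ 6 = 1 := by
    linear_combination (omR K ^ 3 + 1) * (omR K - 1) * h
  refine s3_sym (k := 6) (by simp) (u := -omR K) h6 ?_ hs k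
  rw [← Nat.div_add_mod j 6, pow_add, pow_mul, h6, one_pow, one_mul]
  have h1 : j % 6 = 1 ∨ j % 6 = 2 ∨ j % 6 = 3 ∨ j % 6 = 4 ∨ j % 6 = 5 := by omega
  rcases h1 with h' | h' | h' | h' | h' <;> rw [h'] <;> intro e
  · exact absurd (show (1 : R K) = 0 by linear_combination h + omR K * e) one_ne_zero
  · exact absurd (show (3 : R K) = 0 by linear_combination e - (omR K - 2) * (h - e)) (by norm_num)
  · exact absurd (show (2 : R K) = 0 by linear_combination -e - (omR K - 1) * h) (by norm_num)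
  · exact absurd (show (3 : R K) = 0 by
      linear_combination h - (omR K + 2) * (e - omR K * (omR K - 1) * h)) (by norm_num)
  · exact absurd (show (1 : R K) = 0 by
      linear_combination h - (omR K + 1) * (h + (e + omR K ^ 2 * (omR K - 1) * h))) one_ne_zero

theorem norm_gs_chi_pow {n : R K} (hn : n ≠ 0) (hs : Squarefree n) {j : ℕ} (hj : ¬ 6 ∣ j) :
    ‖gs n (fun x => chi n x ^ j) 1‖ = Real.sqrt (N n) := by
  exact s3_norm hs.ne_zero ((sym_isChar (k := 6) (by simp) hn).pow_char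
    (by rintro rfl; exact hj (dvd_zero _))) (gs_chi_pow hn hs hj)

theorem norm_gt {n : R K} (hn : n ≠ 0) (hs : Squarefree n) : ‖gt n‖ = 1 := by
  have h := norm_gs_chi_pow hn hs (j := 1) (by decide)
  simp only [pow_one] at h
  rw [gt, norm_div, h, Complex.norm_real, Real.norm_of_nonneg (Real.sqrt_nonneg _),
    div_self (Real.sqrt_pos.2 (N_pos hs.ne_zero)).ne']

theorem gs_cub {n : R K} (hn : n ≠ 0) (hs : Squarefree n) (k : R K) :
    gs n (cub n) k = conj (cub n k) * gs n (cub n) 1 := by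
  have h := s3_sym (k := 3) (j := 1) (by simp) om_cube (fun e => absurd (show (3 : R K) = 0 by
    linear_combination om_sq_add (K := K) - (omR K + 2) * e) (by norm_num)) hs k
  simp only [pow_one] at h
  exact h

theorem norm_g3 {n : R K} (hn : n ≠ 0) (hs : Squarefree n) : ‖g3 n‖ = 1 := by
  rw [g3, norm_div,
    s3_norm (ψ := cub n) hs.ne_zero (sym_isChar (k := 3) (by simp) hn) (gs_cub hn hs),
    Complex.norm_real, Real.norm_of_nonneg (Real.sqrt_nonneg _),
    div_self (Real.sqrt_pos.2 (N_pos hs.ne_zero)).ne']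

theorem s3_princ (e : R K) : IsChar e fun x => if IsCoprime x e then 1 else 0 where
  one := if_pos isCoprime_one_left
  mul a b := by
    by_cases ha : IsCoprime a e <;> by_cases hb : IsCoprime b e <;>
      simp [ha, hb, IsCoprime.mul_left_iff]
  per x t := by simp only [IsCoprime.add_mul_left_left_iff]
  zero_iff n := by simp

/-- General Gauss sum bound for a character modulo `q₀ ρ`, `ρ` squarefree and coprime to `q₀`:
`|G(k)| ≤ N(q₀) √N(ρ) √N(g)` where `g` is any multiple of `gcd(k, ρ)`. -/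
theorem norm_gs_le_sqfree {q0 ρ : R K} (hq : q0 ≠ 0) (hρ : Squarefree ρ) (hc : IsCoprime q0 ρ)
    {ψ : R K → ℂ} (h : IsChar (q0 * ρ) ψ) (k : R K) {g : R K} (hg0 : g ≠ 0)
    (hg : ∀ p, Prime p → p ∣ k → p ∣ ρ → p ∣ g) :
    ‖gs (q0 * ρ) ψ k‖ ≤ N q0 * Real.sqrt (N ρ) * Real.sqrt (N g) := by
  induction ρ using UniqueFactorizationMonoid.induction_on_prime generalizing ψ g with
  | h₁ => exact absurd hρ not_squarefree_zero
  | h₂ u hu =>
    have h0 := mul_ne_zero hq hu.ne_zero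
    refine (norm_gs_le h0 (h.norm_le h0) k).trans ?_
    rw [N_mul, N_unit hu, Real.sqrt_one]
    exact le_mul_of_one_le_right (mul_nonneg (N_nonneg _) zero_le_one)
      (Real.one_le_sqrt.2 (one_le_N hg0))
  | h₃ a p ha hp ih =>
    have hpa := s3_sqfree hp hρ
    have hc' : IsCoprime p (q0 * a) := hc.of_mul_right_left.symm.mul_right hpa
    have h0 := mul_ne_zero hq ha
    rw [mul_left_comm] at h ⊢
    obtain ⟨ψ1, ψ2, h1, h2, e⟩ := h.exists_factor hc'
    have key : ∃ g' : R K, g' ≠ 0 ∧ (∀ r, Prime r → r ∣ k → r ∣ a → r ∣ g') ∧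
        ‖gs p ψ1 k‖ * Real.sqrt (N g') ≤ Real.sqrt (N p) * Real.sqrt (N g) := by
      by_cases hk : p ∣ k
      · obtain ⟨g', rfl⟩ := hg p hp hk (dvd_mul_right p a)
        refine ⟨g', right_ne_zero_of_mul hg0, fun r hr h3 h4 => ?_, ?_⟩
        · exact (hr.dvd_or_dvd (hg r hr h3 (h4.mul_left p))).resolve_left fun h5 =>
            hr.not_isUnit (hpa.isUnit_of_dvd' h5 h4)
        · rw [N_mul, Real.sqrt_mul (N_nonneg _), ← mul_assoc, Real.mul_self_sqrt (N_nonneg _)]
          exact mul_le_mul_of_nonneg_right (norm_gs_le hp.ne_zero (h1.norm_le hp.ne_zero) k)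
            (Real.sqrt_nonneg _)
      · refine ⟨g, hg0, fun r hr h3 h4 => hg r hr h3 (h4.mul_left p),
          mul_le_mul_of_nonneg_right ?_ (Real.sqrt_nonneg _)⟩
        by_cases hn : NonPrinc p ψ1
        · rw [gs_prime_nonprinc hp h1 hn, norm_mul, norm_gs_prime hp h1 hn, Complex.norm_conj]
          exact mul_le_of_le_one_left (Real.sqrt_nonneg _) (h1.norm_le hp.ne_zero k)
        · rw [gs_prime_princ hp h1 hn, if_neg hk, norm_neg, norm_one]
          exact Real.one_le_sqrt.2 (one_le_N hp.ne_zero)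
    obtain ⟨g', hg0', hg', key⟩ := key
    have h3 := ih hρ.of_mul_right hc.of_mul_right_right h2 hg0' hg'
    rw [funext e, gs_mul hp.ne_zero h0 hc' h1 h2, norm_mul, norm_mul, norm_mul,
      h1.norm_eq_one hp.ne_zero hc'.symm, h2.norm_eq_one h0 hc', one_mul, one_mul, N_mul,
      Real.sqrt_mul (N_nonneg _)]
    have h4 := mul_le_mul_of_nonneg_left key
      (mul_nonneg (N_nonneg q0) (Real.sqrt_nonneg (N a)))
    linarith [mul_le_mul_of_nonneg_left h3 (norm_nonneg (gs p ψ1 k))]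

/-- changing the modulus by a unit -/
theorem gs_unit_mul {q : R K} (hq : q ≠ 0) {ψ : R K → ℂ} (hψ : Per q ψ) {u : R K} (hu : IsUnit u)
    (k : R K) : gs (u * q) ψ (u * k) = gs q ψ k := by
  have h0 := mul_ne_zero hu.ne_zero hq
  rw [gs, gs, ← sum_res_eq hq (hψ.mul (ad_per q k)) (res (u * q))]
  · exact Finset.sum_congr rfl fun x _ => by rw [mul_assoc u, ad_mul_cancel hu.ne_zero]
  · intro x
    obtain ⟨r, hr, hr'⟩ := exists_res h0 x
    exact ⟨r, hr, (dvd_mul_left q u).trans hr'⟩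
  · intro x hx y hy hxy
    exact res_inj h0 hx hy (hu.mul_left_dvd.2 hxy)

end Crest.Agent.R312
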