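import Crest.Agent.R312.B1Hex

/-!
# R312 / B1Det : `T_A(a, e) = T_F(N a, e)` for a scalar `e`
-/

set_option autoImplicit false

noncomputable section

open scoped Classical

namespace Crest.Agent.R312.B1

/-- `k` is an order in the field `F` -/
class Base (k F : Type) [CommRing k] [Field F] [Algebra k F] : Prop where
  inj : Function.Injective (algebraMap k F)
  den : ∀ x : F, ∃ n : ℕ, n ≠ 0 ∧ ∃ a : k, algebraMap k F a = n * x

variable {k F : Type} [CommRing k] [Field F] [CharZero F] [Algebra k F] [Base k F]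

omit [CharZero F] in
/-- denominators can be taken to be cubes -/
theorem Base.den_cube (x : F) : ∃ n : ℕ, n ≠ 0 ∧ ∃ a : k, algebraMap k F a = (n : F) ^ 3 * x := by
  obtain ⟨n, hn, a, e⟩ := Base.den (k := k) x
  exact ⟨n, hn, (n : k) ^ 2 * a, by rw [map_mul, map_pow, map_natCast, e]; ring⟩

omit [CharZero F] in
theorem bd_lat {S : Submodule k F} (h1 : ∀ a : k, algebraMap k F a ∈ S)
    (h2 : ∀ x ∈ S, ∃ a : k, algebraMap k F a = x) : Lat S := by
  refine ⟨⟨Submodule.span k {1}, Submodule.fg_span_singleton _, fun x hx => ?_⟩, fun v => ?_⟩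
  · obtain ⟨a, rfl⟩ := h2 x hx
    exact Submodule.mem_span_singleton.2 ⟨a, (Algebra.algebraMap_eq_smul_one a).symm⟩
  · obtain ⟨n, hn, a, e⟩ := Base.den (k := k) v
    exact ⟨n, hn, by rw [nsmul_eq_mul, ← e]; exact h1 a⟩

omit [CharZero F] in
theorem pres_ofId : Pres (Algebra.ofId k F) 0 :=
  ⟨fun x => by rw [zero_dvd_iff]; exact map_eq_zero_iff _ Base.inj,
    bd_lat (fun a => ⟨a, rfl⟩) (fun _ hx => hx)⟩

/-- `k^n → F^n` -/
def piMap (k F : Type) [CommRing k] [Field F] [Algebra k F] (ι : Type) : (ι → k) →ₐ[k] (ι → F) :=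
  AlgHom.pi fun i => (Algebra.ofId k F).comp (Pi.evalAlgHom k (fun _ => k) i)

omit [CharZero F] in
theorem pres_piMap (ι : Type) [Fintype ι] : Pres (piMap k F ι) 0 := by
  refine ⟨fun x => ?_, ⟨⟨_, ?_, le_rfl⟩, fun v => ?_⟩⟩
  · rw [zero_dvd_iff]
    exact ⟨fun e => funext fun i => (map_eq_zero_iff _ (Base.inj (k := k) (F := F))).1 (congrFun e i),
      fun e => by rw [e, map_zero]⟩
  · rw [LinearMap.range_eq_map]
    exact Module.Finite.fg_top.map _
  · choose n hn a e using fun i => Base.den (k := k) (v i)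
    refine ⟨∏ i, n i, Finset.prod_ne_zero_iff.2 fun i _ => hn i,
      fun i => (∏ j ∈ Finset.univ.erase i, n j : ℕ) * a i, funext fun i => ?_⟩
    change algebraMap k F (_ * _) = _
    rw [map_mul, map_natCast, e, Pi.smul_apply, nsmul_eq_mul,
      ← Finset.prod_erase_mul _ _ (Finset.mem_univ i), Nat.cast_mul, mul_assoc]

omit [CharZero F] in
/-- the projection `k^n → F` to the slot `i`; its kernel is generated by `1 - e_i` -/
theorem pres_eval (ι : Type) [Fintype ι] (i : ι) :
    Pres ((Algebra.ofId k F).comp (Pi.evalAlgHom k (fun _ : ι => k) i)) (Function.update 1 i 0) := by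
  refine ⟨fun x => ?_, bd_lat (fun a => ⟨fun _ => a, rfl⟩)
    (fun _ ⟨x, hx⟩ => ⟨x i, hx⟩)⟩
  change algebraMap k F (x i) = 0 ↔ _
  rw [map_eq_zero_iff _ Base.inj]
  constructor
  · intro e
    refine ⟨x, funext fun j => ?_⟩
    by_cases h : j = i
    · subst h; simp [e]
    · simp [h]
  · rintro ⟨y, rfl⟩
    simp

omit [CharZero F] [Algebra k F] [Base k F] in
theorem bd_unit {ι : Type} {d : ι → F} (hd : ∀ i, d i ≠ 0) : IsUnit d :=
  Pi.isUnit_iff.2 fun i => Ne.isUnit (hd i)

omit [CharZero F] [Algebra k F] [Base k F] in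
theorem bd_upd {ι : Type} (i : ι) {c t : F} (hc : c ≠ 0) (ht : t ≠ 0) :
    IsUnit (Function.update (fun _ : ι => c) i t) :=
  bd_unit fun j => by
    by_cases h : j = i
    · subst h; simpa using ht
    · simpa [h] using hc

variable [Cu k]

/-- different slots are orthogonal.  Multiply by cubes to get `t, e ∈ k`; `T_cop` for the coprime
elements `update 1 i t`, `update e i 1` of `k^n`, each is `≡ 1` modulo the other (`Dt_eq_zero`). -/
theorem T_slot_orth {ι : Type} [Fintype ι] (i : ι) {t e : F} (ht : t ≠ 0) (he : e ≠ 0) :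
    T k (Function.update (1 : ι → F) i t) (Function.update (fun _ : ι => e) i 1) = 0 := by
  obtain ⟨n, hn, a, ha⟩ := Base.den_cube (k := k) t
  obtain ⟨m, hm, b, hb⟩ := Base.den_cube (k := k) e
  have n0 : (n : F) ≠ 0 := Nat.cast_ne_zero.2 hn
  have m0 : (m : F) ≠ 0 := Nat.cast_ne_zero.2 hm
  have u1 : IsUnit (Function.update (1 : ι → F) i t) := bd_upd i one_ne_zero ht
  have u2 : IsUnit (Function.update (1 : ι → F) i n) := bd_upd i one_ne_zero n0
  have u3 : IsUnit (Function.update (fun _ : ι => e) i 1) := bd_upd i he one_ne_zero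
  have u4 : IsUnit (Function.update (fun _ : ι => (m : F)) i 1) := bd_upd i m0 one_ne_zero
  have e1 : piMap k F ι (Function.update 1 i a) =
      Function.update (1 : ι → F) i n ^ 3 * Function.update (1 : ι → F) i t := funext fun j => by
    change algebraMap k F _ = _
    by_cases h : j = i
    · subst h; simp [ha]
    · simp [h]
  have e2 : piMap k F ι (Function.update (fun _ => b) i 1) =
      Function.update (fun _ : ι => (m : F)) i 1 ^ 3 * Function.update (fun _ : ι => e) i 1 :=
    funext fun j => by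
      change algebraMap k F _ = _
      by_cases h : j = i
      · subst h; simp
      · simp [h, hb]
  have h := T_cop (pres_piMap (k := k) (F := F) ι) (g := Function.update (1 : ι → k) i a)
    (h := Function.update (fun _ => b) i 1) (e1 ▸ (u2.pow 3).mul u1) (e2 ▸ (u4.pow 3).mul u3)
    ⟨Function.update 1 i 0, Function.update 0 i 1, funext fun j => by
      by_cases h : j = i
      · subst h; simp
      · simp [h]⟩
  have d1 : dt k (Function.update (fun _ : ι => b) i 1) (Function.update 1 i a) = 0 :=
    Dt_eq_zero fun x => mem_N1.2 ⟨Function.update 0 i ((a - 1) * x i), funext fun j => by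
      by_cases h : j = i
      · subst h; simp; ring
      · simp [h]⟩
  have d2 : dt k (Function.update (1 : ι → k) i a) (Function.update (fun _ : ι => b) i 1) = 0 :=
    Dt_eq_zero fun x => mem_N1.2 ⟨Function.update (fun j => (b - 1) * x j) i 0, funext fun j => by
      by_cases h : j = i
      · subst h; simp
      · simp [h]; ring⟩
  rw [d1, d2, e1, e2, T_mul_left (u2.pow 3) u1 ((u4.pow 3).mul u3), T_cube_left u2 ((u4.pow 3).mul u3),
    T_mul_right u1 (u4.pow 3) u3, T_cube_right u1 u4] at h
  simpa using h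

/-- stability.  For `t, e ∈ k` apply `T_pull` to `pres_piMap` and to `pres_eval` with the same `φ`, `I`:
the ideals `N2 0 g` and `N2 (update 1 i 0) g` agree for `g = update 1 i t`. -/
theorem T_slot {ι : Type} [Fintype ι] (i : ι) {t e : F} (ht : t ≠ 0) (he : e ≠ 0) :
    T k (Function.update (1 : ι → F) i t) (Function.update (1 : ι → F) i e) = T k t e := by
  obtain ⟨n, hn, a, ha⟩ := Base.den_cube (k := k) t
  obtain ⟨m, hm, b, hb⟩ := Base.den_cube (k := k) e
  have n0 : (n : F) ≠ 0 := Nat.cast_ne_zero.2 hn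
  have m0 : (m : F) ≠ 0 := Nat.cast_ne_zero.2 hm
  have u0 : ∀ {t : F}, t ≠ 0 → IsUnit (Function.update (1 : ι → F) i t) := fun ht =>
    bd_upd i one_ne_zero ht
  have e1 : ∀ {a : k} {n : ℕ} {t : F}, algebraMap k F a = (n : F) ^ 3 * t →
      piMap k F ι (Function.update 1 i a) =
      Function.update (1 : ι → F) i n ^ 3 * Function.update (1 : ι → F) i t := fun ha => funext fun j => by
    change algebraMap k F _ = _
    by_cases h : j = i
    · subst h; simp [ha]
    · simp [h]
  have e2 : ∀ a : k, ((Algebra.ofId k F).comp (Pi.evalAlgHom k (fun _ : ι => k) i))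
      (Function.update 1 i a) = algebraMap k F a := fun a => by
    change algebraMap k F _ = _
    simp
  have e3 : ∀ a : k, N2 k (Function.update (1 : ι → k) i 0) (Function.update (1 : ι → k) i a) =
      N2 k 0 (Function.update (1 : ι → k) i a) := fun a => by
    ext x
    rw [mem_N2, mem_N2]
    constructor
    · rintro ⟨u, v, rfl⟩
      refine ⟨0, Function.update (1 : ι → k) i 0 * u + v, funext fun j => ?_⟩
      by_cases h : j = i
      · subst h; simp
      · simp [h]
    · rintro ⟨u, v, rfl⟩
      exact ⟨0, v, by ring⟩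
  have e4 : Function.update (1 : ι → k) i a * Function.update (1 : ι → k) i b =
      Function.update (1 : ι → k) i (a * b) :=
    funext fun j => by
      by_cases h : j = i
      · subst h; simp
      · simp [h]
  have v1 := ((u0 n0).pow 3).mul (u0 ht)
  have v2 := ((u0 m0).pow 3).mul (u0 he)
  have w1 := ((Ne.isUnit n0).pow 3).mul (Ne.isUnit ht)
  have w2 := ((Ne.isUnit m0).pow 3).mul (Ne.isUnit he)
  have : Finite ((ι → k) ⧸ N2 k 0 (Function.update (1 : ι → k) i a * Function.update (1 : ι → k) i b)) :=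
    (pres_piMap (k := k) (F := F) ι).finite (by rw [map_mul, e1 ha, e1 hb]; exact v1.mul v2)
  have h1 := T_pull (pres_piMap (k := k) (F := F) ι) (g := Function.update (1 : ι → k) i a)
    (h := Function.update (1 : ι → k) i b) (e1 ha ▸ v1) (e1 hb ▸ v2) (gauge_spec _) le_rfl
  have h2 := T_pull (pres_eval (k := k) (F := F) ι i) (g := Function.update (1 : ι → k) i a)
    (h := Function.update (1 : ι → k) i b) (by rw [e2, ha]; exact w1) (by rw [e2, hb]; exact w2)
    (φ := gauge (N2 k 0 (Function.update (1 : ι → k) i a * Function.update (1 : ι → k) i b)))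
    (by rw [e4, e3]; exact gauge_spec _)
    (I := N2 k 0 (Function.update (1 : ι → k) i a * Function.update (1 : ι → k) i b)) (by rw [e4, e3])
  rw [e3, e3, ← h1, e2, e2, e1 ha, e1 hb, ha, hb, T_mul_left ((u0 n0).pow 3) (u0 ht) v2,
    T_cube_left (u0 n0) v2, T_mul_right (u0 ht) ((u0 m0).pow 3) (u0 he), T_cube_right (u0 ht) (u0 m0),
    T_mul_left ((Ne.isUnit n0).pow 3) (Ne.isUnit ht) w2, T_cube_left (Ne.isUnit n0) w2,
    T_mul_right (Ne.isUnit ht) ((Ne.isUnit m0).pow 3) (Ne.isUnit he),
    T_cube_right (Ne.isUnit ht) (Ne.isUnit m0)] at h2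
  simpa using h2.symm

theorem T_pi {ι : Type} [Fintype ι] {d : ι → F} (hd : ∀ i, d i ≠ 0) {e : F} (he : e ≠ 0) :
    T k d (fun _ : ι => e) = T k (∏ i, d i) e := by
  have ue : IsUnit (fun _ : ι => e) := bd_unit fun _ => he
  have u0 : ∀ i, IsUnit (Function.update (1 : ι → F) i (d i)) := fun i => bd_upd i one_ne_zero (hd i)
  have h1 : ∀ i, T k (Function.update (1 : ι → F) i (d i)) (fun _ : ι => e) = T k (d i) e := fun i => by
    have : (fun _ : ι => e) = Function.update (1 : ι → F) i e * Function.update (fun _ : ι => e) i 1 :=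
      funext fun j => by
        by_cases h : j = i
        · subst h; simp
        · simp [h]
    rw [this, T_mul_right (u0 i) (b := Function.update (1 : ι → F) i e) (bd_upd i one_ne_zero he)
      (bd_upd i he one_ne_zero),
      T_slot i (hd i) he, T_slot_orth i (hd i) he, add_zero]
  have h2 : ∀ s : Finset ι, T k (∏ i ∈ s, Function.update (1 : ι → F) i (d i)) (fun _ : ι => e) =
      T k (∏ i ∈ s, d i) e := fun s => by
    induction s using Finset.induction_on with
    | empty => simp [T_one_left ue, T_one_left (Ne.isUnit he)]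
    | insert a s ha ih =>
      rw [Finset.prod_insert ha, Finset.prod_insert ha,
        T_mul_left (u0 a) (IsUnit.prod_iff.2 fun i _ => u0 i) ue,
        T_mul_left (Ne.isUnit (hd a)) (Ne.isUnit (Finset.prod_ne_zero_iff.2 fun i _ => hd i))
          (Ne.isUnit he), ih, h1]
  rw [← h2]
  congr 1
  exact (Finset.univ_prod_mulSingle d).symm

/-- `Matrix.diagonal_transvection_induction_of_det_ne_zero`; a transvection is a cube
(`transvection i j c = (transvection i j (c/3))³`), a diagonal matrix is `Algebra.lmul` of `F^n`. -/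
theorem Pr_matrix {ι : Type} [Fintype ι] [DecidableEq ι] {m : Matrix ι ι F} (hm : m.det ≠ 0) {e : F}
    (he : e ≠ 0) :
    Pr ((Matrix.toLin' m).restrictScalars k) (Algebra.lmul k (ι → F) (fun _ => e)) = T k m.det e := by
  have ue : IsUnit (Algebra.lmul k (ι → F) (fun _ => e)) := bl_unit (bd_unit fun _ => he)
  have um : ∀ {m : Matrix ι ι F}, m.det ≠ 0 → IsUnit ((Matrix.toLin' m).restrictScalars k) := fun {m} hm =>
    (Module.End.isUnit_iff _).2 ((Module.End.isUnit_iff (Matrix.toLin' m)).1
      (((Matrix.isUnit_iff_isUnit_det m).2 (Ne.isUnit hm)).map Matrix.toLinAlgEquiv'))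
  have cm : ∀ m : Matrix ι ι F, Commute ((Matrix.toLin' m).restrictScalars k)
      (Algebra.lmul k (ι → F) (fun _ => e)) := fun m => LinearMap.ext fun x =>
    (Matrix.toLin' m).map_smul e x
  have mm : ∀ a b : Matrix ι ι F, (Matrix.toLin' (a * b)).restrictScalars k =
      (Matrix.toLin' a).restrictScalars k * (Matrix.toLin' b).restrictScalars k := fun a b =>
    LinearMap.ext fun x => Matrix.toLin'_mul_apply a b x
  refine Matrix.diagonal_transvection_induction_of_det_ne_zero
    (fun m => Pr ((Matrix.toLin' m).restrictScalars k) (Algebra.lmul k (ι → F) (fun _ => e)) =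
      T k m.det e) m hm (fun D hD => ?_) (fun t => ?_) (fun a b ha hb ia ib => ?_)
  · rw [Matrix.det_diagonal] at hD ⊢
    rw [← T_pi (fun i => Finset.prod_ne_zero_iff.1 hD i (Finset.mem_univ i)) he, T]
    congr 1
    exact LinearMap.ext fun x => funext fun i => Matrix.mulVec_diagonal D x i
  · obtain ⟨i, j, hij, c⟩ := t
    have d1 : ∀ c : F, (Matrix.transvection i j c).det ≠ 0 := fun c => by
      rw [Matrix.det_transvection_of_ne i j hij]; exact one_ne_zero
    have e1 : Matrix.transvection i j c = Matrix.transvection i j (c / 3) *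
        (Matrix.transvection i j (c / 3) * Matrix.transvection i j (c / 3)) := by
      rw [Matrix.transvection_mul_transvection_same i j hij,
        Matrix.transvection_mul_transvection_same i j hij]
      congr 1
      ring
    change Pr ((Matrix.toLin' (Matrix.transvection i j c)).restrictScalars k) _ =
      T k (Matrix.transvection i j c).det e
    rw [Matrix.det_transvection_of_ne i j hij, T_one_left (Ne.isUnit he), e1, mm,
      Pr_mul_left (um (d1 _)) (um (by rw [Matrix.det_mul]; exact mul_ne_zero (d1 _) (d1 _))) ue (cm _)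
        (cm _), mm, Pr_mul_left (um (d1 _)) (um (d1 _)) ue (cm _) (cm _)]
    have h3 : (3 : ZMod 3) = 0 := rfl
    linear_combination Pr ((Matrix.toLin' (Matrix.transvection i j (c / 3))).restrictScalars k)
      (Algebra.lmul k (ι → F) (fun _ => e)) * h3
  · rw [mm, Pr_mul_left (um ha) (um hb) ue (cm _) (cm _), ia, ib, Matrix.det_mul,
      T_mul_left (Ne.isUnit ha) (Ne.isUnit hb) (Ne.isUnit he)]

/-- `Pr_conj` with the coordinate isomorphism of a basis, `Algebra.norm_eq_matrix_det` -/
theorem T_norm {A : Type} [CommRing A] [Algebra F A] [Algebra k A] [IsScalarTower k F A]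
    [Module.Finite F A] {a : A} (ha : IsUnit a) {e : F} (he : e ≠ 0) :
    T k a (algebraMap F A e) = T k (Algebra.norm F a) e := by
  let b := Module.finBasis F A
  have hn : (Algebra.leftMulMatrix b a).det ≠ 0 :=
    ((Matrix.isUnit_iff_isUnit_det _).1 (ha.map _)).ne_zero
  rw [Algebra.norm_eq_matrix_det b, ← Pr_matrix hn he, T]
  refine (Pr_conj (b.equivFun.restrictScalars k) (bl_unit ha) (bl_unit ((Ne.isUnit he).map _))
    (bl_comm _ _) (fun x => ?_) (fun x => ?_)).symm
  · exact (Algebra.leftMulMatrix_mulVec_repr b a x).symm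
  · change b.equivFun (algebraMap F A e * x) = e • b.equivFun x
    rw [← Algebra.smul_def, map_smul]

end Crest.Agent.R312.B1
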