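import Crest.Agent.R312.B0Ring
import Crest.Agent.R312.B1Det

/-!
# R312 / B1F : the field `F = ℚ(ω) ⊆ K` and the ring `k = F ∩ R K = ℤ[ω][1/Q]`
-/

set_option autoImplicit false

noncomputable section

open scoped Classical NumberField IntermediateField
open Crest.Agent.R17 (O)

namespace Crest.Agent.R312.B1

variable (K : Type) [Field K] [NumberField K] [Fld K] [Loc K]

/-- `ℚ(ω)` -/
def FF : IntermediateField ℚ K := ℚ⟮((Fld.om : 𝓞 K) : K)⟯

/-- `ℚ(ω) ∩ R K` -/
def kk : Subring (FF K) := (RR K (Loc.Q K)).comap (algebraMap (FF K) K)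

/-- `ω ∈ k` -/
def omk : kk K := ⟨⟨((Fld.om : 𝓞 K) : K), IntermediateField.mem_adjoin_simple_self ℚ _⟩, (omR K).2⟩

/-- the inclusion `k → R K` -/
def kR : kk K →+* R K :=
  ((algebraMap (FF K) K).comp (kk K).subtype).codRestrict (RR K (Loc.Q K)) fun x => x.2

instance : Algebra (kk K) (R K) := (kR K).toAlgebra

/-- the inclusion `R K → K` -/
def jR : R K →ₐ[kk K] K := { (RR K (Loc.Q K)).subtype with commutes' := fun _ => rfl }

variable {K}

@[simp] theorem jR_apply (x : R K) : jR K x = (x : K) := rfl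

@[simp] theorem coe_kR (x : kk K) : ((kR K x : R K) : K) = ((x : FF K) : K) := rfl

theorem b1f_ext {x y : kk K} (h : ((x : FF K) : K) = ((y : FF K) : K)) : x = y :=
  Subtype.ext (Subtype.ext h)

theorem b1f_inj : Function.Injective (kR K) := fun x y h =>
  b1f_ext (by rw [← coe_kR, ← coe_kR, h])

theorem b1f_dvd {a b : kk K} (ha : a ≠ 0) (h : kR K a ∣ kR K b) : a ∣ b := by
  obtain ⟨r, hr⟩ := h
  have ha' : (a : FF K) ≠ 0 := fun h => ha (Subtype.ext h)
  have ha2 : ((a : FF K) : K) ≠ 0 := fun h => ha' (Subtype.ext h)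
  have e : ((b : FF K) : K) = ((a : FF K) : K) * (r : K) := congrArg Subtype.val hr
  have hm : (b : FF K) / (a : FF K) ∈ kk K := by
    show algebraMap (FF K) K ((b : FF K) / (a : FF K)) ∈ RR K (Loc.Q K)
    rw [map_div₀]
    show ((b : FF K) : K) / ((a : FF K) : K) ∈ RR K (Loc.Q K)
    rw [e, mul_div_cancel_left₀ _ ha2]
    exact r.2
  exact ⟨⟨_, hm⟩, Subtype.ext (by
    show (b : FF K) = (a : FF K) * ((b : FF K) / (a : FF K))
    rw [mul_div_cancel₀ _ ha'])⟩

theorem b1f_isUnit {a : kk K} (h : IsUnit (kR K a)) : IsUnit a := by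
  have ha : a ≠ 0 := by
    rintro rfl
    rw [map_zero] at h
    exact not_isUnit_zero h
  exact isUnit_of_dvd_one (b1f_dvd ha (by rw [map_one]; exact h.dvd))

theorem omk_eq : omk K ^ 2 + omk K + 1 = 0 := by
  apply b1f_inj
  rw [map_add, map_add, map_pow, map_one, map_zero]
  exact om_sq_add

theorem kk_isUnit_Q : IsUnit ((Loc.Q K : ℕ) : kk K) := by
  exact b1f_isUnit (by rw [map_natCast]; exact isUnit_Q)

theorem kk_three : IsUnit (3 : kk K) := by
  exact b1f_isUnit (by rw [map_ofNat]; exact isUnit_three)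

/-- `k/n` injects into `R K / n` (`finite_quot`) -/
theorem kk_fin (n : ℕ) (hn : n ≠ 0) : Finite (kk K ⧸ Ideal.span {(n : kk K)}) := by
  have hn' : (n : kk K) ≠ 0 := Nat.cast_ne_zero.2 hn
  have := finite_quot (K := K) (q := (n : R K)) (Nat.cast_ne_zero.2 hn)
  have H : Ideal.span {(n : kk K)} ≤ (Ideal.span {(n : R K)}).comap (kR K) := by
    rw [Ideal.span_singleton_le_iff_mem, Ideal.mem_comap, map_natCast]
    exact Ideal.mem_span_singleton_self _
  refine Finite.of_injective _ (Ideal.quotientMap_injective' (H := H) fun x hx => ?_)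
  rw [Ideal.mem_comap, Ideal.mem_span_singleton, ← map_natCast (kR K)] at hx
  exact Ideal.mem_span_singleton.2 (b1f_dvd hn' hx)

instance : Cu (kk K) := ⟨omk K, omk_eq, kk_three, kk_fin⟩

theorem algebraMap_om : algebraMap (kk K) (R K) Cu.om = omR K := rfl

/-- `loc_den` -/
theorem kk_base : Base (kk K) (FF K) := by
  refine ⟨Subtype.val_injective, fun x => ?_⟩
  obtain ⟨c, hc, hi⟩ := loc_den (x : K)
  refine ⟨c, hc, ⟨(c : FF K) * x, 0, ?_⟩, rfl⟩
  rw [pow_zero, one_mul, map_mul, map_natCast]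
  exact hi

instance : Base (kk K) (FF K) := kk_base

/-- `R K` is spanned over `k ∋ 1/Q` by an integral basis; `loc_den` -/
theorem pres_jR : Pres (jR K) 0 := by
  refine ⟨fun x => ?_, ⟨Submodule.span (kk K) (Set.range (NumberField.integralBasis K)),
    Submodule.fg_span (Set.finite_range _), ?_⟩, fun v => ?_⟩
  · rw [zero_dvd_iff, jR_apply]
    exact ZeroMemClass.coe_eq_zero
  · rintro _ ⟨x, rfl⟩
    obtain ⟨n, y, hy⟩ := exists_toR x
    have h1 : (y : K) ∈ Submodule.span ℤ (Set.range (NumberField.integralBasis K)) :=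
      (NumberField.mem_span_integralBasis K).2 ⟨y, rfl⟩
    have h2 := Submodule.span_subset_span ℤ (kk K) _ h1
    obtain ⟨u, hu⟩ := (kk_isUnit_Q (K := K)).pow n
    have h3 : (y : K) = (u : kk K) • (x : K) := by
      rw [hu, Algebra.smul_def, map_pow, map_natCast, ← coe_toR, hy]
      push_cast
      rfl
    have h4 := Submodule.smul_mem _ ((u⁻¹ : (kk K)ˣ) : kk K) h2
    rw [h3, smul_smul, Units.inv_mul, one_smul] at h4
    exact h4
  · obtain ⟨c, hc, hi⟩ := loc_den v
    refine ⟨c, hc, ⟨(c : K) * v, 0, by rw [pow_zero, one_mul]; exact hi⟩, ?_⟩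
    rw [nsmul_eq_mul]
    rfl

variable (K) in
/-- `ℤ[ω] → k` -/
def io : O →+* kk K where
  toFun x := x.re + x.im * omk K
  map_one' := by simp [QuadraticAlgebra.re_one, QuadraticAlgebra.im_one]
  map_zero' := by simp
  map_add' x y := by simp; ring
  map_mul' x y := by
    simp only [QuadraticAlgebra.re_mul, QuadraticAlgebra.im_mul]
    push_cast
    have := omk_eq (K := K)
    linear_combination (-(x.im : kk K) * y.im) * this

theorem io_om : io K R17.om = Cu.om := by
  show (((0 : ℤ) : kk K)) + ((1 : ℤ) : kk K) * omk K = omk K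
  simp

/-- `x * star x = nm x` (`R17.mul_star_self`) and characteristic zero -/
theorem io_injective : Function.Injective (io K) := by
  rw [injective_iff_map_eq_zero]
  intro x hx
  have h := congrArg (io K) (R17.mul_star_self x)
  rw [map_mul, hx, zero_mul, map_natCast] at h
  exact R17.nm_eq_zero.1 (Nat.cast_eq_zero.1 h.symm)

variable (K) in
/-- `ℤ[ω] → F` -/
def b1f_iF : O →+* FF K := (kk K).subtype.comp (io K)

variable (K) in
/-- `ℤ[ω] → K` -/
def b1f_iK : O →+* K := (algebraMap (FF K) K).comp (b1f_iF K)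

theorem b1f_iF_inj : Function.Injective (b1f_iF K) := Subtype.val_injective.comp io_injective

theorem b1f_iK_inj : Function.Injective (b1f_iK K) := Subtype.val_injective.comp b1f_iF_inj

/-- `IntermediateField.adjoin_induction` (or: the elements `io a / n` form a subfield) -/
theorem exists_io_F (x : FF K) : ∃ (n : ℕ) (a : O), n ≠ 0 ∧ ((io K a : kk K) : FF K) = n * x := by
  have key : ∀ y ∈ ℚ⟮((Fld.om : 𝓞 K) : K)⟯, ∃ (n : ℕ) (a : O), n ≠ 0 ∧ b1f_iK K a = n * y := by
    intro y hy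
    induction hy using IntermediateField.adjoin_induction with
    | mem y hy =>
      refine ⟨1, R17.om, one_ne_zero, ?_⟩
      rw [Set.mem_singleton_iff.1 hy, Nat.cast_one, one_mul]
      show (((io K R17.om : kk K) : FF K) : K) = _
      rw [io_om]
      rfl
    | algebraMap q =>
      refine ⟨q.den, (q.num : O), q.den_ne_zero, ?_⟩
      rw [map_intCast, eq_ratCast, Rat.cast_def, mul_div_cancel₀ _ (Nat.cast_ne_zero.2 q.den_ne_zero)]
    | add y z _ _ h1 h2 =>
      obtain ⟨n, a, hn, ha⟩ := h1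
      obtain ⟨m, b, hm, hb⟩ := h2
      refine ⟨n * m, m * a + n * b, mul_ne_zero hn hm, ?_⟩
      rw [map_add, map_mul, map_mul, ha, hb, map_natCast, map_natCast]
      push_cast
      ring
    | inv y _ h1 =>
      obtain ⟨n, a, hn, ha⟩ := h1
      by_cases hy : y = 0
      · exact ⟨1, 0, one_ne_zero, by simp [hy]⟩
      have ha0 : a ≠ 0 := by
        rintro rfl
        rw [map_zero] at ha
        exact mul_ne_zero (Nat.cast_ne_zero.2 hn) hy ha.symm
      refine ⟨R17.nm a, n * star a, (R17.nm_pos ha0).ne', ?_⟩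
      have h := congrArg (b1f_iK K) (R17.mul_star_self a)
      rw [map_mul, map_natCast, ha] at h
      rw [map_mul, map_natCast, ← h]
      field_simp
    | mul y z _ _ h1 h2 =>
      obtain ⟨n, a, hn, ha⟩ := h1
      obtain ⟨m, b, hm, hb⟩ := h2
      refine ⟨n * m, a * b, mul_ne_zero hn hm, ?_⟩
      rw [map_mul, ha, hb]
      push_cast
      ring
  obtain ⟨n, a, hn, ha⟩ := key x.1 x.2
  refine ⟨n, a, hn, Subtype.ext ?_⟩
  push_cast
  exact ha

/-- `x = a/n`; `O` is integrally closed (a PID): e.g. `F` is a fraction field of `O` and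
`IsIntegrallyClosed.isIntegral_iff` -/
theorem exists_io_of_isIntegral {x : FF K} (hx : IsIntegral ℤ (x : K)) :
    ∃ a : O, ((io K a : kk K) : FF K) = x := by
  letI : Algebra O (FF K) := (b1f_iF K).toAlgebra
  haveI : FaithfulSMul O (FF K) := (faithfulSMul_iff_algebraMap_injective _ _).2 b1f_iF_inj
  haveI : IsFractionRing O (FF K) := IsFractionRing.of_field O (FF K) fun z => by
    obtain ⟨n, a, hn, ha⟩ := exists_io_F z
    refine ⟨a, n, ?_⟩
    rw [map_natCast, eq_div_iff (Nat.cast_ne_zero.2 hn), mul_comm]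
    exact ha.symm
  have h1 : IsIntegral ℤ x :=
    (isIntegral_algebraMap_iff (algebraMap (FF K) K).injective).1 hx
  exact IsIntegrallyClosed.isIntegral_iff.1 (h1.tower_top (A := O))

theorem exists_io (x : kk K) : ∃ (j : ℕ) (a : O), io K a = ((Loc.Q K : ℕ) : kk K) ^ j * x := by
  obtain ⟨j, hj⟩ := x.2
  obtain ⟨a, ha⟩ := exists_io_of_isIntegral (x := ((Loc.Q K : ℕ) : FF K) ^ j * (x : FF K)) (by
    push_cast
    exact hj)
  refine ⟨j, a, Subtype.ext ?_⟩
  rw [ha]
  push_cast
  rfl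

/-- `u = 1 + Q^n s`, `b s = io y` with `b` coprime to `Q`; `u = b'(b + Q^n y) / (b' b)` with
`b' b ≡ 1 mod Q^n` -/
theorem exists_io_div {n : ℕ} (hn : 1 ≤ n) {u : FF K} (hu : InU n (u : K)) :
    ∃ a b : O, ((Loc.Q K : ℕ) : O) ^ n ∣ a - 1 ∧ ((Loc.Q K : ℕ) : O) ^ n ∣ b - 1 ∧ b ≠ 0 ∧
      u = ((io K a : kk K) : FF K) / ((io K b : kk K) : FF K) := by
  obtain ⟨s, ⟨b, hb, hi⟩, hs⟩ := hu
  have hQ : ((Loc.Q K : ℕ) : FF K) ≠ 0 := Nat.cast_ne_zero.2 Loc.Q_ne
  have hQ' : ((Loc.Q K : ℕ) : K) ≠ 0 := Nat.cast_ne_zero.2 Loc.Q_ne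
  obtain ⟨y, hy⟩ := exists_io_of_isIntegral
    (x := (b : FF K) * ((u - 1) / ((Loc.Q K : ℕ) : FF K) ^ n)) (by
      refine loc_of_eq hi ?_
      push_cast
      rw [hs]
      field_simp
      ring)
  obtain ⟨v, w, e⟩ := (hb.pow_right n).isCoprime
  have e0 : v * (b : ℤ) ≠ 0 := by
    intro h
    rw [h, zero_add] at e
    have h1 : Loc.Q K ^ n ∣ 1 := by
      have : ((Loc.Q K ^ n : ℕ) : ℤ) ∣ ((1 : ℕ) : ℤ) := ⟨w, by rw [Nat.cast_one, ← e, mul_comm]⟩
      exact Int.natCast_dvd_natCast.1 this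
    have h2 := Nat.le_of_dvd one_pos ((dvd_pow_self _ (by omega)).trans h1)
    have := two_le_Q (K := K)
    omega
  have e1 : (v : O) * b + w * ((Loc.Q K : ℕ) : O) ^ n = 1 := by exact_mod_cast congrArg (Int.cast : ℤ → O) e
  have e2 : b1f_iF K ((v : O) * b) ≠ 0 := by
    rw [map_mul, map_intCast, map_natCast]
    exact_mod_cast e0
  refine ⟨v * (b + ((Loc.Q K : ℕ) : O) ^ n * y), v * b, ⟨v * y - w, by linear_combination e1⟩,
    ⟨-w, by linear_combination e1⟩, fun h => e2 (by rw [h, map_zero]), ?_⟩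
  show u = b1f_iF K _ / b1f_iF K _
  have hy' : b1f_iF K y = _ := hy
  rw [eq_div_iff e2]
  simp only [map_add, map_mul, map_pow, map_natCast, map_intCast, hy']
  field_simp
  ring

theorem io_dvd_iff {p a : O} (hp : IsCoprime p ((Loc.Q K : ℕ) : O)) : io K p ∣ io K a ↔ p ∣ a := by
  refine ⟨fun ⟨c, hc⟩ => ?_, map_dvd _⟩
  obtain ⟨j, e, he⟩ := exists_io c
  have h1 : ((Loc.Q K : ℕ) : O) ^ j * a = p * e := by
    apply io_injective (K := K)
    rw [map_mul, map_mul, map_pow, map_natCast, he, hc]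
    ring
  exact (hp.pow_right (n := j)).dvd_of_dvd_mul_left ⟨e, h1⟩

/-- `O/p → k/p` is bijective for `p` coprime to `Q` -/
theorem io_quot {p : O} (hp : IsCoprime p ((Loc.Q K : ℕ) : O)) :
    Nonempty ((O ⧸ Ideal.span {p}) ≃+* (kk K ⧸ Ideal.span {io K p})) := by
  have H : Ideal.span {p} ≤ (Ideal.span {io K p}).comap (io K) := by
    rw [Ideal.span_singleton_le_iff_mem, Ideal.mem_comap]
    exact Ideal.mem_span_singleton_self _
  refine ⟨RingEquiv.ofBijective (Ideal.quotientMap _ (io K) H)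
    ⟨Ideal.quotientMap_injective' fun x hx => ?_, fun z => ?_⟩⟩
  · rw [Ideal.mem_comap, Ideal.mem_span_singleton, io_dvd_iff hp] at hx
    exact Ideal.mem_span_singleton.2 hx
  · obtain ⟨x, rfl⟩ := Ideal.Quotient.mk_surjective z
    obtain ⟨j, a, ha⟩ := exists_io x
    obtain ⟨u, v, e⟩ := hp.pow_right (n := j)
    refine ⟨Ideal.Quotient.mk _ (v * a), ?_⟩
    rw [Ideal.quotientMap_mk, Ideal.Quotient.eq, Ideal.mem_span_singleton]
    have e' := congrArg (io K) e
    rw [map_add, map_mul, map_mul, map_pow, map_natCast, map_one] at e'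
    refine ⟨-(io K u * x), ?_⟩
    rw [map_mul, ha]
    linear_combination x * e'

theorem io_prime {p : O} (hp : Prime p) (hQ : IsCoprime p ((Loc.Q K : ℕ) : O)) : Prime (io K p) := by
  refine ⟨fun h => hp.ne_zero (io_injective (K := K) (by rw [h, map_zero])), fun h => ?_,
    fun x y h => ?_⟩
  · have := h.dvd (a := io K 1)
    exact hp.not_unit (isUnit_of_dvd_one ((io_dvd_iff hQ).1 this))
  · obtain ⟨i, a, ha⟩ := exists_io x
    obtain ⟨j, b, hb⟩ := exists_io y
    have h1 : io K p ∣ io K (a * b) := by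
      rw [map_mul, ha, hb, mul_mul_mul_comm]
      exact h.mul_left _
    rcases hp.dvd_or_dvd ((io_dvd_iff hQ).1 h1) with h2 | h2
    · left
      have := map_dvd (io K) h2
      rwa [ha, (kk_isUnit_Q.pow i).dvd_mul_left] at this
    · right
      have := map_dvd (io K) h2
      rwa [hb, (kk_isUnit_Q.pow j).dvd_mul_left] at this

end Crest.Agent.R312.B1
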