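import Crest.Agent.R312.B1Int

/-!
# R312 / B1Int2 : the symmetry lemma, the determinant `Dt`, sums over representatives
-/

set_option autoImplicit false

noncomputable section

open scoped Classical

namespace Crest.Agent.R312.B1

variable {k : Type} [CommRing k] [Cu k] {M : Type} [AddCommGroup M] [Module k M]

theorem b2_adm_mul {I : Submodule k M} [Finite (M ⧸ I)] {w φ φ' : M → ZMod 3} (hw : Prd I w)
    (hwo : ∀ x, w ((Cu.om : k) • x) = w x) (hw0 : ∀ x ∈ I, w x = 0) (h : Prd I φ) (h' : Prd I φ')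
    (ho : ∀ x, w x ≠ 0 → φ ((Cu.om : k) • x) = φ x + 1)
    (ho' : ∀ x, w x ≠ 0 → φ' ((Cu.om : k) • x) = φ' x + 1) :
    Adm I (fun x => w x * (φ x - φ' x)) := by
  refine ⟨fun x y hy => by simp only [hw x y hy, h x y hy, h' x y hy], fun x => ?_,
    fun x hx => by simp only [hw0 x hx, zero_mul], Set.toFinite _⟩
  by_cases hx : w x = 0
  · simp only [hwo, hx, zero_mul]
  · simp only [hwo, ho x hx, ho' x hx, add_sub_add_right_eq_sub]

omit [Cu k] in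
theorem b2_prd_ind {I S : Submodule k M} (h : I ≤ S) : Prd I (ind S) := fun x y hy => by
  simp only [ind, S.add_mem_iff_left (h hy)]

/-- **symmetry lemma**.  Transport (`Ig_comp`) along `θ : N₁ × N₂ → M`, `(a, b) ↦ a + b`, with
`I₁ = θ⁻¹(N₁ ⊓ N₂) = {a ∈ N₂, b ∈ N₁}`; the integrand becomes `w (φ₂ a - φ₁ b)`, `w` the indicator of
`a ∉ N₂, b ∉ N₁`.  `Ig_eq` with `ψ = φ₂ a`, then `Sm_shift` for `σ (a, b) = (a, ω b)`, `ψ' = φ₁ b` and
`G = w (φ₂ a)³`, `G = w (φ₂ a)²`.  (`M' / I₁` is finite: it injects into `M / (N₁ ⊓ N₂)`.) -/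
theorem Ig_symm (N₁ N₂ : Submodule k M) [Finite (M ⧸ (N₁ ⊓ N₂))] {φ₁ φ₂ : M → ZMod 3}
    (h1 : Gauge N₁ φ₁) (h2 : Gauge N₂ φ₂) :
    Ig (N₁ ⊓ N₂) (fun x => ind (N₁ ⊔ N₂) x * (1 - ind N₁ x) * (1 - ind N₂ x) * (φ₂ x - φ₁ x)) = 0 := by
  let θ : N₁ × N₂ →ₗ[k] M := N₁.subtype.coprod N₂.subtype
  have hθ : ∀ p : N₁ × N₂, θ p = p.1 + p.2 := fun p => rfl
  let I₁ := (N₁ ⊓ N₂).comap θ
  have mI : ∀ p : N₁ × N₂, p ∈ I₁ ↔ (p.1 : M) ∈ N₂ ∧ (p.2 : M) ∈ N₁ := fun p => by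
    change θ p ∈ N₁ ⊓ N₂ ↔ _
    rw [hθ, Submodule.mem_inf, N₁.add_mem_iff_right p.1.2, N₂.add_mem_iff_left p.2.2, and_comm]
  have fin : Finite ((N₁ × N₂) ⧸ I₁) := by
    refine Finite.of_injective (I₁.mapQ (N₁ ⊓ N₂) θ le_rfl) (LinearMap.ker_eq_bot.1 ?_)
    rw [Submodule.ker_mapQ, Submodule.mkQ_map_self]
  have hw : ∀ x, ind (N₁ ⊔ N₂) x * (1 - ind N₁ x) * (1 - ind N₂ x) ≠ 0 →
      x ∈ N₁ ⊔ N₂ ∧ x ∉ N₁ ∧ x ∉ N₂ := fun x hx =>
    ⟨by_contra fun e => hx (by simp [ind, e]), fun e => hx (by simp [ind, e]),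
      fun e => hx (by simp [ind, e])⟩
  have hc : Adm (N₁ ⊓ N₂) (fun x => ind (N₁ ⊔ N₂) x * (1 - ind N₁ x) * (1 - ind N₂ x) *
      (φ₂ x - φ₁ x)) := by
    refine b2_adm_mul (fun x y hy => ?_) (fun x => by simp only [ind_om]) (fun x hx => ?_)
      (fun x y hy => h2.prd x y hy.2) (fun x y hy => h1.prd x y hy.1)
      (fun x hx => h2.om x (hw x hx).2.2) (fun x hx => h1.om x (hw x hx).2.1)
    · simp only [b2_prd_ind (inf_le_left.trans le_sup_left : N₁ ⊓ N₂ ≤ N₁ ⊔ N₂) x y hy,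
        b2_prd_ind (inf_le_left : N₁ ⊓ N₂ ≤ N₁) x y hy, b2_prd_ind (inf_le_right : N₁ ⊓ N₂ ≤ N₂) x y hy]
    · have : x ∈ N₁ := hx.1
      simp [ind, this]
  obtain ⟨hA, e⟩ := Ig_comp θ (I₁ := I₁) le_rfl (Fi.of_finite _ _) hc (fun y hy => by
    obtain ⟨a, ha, b, hb, rfl⟩ := Submodule.mem_sup.1 (hw y (left_ne_zero_of_mul hy)).1
    exact Submodule.mem_sup_left ⟨(⟨a, ha⟩, ⟨b, hb⟩), rfl⟩)
  let w : N₁ × N₂ → ZMod 3 := fun p => (1 - ind N₁ (p.2 : M)) * (1 - ind N₂ (p.1 : M))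
  have hw' : ∀ p, w p ≠ 0 → (p.2 : M) ∉ N₁ ∧ (p.1 : M) ∉ N₂ := fun p hp =>
    ⟨fun e => hp (by simp [w, ind, e]), fun e => hp (by simp [w, ind, e])⟩
  have ec : (fun p : N₁ × N₂ => ind (N₁ ⊔ N₂) (θ p) * (1 - ind N₁ (θ p)) * (1 - ind N₂ (θ p)) *
      (φ₂ (θ p) - φ₁ (θ p))) = fun p => w p * (φ₂ p.1 - φ₁ p.2) := by
    funext p
    have : (p.1 : M) + p.2 ∈ N₁ ⊔ N₂ := Submodule.add_mem_sup p.1.2 p.2.2
    have e1 : φ₁ (p.1 + p.2) = φ₁ p.2 := by rw [add_comm]; exact h1.prd _ _ p.1.2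
    simp only [hθ, w, ind, this, if_true, one_mul, N₁.add_mem_iff_right p.1.2,
      N₂.add_mem_iff_left p.2.2, h2.prd _ _ p.2.2, e1]
  rw [ec] at hA e
  have pw : Prd I₁ w := fun p q hq => by
    simp only [w, ind, Prod.fst_add, Prod.snd_add, Submodule.coe_add,
      N₁.add_mem_iff_left ((mI q).1 hq).2, N₂.add_mem_iff_left ((mI q).1 hq).1]
  have p2 : ∀ p, ∀ q ∈ I₁, φ₂ ((p + q : N₁ × N₂).1 : M) = φ₂ p.1 := fun p q hq =>
    h2.prd _ _ ((mI q).1 hq).1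
  have p1 : ∀ p, ∀ q ∈ I₁, φ₁ ((p + q : N₁ × N₂).2 : M) = φ₁ p.2 := fun p q hq =>
    h1.prd _ _ ((mI q).1 hq).2
  let σ : (N₁ × N₂) ≃ₗ[k] (N₁ × N₂) := (LinearEquiv.refl k N₁).prodCongr (omE k N₂)
  have σ1 : ∀ p, ((σ p).1 : M) = p.1 := fun p => rfl
  have σ2 : ∀ p, ((σ p).2 : M) = (Cu.om : k) • (p.2 : M) := fun p => rfl
  have key : ∀ j : ℕ, Sm I₁ (fun p => w p * φ₂ p.1 ^ j) = 0 ∧
      Sm I₁ (fun p => w p * φ₂ p.1 ^ j * φ₁ p.2) = 0 := fun j =>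
    Sm_shift σ (fun p => by rw [mI, mI, σ1, σ2, om_smul_mem])
      (bi_prd_mul (ψ := fun p : N₁ × N₂ => φ₂ p.1) pw (fun p _ => p2 p) (· ^ j)) (Set.toFinite _)
      (fun p => by simp only [w, σ1, σ2, ind_om]) (fun p _ => p1 p)
      (fun p hp => by rw [σ2]; exact h1.om _ (hw' p (left_ne_zero_of_mul hp)).1)
  rw [← e, Ig_eq hA (ψ := fun p => φ₂ p.1) (fun p _ => p2 p)
    (fun p hp => h2.om _ (hw' p (left_ne_zero_of_mul hp)).2)]
  have e3 : (fun p : N₁ × N₂ => w p * (φ₂ p.1 - φ₁ p.2) * φ₂ p.1 ^ 2) =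
      fun p => w p * φ₂ p.1 ^ 3 + -(w p * φ₂ p.1 ^ 2 * φ₁ p.2) := by
    funext p
    ring
  rw [e3, Sm_add (Set.toFinite _) (Set.toFinite _), Sm_neg, (key 3).1, (key 2).2]
  simp

/-- constructor for integrands `w · (φ - φ')` when `M / I` is finite -/
theorem adm_mul {I : Submodule k M} [Finite (M ⧸ I)] {w φ φ' : M → ZMod 3} (hw : Prd I w)
    (hwo : ∀ x, w ((Cu.om : k) • x) = w x) (hw0 : ∀ x ∈ I, w x = 0) (h : Prd I φ) (h' : Prd I φ')
    (ho : ∀ x, w x ≠ 0 → φ ((Cu.om : k) • x) = φ x + 1)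
    (ho' : ∀ x, w x ≠ 0 → φ' ((Cu.om : k) • x) = φ' x + 1) :
    Adm I (fun x => w x * (φ x - φ' x)) := b2_adm_mul hw hwo hw0 h h' ho ho'

omit [Cu k] in
theorem prd_ind {I S : Submodule k M} (h : I ≤ S) : Prd I (ind S) := b2_prd_ind h

/-- the "determinant" in `ZMod 3` of the permutation of `M/N ∖ 0` induced by `u` -/
def Dt (N : Submodule k M) (u : Module.End k M) : ZMod 3 :=
  Ig N (fun x => (1 - ind N x) * (gauge N (u x) - gauge N x))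

omit [Cu k] in
/-- an injective endomorphism of the finite module `M/N` is onto -/
theorem range_sup_eq_top {N : Submodule k M} [Finite (M ⧸ N)] {u : Module.End k M}
    (hu : ∀ x, u x ∈ N ↔ x ∈ N) : LinearMap.range u ⊔ N = ⊤ := by
  have hi : Function.Injective (N.mapQ N u fun x hx => (hu x).2 hx) := by
    refine LinearMap.ker_eq_bot.1 ?_
    rw [Submodule.ker_mapQ, show N.comap u = N from Submodule.ext hu, Submodule.mkQ_map_self]
  rw [eq_top_iff]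
  intro y _
  obtain ⟨q, hq⟩ := Finite.surjective_of_injective hi (Submodule.Quotient.mk y)
  obtain ⟨x, rfl⟩ := Submodule.Quotient.mk_surjective _ q
  rw [Submodule.mapQ_apply, Submodule.Quotient.eq] at hq
  exact Submodule.mem_sup.2 ⟨u x, ⟨x, rfl⟩, -(u x - y), N.neg_mem hq, by abel⟩

theorem b2_adm {N : Submodule k M} [Finite (M ⧸ N)] {φ φ' : M → ZMod 3} (h : Gauge N φ)
    (h' : Gauge N φ') : Adm N (fun x => (1 - ind N x) * (φ x - φ' x)) :=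
  adm_mul (fun x y hy => by simp only [prd_ind le_rfl x y hy]) (fun x => by rw [ind_om])
    (fun x hx => by simp [ind, hx]) h.prd h'.prd (fun x hx => h.om x fun e => hx (by simp [ind, e]))
    (fun x hx => h'.om x fun e => hx (by simp [ind, e]))

theorem Gauge.comp {N : Submodule k M} {φ : M → ZMod 3} (h : Gauge N φ) {u : Module.End k M}
    (hu : ∀ x, u x ∈ N ↔ x ∈ N) : Gauge N (fun x => φ (u x)) :=
  ⟨fun x y hy => by simp only [map_add, h.prd _ _ ((hu y).2 hy)],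
    fun x hx => by simp only [map_smul]; exact h.om _ fun e => hx ((hu x).1 e)⟩

theorem b2_comp {N : Submodule k M} [Finite (M ⧸ N)] {u : Module.End k M} (hu : ∀ x, u x ∈ N ↔ x ∈ N)
    {φ φ' : M → ZMod 3} (h : Gauge N φ) (h' : Gauge N φ') :
    Ig N (fun x => (1 - ind N x) * (φ (u x) - φ' (u x))) =
      Ig N (fun x => (1 - ind N x) * (φ x - φ' x)) := by
  rw [← (Ig_comp u (I₁ := N) (I₂ := N) (fun x hx => (hu x).2 hx) (Fi.of_finite _ _) (b2_adm h h')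
    (fun y _ => by rw [range_sup_eq_top hu]; trivial)).2]
  simp only [ind, hu]

/-- with `c = (1 - ind N)(φ - γ)`: the difference is `Ig (c ∘ u) - Ig c = 0` by `Ig_comp` -/
theorem Dt_eq {N : Submodule k M} [Finite (M ⧸ N)] {u : Module.End k M} (hu : ∀ x, u x ∈ N ↔ x ∈ N)
    {φ : M → ZMod 3} (hφ : Gauge N φ) :
    Dt N u = Ig N (fun x => (1 - ind N x) * (φ (u x) - φ x)) := by
  have hγ := gauge_spec N
  have e := b2_comp hu hφ hγ
  rw [← sub_eq_zero, ← Ig_sub (b2_adm (hφ.comp hu) (hγ.comp hu)) (b2_adm hφ hγ)] at e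
  rw [Dt, eq_comm, ← sub_eq_zero, ← Ig_sub (b2_adm (hφ.comp hu) hφ) (b2_adm (hγ.comp hu) hγ), ← e]
  congr 1
  funext x
  ring

/-- `γ u v - γ = (γ u - γ) ∘ v + (γ v - γ)` and `Ig_comp` along `v` -/
theorem Dt_mul {N : Submodule k M} [Finite (M ⧸ N)] {u v : Module.End k M}
    (hu : ∀ x, u x ∈ N ↔ x ∈ N) (hv : ∀ x, v x ∈ N ↔ x ∈ N) : Dt N (u * v) = Dt N u + Dt N v := by
  have hγ := gauge_spec N
  rw [Dt, Dt, Dt, ← b2_comp hv (hγ.comp hu) hγ,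
    ← Ig_add (b2_adm ((hγ.comp hu).comp hv) (hγ.comp hv)) (b2_adm (hγ.comp hv) hγ)]
  congr 1
  funext x
  simp only [Module.End.mul_apply]
  ring

theorem Dt_eq_zero {N : Submodule k M} {u : Module.End k M} (hu : ∀ x, u x - x ∈ N) : Dt N u = 0 := by
  rw [Dt, ← Ig_zero N]
  congr 1
  funext x
  rw [(gauge_spec N).prd.congr (hu x), sub_self, mul_zero]

/-- `1 - φ²` is the indicator function of `φ = 0` and `∑ c = 0` (`Adm.sm`) -/
theorem Ig_eq_sum {I : Submodule k M} [Fintype (M ⧸ I)] {c : M → ZMod 3} (hc : Adm I c)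
    {φ : M → ZMod 3} (hφ : Gauge I φ) :
    Ig I c = ∑ q ∈ Finset.univ.filter (fun q : M ⧸ I => φ q.out = 0), c q.out := by
  have h0 := hc.sm
  rw [Ig_eq hc (fun x _ => hφ.prd x) (fun x hx => hφ.om x fun e => hx (hc.zero x e))]
  simp only [Sm, finsum_eq_sum_of_fintype] at h0 ⊢
  rw [Finset.sum_filter, ← zero_sub]
  refine (congrArg (· - _) h0.symm).trans ?_
  rw [← Finset.sum_sub_distrib]
  refine Finset.sum_congr rfl fun q _ => ?_
  have : ∀ a : ZMod 3, a ≠ 0 → a ^ 2 = 1 := by decide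
  split_ifs with h
  · simp [h]
  · rw [this _ h]; ring

end Crest.Agent.R312.B1
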