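import Crest.Agent.R312.B1Pull
import Crest.Agent.R312.B1Int2

/-!
# R312 / B1Hex : coprime elements, and the three-term reciprocity law
-/

set_option autoImplicit false

noncomputable section

open scoped Classical

namespace Crest.Agent.R312.B1

/-- the additive cubic symbol `(b / a)` -/
def dt (k : Type) [CommRing k] [Cu k] {P : Type} [CommRing P] [Algebra k P] (a b : P) : ZMod 3 :=
  Dt (N1 k a) (Algebra.lmul k P b)

variable {k : Type} [CommRing k] [Cu k] {A P : Type} [CommRing A] [Algebra k A]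
  [CommRing P] [Algebra k P]

section aux
variable {M : Type} [AddCommGroup M] [Module k M]

/-- for a finite quotient `Ig I` is additive on all functions -/
def hxL (I : Submodule k M) [Finite (M ⧸ I)] : (M → ZMod 3) →+ ZMod 3 where
  toFun c := Ig I c
  map_zero' := Ig_zero I
  map_add' c c' := by
    have := Fintype.ofFinite (M ⧸ I)
    simp only [Ig, Sm, finsum_eq_sum_of_fintype, Pi.add_apply, add_mul, Finset.sum_add_distrib, neg_add]

theorem hxL_apply (I : Submodule k M) [Finite (M ⧸ I)] (c : M → ZMod 3) : Ig I c = hxL I c := rfl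

omit [Cu k] in
theorem hx_finite_inf (N₁ N₂ : Submodule k M) [Finite (M ⧸ N₁)] [Finite (M ⧸ N₂)] :
    Finite (M ⧸ (N₁ ⊓ N₂)) := by
  have hk : LinearMap.ker (N₁.mkQ.prod N₂.mkQ) = N₁ ⊓ N₂ := by
    rw [LinearMap.ker_prod, Submodule.ker_mkQ, Submodule.ker_mkQ]
  rw [← hk]
  exact Finite.of_equiv _ (LinearMap.quotKerEquivRange _).toEquiv.symm

omit [Cu k] in
theorem hx_ind_E (N₁ N₂ : Submodule k M) (x : M) :
    ind (N₁ ⊔ N₂) x * (1 - ind N₁ x) * (1 - ind N₂ x) =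
      ind (N₁ ⊔ N₂) x - ind N₁ x - ind N₂ x + ind (N₁ ⊓ N₂) x := by
  by_cases h1 : x ∈ N₁
  · have : x ∈ N₁ ⊔ N₂ := Submodule.mem_sup_left h1
    by_cases h2 : x ∈ N₂ <;> simp [ind, h1, h2, this]
  · by_cases h2 : x ∈ N₂
    · have : x ∈ N₁ ⊔ N₂ := Submodule.mem_sup_right h2
      simp [ind, h1, h2, this]
    · simp [ind, h1, h2]

theorem hx_symm {N₁ N₂ I S : Submodule k M} [Finite (M ⧸ I)] (hI : N₁ ⊓ N₂ = I) (hS : N₁ ⊔ N₂ = S)
    {φ₁ φ₂ : M → ZMod 3} (h1 : Gauge N₁ φ₁) (h2 : Gauge N₂ φ₂) :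
    Ig I (fun x => (ind S x - ind N₁ x - ind N₂ x + ind I x) * (φ₂ x - φ₁ x)) = 0 := by
  subst hI hS
  have := Ig_symm N₁ N₂ h1 h2
  simpa only [hx_ind_E] using this

theorem hx_prd {I N : Submodule k M} (h : I ≤ N) {φ : M → ZMod 3} (hφ : Gauge N φ) : Prd I φ :=
  fun x y hy => hφ.prd x y (h hy)

/-- transport along an endomorphism `u` with `u⁻¹ I = W`, `u M + I = U` -/
theorem hx_trans {I W U N N' : Submodule k M} [Finite (M ⧸ I)] (u : Module.End k M)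
    (hW : ∀ x, u x ∈ I ↔ x ∈ W) (hIW : I ≤ W) (hU : LinearMap.range u ⊔ I = U)
    {φ φ' : M → ZMod 3} (hφ : Gauge N φ) (hφ' : Gauge N' φ') (hN : I ≤ N) (hN' : I ≤ N')
    (hUN : U ⊓ N ≤ I) (hUN' : U ⊓ N' ≤ I) :
    Ig I (fun x => (1 - ind W x) * (φ (u x) - φ' (u x))) =
      Ig I (fun x => (ind U x - ind I x) * (φ x - φ' x)) := by
  have hIU : I ≤ U := hU ▸ le_sup_right
  have hw : ∀ x, ind U x - ind I x ≠ 0 → x ∈ U ∧ x ∉ I := by
    intro x hx
    by_cases h1 : x ∈ I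
    · simp [ind, h1, hIU h1] at hx
    · by_cases h2 : x ∈ U
      · exact ⟨h2, h1⟩
      · simp [ind, h1, h2] at hx
  have hc : Adm I (fun x => (ind U x - ind I x) * (φ x - φ' x)) := by
    refine adm_mul (fun x y hy => ?_) (fun x => ?_) (fun x hx => ?_) (hx_prd hN hφ) (hx_prd hN' hφ')
      (fun x hx => hφ.om x fun h => (hw x hx).2 (hUN ⟨(hw x hx).1, h⟩))
      (fun x hx => hφ'.om x fun h => (hw x hx).2 (hUN' ⟨(hw x hx).1, h⟩))
    · rw [prd_ind hIU x y hy, prd_ind le_rfl x y hy]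
    · rw [ind_om, ind_om]
    · simp [ind, hx, hIU hx]
  have h := (Ig_comp u (I₁ := I) (I₂ := I) (fun x hx => (hW x).2 (hIW hx)) (Fi.of_finite _ _) hc
    (fun y hy => hU ▸ (hw y (left_ne_zero_of_mul hy)).1)).2
  rw [← h]
  congr 1
  funext x
  have h1 : u x ∈ U := hU ▸ Submodule.mem_sup_left ⟨x, rfl⟩
  simp only [ind, h1, if_true, hW x]

end aux

/-- the ideal `(fg, gh, hf)` -/
def I3 (k : Type) [CommRing k] {P : Type} [CommRing P] [Algebra k P] (f g h : P) : Submodule k P :=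
  N1 k (f * g) ⊔ N1 k (g * h) ⊔ N1 k (h * f)

omit [Cu k] in
theorem mem_I3 {f g h x : P} :
    x ∈ I3 k f g h ↔ ∃ a b c, x = f * g * a + g * h * b + h * f * c := by
  simp only [I3, Submodule.mem_sup, mem_N1]
  constructor
  · rintro ⟨_, ⟨_, ⟨a, rfl⟩, _, ⟨b, rfl⟩, rfl⟩, _, ⟨c, rfl⟩, rfl⟩
    exact ⟨a, b, c, rfl⟩
  · rintro ⟨a, b, c, rfl⟩
    exact ⟨_, ⟨_, ⟨a, rfl⟩, _, ⟨b, rfl⟩, rfl⟩, _, ⟨c, rfl⟩, rfl⟩

omit [Cu k] in
theorem I3_cyc (f g h : P) : I3 k g h f = I3 k f g h := by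
  ext x
  simp only [mem_I3]
  constructor
  · rintro ⟨a, b, c, rfl⟩
    exact ⟨c, a, b, by ring⟩
  · rintro ⟨a, b, c, rfl⟩
    exact ⟨b, c, a, by ring⟩

omit [Cu k] in
theorem hx_inf {f g h : P} (c : ∀ x, g ∣ f * x → g ∣ x) :
    N2 k f (g * h) ⊓ N2 k g (h * f) = I3 k f g h := by
  ext x
  simp only [Submodule.mem_inf, mem_N2, mem_I3]
  constructor
  · rintro ⟨⟨a, b, e⟩, a', b', e'⟩
    obtain ⟨t, ht⟩ := c (a - h * b') ⟨a' - h * b, by linear_combination e' - e⟩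
    exact ⟨t, b, b', by linear_combination e + f * ht⟩
  · rintro ⟨a, b, c, rfl⟩
    exact ⟨⟨g * a + h * c, b, by ring⟩, ⟨f * a + h * b, c, by ring⟩⟩

omit [Cu k] in
theorem hx_sup (f g h : P) : N2 k f (g * h) ⊔ N2 k g (h * f) = N2 k f g := by
  ext x
  simp only [Submodule.mem_sup, mem_N2]
  constructor
  · rintro ⟨_, ⟨a, b, rfl⟩, _, ⟨a', b', rfl⟩, rfl⟩
    exact ⟨a + h * b', h * b + a', by ring⟩
  · rintro ⟨a, b, rfl⟩
    exact ⟨_, ⟨a, 0, rfl⟩, _, ⟨b, 0, rfl⟩, by ring⟩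

omit [Cu k] in
theorem hx_comap {f g h : P} (c1 : ∀ x, h ∣ f * x → h ∣ x) (c2 : ∀ x, h ∣ g * x → h ∣ x)
    (c3 : ∀ x, f ∣ h * x → f ∣ x) (x : P) :
    Algebra.lmul k P h x ∈ I3 k f g h ↔ x ∈ N2 k f g := by
  rw [mem_I3, mem_N2]
  change (∃ a b c, h * x = _) ↔ _
  constructor
  · rintro ⟨a, b, c, e⟩
    obtain ⟨a', ha⟩ := c2 a (c1 (g * a) ⟨x - g * b - f * c, by linear_combination -e⟩)
    obtain ⟨t, ht⟩ := c3 (x - g * b) ⟨g * a + h * c, by linear_combination e⟩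
    exact ⟨t, b, by linear_combination ht⟩
  · rintro ⟨a, b, rfl⟩
    exact ⟨0, b, a, by ring⟩

omit [Cu k] in
theorem hx_range (f g h : P) :
    LinearMap.range (Algebra.lmul k P h) ⊔ I3 k f g h = N2 k h (f * g) := by
  ext x
  simp only [Submodule.mem_sup, mem_N2, mem_I3, LinearMap.mem_range]
  constructor
  · rintro ⟨_, ⟨t, rfl⟩, _, ⟨a, b, c, rfl⟩, rfl⟩
    exact ⟨t + g * b + f * c, a, by change h * t + _ = _; ring⟩
  · rintro ⟨a, b, rfl⟩
    exact ⟨_, ⟨a, rfl⟩, _, ⟨b, 0, 0, rfl⟩, by change h * a + _ = _; ring⟩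

/-- the two identities attached to the pair `(f, g)` -/
theorem hx_pair {f g h : P} {I : Submodule k P} [Finite (P ⧸ I)] (hI : I3 k f g h = I)
    (cgf : ∀ x, g ∣ f * x → g ∣ x) (chf : ∀ x, h ∣ f * x → h ∣ x) (chg : ∀ x, h ∣ g * x → h ∣ x)
    (cfh : ∀ x, f ∣ h * x → f ∣ x) {φf φg : P → ZMod 3} (hf : Gauge (N2 k f (g * h)) φf)
    (hg : Gauge (N2 k g (h * f)) φg) :
    Ig I (fun x => (1 - ind (N2 k f g) x) * (φg (h * x) - φf (h * x))) =
      Ig I (fun x => (ind (N2 k h (f * g)) x - ind I x) * (φg x - φf x)) ∧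
    Ig I (fun x => (ind (N2 k f g) x - ind (N2 k f (g * h)) x - ind (N2 k g (h * f)) x + ind I x) *
      (φg x - φf x)) = 0 := by
  have i1 : N2 k f (g * h) ⊓ N2 k g (h * f) = I := (hx_inf cgf).trans hI
  have i2 : N2 k g (h * f) ⊓ N2 k h (f * g) = I := (hx_inf chg).trans ((I3_cyc f g h).trans hI)
  have i3 : N2 k h (f * g) ⊓ N2 k f (g * h) = I :=
    (hx_inf cfh).trans ((I3_cyc g h f).trans ((I3_cyc f g h).trans hI))
  refine ⟨?_, hx_symm i1 (hx_sup f g h) hf hg⟩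
  exact hx_trans (Algebra.lmul k P h) (fun x => hI ▸ hx_comap (k := k) chf chg cfh x)
    (i1.symm.le.trans (inf_le_left.trans (le_sup_left.trans (hx_sup f g h).le)))
    (hI ▸ hx_range (k := k) f g h) hg hf
    (i1.symm.le.trans inf_le_right) (i1.symm.le.trans inf_le_left) ((inf_comm _ _).trans i2).le i3.le

/-- `I = (gh) = (g) ⊓ (h)`, `φ, φ_g, φ_h` gauges modulo `I, (g), (h)`.  `T_pull`; with `ψ = φ - φ_h`,
`∫_{∉(h)} (φ g - φ) - dt h g = ∫_{∉(h)} (ψ g - ψ) = ∫ ψ (1_{(g)∖I} - 1_{∉(h)}) = -∫_E (φ - φ_h)`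
(`Ig_comp` along `g`), `E` the complement of `(g) ∪ (h)`.  Same with `g, h` exchanged; `Ig_symm`. -/
theorem T_cop {π : P →ₐ[k] A} (hπ : Pres π 0) {g h : P} (hg : IsUnit (π g)) (hh : IsUnit (π h))
    (hgh : IsCoprime g h) : T k (π g) (π h) = dt k h g - dt k g h := by
  have cg : ∀ x, g * x = 0 → x = 0 := fun x e =>
    zero_dvd_iff.1 (hπ.dvd_of_dvd_mul hg (zero_dvd_iff.2 e))
  have ch : ∀ x, h * x = 0 → x = 0 := fun x e =>
    zero_dvd_iff.1 (hπ.dvd_of_dvd_mul hh (zero_dvd_iff.2 e))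
  have fI : Finite (P ⧸ N1 k (g * h)) := N2_zero (k := k) (g * h) ▸ hπ.finite (by rw [map_mul]; exact hg.mul hh)
  have key : ∀ {g h : P} {I : Submodule k P} [Finite (P ⧸ I)], N1 k (g * h) = I →
      (∀ x, g * x = 0 → x = 0) → IsCoprime g h → Finite (P ⧸ N1 k h) →
      ∀ {φ φh : P → ZMod 3}, Gauge I φ → Gauge (N1 k h) φh →
      dt k h g = Ig I (fun x => (1 - ind (N1 k h) x) * (φh (g * x) - φh x)) ∧
      Ig I (fun x => (1 - ind (N1 k h) x) * (φ (g * x) - φh (g * x))) =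
        Ig I (fun x => (ind (N1 k g) x - ind I x) * (φ x - φh x)) := by
    intro g h I _ hI cg hgh _ φ φh hφ hφh
    have hIh : I ≤ N1 k h := fun x hx => mem_N1.2 ((Dvd.intro_left g rfl).trans (mem_N1.1 (hI ▸ hx)))
    have hu : ∀ x, Algebra.lmul k P g x ∈ N1 k h ↔ x ∈ N1 k h := fun x => by
      rw [mem_N1, mem_N1]
      exact ⟨fun e => hgh.symm.dvd_of_dvd_mul_left e, fun e => e.mul_left g⟩
    constructor
    · rw [dt, Dt_eq hu hφh]
      refine (Ig_mono hIh (Fi.of_finite _ _) ?_).2.symm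
      refine adm_mul (φ := fun x => φh (Algebra.lmul k P g x)) (fun x y hy => ?_) (fun x => ?_)
        (fun x hx => ?_) (fun x y hy => ?_) hφh.prd (fun x hx => ?_) (fun x hx => ?_)
      · rw [prd_ind le_rfl x y hy]
      · rw [ind_om]
      · simp [ind, hx]
      · simp only [map_add]
        exact hφh.prd _ _ ((hu y).2 hy)
      · simp only [map_smul]
        exact hφh.om _ fun e => hx (by simp [ind, (hu x).1 e])
      · exact hφh.om _ fun e => hx (by simp [ind, e])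
    · refine hx_trans (Algebra.lmul k P g) (fun x => ?_) hIh ?_ hφ hφh le_rfl hIh inf_le_right ?_
      · rw [← hI, mem_N1, mem_N1]
        refine ⟨?_, fun e => mul_dvd_mul_left g e⟩
        rintro ⟨t, ht⟩
        exact ⟨t, sub_eq_zero.1 (cg _ (by change g * x = _ at ht; linear_combination ht))⟩
      · ext x
        simp only [← hI, Submodule.mem_sup, mem_N1, LinearMap.mem_range]
        constructor
        · rintro ⟨_, ⟨t, rfl⟩, _, ⟨a, rfl⟩, rfl⟩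
          exact ⟨t + h * a, by change g * t + _ = _; ring⟩
        · rintro ⟨a, rfl⟩
          exact ⟨_, ⟨a, rfl⟩, 0, dvd_zero _, add_zero _⟩
      · rintro x ⟨h1, h2⟩
        exact hI ▸ mem_N1.2 (hgh.mul_dvd (mem_N1.1 h1) (mem_N1.1 h2))
  have fg : Finite (P ⧸ N1 k g) := N2_zero (k := k) g ▸ hπ.finite hg
  have fh : Finite (P ⧸ N1 k h) := N2_zero (k := k) h ▸ hπ.finite hh
  have hφ := gauge_spec (N1 k (g * h))
  have hφg := gauge_spec (N1 k g)
  have hφh := gauge_spec (N1 k h)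
  obtain ⟨d1, t1⟩ := key rfl cg hgh fh hφ hφh
  obtain ⟨d2, t2⟩ := key (by rw [mul_comm]) ch hgh.symm fg hφ hφg
  have hinf : N1 k g ⊓ N1 k h = N1 k (g * h) := by
    ext x
    simp only [Submodule.mem_inf, mem_N1]
    exact ⟨fun e => hgh.mul_dvd e.1 e.2,
      fun e => ⟨(Dvd.intro h rfl).trans e, (Dvd.intro_left g rfl).trans e⟩⟩
  have hsup : N1 k g ⊔ N1 k h = ⊤ := by
    rw [eq_top_iff]
    intro x _
    obtain ⟨a, b, e⟩ := hgh
    exact Submodule.mem_sup.2 ⟨g * (a * x), mem_N1.2 (Dvd.intro _ rfl), h * (b * x),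
      mem_N1.2 (Dvd.intro _ rfl), by linear_combination x * e⟩
  have s := hx_symm hinf hsup hφg hφh
  have e := T_pull hπ hg hh (φ := gauge (N1 k (g * h))) (by rw [N2_zero]; exact hφ)
    (I := N1 k (g * h)) (by rw [N2_zero])
  rw [N2_zero, N2_zero] at e
  rw [e, d1, d2]
  simp only [hxL_apply] at t1 t2 s ⊢
  generalize gauge (N1 k (g * h)) = φ at *
  generalize gauge (N1 k g) = φg at *
  generalize gauge (N1 k h) = φh at *
  rw [← sub_eq_zero] at t1 t2 ⊢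
  have := congrArg₂ (· + ·) (congrArg₂ (· - ·) t1 t2) s
  simp only [← map_sub, ← map_add] at this ⊢
  rw [sub_zero, add_zero] at this
  rw [← this]
  congr 1
  funext x
  have : ind (⊤ : Submodule k P) x = 1 := by simp [ind]
  simp only [Pi.sub_apply, Pi.add_apply, this]
  ring

/-- **Three-term reciprocity.**  `N_f = (f, gh)`, `N_g = (g, hf)`, `N_h = (h, fg)`, `I = (fg, gh, hf)`
is the intersection of any two of them, `N_f ⊔ N_g = (f, g)`, `h⁻¹ I = (f, g)`.  With gauges `φ_f, …`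
modulo `N_f, …` and `Φ` modulo `I`, `T_pull` gives the total
`∑_cyc ∫_{∉(f,g)} (ψ h - ψ)`, `ψ = φ_g - φ_f`;  `∫_{∉(f,g)} ψ h = ∫_{N_h ∖ I} ψ` (`Ig_comp`);  write
`ψ = (Φ - φ_f) - (Φ - φ_g)`, collect the coefficient of `Φ - φ_f`: it is `1_{E_fg} - 1_{E_hf}` with
`E_fg = (f,g) ∖ (N_f ∪ N_g)`; so the total is `∑_cyc ∫_{E_fg} (φ_g - φ_f) = 0` (`Ig_symm`). -/
theorem T_hex {A₁ A₂ A₃ : Type} [CommRing A₁] [Algebra k A₁] [CommRing A₂] [Algebra k A₂]
    [CommRing A₃] [Algebra k A₃] {π₁ : P →ₐ[k] A₁} {π₂ : P →ₐ[k] A₂} {π₃ : P →ₐ[k] A₃} {f g h : P}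
    (h1 : Pres π₁ f) (h2 : Pres π₂ g) (h3 : Pres π₃ h)
    (h1g : IsUnit (π₁ g)) (h1h : IsUnit (π₁ h)) (h2h : IsUnit (π₂ h)) (h2f : IsUnit (π₂ f))
    (h3f : IsUnit (π₃ f)) (h3g : IsUnit (π₃ g)) :
    T k (π₁ g) (π₁ h) + T k (π₂ h) (π₂ f) + T k (π₃ f) (π₃ g) = 0 := by
  have cfg : ∀ x, f ∣ g * x → f ∣ x := fun x => h1.dvd_of_dvd_mul h1g
  have cfh : ∀ x, f ∣ h * x → f ∣ x := fun x => h1.dvd_of_dvd_mul h1h
  have cgh : ∀ x, g ∣ h * x → g ∣ x := fun x => h2.dvd_of_dvd_mul h2h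
  have cgf : ∀ x, g ∣ f * x → g ∣ x := fun x => h2.dvd_of_dvd_mul h2f
  have chf : ∀ x, h ∣ f * x → h ∣ x := fun x => h3.dvd_of_dvd_mul h3f
  have chg : ∀ x, h ∣ g * x → h ∣ x := fun x => h3.dvd_of_dvd_mul h3g
  have f1 : Finite (P ⧸ N2 k f (g * h)) := h1.finite (by rw [map_mul]; exact h1g.mul h1h)
  have f2 : Finite (P ⧸ N2 k g (h * f)) := h2.finite (by rw [map_mul]; exact h2h.mul h2f)
  have i1 : N2 k f (g * h) ⊓ N2 k g (h * f) = I3 k f g h := hx_inf cgf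
  have i2 : N2 k g (h * f) ⊓ N2 k h (f * g) = I3 k f g h := (hx_inf chg).trans (I3_cyc f g h)
  have fI : Finite (P ⧸ I3 k f g h) := i1 ▸ hx_finite_inf _ _
  have hf := gauge_spec (N2 k f (g * h))
  have hg := gauge_spec (N2 k g (h * f))
  have hh := gauge_spec (N2 k h (f * g))
  obtain ⟨t1, s1⟩ := hx_pair rfl cgf chf chg cfh hf hg
  obtain ⟨t2, s2⟩ := hx_pair (I3_cyc f g h) chg cfg cfh cgf hg hh
  obtain ⟨t3, s3⟩ := hx_pair ((I3_cyc g h f).trans (I3_cyc f g h)) cfh cgh cgf chg hh hf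
  rw [T_pull h1 h1g h1h hf (i1.symm.le.trans inf_le_left),
    T_pull h2 h2h h2f hg (i1.symm.le.trans inf_le_right),
    T_pull h3 h3f h3g hh (i2.symm.le.trans inf_le_right), N2_comm f h, N2_comm g f, N2_comm h g]
  simp only [hxL_apply] at t1 t2 t3 s1 s2 s3 ⊢
  generalize gauge (N2 k f (g * h)) = φf at *
  generalize gauge (N2 k g (h * f)) = φg at *
  generalize gauge (N2 k h (f * g)) = φh at *
  rw [← sub_eq_zero] at t1 t2 t3
  have := congrArg₂ (· + ·) (congrArg₂ (· + ·) (congrArg₂ (· + ·) t1 t2) t3)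
    (congrArg₂ (· + ·) (congrArg₂ (· + ·) s1 s2) s3)
  simp only [← map_sub, ← map_add, add_zero] at this ⊢
  rw [← this]
  congr 1
  funext x
  simp only [Pi.sub_apply, Pi.add_apply]
  ring

end Crest.Agent.R312.B1
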