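import Crest.Agent.R312.B1Tau

/-!
# R312 / B1Ind : `τ(f, h)` is locally constant if `T_F` is
-/

set_option autoImplicit false

noncomputable section

open scoped Classical Topology
open Polynomial Filter

namespace Crest.Agent.R312.B1

variable {F : Type} [Field F] [TopologicalSpace F] {ι : Type} {l : Filter ι}

/-- coefficientwise convergence of polynomials -/
def PC (l : Filter ι) (p : ι → F[X]) (p₀ : F[X]) : Prop :=
  ∀ j, Tendsto (fun i => (p i).coeff j) l (𝓝 (p₀.coeff j))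

theorem PC.const (p : F[X]) : PC l (fun _ => p) p := by
  exact fun _ => tendsto_const_nhds

theorem PC.congr' {p q : ι → F[X]} {p₀ : F[X]} (h : PC l p p₀) (e : ∀ᶠ i in l, p i = q i) :
    PC l q p₀ := by
  exact fun j => (h j).congr' (e.mono fun i hi => by rw [hi])

theorem PC.C {c : ι → F} {c₀ : F} (h : Tendsto c l (𝓝 c₀)) : PC l (fun i => C (c i)) (C c₀) := by
  intro j
  simp only [coeff_C]
  split_ifs
  · exact h
  · exact tendsto_const_nhds

variable [IsTopologicalDivisionRing F]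

theorem PC.add {p q : ι → F[X]} {p₀ q₀ : F[X]} (hp : PC l p p₀) (hq : PC l q q₀) :
    PC l (fun i => p i + q i) (p₀ + q₀) := by
  intro j
  simp only [coeff_add]
  exact (hp j).add (hq j)

theorem PC.sub {p q : ι → F[X]} {p₀ q₀ : F[X]} (hp : PC l p p₀) (hq : PC l q q₀) :
    PC l (fun i => p i - q i) (p₀ - q₀) := by
  intro j
  simp only [coeff_sub]
  exact (hp j).sub (hq j)

/-- `coeff_mul` -/
theorem PC.mul {p q : ι → F[X]} {p₀ q₀ : F[X]} (hp : PC l p p₀) (hq : PC l q q₀) :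
    PC l (fun i => p i * q i) (p₀ * q₀) := by
  intro j
  simp only [coeff_mul]
  exact tendsto_finset_sum _ fun c _ => (hp _).mul (hq _)

/-- `eval_eq_sum_range'` -/
theorem PC.eval {p : ι → F[X]} {p₀ : F[X]} (hp : PC l p p₀) {D : ℕ}
    (hD : ∀ᶠ i in l, (p i).natDegree ≤ D) (hD₀ : p₀.natDegree ≤ D) (t : F) :
    Tendsto (fun i => (p i).eval t) l (𝓝 (p₀.eval t)) := by
  rw [eval_eq_sum_range' (Nat.lt_succ_of_le hD₀)]
  refine (tendsto_finset_sum _ fun j _ => (hp j).mul_const (t ^ j)).congr' (hD.mono fun i hi => ?_)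
  exact (eval_eq_sum_range' (Nat.lt_succ_of_le hi) t).symm

omit [TopologicalSpace F] [IsTopologicalDivisionRing F] in
theorem ind_red {p f : F[X]} {D n : ℕ} (hp : p.degree < (D + 1 : ℕ)) (hm : f.Monic)
    (hn : f.natDegree = n) (h : n ≤ D) :
    (p - Polynomial.C (p.coeff D) * (X ^ (D - n) * f)).degree < (D : WithBot ℕ) ∧
      (p - Polynomial.C (p.coeff D) * (X ^ (D - n) * f)) %ₘ f = p %ₘ f := by
  refine ⟨(degree_lt_iff_coeff_zero _ _).2 fun m hm' => ?_, modByMonic_eq_of_dvd_sub hm ?_⟩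
  · rw [coeff_sub, coeff_C_mul, coeff_X_pow_mul', if_pos (by omega)]
    rcases hm'.eq_or_lt with rfl | hlt
    · rw [show D - (D - n) = f.natDegree by omega, hm.coeff_natDegree, mul_one, sub_self]
    · rw [(degree_lt_iff_coeff_zero _ _).1 hp m hlt, coeff_eq_zero_of_natDegree_lt (p := f) (by omega), mul_zero,
        sub_zero]
  · rw [sub_sub_cancel_left, ← mul_assoc]
    exact (dvd_mul_left _ _).neg_right

theorem ind_mod {f : ι → F[X]} {f₀ : F[X]} (hf : PC l f f₀) {n : ℕ}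
    (hn : ∀ᶠ i in l, (f i).Monic ∧ (f i).natDegree = n) (hm₀ : f₀.Monic) (hn₀ : f₀.natDegree = n) (D : ℕ) :
    ∀ (p : ι → F[X]) (p₀ : F[X]), PC l p p₀ → (∀ᶠ i in l, (p i).degree < D) → p₀.degree < D →
      PC l (fun i => p i %ₘ f i) (p₀ %ₘ f₀) := by
  have base : ∀ D : ℕ, D ≤ n → ∀ (p : ι → F[X]) (p₀ : F[X]), PC l p p₀ → (∀ᶠ i in l, (p i).degree < D) →
      p₀.degree < D → PC l (fun i => p i %ₘ f i) (p₀ %ₘ f₀) := fun D hD p p₀ hp h1 h2 => by
    have key : ∀ {q g : F[X]}, q.degree < D → g.Monic → g.natDegree = n → q %ₘ g = q := fun hq hg hg' =>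
      (modByMonic_eq_self_iff hg).2 (hq.trans_le (by
        rw [degree_eq_natDegree hg.ne_zero, hg']; exact_mod_cast hD))
    rw [key h2 hm₀ hn₀]
    refine hp.congr' ?_
    filter_upwards [h1, hn] with i a b using (key a b.1 b.2).symm
  induction D with
  | zero => exact base 0 n.zero_le
  | succ D ih =>
    rcases le_or_gt (D + 1) n with h | h
    · exact base _ h
    · intro p p₀ hp h1 h2
      have hle : n ≤ D := by omega
      obtain ⟨a1, a2⟩ := ind_red h2 hm₀ hn₀ hle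
      rw [← a2]
      refine (ih _ _ (hp.sub ((PC.C (hp D)).mul ((PC.const _).mul hf))) ?_ a1).congr' ?_
      · filter_upwards [h1, hn] with i a b using (ind_red a b.1 b.2 hle).1
      · filter_upwards [h1, hn] with i a b using (ind_red a b.1 b.2 hle).2

/-- induction on a bound `degree < D`: for `D ≤ n` nothing changes; for `D + 1 > n` replace `p` by
`p - C (coeff p D) * X^(D-n) * f`, which has degree `< D` and the same remainder. -/
theorem PC.modByMonic {p f : ι → F[X]} {p₀ f₀ : F[X]} (hp : PC l p p₀) (hf : PC l f f₀) {D n : ℕ}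
    (hD : ∀ᶠ i in l, (p i).natDegree ≤ D) (hD₀ : p₀.natDegree ≤ D)
    (hn : ∀ᶠ i in l, (f i).Monic ∧ (f i).natDegree = n) (hm₀ : f₀.Monic) (hn₀ : f₀.natDegree = n) :
    PC l (fun i => p i %ₘ f i) (p₀ %ₘ f₀) := by
  have key : ∀ {q : F[X]}, q.natDegree ≤ D → q.degree < (D + 1 : ℕ) := fun hq =>
    (degree_le_of_natDegree_le hq).trans_lt (by exact_mod_cast D.lt_succ_self)
  exact ind_mod hf hn hm₀ hn₀ (D + 1) p p₀ hp (hD.mono fun i => key) (key hD₀)

omit [TopologicalSpace F] [IsTopologicalDivisionRing F] in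
/-- Let `s = (h %ₘ f) X^j` have degree exactly `d` (`h %ₘ f ≠ 0`).  Then
`(h X^j (X - t)) %ₘ f = s X - lc(s) f - t s`; its coefficient `d` is `A - t lc(s)`, its constant
coefficient is `-lc(s) f(0) - t s(0)`; exclude finitely many `t`. -/
theorem exists_step [CharZero F] {f h : F[X]} {d : ℕ} (hm : f.Monic) (hd : f.natDegree = d + 1)
    (hf : f.coeff 0 ≠ 0) (hc : IsCoprime f h) : ∃ (j : ℕ) (t : F), t ≠ 0 ∧ f.eval t ≠ 0 ∧
      ((h * (X ^ j * (X - C t))) %ₘ f).coeff d ≠ 0 ∧ ((h * (X ^ j * (X - C t))) %ₘ f).coeff 0 ≠ 0 := by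
  have hdeg : f.degree = (d + 1 : ℕ) := by rw [degree_eq_natDegree hm.ne_zero, hd]
  have h0 : h %ₘ f ≠ 0 := fun e => by
    have hu : IsUnit f := hc.isUnit_of_dvd' dvd_rfl ((modByMonic_eq_zero_iff_dvd hm).1 e)
    rw [natDegree_eq_zero_of_isUnit hu] at hd
    omega
  have h1 : (h %ₘ f).natDegree ≤ d := by
    have := degree_modByMonic_lt h hm
    rw [hdeg, degree_eq_natDegree h0] at this
    exact Nat.lt_succ_iff.1 (by exact_mod_cast this)
  set j := d - (h %ₘ f).natDegree with hj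
  set s := h %ₘ f * X ^ j with hs
  have hs0 : s ≠ 0 := mul_ne_zero h0 (pow_ne_zero _ X_ne_zero)
  have hsd : s.natDegree = d := by
    rw [hs, natDegree_mul_X_pow _ h0]; omega
  have hc0 : s.coeff d ≠ 0 := by
    rw [← hsd]; exact leadingCoeff_ne_zero.2 hs0
  have hR : ∀ t : F, (h * (X ^ j * (X - C t))) %ₘ f = s * X - C (s.coeff d) * f - C t * s := fun t => by
    rw [modByMonic_eq_of_dvd_sub hm (p₂ := s * X - C (s.coeff d) * f - C t * s), modByMonic_eq_self_iff hm, hdeg,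
      degree_lt_iff_coeff_zero]
    · intro m hm'
      obtain ⟨m, rfl⟩ : ∃ m', m = m' + 1 := ⟨m - 1, by omega⟩
      rw [coeff_sub, coeff_sub, coeff_mul_X, coeff_C_mul, coeff_C_mul,
        coeff_eq_zero_of_natDegree_lt (p := s) (n := m + 1) (by omega), mul_zero, sub_zero]
      rcases (Nat.succ_le_succ_iff.1 hm').eq_or_lt with rfl | hlt
      · rw [← hd, hm.coeff_natDegree, mul_one, sub_self]
      · rw [coeff_eq_zero_of_natDegree_lt (p := s) (by omega), coeff_eq_zero_of_natDegree_lt (p := f) (by omega),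
          mul_zero, sub_zero]
    · refine ⟨h /ₘ f * (X ^ j * (X - C t)) + C (s.coeff d), ?_⟩
      have e := modByMonic_add_div h f
      generalize C (s.coeff d) = c
      rw [hs]
      linear_combination (-(X ^ j * (X - C t))) * e
  obtain ⟨t, ht⟩ := Infinite.exists_notMem_finset (insert 0 (insert
    (((s * X).coeff d - s.coeff d * f.coeff d) / s.coeff d)
    (insert (-(s.coeff d * f.coeff 0) / s.coeff 0) f.roots.toFinset)))
  simp only [Finset.mem_insert, not_or, Multiset.mem_toFinset, mem_roots hm.ne_zero] at ht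
  obtain ⟨t0, t1, t2, t3⟩ := ht
  refine ⟨j, t, t0, t3, ?_, ?_⟩
  · rw [hR, coeff_sub, coeff_sub, coeff_C_mul, coeff_C_mul]
    intro e
    apply t1
    rw [eq_div_iff hc0]
    linear_combination -e
  · rw [hR, coeff_sub, coeff_sub, coeff_C_mul, coeff_C_mul, mul_coeff_zero, coeff_X_zero, mul_zero]
    intro e
    by_cases hz : s.coeff 0 = 0
    · rw [hz, mul_zero, sub_zero, zero_sub, neg_eq_zero] at e
      exact mul_ne_zero hc0 hf e
    · apply t2
      rw [eq_div_iff hz]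
      linear_combination -e

omit [TopologicalSpace F] [IsTopologicalDivisionRing F] in
theorem ind_cop {f : F[X]} {t : F} (h : f.eval t ≠ 0) : IsCoprime f (X - C t) :=
  ((irreducible_X_sub_C t).coprime_iff_not_dvd.2 fun e => h (dvd_iff_isRoot.1 e)).symm

variable {k : Type} [CommRing k] [Cu k] [CharZero F] [Algebra k F] [Base k F]

omit [TopologicalSpace F] [IsTopologicalDivisionRing F] in
/-- one step of the Euclidean algorithm; `r = C e * r'` with `r' = C e⁻¹ * r` monic of degree `d`,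
`τ(f, X - t) = τ(X - t, f) + T(f 0, -t)` and `τ(X - t, f) = τ(X - t, C (f t)) = T(-t, f t)` -/
theorem tauP_step {f h r : F[X]} {d j : ℕ} {t : F} (hm : f.Monic) (hd : f.natDegree = d + 1)
    (hf : f.coeff 0 ≠ 0) (hc : IsCoprime f h) (ht : t ≠ 0) (hft : f.eval t ≠ 0)
    (hr : r = (h * (X ^ j * (X - C t))) %ₘ f) (hrd : r.coeff d ≠ 0) (hr0 : r.coeff 0 ≠ 0) :
    (C (r.coeff d)⁻¹ * r).Monic ∧ (C (r.coeff d)⁻¹ * r).natDegree = d ∧
      IsCoprime (C (r.coeff d)⁻¹ * r) f ∧
      tauP k f h = tauP k (C (r.coeff d)⁻¹ * r) f + T k (f.coeff 0) (r.coeff 0)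
        - T k (-t) (f.eval t) - T k (f.coeff 0) (-t) := by
  have hdeg : f.degree = (d + 1 : ℕ) := by rw [degree_eq_natDegree hm.ne_zero, hd]
  have hrn : r.natDegree = d := by
    refine le_antisymm ?_ (le_natDegree_of_ne_zero hrd)
    have := degree_modByMonic_lt (h * (X ^ j * (X - C t))) hm
    rw [← hr, hdeg] at this
    exact natDegree_le_iff_coeff_eq_zero.2 fun m hm' => (degree_lt_iff_coeff_zero _ _).1 this m hm'
  have hi : (r.coeff d)⁻¹ ≠ 0 := inv_ne_zero hrd
  have m1 : (C (r.coeff d)⁻¹ * r).Monic :=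
    monic_C_mul_of_mul_leadingCoeff_eq_one (by rw [leadingCoeff, hrn, inv_mul_cancel₀ hrd])
  have c1 : IsCoprime f (X : F[X]) := by
    have := ind_cop (f := f) (t := 0) (by rwa [← coeff_zero_eq_eval_zero])
    rwa [map_zero, sub_zero] at this
  have c2 := ind_cop hft
  have c3 : IsCoprime f (X ^ j * (X - C t)) := c1.pow_right.mul_right c2
  have hdv : f ∣ h * (X ^ j * (X - C t)) - r := by
    rw [hr]
    exact ⟨_, sub_eq_iff_eq_add'.2 (modByMonic_add_div _ f).symm⟩
  have c4 : IsCoprime f r := by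
    obtain ⟨q, hq⟩ := hdv
    have := hc.mul_right c3
    rw [sub_eq_iff_eq_add'] at hq
    rw [hq] at this
    exact this.of_add_mul_left_right
  have cu : ∀ {e : F}, e ≠ 0 → IsCoprime f (C e) := fun he =>
    isCoprime_of_dvd _ _ (fun e => hm.ne_zero e.1) fun z hz _ _ hz' =>
      hz (isUnit_of_dvd_unit hz' (isUnit_C.2 he.isUnit))
  have c5 : IsCoprime f (C (r.coeff d)⁻¹ * r) := (cu hi).mul_right c4
  have z1 : (C (r.coeff d)⁻¹ * r).coeff 0 = (r.coeff d)⁻¹ * r.coeff 0 := coeff_C_mul _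
  have z2 : (X - C t : F[X]).coeff 0 = -t := by simp
  have nt : -t ≠ 0 := neg_ne_zero.2 ht
  refine ⟨m1, by rw [natDegree_C_mul hi, hrn], c5.symm, ?_⟩
  have e1 := tauP_congr (k := k) hdv
  rw [tauP_mul hf hc c3, tauP_mul hf c1.pow_right c2, tauP_X_pow hf,
    tauP_rec hm (monic_X_sub_C t) hf (by rwa [z2]) c2, z2,
    tauP_congr (h' := C (f.eval t)) (X_sub_C_dvd_sub_C_eval),
    tauP_C (monic_X_sub_C t) (by rwa [z2]) hft, z2] at e1
  have e2 := tauP_mul (k := k) hf (cu hrd) c5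
  rw [← mul_assoc, ← C_mul, mul_inv_cancel₀ hrd, C_1, one_mul, tauP_C hm hf hrd,
    tauP_rec hm m1 hf (by rw [z1]; exact mul_ne_zero hi hr0) c5, z1] at e2
  have e3 := T_mul_right (k := k) hf.isUnit hrd.isUnit (mul_ne_zero hi hr0).isUnit
  rw [← mul_assoc, mul_inv_cancel₀ hrd, one_mul] at e3
  linear_combination e1 + e2 - e3

/-- induction on `n = deg f` with `exists_step` (for the limit) and `tauP_step` -/
theorem tauP_eventually [T1Space F]
    (hc : ∀ x y : F, x ≠ 0 → y ≠ 0 → ∀ᶠ p : F × F in 𝓝 (x, y), T k p.1 p.2 = T k x y) (n : ℕ) :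
    ∀ (f h : ι → F[X]) (f₀ h₀ : F[X]) (D : ℕ), PC l f f₀ → PC l h h₀ →
      (∀ᶠ i in l, (f i).Monic ∧ (f i).natDegree = n ∧ (h i).natDegree ≤ D ∧ IsCoprime (f i) (h i)) →
      f₀.Monic → f₀.natDegree = n → h₀.natDegree ≤ D → IsCoprime f₀ h₀ → f₀.coeff 0 ≠ 0 →
      ∀ᶠ i in l, tauP k (f i) (h i) = tauP k f₀ h₀ := by
  induction n with
  | zero =>
    intro f h f₀ h₀ D _ _ hE hm hn _ _ _
    rw [(Monic.natDegree_eq_zero hm).1 hn, tauP_one]
    filter_upwards [hE] with i hi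
    rw [(Monic.natDegree_eq_zero hi.1).1 hi.2.1, tauP_one]
  | succ d ih =>
    intro f h f₀ h₀ D hf hh hE hm hn hD hcop h0
    obtain ⟨j, t, ht, hft, hrd, hr0⟩ := exists_step hm hn h0 hcop
    have hb : ∀ {g : F[X]}, g.natDegree ≤ D → (g * (X ^ j * (X - C t))).natDegree ≤
        D + (X ^ j * (X - C t) : F[X]).natDegree := fun hg =>
      natDegree_mul_le.trans (Nat.add_le_add_right hg _)
    have hr := (hh.mul (PC.const (X ^ j * (X - C t)))).modByMonic hf (hE.mono fun i hi => hb hi.2.2.1) (hb hD)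
      (hE.mono fun i hi => ⟨hi.1, hi.2.1⟩) hm hn
    have hev := hf.eval (hE.mono fun i hi => hi.2.1.le) hn.le t
    obtain ⟨s1, s2, s3, s4⟩ := tauP_step (k := k) hm hn h0 hcop ht hft rfl hrd hr0
    have E1 := (hf 0).eventually_ne h0
    have E2 := hev.eventually_ne hft
    have E3 := (hr d).eventually_ne hrd
    have E4 := (hr 0).eventually_ne hr0
    have hS := ((((hE.and E1).and E2).and E3).and E4).mono fun i hi =>
      tauP_step (k := k) hi.1.1.1.1.1 hi.1.1.1.1.2.1 hi.1.1.1.2 hi.1.1.1.1.2.2.2 ht hi.1.1.2 rfl hi.1.2 hi.2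
    have I := ih _ f _ f₀ (d + 1) ((PC.C ((hr d).inv₀ hrd)).mul hr) hf
      ((hS.and hE).mono fun i hi => ⟨hi.1.1, hi.1.2.1, hi.2.2.1.le, hi.1.2.2.1⟩) s1 s2 hn.le s3
      (by rw [coeff_C_mul]; exact mul_ne_zero (inv_ne_zero hrd) hr0)
    have nt : -t ≠ 0 := neg_ne_zero.2 ht
    have T1 := ((hf 0).prodMk_nhds (hr 0)).eventually (hc _ _ h0 hr0)
    have T2 := ((tendsto_const_nhds (x := -t)).prodMk_nhds hev).eventually (hc _ _ nt hft)
    have T3 := ((hf 0).prodMk_nhds (tendsto_const_nhds (x := -t))).eventually (hc _ _ h0 nt)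
    filter_upwards [hS, I, T1, T2, T3] with i a b c1 c2 c3
    rw [a.2.2.2, s4, b, c1, c2, c3]

end Crest.Agent.R312.B1
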