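import Mathlib

/-!
# R312 / B1Int : sums over `ω`-orbits (part B1, sub-lead helper31)

## Overview of part B1 (replaces the Steinberg route of `ReadB1`)
`k ∋ ω` is a ring in which `3` is a unit.  A *gauge* modulo a submodule `I` of a `k`-module `M` is an
`I`-periodic `φ : M → ZMod 3` with `φ(ωx) = φ(x) + 1` off `I`.  `Ig I c` is the sum of an
`ω`-invariant function `c` over the `ω`-orbits of `M/I ∖ 0` (`1 - φ²` is the indicator of `φ = 0`, and
`∑ c = 0`).  `B1Pr`: for commuting automorphisms `g, h` of a module with lattices a bimultiplicative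
alternating pairing `Pr g h`;  `B1Pull`: `T a b = Pr (a·) (b·)` for rings and how to compute it on a
ring mapping onto a lattice;  `B1Hex`: `T a b = dd b a - dd a b` for coprime `a, b` and the three-term
reciprocity `T_f(g,h) + T_g(h,f) + T_h(f,g) = 0`;  `B1Gauss`: `ω^{dd p b} ≡ b^{(Np-1)/3}`;
`B1Det`: `T_A(a,e) = T_F(N a, e)`;  `B1Tau`, `B1Ind`, `B1J`: the Euclidean algorithm on polynomials
expresses `T_K(θ, h(θ))` by values of `T_F`, so `T_K` is locally constant if `T_F` is;
`B1Top`, `B1Sym`: the `Q`-adic topology, `F = ℚ(ω)`, `T_F` is locally constant by cubic reciprocity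
over `ℤ[ω]` (R17);  `B1Main`: conclusion.
All auxiliary lemmas go into the namespace `Crest.Agent.R312.B1` (prefix them with the file tag).
-/

set_option autoImplicit false

noncomputable section

open scoped Classical

namespace Crest.Agent.R312.B1

/-- the base ring -/
class Cu (k : Type) [CommRing k] where
  om : k
  om_eq : om ^ 2 + om + 1 = 0
  three : IsUnit (3 : k)
  fin : ∀ n : ℕ, n ≠ 0 → Finite (k ⧸ Ideal.span {(n : k)})

variable {k : Type} [CommRing k] {M M' : Type} [AddCommGroup M] [Module k M]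
  [AddCommGroup M'] [Module k M']

/-- indicator function of a submodule -/
def ind (S : Submodule k M) (x : M) : ZMod 3 := if x ∈ S then 1 else 0

/-- `c` is periodic modulo `I` -/
def Prd (I : Submodule k M) (c : M → ZMod 3) : Prop := ∀ x, ∀ y ∈ I, c (x + y) = c x

/-- the sum of a periodic function over `M / I` -/
def Sm (I : Submodule k M) (c : M → ZMod 3) : ZMod 3 := ∑ᶠ q : M ⧸ I, c q.out

/-- finite support modulo `I` -/
def Fs (I : Submodule k M) (c : M → ZMod 3) : Prop := {q : M ⧸ I | c q.out ≠ 0}.Finite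

/-- the image of `N` in `M / I` is finite -/
def Fi (I N : Submodule k M) : Prop := ((N.map I.mkQ : Submodule k (M ⧸ I)) : Set (M ⧸ I)).Finite

theorem bi_out_sub (I : Submodule k M) (x : M) : (Submodule.Quotient.mk x : M ⧸ I).out - x ∈ I :=
  (Submodule.Quotient.eq I).1 (Submodule.Quotient.mk_out _)

theorem Prd.congr {I : Submodule k M} {c : M → ZMod 3} (h : Prd I c) {x y : M} (e : x - y ∈ I) :
    c x = c y := by
  rw [← h y _ e, add_sub_cancel]

theorem Prd.out {I : Submodule k M} {c : M → ZMod 3} (h : Prd I c) (x : M) :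
    c (Submodule.Quotient.mk x : M ⧸ I).out = c x := h.congr (bi_out_sub I x)

theorem Fs.of_imp {I : Submodule k M} {c c' : M → ZMod 3} (h : Fs I c) (e : ∀ x, c x = 0 → c' x = 0) :
    Fs I c' := Set.Finite.subset h fun _ hq h0 => hq (e _ h0)

theorem Fs.mul {I : Submodule k M} {c : M → ZMod 3} (h : Fs I c) (ψ : M → ZMod 3) :
    Fs I (fun x => c x * ψ x) := h.of_imp fun x hx => by simp [hx]

theorem Fs.add {I : Submodule k M} {c c' : M → ZMod 3} (h : Fs I c) (h' : Fs I c') :
    Fs I (fun x => c x + c' x) := by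
  refine Set.Finite.subset (Set.Finite.union h h') fun q hq => ?_
  by_contra hn
  simp only [Set.mem_union, Set.mem_ofPred_eq, not_or, not_not] at hn
  exact hq (by simp [hn.1, hn.2])

theorem Sm_add {I : Submodule k M} {c c' : M → ZMod 3} (h : Fs I c) (h' : Fs I c') :
    Sm I (fun x => c x + c' x) = Sm I c + Sm I c' := finsum_add_distrib h h'

theorem Sm_neg (I : Submodule k M) (c : M → ZMod 3) : Sm I (fun x => - c x) = - Sm I c :=
  finsum_neg_distrib _

theorem Sm_equiv {I : Submodule k M} (σ : M ≃ₗ[k] M) (hσ : ∀ x, σ x ∈ I ↔ x ∈ I) {F : M → ZMod 3}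
    (hF : Prd I F) : Sm I (fun x => F (σ x)) = Sm I F := by
  have h : I.map (σ : M →ₗ[k] M) = I := by
    ext x
    constructor
    · rintro ⟨y, hy, rfl⟩
      exact (hσ y).2 hy
    · intro hx
      exact ⟨σ.symm x, (hσ _).1 (by simpa using hx), by simp⟩
  refine finsum_eq_of_bijective (Submodule.Quotient.equiv I I σ h)
    (Submodule.Quotient.equiv I I σ h).bijective fun q => ?_
  conv_rhs => rw [← Submodule.Quotient.mk_out q]
  exact (hF.out _).symm

theorem bi_prd_mul {I : Submodule k M} {G ψ : M → ZMod 3} (hG : Prd I G)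
    (hψ : ∀ x, G x ≠ 0 → ∀ y ∈ I, ψ (x + y) = ψ x) (F : ZMod 3 → ZMod 3) :
    Prd I (fun x => G x * F (ψ x)) := by
  intro x y hy
  by_cases h : G x = 0
  · simp only [hG x y hy, h, zero_mul]
  · simp only [hG x y hy, hψ x h y hy]

theorem Fi.mono {I N N' : Submodule k M} (h : Fi I N) (hN : N' ≤ N) : Fi I N' :=
  Set.Finite.subset h (Submodule.map_mono hN)

theorem Fi.of_finite (I N : Submodule k M) [Finite (M ⧸ I)] : Fi I N := Set.toFinite _

/-- a periodic function that vanishes outside `N` -/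
theorem Fi.fs {I N : Submodule k M} (h : Fi I N) {c : M → ZMod 3} (hc : ∀ x, c x ≠ 0 → x ∈ N) :
    Fs I c :=
  Set.Finite.subset h fun q hq => ⟨q.out, hc _ hq, Submodule.Quotient.mk_out q⟩

/-- **shift lemma**: reindex the sums of `G ψ` and `G ψ²` by the bijection of `M/I` induced by `σ`:
`∑ Gψ = ∑ G(ψ+1)` gives `∑ G = 0`, `∑ Gψ² = ∑ G(ψ+1)²` gives `2 ∑ Gψ + ∑ G = 0`. -/
theorem Sm_shift {I : Submodule k M} (σ : M ≃ₗ[k] M) (hσ : ∀ x, σ x ∈ I ↔ x ∈ I) {G ψ : M → ZMod 3}
    (hG : Prd I G) (hf : Fs I G) (hGσ : ∀ x, G (σ x) = G x)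
    (hψ : ∀ x, G x ≠ 0 → ∀ y ∈ I, ψ (x + y) = ψ x) (hψσ : ∀ x, G x ≠ 0 → ψ (σ x) = ψ x + 1) :
    Sm I G = 0 ∧ Sm I (fun x => G x * ψ x) = 0 := by
  have h1 := Sm_equiv σ hσ (bi_prd_mul hG hψ id)
  have h2 := Sm_equiv σ hσ (bi_prd_mul hG hψ (· ^ 2))
  have e1 : (fun x => G (σ x) * id (ψ (σ x))) = fun x => G x * ψ x + G x := by
    funext x
    by_cases h : G x = 0
    · simp [hGσ, h]
    · simp only [hGσ, hψσ x h, id]; ring
  have e2 : (fun x => G (σ x) * ψ (σ x) ^ 2) =
      fun x => G x * ψ x ^ 2 + (G x * ψ x + (G x * ψ x + G x)) := by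
    funext x
    by_cases h : G x = 0
    · simp [hGσ, h]
    · simp only [hGσ, hψσ x h]; ring
  rw [e1, Sm_add (hf.mul _) hf] at h1
  rw [e2, Sm_add (hf.mul _) ((hf.mul _).add ((hf.mul _).add hf)), Sm_add (hf.mul _) ((hf.mul _).add hf),
    Sm_add (hf.mul _) hf] at h2
  simp only [id] at h1
  have h3 : (3 : ZMod 3) = 0 := rfl
  refine ⟨by linear_combination h1, ?_⟩
  linear_combination 2 * h2 - 2 * h1 - Sm I (fun x => G x * ψ x) * h3

variable [Cu k]

theorem om_cube : (Cu.om : k) ^ 3 = 1 := by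
  linear_combination ((Cu.om : k) - 1) * Cu.om_eq (k := k)

theorem om_smul_mem {I : Submodule k M} {x : M} : (Cu.om : k) • x ∈ I ↔ x ∈ I := by
  refine ⟨fun h => ?_, fun h => I.smul_mem _ h⟩
  have := I.smul_mem ((Cu.om : k) ^ 2) h
  rwa [smul_smul, ← pow_succ, om_cube, one_smul] at this

theorem ind_om (S : Submodule k M) (x : M) : ind S ((Cu.om : k) • x) = ind S x := by
  simp only [ind, om_smul_mem]

/-- multiplication by `ω` -/
def omE (k M : Type) [CommRing k] [Cu k] [AddCommGroup M] [Module k M] : M ≃ₗ[k] M where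
  toFun x := (Cu.om : k) • x
  invFun x := (Cu.om : k) ^ 2 • x
  map_add' := smul_add _
  map_smul' a x := smul_comm _ _ _
  left_inv x := by
    change (Cu.om : k) ^ 2 • (Cu.om : k) • x = x
    rw [smul_smul, ← pow_succ, om_cube, one_smul]
  right_inv x := by
    change (Cu.om : k) • (Cu.om : k) ^ 2 • x = x
    rw [smul_smul, ← pow_succ', om_cube, one_smul]

theorem bi_om_ne {x : M} (hx : x ≠ 0) : (Cu.om : k) • x ≠ x := by
  intro h
  apply hx
  have h3 : (3 : k) • x = 0 := by
    have e : (3 : k) = (2 + Cu.om) * (1 - Cu.om) := by linear_combination Cu.om_eq (k := k)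
    rw [e, mul_smul, sub_smul, one_smul, h, sub_self, smul_zero]
  exact (Cu.three (k := k)).smul_eq_zero.1 h3

theorem bi_gauge0 (k X : Type) [CommRing k] [Cu k] [AddCommGroup X] [Module k X] :
    ∃ φ : X → ZMod 3, ∀ q, q ≠ 0 → φ ((Cu.om : k) • q) = φ q + 1 := by
  have w3 : ∀ x : X, (Cu.om : k) • (Cu.om : k) • (Cu.om : k) • x = x := fun x => by
    rw [smul_smul, smul_smul, ← pow_two, ← pow_succ, om_cube, one_smul]
  let S : X → X → Prop := fun q y => y = q ∨ y = (Cu.om : k) • q ∨ y = (Cu.om : k) • (Cu.om : k) • q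
  have hS : ∀ q, S ((Cu.om : k) • q) = S q := fun q => by
    funext y
    simp only [S, w3]
    exact propext (by tauto)
  let r : X → X := fun q => Classical.epsilon (S q)
  have hr : ∀ q, S q (r q) := fun q => Classical.epsilon_spec ⟨q, Or.inl rfl⟩
  have hr' : ∀ q, r ((Cu.om : k) • q) = r q := fun q => by simp only [r, hS]
  refine ⟨fun q => if q = r q then 0 else if q = (Cu.om : k) • r q then 1 else 2, fun q hq => ?_⟩
  simp only [hr']
  have hq' : q = r q ∨ q = (Cu.om : k) • r q ∨ q = (Cu.om : k) • (Cu.om : k) • r q := by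
    rcases hr q with h | h | h
    · exact Or.inl h.symm
    · exact Or.inr (Or.inr (by rw [h, w3]))
    · exact Or.inr (Or.inl (by rw [h, w3]))
  generalize r q = ρ at hq'
  have h0 : ρ ≠ 0 := by
    rintro rfl
    simp only [smul_zero, or_self] at hq'
    exact hq hq'
  have n1 : (Cu.om : k) • ρ ≠ ρ := bi_om_ne h0
  have n2 : (Cu.om : k) • (Cu.om : k) • ρ ≠ ρ := fun h => n1 (by
    conv_lhs => rw [← h]
    rw [w3])
  have n3 : (Cu.om : k) • (Cu.om : k) • ρ ≠ (Cu.om : k) • ρ := fun h => n2 (by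
    have := congrArg (fun y => (Cu.om : k) • y) h
    simp only [w3] at this
    exact this.symm)
  rcases hq' with rfl | rfl | rfl
  · simp [n1]
  · simp only [n1, n2, n3, if_true, if_false]; rfl
  · simp only [w3, n2, n3, if_true, if_false]; rfl

/-- a gauge modulo `I` -/
structure Gauge (I : Submodule k M) (φ : M → ZMod 3) : Prop where
  prd : Prd I φ
  om : ∀ x, x ∉ I → φ ((Cu.om : k) • x) = φ x + 1

/-- For `q ∈ M/I` let `r(q) = Classical.epsilon (· ∈ {q, ωq, ω²q})` (the set depends only on the orbit)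
and `φ = 0, 1, 2` according to `q = r, ωr, ω²r`.  For `q ≠ 0` the three elements are distinct because
`(1-ω)(1-ω²) = 3` is a unit. -/
theorem exists_gauge (I : Submodule k M) : ∃ φ, Gauge I φ := by
  obtain ⟨φ, hφ⟩ := bi_gauge0 k (M ⧸ I)
  refine ⟨fun x => φ (Submodule.Quotient.mk x), fun x y hy => ?_, fun x hx => ?_⟩
  · simp only [Submodule.Quotient.mk_add, (Submodule.Quotient.mk_eq_zero I).2 hy, add_zero]
  · simp only [Submodule.Quotient.mk_smul]
    exact hφ _ fun h => hx ((Submodule.Quotient.mk_eq_zero I).1 h)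

/-- a fixed gauge -/
def gauge (I : Submodule k M) : M → ZMod 3 := (exists_gauge I).choose

theorem gauge_spec (I : Submodule k M) : Gauge I (gauge I) := (exists_gauge I).choose_spec

/-- admissible integrands -/
structure Adm (I : Submodule k M) (c : M → ZMod 3) : Prop where
  prd : Prd I c
  om : ∀ x, c ((Cu.om : k) • x) = c x
  zero : ∀ x ∈ I, c x = 0
  fin : Fs I c

/-- the sum of `c` over the `ω`-orbits in `M/I ∖ 0` -/
def Ig (I : Submodule k M) (c : M → ZMod 3) : ZMod 3 := - Sm I (fun x => c x * gauge I x ^ 2)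

theorem Adm.zero' (I : Submodule k M) : Adm I (fun _ => 0) :=
  ⟨fun _ _ _ => rfl, fun _ => rfl, fun _ _ => rfl, by simp [Fs]⟩

theorem Adm.add {I : Submodule k M} {c c' : M → ZMod 3} (h : Adm I c) (h' : Adm I c') :
    Adm I (fun x => c x + c' x) :=
  ⟨fun x y hy => by simp only [h.prd x y hy, h'.prd x y hy], fun x => by simp only [h.om, h'.om],
    fun x hx => by simp only [h.zero x hx, h'.zero x hx, add_zero], h.fin.add h'.fin⟩

theorem Adm.neg {I : Submodule k M} {c : M → ZMod 3} (h : Adm I c) : Adm I (fun x => - c x) :=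
  ⟨fun x y hy => by simp only [h.prd x y hy], fun x => by simp only [h.om],
    fun x hx => by simp only [h.zero x hx, neg_zero], h.fin.of_imp fun x hx => by simp [hx]⟩

theorem Adm.sub {I : Submodule k M} {c c' : M → ZMod 3} (h : Adm I c) (h' : Adm I c') :
    Adm I (fun x => c x - c' x) := by
  simpa only [sub_eq_add_neg] using h.add h'.neg

theorem Ig_zero (I : Submodule k M) : Ig I (fun _ => 0) = 0 := by
  simp [Ig, Sm]

theorem Ig_add {I : Submodule k M} {c c' : M → ZMod 3} (h : Adm I c) (h' : Adm I c') :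
    Ig I (fun x => c x + c' x) = Ig I c + Ig I c' := by
  simp only [Ig, add_mul]
  rw [Sm_add (h.fin.mul _) (h'.fin.mul _), neg_add]

theorem Ig_neg {I : Submodule k M} {c : M → ZMod 3} (h : Adm I c) :
    Ig I (fun x => - c x) = - Ig I c := by
  have _ := h
  simp only [Ig, neg_mul, Sm_neg]

theorem Ig_sub {I : Submodule k M} {c c' : M → ZMod 3} (h : Adm I c) (h' : Adm I c') :
    Ig I (fun x => c x - c' x) = Ig I c - Ig I c' := by
  simp only [sub_eq_add_neg]
  rw [Ig_add h h'.neg, Ig_neg h']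

theorem Adm.shift {I : Submodule k M} {c : M → ZMod 3} (h : Adm I c) :
    Sm I c = 0 ∧ Sm I (fun x => c x * gauge I x) = 0 :=
  Sm_shift (omE k M) (fun _ => om_smul_mem) h.prd h.fin h.om
    (fun x _ y hy => (gauge_spec I).prd x y hy)
    (fun x hx => (gauge_spec I).om x fun e => hx (h.zero x e))

theorem Adm.sm {I : Submodule k M} {c : M → ZMod 3} (h : Adm I c) : Sm I c = 0 := h.shift.1

/-- independence of the gauge: with `δ = ψ - γ` (invariant on the support of `c`),
`ψ² = γ² + 2γδ + δ²`; apply `Sm_shift` (`σ = ω•`) to `G = cδ²` and `G = cδ`. -/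
theorem Ig_eq {I : Submodule k M} {c : M → ZMod 3} (hc : Adm I c) {ψ : M → ZMod 3}
    (h1 : ∀ x, c x ≠ 0 → ∀ y ∈ I, ψ (x + y) = ψ x)
    (h2 : ∀ x, c x ≠ 0 → ψ ((Cu.om : k) • x) = ψ x + 1) :
    Ig I c = - Sm I (fun x => c x * ψ x ^ 2) := by
  have hγ := gauge_spec I
  have key : ∀ F : ZMod 3 → ZMod 3, Adm I (fun x => c x * F (ψ x - gauge I x)) := fun F => by
    refine ⟨bi_prd_mul (ψ := fun x => ψ x - gauge I x) hc.prd
      (fun x hx y hy => by simp only [h1 x hx y hy, hγ.prd x y hy]) F, fun x => ?_,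
      fun x hx => by simp only [hc.zero x hx, zero_mul], hc.fin.mul _⟩
    by_cases h : c x = 0
    · simp only [hc.om, h, zero_mul]
    · simp only [hc.om, h2 x h, hγ.om x fun e => h (hc.zero x e), add_sub_add_right_eq_sub]
  have k1 := (key id).shift.2
  have k2 := (key (· ^ 2)).shift.1
  have e : (fun x => c x * ψ x ^ 2) = fun x => c x * gauge I x ^ 2 +
      (c x * id (ψ x - gauge I x) * gauge I x + (c x * id (ψ x - gauge I x) * gauge I x +
        c x * (ψ x - gauge I x) ^ 2)) := by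
    funext x
    simp only [id]
    ring
  have f1 := (key id).fin.mul (gauge I)
  have f2 := (key (· ^ 2)).fin
  rw [e, Sm_add (hc.fin.mul _) (f1.add (f1.add f2)), Sm_add f1 (f1.add f2), Sm_add f1 f2, k1, k2]
  simp [Ig]

/-- `Adm.sm` for `I = ⊥`, `c = 1 - ind ⊥` -/
theorem card_mod_three (k X : Type) [CommRing k] [Cu k] [AddCommGroup X] [Module k X] [Finite X] :
    ((Nat.card X : ℕ) : ZMod 3) = 1 := by
  have := Fintype.ofFinite X
  have hc : Adm (⊥ : Submodule k X) (fun x => 1 - ind (⊥ : Submodule k X) x) :=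
    ⟨fun x y hy => by rw [(Submodule.mem_bot k).1 hy, add_zero], fun x => by rw [ind_om],
      fun x hx => by simp only [ind, hx, if_true, sub_self], Set.toFinite _⟩
  have h := hc.sm
  have hb : Function.Bijective (Quotient.out : X ⧸ (⊥ : Submodule k X) → X) :=
    ⟨Quotient.out_injective, fun x => ⟨Submodule.Quotient.mk x,
      sub_eq_zero.1 ((Submodule.mem_bot k).1 (bi_out_sub ⊥ x))⟩⟩
  replace h := (finsum_comp (g := fun x => 1 - ind (⊥ : Submodule k X) x) _ hb).symm.trans h
  rw [finsum_eq_sum_of_fintype] at h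
  simp only [ind, Submodule.mem_bot, Finset.sum_sub_distrib, Finset.sum_const, Finset.card_univ,
    nsmul_eq_mul, mul_one, Finset.sum_ite_eq', Finset.mem_univ, if_true] at h
  rw [Nat.card_eq_fintype_card]
  exact sub_eq_zero.1 h

theorem bi_fiber {X Y : Type} [AddCommGroup X] [Module k X] [AddCommGroup Y] [Module k Y]
    (θ : X →ₗ[k] Y) (hK : (LinearMap.ker θ : Set X).Finite) {F : Y → ZMod 3}
    (hF : (Function.support F).Finite) (hs : ∀ y, F y ≠ 0 → ∃ x, θ x = y) :
    (Function.support fun x => F (θ x)).Finite ∧ ∑ᶠ x, F (θ x) = ∑ᶠ y, F y := by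
  have hfin : (Function.support fun x => F (θ x)).Finite := by
    refine Set.Finite.preimage' (f := θ) hF fun y hy => ?_
    obtain ⟨x0, rfl⟩ := hs y hy
    refine (hK.image (x0 + ·)).subset fun x hx => ⟨x - x0, ?_, by simp⟩
    have : θ x = θ x0 := hx
    simp [this]
  refine ⟨hfin, ?_⟩
  have hcard : ((hK.toFinset.card : ℕ) : ZMod 3) = 1 := by
    have : Finite (LinearMap.ker θ) := hK
    rw [← card_mod_three k (LinearMap.ker θ)]
    congr 1
    exact (Nat.card_eq_card_finite_toFinset hK).symm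
  rw [finsum_eq_sum _ hfin, finsum_eq_sum _ hF, Finset.sum_comp F θ]
  refine Finset.sum_congr ?_ fun y hy => ?_
  · ext y
    simp only [Finset.mem_image, Set.Finite.mem_toFinset, Function.mem_support]
    constructor
    · rintro ⟨x, hx, rfl⟩
      exact hx
    · intro hy
      obtain ⟨x, rfl⟩ := hs y hy
      exact ⟨x, hy, rfl⟩
  · have hy' : F y ≠ 0 := by simpa using hy
    obtain ⟨x0, rfl⟩ := hs y hy'
    have : (Finset.filter (fun a => θ a = θ x0) hfin.toFinset).card = hK.toFinset.card := by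
      refine Finset.card_nbij' (fun a => a - x0) (fun a => a + x0) (fun a ha => ?_) (fun a ha => ?_)
        (fun a _ => by simp) (fun a _ => by simp)
      · simp only [Finset.coe_filter, Set.mem_ofPred_eq] at ha
        simp [ha.2]
      · have : θ a = 0 := by simpa using ha
        simp [this, hy']
    rw [nsmul_eq_mul]
    erw [this, hcard, one_mul]

/-- **transport**.  `θ` induces `θ̄ : M/I₁ → M'/I₂` whose kernel is finite, of order `≡ 1 mod 3`; all
non-empty fibres have this size and the support of `c` lies in the image.  Use `Ig_eq` with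
`ψ = gauge I₂ ∘ θ`. -/
theorem Ig_comp (θ : M →ₗ[k] M') {I₁ : Submodule k M} {I₂ : Submodule k M'} (h12 : I₁ ≤ I₂.comap θ)
    (hfi : Fi I₁ (I₂.comap θ)) {c : M' → ZMod 3} (hc : Adm I₂ c)
    (hs : ∀ y, c y ≠ 0 → y ∈ LinearMap.range θ ⊔ I₂) :
    Adm I₁ (fun x => c (θ x)) ∧ Ig I₁ (fun x => c (θ x)) = Ig I₂ c := by
  have hγ := gauge_spec I₂
  have hK : (LinearMap.ker (I₁.mapQ I₂ θ h12) : Set (M ⧸ I₁)).Finite := by
    rw [Submodule.ker_mapQ]; exact hfi
  have hout : ∀ {F : M' → ZMod 3}, Prd I₂ F → ∀ q : M ⧸ I₁,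
      F (I₁.mapQ I₂ θ h12 q).out = F (θ q.out) := fun hF q => by
    conv_lhs => rw [← Submodule.Quotient.mk_out q, Submodule.mapQ_apply]
    exact hF.out _
  have key : ∀ {F : M' → ZMod 3}, Prd I₂ F → (∀ y, c y = 0 → F y = 0) →
      Fs I₁ (fun x => F (θ x)) ∧ Sm I₁ (fun x => F (θ x)) = Sm I₂ F := fun {F} hF h0 => by
    have := bi_fiber (I₁.mapQ I₂ θ h12) hK (F := fun q => F q.out) (hc.fin.of_imp h0) (fun q hq => by
      obtain ⟨_, ⟨x, rfl⟩, z, hz, e⟩ := Submodule.mem_sup.1 (hs _ fun h => hq (h0 _ h))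
      refine ⟨Submodule.Quotient.mk x, ?_⟩
      rw [Submodule.mapQ_apply, ← Submodule.Quotient.mk_out q, ← e, Submodule.Quotient.mk_add,
        (Submodule.Quotient.mk_eq_zero I₂).2 hz, add_zero])
    simp only [hout hF] at this
    exact this
  have hA : Adm I₁ (fun x => c (θ x)) :=
    ⟨fun x y hy => by simp only [map_add, hc.prd _ _ (h12 hy)], fun x => by simp only [map_smul, hc.om],
      fun x hx => hc.zero _ (h12 hx), (key hc.prd fun _ h => h).1⟩
  refine ⟨hA, ?_⟩
  rw [Ig_eq hA (ψ := fun x => gauge I₂ (θ x))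
    (fun x _ y hy => by simp only [map_add, hγ.prd _ _ (h12 hy)])
    (fun x hx => by simp only [map_smul]; exact hγ.om _ fun e => hx (hc.zero _ e)), Ig,
    ← (key (F := fun y => c y * gauge I₂ y ^ 2)
      (fun x y hy => by simp only [hc.prd x y hy, hγ.prd x y hy]) (fun y h => by simp [h])).2]

/-- `Ig_comp` for `θ = id` -/
theorem Ig_mono {I₁ I₂ : Submodule k M} (h12 : I₁ ≤ I₂) (hfi : Fi I₁ I₂) {c : M → ZMod 3}
    (hc : Adm I₂ c) : Adm I₁ c ∧ Ig I₁ c = Ig I₂ c :=
  Ig_comp LinearMap.id h12 hfi hc fun y _ => Submodule.mem_sup_left ⟨y, rfl⟩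

end Crest.Agent.R312.B1
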