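import Crest.Agent.R312.B1Ind

/-!
# R312 / B1J : `T_K` is locally constant at `(θ, z)` for primitive `θ`
-/

set_option autoImplicit false

noncomputable section

open scoped Classical Topology
open Polynomial Filter

namespace Crest.Agent.R312.B1

variable {F K : Type} [Field F] [Field K] [Algebra F K]

theorem b1j_pb [Module.Finite F K] {x : K} (h : IntermediateField.adjoin F {x} = ⊤) :
    ∃ pb : PowerBasis F K, pb.gen = x := by
  have hx : IsIntegral F x := Algebra.IsIntegral.isIntegral x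
  refine ⟨PowerBasis.ofAdjoinEqTop hx ?_, rfl⟩
  rw [← IntermediateField.adjoin_simple_toSubalgebra_of_isAlgebraic hx.isAlgebraic, h]
  rfl

theorem b1j_aux [Module.Finite F K] {y θ : K} (hy : y ≠ 0) (hθ : IntermediateField.adjoin F {θ} = ⊤)
    {t t' : F} (ht : t ≠ t') (h0 : θ + algebraMap F K t ≠ 0)
    (he : IntermediateField.adjoin F {y * (θ + algebraMap F K t)} =
      IntermediateField.adjoin F {y * (θ + algebraMap F K t')}) :
    ∃ pb pb' : PowerBasis F K, pb.gen ≠ 0 ∧ pb'.gen ≠ 0 ∧ y = pb.gen / pb'.gen := by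
  have key : ∀ E : IntermediateField F K, θ + algebraMap F K t ∈ E → E = ⊤ := fun E hE => by
    rw [eq_top_iff, ← hθ, IntermediateField.adjoin_simple_le_iff]
    have := E.sub_mem hE (E.algebraMap_mem t)
    rwa [add_sub_cancel_right] at this
  obtain ⟨pb', hpb'⟩ := b1j_pb (key _ (IntermediateField.mem_adjoin_simple_self F (θ + algebraMap F K t)))
  have h1 := IntermediateField.mem_adjoin_simple_self F (y * (θ + algebraMap F K t))
  have h2 := IntermediateField.mem_adjoin_simple_self F (y * (θ + algebraMap F K t'))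
  rw [← he] at h2
  obtain ⟨E, hE⟩ : ∃ E, E = IntermediateField.adjoin F {y * (θ + algebraMap F K t)} := ⟨_, rfl⟩
  rw [← hE] at h1 h2
  have htt : algebraMap F K (t - t') ≠ 0 := by
    rw [map_ne_zero_iff _ (algebraMap F K).injective]; exact sub_ne_zero.2 ht
  have hyE : y ∈ E := by
    have a := E.div_mem (E.sub_mem h1 h2) (E.algebraMap_mem (t - t'))
    have e : (y * (θ + algebraMap F K t) - y * (θ + algebraMap F K t')) / algebraMap F K (t - t') = y := by
      rw [div_eq_iff htt, map_sub]; ring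
    rwa [e] at a
  have h3 : θ + algebraMap F K t ∈ E := by
    have a := E.div_mem h1 hyE
    rwa [mul_div_cancel_left₀ _ hy] at a
  obtain ⟨pb, hpb⟩ := b1j_pb (hE ▸ key E h3)
  refine ⟨pb, pb', by rw [hpb]; exact mul_ne_zero hy h0, by rw [hpb']; exact h0, ?_⟩
  rw [hpb, hpb', mul_div_cancel_right₀ _ h0]

/-- There are finitely many intermediate fields, so `F⟮y(θ+t)⟯ = F⟮y(θ+t')⟯ = E` for some `t ≠ t'` with
`θ + t ≠ 0`; then `y ∈ E`, `θ ∈ E`, `E = ⊤`.  `PowerBasis.ofAdjoinEqTop`. -/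
theorem exists_primitive_div [CharZero F] [Module.Finite F K] {y : K} (hy : y ≠ 0) :
    ∃ pb pb' : PowerBasis F K, pb.gen ≠ 0 ∧ pb'.gen ≠ 0 ∧ y = pb.gen / pb'.gen := by
  obtain ⟨θ, hθ⟩ := Field.exists_primitive_element F K
  have := Field.finite_intermediateField_of_exists_primitive_element F K ⟨θ, hθ⟩
  obtain ⟨t, t', ht, he⟩ := Finite.exists_ne_map_eq_of_infinite
    fun t : F => IntermediateField.adjoin F {y * (θ + algebraMap F K t)}
  by_cases h0 : θ + algebraMap F K t = 0
  · refine b1j_aux hy hθ ht.symm (fun h1 => ht ?_) he.symm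
    exact (algebraMap F K).injective (add_left_cancel (h0.trans h1.symm))
  · exact b1j_aux hy hθ ht h0 he

/-- the matrix of the powers `x^j` in the power basis -/
def pwM (pb : PowerBasis F K) (x : K) : Matrix (Fin pb.dim) (Fin pb.dim) F :=
  fun i j => pb.basis.repr (x ^ (j : ℕ)) i

/-- the polynomial of degree `< n` with `co(x) = y` (Cramer's rule) -/
def co (pb : PowerBasis F K) (x y : K) : F[X] :=
  ∑ j : Fin pb.dim, monomial (j : ℕ)
    ((pwM pb x).det⁻¹ * (pwM pb x).cramer (fun i => pb.basis.repr y i) j)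

theorem pwM_gen (pb : PowerBasis F K) : pwM pb pb.gen = 1 := by
  ext i j
  rw [pwM, ← pb.basis_eq_pow, Module.Basis.repr_self, Finsupp.single_apply, Matrix.one_apply]
  simp only [eq_comm]

theorem degree_co (pb : PowerBasis F K) (x y : K) : (co pb x y).degree < pb.dim := by
  refine (degree_sum_le _ _).trans_lt ?_
  rw [Finset.sup_lt_iff (WithBot.bot_lt_coe _)]
  intro j _
  exact (degree_monomial_le _ _).trans_lt (by exact_mod_cast j.2)

/-- `Matrix.mulVec_cramer` -/
theorem aeval_co (pb : PowerBasis F K) {x : K} (hx : (pwM pb x).det ≠ 0) (y : K) :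
    aeval x (co pb x y) = y := by
  refine pb.basis.ext_elem fun i => ?_
  have h := congrFun (Matrix.mulVec_cramer (pwM pb x) fun i => pb.basis.repr y i) i
  simp only [Matrix.mulVec, dotProduct, Pi.smul_apply, smul_eq_mul] at h
  simp only [co, map_sum, aeval_monomial, ← Algebra.smul_def, map_smul, Finsupp.coe_finsetSum,
    Finset.sum_apply, Finsupp.smul_apply, smul_eq_mul]
  calc _ = (pwM pb x).det⁻¹ * ∑ j, pwM pb x i j * (pwM pb x).cramer (fun i => pb.basis.repr y i) j := by
        rw [Finset.mul_sum]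
        refine Finset.sum_congr rfl fun j _ => ?_
        rw [pwM]; ring
    _ = _ := by rw [h, inv_mul_cancel_left₀ hx]

variable [TopologicalSpace F] [IsTopologicalDivisionRing F] [T1Space F] [TopologicalSpace K]
  [IsTopologicalRing K] [T1Space K]

/-- `Matrix.cramer_apply`, `Continuous.matrix_det` -/
theorem pc_co (hlin : ∀ L : K →ₗ[F] F, Continuous L) (pb : PowerBasis F K) {ι : Type} {l : Filter ι}
    {x y : ι → K} {y₀ : K} (hx : Tendsto x l (𝓝 pb.gen)) (hy : Tendsto y l (𝓝 y₀)) :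
    (∀ᶠ i in l, (pwM pb (x i)).det ≠ 0) ∧ PC l (fun i => co pb (x i) (y i)) (co pb pb.gen y₀) := by
  have hM : Continuous fun x : K => pwM pb x :=
    continuous_matrix fun i j => (hlin (pb.basis.coord i)).comp (continuous_pow (j : ℕ))
  have hdet : Tendsto (fun i => (pwM pb (x i)).det) l (𝓝 (pwM pb pb.gen).det) :=
    (hM.matrix_det.tendsto _).comp hx
  have h1 : (pwM pb pb.gen).det ≠ 0 := by rw [pwM_gen, Matrix.det_one]; exact one_ne_zero
  refine ⟨hdet.eventually_ne h1, fun n => ?_⟩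
  have hc : Continuous fun p : K × K => (pwM pb p.1).cramer fun i => pb.basis.repr p.2 i :=
    (hM.comp continuous_fst).matrix_cramer
      (continuous_pi fun i => (hlin (pb.basis.coord i)).comp continuous_snd)
  simp only [co, finsetSum_coeff, coeff_monomial]
  refine tendsto_finsetSum _ fun j _ => ?_
  split_ifs
  · have a := (hc.tendsto (pb.gen, y₀)).comp (hx.prodMk_nhds hy)
    have b := tendsto_pi_nhds.1 a j
    simp only [Function.comp_apply] at b
    exact (hdet.inv₀ h1).mul b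
  · exact tendsto_const_nhds

variable {k : Type} [CommRing k] [Cu k] [CharZero F] [Algebra k F] [Base k F] [Algebra k K]
  [IsScalarTower k F K]

omit [TopologicalSpace F] [IsTopologicalDivisionRing F] [T1Space F] [TopologicalSpace K]
  [IsTopologicalRing K] [T1Space K] in
theorem b1j_pt (pb : PowerBasis F K) {x y : K} (hx : (pwM pb x).det ≠ 0) (hx0 : x ≠ 0) (hy0 : y ≠ 0) :
    (X ^ pb.dim - co pb x (x ^ pb.dim)).Monic ∧ (X ^ pb.dim - co pb x (x ^ pb.dim)).natDegree = pb.dim ∧
      (co pb x y).natDegree ≤ pb.dim ∧ IsCoprime (X ^ pb.dim - co pb x (x ^ pb.dim)) (co pb x y) ∧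
      (X ^ pb.dim - co pb x (x ^ pb.dim)).coeff 0 ≠ 0 ∧
      tauP k (X ^ pb.dim - co pb x (x ^ pb.dim)) (co pb x y) = T k x y := by
  have := pb.finite
  have hm : (X ^ pb.dim - co pb x (x ^ pb.dim)).Monic := monic_X_pow_sub (degree_co pb x _)
  have hd : (X ^ pb.dim - co pb x (x ^ pb.dim)).natDegree = pb.dim := by
    refine natDegree_eq_of_degree_eq_some ?_
    rw [degree_sub_eq_left_of_degree_lt (by rw [degree_X_pow]; exact degree_co pb x _), degree_X_pow]
  obtain ⟨a1, a2, a3⟩ := tauP_eq (k := k) (A := K) hm (hd.trans pb.finrank.symm) (x := x)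
    (by rw [map_sub, aeval_co pb hx, map_pow, aeval_X, sub_self])
    (fun z => ⟨_, aeval_co pb hx z⟩) hx0 (h := co pb x y) (by rw [aeval_co pb hx]; exact hy0)
  rw [aeval_co pb hx] at a3
  exact ⟨hm, hd, natDegree_le_of_degree_le (degree_co pb x y).le, a2, a1, a3⟩

/-- `f_x = X^n - co x (x^n)`, `h = co x y`; `tauP_eq` and `tauP_eventually` -/
theorem T_eventually (hlin : ∀ L : K →ₗ[F] F, Continuous L)
    (hc : ∀ x y : F, x ≠ 0 → y ≠ 0 → ∀ᶠ p : F × F in 𝓝 (x, y), T k p.1 p.2 = T k x y)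
    (pb : PowerBasis F K) (h0 : pb.gen ≠ 0) {z : K} (hz : z ≠ 0) :
    ∀ᶠ p : K × K in 𝓝 (pb.gen, z), T k p.1 p.2 = T k pb.gen z := by
  have t1 : Tendsto (fun p : K × K => p.1) (𝓝 (pb.gen, z)) (𝓝 pb.gen) := continuous_fst.tendsto _
  have t2 : Tendsto (fun p : K × K => p.2) (𝓝 (pb.gen, z)) (𝓝 z) := continuous_snd.tendsto _
  obtain ⟨e1, p1⟩ := pc_co hlin pb t1 t2
  obtain ⟨-, p2⟩ := pc_co hlin pb t1 (t1.pow pb.dim)
  have h1 : (pwM pb pb.gen).det ≠ 0 := by rw [pwM_gen, Matrix.det_one]; exact one_ne_zero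
  obtain ⟨b1, b2, b3, b4, b5, b6⟩ := b1j_pt (k := k) pb h1 h0 hz
  have ev := (e1.and ((t1.eventually_ne h0).and (t2.eventually_ne hz))).mono fun p hp =>
    b1j_pt (k := k) pb hp.1 hp.2.1 hp.2.2
  have key := tauP_eventually (k := k) hc pb.dim _ _ _ _ pb.dim ((PC.const (X ^ pb.dim)).sub p2) p1
    (ev.mono fun p hp => ⟨hp.1, hp.2.1, hp.2.2.1, hp.2.2.2.1⟩) b1 b2 b3 b4 b5
  filter_upwards [key, ev] with p hp hq
  rw [← hq.2.2.2.2.2, hp, b6]

end Crest.Agent.R312.B1
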