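import Crest.Agent.R312.B1Int

/-!
# R312 / B1Pr : lattices and the pairing `Pr g h` of commuting automorphisms

`Jv Λ Λ' ψ = ∫ (1_Λ - 1_Λ') ψ` is additive in `ψ`, additive along chains `Λ, Λ', Λ''` and invariant under
isomorphisms.  All properties of `Pr` are formal consequences (see the docstrings).
-/

set_option autoImplicit false

noncomputable section

open scoped Classical

namespace Crest.Agent.R312.B1

variable {k : Type} [CommRing k] {V V' : Type} [AddCommGroup V] [Module k V]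
  [AddCommGroup V'] [Module k V']

/-- lattices -/
structure Lat (Λ : Submodule k V) : Prop where
  fg : ∃ Λ₀ : Submodule k V, Λ₀.FG ∧ Λ ≤ Λ₀
  den : ∀ v : V, ∃ n : ℕ, n ≠ 0 ∧ n • v ∈ Λ

theorem Lat.inf {Λ Λ' : Submodule k V} (h : Lat Λ) (h' : Lat Λ') : Lat (Λ ⊓ Λ') := by
  obtain ⟨Λ₀, h0, h1⟩ := h.fg
  refine ⟨⟨Λ₀, h0, inf_le_left.trans h1⟩, fun v => ?_⟩
  obtain ⟨n, hn, e⟩ := h.den v
  obtain ⟨m, hm, e'⟩ := h'.den v
  refine ⟨m * n, mul_ne_zero hm hn, ?_, ?_⟩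
  · rw [mul_smul]; exact Λ.smul_of_tower_mem m e
  · rw [mul_comm, mul_smul]; exact Λ'.smul_of_tower_mem n e'

theorem Lat.sup {Λ Λ' : Submodule k V} (h : Lat Λ) (h' : Lat Λ') : Lat (Λ ⊔ Λ') := by
  obtain ⟨Λ₀, h0, h1⟩ := h.fg
  obtain ⟨Λ₁, h2, h3⟩ := h'.fg
  refine ⟨⟨Λ₀ ⊔ Λ₁, h0.sup h2, sup_le_sup h1 h3⟩, fun v => ?_⟩
  obtain ⟨n, hn, e⟩ := h.den v
  exact ⟨n, hn, Submodule.mem_sup_left e⟩

theorem Lat.map {Λ : Submodule k V} (h : Lat Λ) {g : V →ₗ[k] V'} (hg : Function.Surjective g) :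
    Lat (Λ.map g) := by
  obtain ⟨Λ₀, h0, h1⟩ := h.fg
  refine ⟨⟨Λ₀.map g, h0.map g, Submodule.map_mono h1⟩, fun v => ?_⟩
  obtain ⟨u, rfl⟩ := hg v
  obtain ⟨n, hn, e⟩ := h.den u
  exact ⟨n, hn, n • u, e, map_nsmul g n u⟩

theorem Lat.comap {Λ : Submodule k V'} (h : Lat Λ) {g : V →ₗ[k] V'} (hg : Function.Bijective g) :
    Lat (Λ.comap g) := by
  let e := LinearEquiv.ofBijective g hg
  have : Λ.comap g = Λ.map (e.symm : V' →ₗ[k] V) := by
    ext x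
    constructor
    · intro hx
      exact ⟨g x, hx, e.symm_apply_apply x⟩
    · rintro ⟨y, hy, rfl⟩
      change e (e.symm y) ∈ Λ
      rwa [e.apply_symm_apply]
  rw [this]
  exact h.map e.symm.surjective

/-- a common denominator of the generators of `Λ₀ ≥ Λ` -/
theorem Lat.exists_nsmul {Λ Λ' : Submodule k V} (h : Lat Λ) (h' : Lat Λ') :
    ∃ n : ℕ, n ≠ 0 ∧ ∀ v ∈ Λ, n • v ∈ Λ' := by
  obtain ⟨Λ₀, h0, h1⟩ := h.fg
  suffices H : ∃ n : ℕ, n ≠ 0 ∧ ∀ v ∈ Λ₀, n • v ∈ Λ' from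
    H.imp fun n hn => ⟨hn.1, fun v hv => hn.2 v (h1 hv)⟩
  clear h1
  induction Λ₀, h0 using Submodule.fg_induction with
  | singleton x =>
    obtain ⟨n, hn, e⟩ := h'.den x
    refine ⟨n, hn, fun v hv => ?_⟩
    obtain ⟨a, rfl⟩ := Submodule.mem_span_singleton.1 hv
    rw [smul_comm]
    exact Λ'.smul_mem a e
  | sup N₁ N₂ _ _ i1 i2 =>
    obtain ⟨n, hn, e⟩ := i1
    obtain ⟨m, hm, e'⟩ := i2
    refine ⟨m * n, mul_ne_zero hm hn, fun v hv => ?_⟩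
    obtain ⟨a, ha, b, hb, rfl⟩ := Submodule.mem_sup.1 hv
    rw [smul_add]
    refine Λ'.add_mem ?_ ?_
    · rw [mul_smul]; exact Λ'.smul_of_tower_mem m (e a ha)
    · rw [mul_comm, mul_smul]; exact Λ'.smul_of_tower_mem n (e' b hb)

variable [Cu k]

/-- the image of `Λ₀` in `V/I` is a finitely generated module killed by `n`, so a quotient of
`(k/n)^r` (`Cu.fin`; e.g. `Module.finite_of_finite` over `k/n`, or induction on the generators) -/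
theorem Lat.fi {I Λ : Submodule k V} (hI : Lat I) (hΛ : Lat Λ) : Fi I Λ := by
  obtain ⟨Λ₀, h0, h1⟩ := hΛ.fg
  refine Fi.mono ?_ h1
  clear h1
  induction Λ₀, h0 using Submodule.fg_induction with
  | singleton x =>
    obtain ⟨n, hn, e⟩ := hI.den x
    have := Cu.fin (k := k) n hn
    refine (Set.finite_range fun q : k ⧸ Ideal.span {(n : k)} => I.mkQ (q.out • x)).subset ?_
    rintro _ ⟨v, hv, rfl⟩
    obtain ⟨a, rfl⟩ := Submodule.mem_span_singleton.1 hv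
    refine ⟨Ideal.Quotient.mk _ a, (Submodule.Quotient.eq I).2 ?_⟩
    obtain ⟨b, hb⟩ := Ideal.mem_span_singleton'.1 (bi_out_sub (Ideal.span {(n : k)}) a)
    rw [← sub_smul]
    erw [← hb]
    rw [mul_smul, Nat.cast_smul_eq_nsmul]
    exact I.smul_mem b e
  | sup N₁ N₂ _ _ i1 i2 =>
    unfold Fi
    rw [Submodule.map_sup, Submodule.coe_sup]
    exact Set.Finite.add i1 i2

/-- outside `L`: `φ(ωx) = φ(x) + e`, and `φ` has a lattice of periods -/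
structure Off (e : ZMod 3) (L : Submodule k V) (φ : V → ZMod 3) : Prop where
  om : ∀ x, x ∉ L → φ ((Cu.om : k) • x) = φ x + e
  prd : ∃ I : Submodule k V, Lat I ∧ ∀ x, x ∉ L → ∀ y ∈ I, φ (x + y) = φ x

/-- global gauges -/
def Glob (k : Type) [CommRing k] [Cu k] {V : Type} [AddCommGroup V] [Module k V] (φ : V → ZMod 3) :
    Prop := ∀ L : Submodule k V, Lat L → Off 1 L φ

/-- `Λ_j = j! Λ` is a decreasing chain of lattices that is cofinal (`Lat.exists_nsmul`); put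
`φ x = gauge Λ_j x` for the least `j` with `x ∉ Λ_j` (`0` if there is none). -/
theorem exists_glob {Λ : Submodule k V} (h : Lat Λ) : ∃ φ : V → ZMod 3, Glob k φ := by
  let C : ℕ → Submodule k V := fun j => Λ.map (((j.factorial : ℕ) : k) • LinearMap.id)
  have hC : ∀ j x, x ∈ C j ↔ ∃ y ∈ Λ, j.factorial • y = x := fun j x => by
    simp only [C, Submodule.mem_map, LinearMap.smul_apply, LinearMap.id_apply, Nat.cast_smul_eq_nsmul]
  have anti : ∀ i j, i ≤ j → C j ≤ C i := fun i j hij x hx => by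
    obtain ⟨y, hy, rfl⟩ := (hC j x).1 hx
    obtain ⟨m, hm⟩ := Nat.factorial_dvd_factorial hij
    exact (hC i _).2 ⟨m • y, Λ.smul_of_tower_mem m hy, by rw [hm, mul_smul]⟩
  have lat : ∀ j, Lat (C j) := fun j => by
    obtain ⟨Λ₀, h0, h1⟩ := h.fg
    refine ⟨⟨Λ₀, h0, fun x hx => h1 ?_⟩, fun v => ?_⟩
    · obtain ⟨y, hy, rfl⟩ := (hC j x).1 hx
      exact Λ.smul_of_tower_mem _ hy
    · obtain ⟨n, hn, e⟩ := h.den v
      exact ⟨j.factorial * n, mul_ne_zero j.factorial_ne_zero hn, (hC j _).2 ⟨_, e, by rw [mul_smul]⟩⟩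
  refine ⟨fun x => gauge (C (sInf {j | x ∉ C j})) x, fun L hL => ?_⟩
  obtain ⟨J, hJ0, hJ⟩ := h.exists_nsmul hL
  have cof : C J ≤ L := fun x hx => by
    obtain ⟨y, hy, rfl⟩ := (hC J x).1 hx
    obtain ⟨m, hm⟩ := Nat.dvd_factorial (Nat.pos_of_ne_zero hJ0) le_rfl
    rw [hm, mul_comm, mul_smul]
    exact L.smul_of_tower_mem m (hJ y hy)
  have hmem : ∀ x, x ∉ C J → x ∉ C (sInf {j | x ∉ C j}) := fun x hx =>
    Nat.sInf_mem (s := {j | x ∉ C j}) ⟨J, hx⟩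
  have hle : ∀ x, x ∉ C J → ∀ y ∈ C J, sInf {j | x + y ∉ C j} ≤ sInf {j | x ∉ C j} :=
    fun x hx y hy => Nat.sInf_le fun e => hmem x hx
      (((C _).add_mem_iff_left (anti _ _ (Nat.sInf_le hx) hy)).1 e)
  refine ⟨fun x hx => ?_, C J, lat J, fun x hx y hy => ?_⟩
  · simp only [om_smul_mem]
    exact (gauge_spec _).om x (hmem x fun e => hx (cof e))
  · have hx' : x ∉ C J := fun e => hx (cof e)
    have hxy : x + y ∉ C J := fun e => hx' (((C J).add_mem_iff_left hy).1 e)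
    have h2 := hle (x + y) hxy (-y) ((C J).neg_mem hy)
    simp only [add_neg_cancel_right] at h2
    rw [le_antisymm (hle x hx' y hy) h2]
    exact (gauge_spec _).prd x y (anti _ _ (Nat.sInf_le hx') hy)

theorem Gauge.off {L : Submodule k V} (hL : Lat L) {φ : V → ZMod 3} (h : Gauge L φ) : Off 1 L φ :=
  ⟨h.om, L, hL, fun x _ y hy => h.prd x y hy⟩

theorem Off.mono {e : ZMod 3} {L L' : Submodule k V} {φ : V → ZMod 3} (h : Off e L φ) (hL : L ≤ L') :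
    Off e L' φ :=
  ⟨fun x hx => h.om x fun m => hx (hL m),
    h.prd.imp fun _ hI => ⟨hI.1, fun x hx => hI.2 x fun m => hx (hL m)⟩⟩

theorem Off.sub {e : ZMod 3} {L : Submodule k V} {φ φ' : V → ZMod 3} (h : Off e L φ)
    (h' : Off e L φ') : Off 0 L (fun x => φ x - φ' x) := by
  obtain ⟨I, hI, p⟩ := h.prd
  obtain ⟨I', hI', p'⟩ := h'.prd
  refine ⟨fun x hx => ?_, I ⊓ I', hI.inf hI', fun x hx y hy => ?_⟩
  · rw [h.om x hx, h'.om x hx]; ring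
  · rw [p x hx y hy.1, p' x hx y hy.2]

theorem Off.comp {e : ZMod 3} {L : Submodule k V'} {φ : V' → ZMod 3} (h : Off e L φ) {g : V →ₗ[k] V'}
    (hg : Function.Bijective g) : Off e (L.comap g) (fun x => φ (g x)) := by
  obtain ⟨I, hI, p⟩ := h.prd
  refine ⟨fun x hx => ?_, I.comap g, hI.comap hg, fun x hx y hy => ?_⟩
  · rw [map_smul, h.om _ hx]
  · rw [map_add, p _ hx _ hy]

/-- `Off e L φ` for all lattices -/
def bpG (k : Type) [CommRing k] [Cu k] {V : Type} [AddCommGroup V] [Module k V] (e : ZMod 3)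
    (φ : V → ZMod 3) : Prop := ∀ L : Submodule k V, Lat L → Off e L φ

theorem bpG.sub {e : ZMod 3} {φ φ' : V → ZMod 3} (h : bpG k e φ) (h' : bpG k e φ') :
    bpG k 0 (fun x => φ x - φ' x) := fun L hL => (h L hL).sub (h' L hL)

theorem bpG.comp {e : ZMod 3} {φ : V' → ZMod 3} (h : bpG k e φ) {g : V →ₗ[k] V'}
    (hg : Function.Bijective g) : bpG k e (fun x => φ (g x)) := fun L hL => by
  have := (h _ (hL.map hg.2)).comp hg
  rwa [Submodule.comap_map_eq_of_injective hg.1] at this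

/-- integral of a function that is admissible for some lattice -/
def IV (k : Type) [CommRing k] [Cu k] {V : Type} [AddCommGroup V] [Module k V] (c : V → ZMod 3) :
    ZMod 3 := if h : ∃ I : Submodule k V, Lat I ∧ Adm I c then Ig h.choose c else 0

/-- `Ig_mono` for `I ⊓ I'` -/
theorem IV_eq {I : Submodule k V} (hI : Lat I) {c : V → ZMod 3} (hc : Adm I c) : IV k c = Ig I c := by
  have H : ∃ I : Submodule k V, Lat I ∧ Adm I c := ⟨I, hI, hc⟩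
  obtain ⟨h1, h2⟩ := H.choose_spec
  rw [IV, dif_pos H, ← (Ig_mono inf_le_left ((h1.inf hI).fi h1) h2).2,
    (Ig_mono inf_le_right ((h1.inf hI).fi hI) hc).2]

theorem IV_add {c c' : V → ZMod 3} (h : ∃ I : Submodule k V, Lat I ∧ Adm I c)
    (h' : ∃ I : Submodule k V, Lat I ∧ Adm I c') :
    IV k (fun x => c x + c' x) = IV k c + IV k c' := by
  obtain ⟨I, hI, hc⟩ := h
  obtain ⟨I', hI', hc'⟩ := h'
  have a := (Ig_mono inf_le_left ((hI.inf hI').fi hI) hc).1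
  have a' := (Ig_mono inf_le_right ((hI.inf hI').fi hI') hc').1
  rw [IV_eq (hI.inf hI') a, IV_eq (hI.inf hI') a', IV_eq (hI.inf hI') (a.add a'), Ig_add a a']

/-- `∫ (1_Λ - 1_Λ') ψ` -/
def Jv (Λ Λ' : Submodule k V) (ψ : V → ZMod 3) : ZMod 3 := IV k (fun x => (ind Λ x - ind Λ' x) * ψ x)

/-- `I = I₀ ⊓ Λ ⊓ Λ'`; the support lies in `Λ ⊔ Λ'` and outside `L` -/
theorem adm_Jv {Λ Λ' L : Submodule k V} (h : Lat Λ) (h' : Lat Λ') (hL : L ≤ Λ ⊓ Λ') {ψ : V → ZMod 3}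
    (hψ : Off 0 L ψ) : ∃ I : Submodule k V, Lat I ∧ Adm I (fun x => (ind Λ x - ind Λ' x) * ψ x) := by
  obtain ⟨I, hI, p⟩ := hψ.prd
  have hw : ∀ x, ind Λ x - ind Λ' x ≠ 0 → x ∈ Λ ⊔ Λ' ∧ x ∉ L := by
    intro x hx
    by_cases h1 : x ∈ Λ <;> by_cases h2 : x ∈ Λ'
    · simp [ind, h1, h2] at hx
    · exact ⟨Submodule.mem_sup_left h1, fun m => h2 (hL m).2⟩
    · exact ⟨Submodule.mem_sup_right h2, fun m => h1 (hL m).1⟩
    · simp [ind, h1, h2] at hx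
  have hJ := hI.inf (h.inf h')
  refine ⟨I ⊓ (Λ ⊓ Λ'), hJ, bi_prd_mul (I := I ⊓ (Λ ⊓ Λ')) (fun x y hy => ?_)
    (fun x hx y hy => p x (hw x hx).2 y hy.1) id,
    fun x => ?_, fun x hx => ?_, (hJ.fi (h.sup h')).fs fun x hx => (hw x (left_ne_zero_of_mul hx)).1⟩
  · simp only [ind, Λ.add_mem_iff_left hy.2.1, Λ'.add_mem_iff_left hy.2.2]
  · rw [ind_om, ind_om]
    by_cases hx : ind Λ x - ind Λ' x = 0
    · rw [hx, zero_mul, zero_mul]
    · rw [hψ.om x (hw x hx).2, add_zero]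
  · have h1 : x ∈ Λ := hx.2.1
    have h2 : x ∈ Λ' := hx.2.2
    simp [ind, h1, h2]

theorem Jv_sub {Λ Λ' L : Submodule k V} (h : Lat Λ) (h' : Lat Λ') (hL : L ≤ Λ ⊓ Λ')
    {ψ ψ' : V → ZMod 3} (hψ : Off 0 L ψ) (hψ' : Off 0 L ψ') :
    Jv Λ Λ' (fun x => ψ x - ψ' x) = Jv Λ Λ' ψ - Jv Λ Λ' ψ' := by
  rw [eq_sub_iff_add_eq, Jv, Jv, Jv, ← IV_add (adm_Jv h h' hL (hψ.sub hψ')) (adm_Jv h h' hL hψ')]
  congr 1
  funext x
  ring

theorem Jv_chain {Λ Λ' Λ'' L : Submodule k V} (h : Lat Λ) (h' : Lat Λ') (h'' : Lat Λ'')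
    (hL : L ≤ Λ ⊓ Λ' ⊓ Λ'') {ψ : V → ZMod 3} (hψ : Off 0 L ψ) :
    Jv Λ Λ' ψ + Jv Λ' Λ'' ψ = Jv Λ Λ'' ψ := by
  rw [Jv, Jv, Jv, ← IV_add (adm_Jv h h' (hL.trans inf_le_left) hψ)
    (adm_Jv h' h'' (fun x hx => ⟨(hL hx).1.2, (hL hx).2⟩) hψ)]
  congr 1
  funext x
  ring

/-- `Ig_comp` with `I₁ = I₂.comap g` -/
theorem Jv_map {Λ Λ' : Submodule k V} (h : Lat Λ) (h' : Lat Λ') {g : V →ₗ[k] V'}
    (hg : Function.Bijective g) {L : Submodule k V'} (hL : L ≤ Λ.map g ⊓ Λ'.map g) {ψ : V' → ZMod 3}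
    (hψ : Off 0 L ψ) : Jv Λ Λ' (fun x => ψ (g x)) = Jv (Λ.map g) (Λ'.map g) ψ := by
  obtain ⟨I, hI, hc⟩ := adm_Jv (h.map hg.2) (h'.map hg.2) hL hψ
  have hI' := hI.comap hg
  obtain ⟨a, e⟩ := Ig_comp g le_rfl (hI'.fi hI') hc
    (fun y _ => Submodule.mem_sup_left (hg.2 y))
  have hi : ∀ (S : Submodule k V) x, ind (S.map g) (g x) = ind S x := fun S x => by
    have : g x ∈ S.map g ↔ x ∈ S := by
      rw [← Submodule.mem_comap, Submodule.comap_map_eq_of_injective hg.1]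
    simp only [ind, this]
  simp only [hi] at a e
  rw [Jv, Jv, IV_eq hI' a, IV_eq hI hc, e]

omit [Cu k] in
theorem bp_bij {g : Module.End k V} (hg : IsUnit g) : Function.Bijective g :=
  (Module.End.isUnit_iff g).1 hg

omit [Cu k] in
theorem bp_map_mul (Λ : Submodule k V) (g h : Module.End k V) :
    Λ.map (g * h) = (Λ.map h).map g := Submodule.map_comp h g Λ

theorem bp_half {g h : Module.End k V} (hg : IsUnit g) (hh : IsUnit h) {Λ L : Submodule k V}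
    (hΛ : Lat Λ) (hL : L ≤ Λ ⊓ Λ.map g ⊓ Λ.map h ⊓ Λ.map (g * h)) {φ φ₀ : V → ZMod 3}
    (hφ : Off 1 L φ) (hφ₀ : Off 1 L φ₀) :
    Jv Λ (Λ.map h) (fun x => φ (g x) - φ x) - Jv Λ (Λ.map h) (fun x => φ₀ (g x) - φ₀ x) =
      Jv (Λ.map g) (Λ.map (g * h)) (fun x => φ x - φ₀ x) - Jv Λ (Λ.map h) (fun x => φ x - φ₀ x) := by
  have bg := bp_bij hg
  have hΛh := hΛ.map (bp_bij hh).2
  have l1 : L ≤ Λ ⊓ Λ.map h := fun x hx => ⟨(hL hx).1.1.1, (hL hx).1.2⟩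
  have l2 : L ≤ Λ.map g ⊓ (Λ.map h).map g := fun x hx => ⟨(hL hx).1.1.2, bp_map_mul Λ g h ▸ (hL hx).2⟩
  have l3 : L.comap g ≤ Λ ⊓ Λ.map h := by
    refine (Submodule.comap_mono l2).trans ?_
    rw [Submodule.comap_inf, Submodule.comap_map_eq_of_injective bg.1,
      Submodule.comap_map_eq_of_injective bg.1]
  have a := hφ.mono l1
  have a₀ := hφ₀.mono l1
  have b := (hφ.comp bg).mono l3
  have b₀ := (hφ₀.comp bg).mono l3
  rw [bp_map_mul, ← Jv_map hΛ hΛh bg l2 (hφ.sub hφ₀), ← Jv_sub hΛ hΛh le_rfl (b.sub a) (b₀.sub a₀),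
    ← Jv_sub hΛ hΛh le_rfl (b.sub b₀) (a.sub a₀)]
  congr 1
  funext x
  ring

theorem bp_lat {h : Module.End k V} (hh : IsUnit h) {Λ Λ' : Submodule k V} (hΛ : Lat Λ) (hΛ' : Lat Λ')
    {ψ : V → ZMod 3} (hψ : bpG k 0 ψ) :
    Jv Λ (Λ.map h) ψ - Jv Λ' (Λ'.map h) ψ = Jv Λ Λ' (fun x => ψ x - ψ (h x)) := by
  have bh := bp_bij hh
  have h1 := hΛ.map bh.2
  have h2 := hΛ'.map bh.2
  rw [Jv_sub hΛ hΛ' le_rfl (hψ _ (hΛ.inf hΛ')) (hψ.comp bh _ (hΛ.inf hΛ')),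
    Jv_map hΛ hΛ' bh le_rfl (hψ _ (h1.inf h2))]
  have c1 := Jv_chain hΛ h1 h2 le_rfl (hψ _ ((hΛ.inf h1).inf h2))
  have c2 := Jv_chain hΛ hΛ' h2 le_rfl (hψ _ ((hΛ.inf hΛ').inf h2))
  linear_combination c1 - c2

/-- the pairing computed with the lattice `Λ` and the gauge `φ` -/
def PrA (Λ : Submodule k V) (φ : V → ZMod 3) (g h : Module.End k V) : ZMod 3 :=
  Jv Λ (Λ.map h) (fun x => φ (g x) - φ x) - Jv Λ (Λ.map g) (fun x => φ (h x) - φ x)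

/-- the pairing -/
def Pr (g h : Module.End k V) : ZMod 3 :=
  if H : ∃ p : Submodule k V × (V → ZMod 3), Lat p.1 ∧ Glob k p.2 then PrA H.choose.1 H.choose.2 g h
  else 0

/-- (1) Change of gauge, `ψ = φ - φ₀`: by `Jv_map` the difference is
`J(gΛ,ghΛ) - J(Λ,hΛ) - J(hΛ,ghΛ) + J(Λ,gΛ) = 0` (`Jv_chain` twice).
(2) Change of lattice for a global gauge: `J(Λ,hΛ;ψ) - J(Λ',hΛ';ψ) = J(Λ,Λ';ψ) - J(hΛ,hΛ';ψ)
= J(Λ,Λ'; ψ - ψ∘h)`, and `(φg - φ) - (φgh - φh) = (φh - φ) - (φhg - φg)`. -/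
theorem Pr_eq {g h : Module.End k V} (hg : IsUnit g) (hh : IsUnit h) (hc : Commute g h)
    {Λ : Submodule k V} (hΛ : Lat Λ) {φ : V → ZMod 3}
    (hφ : Off 1 (Λ ⊓ Λ.map g ⊓ Λ.map h ⊓ Λ.map (g * h)) φ) : Pr g h = PrA Λ φ g h := by
  obtain ⟨φ₁, hφ₁⟩ := exists_glob hΛ
  have H : ∃ p : Submodule k V × (V → ZMod 3), Lat p.1 ∧ Glob k p.2 := ⟨(Λ, φ₁), hΛ, hφ₁⟩
  obtain ⟨h0, hφ₀⟩ := H.choose_spec
  rw [Pr, dif_pos H]
  generalize H.choose.1 = Λ₀ at *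
  generalize H.choose.2 = φ₀ at *
  have bg := bp_bij hg
  have bh := bp_bij hh
  have G₀ : bpG k 1 φ₀ := hφ₀
  have l1 := hΛ.map bg.2
  have l2 := hΛ.map bh.2
  have l3 := hΛ.map (bp_bij (hg.mul hh)).2
  have o₀ := hφ₀ _ (((hΛ.inf l1).inf l2).inf l3)
  have a1 := bp_half hg hh hΛ le_rfl hφ o₀
  have a2 := bp_half (L := Λ ⊓ Λ.map g ⊓ Λ.map h ⊓ Λ.map (g * h)) hh hg hΛ
    (fun x hx => ⟨⟨⟨hx.1.1.1, hx.1.2⟩, hx.1.1.2⟩, hc.eq ▸ hx.2⟩) hφ o₀
  rw [← hc.eq] at a2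
  have c1 := Jv_chain (L := Λ ⊓ Λ.map g ⊓ Λ.map h ⊓ Λ.map (g * h)) hΛ l1 l3
    (fun x hx => ⟨hx.1.1, hx.2⟩) (hφ.sub o₀)
  have c2 := Jv_chain (L := Λ ⊓ Λ.map g ⊓ Λ.map h ⊓ Λ.map (g * h)) hΛ l2 l3
    (fun x hx => ⟨⟨hx.1.1.1, hx.1.2⟩, hx.2⟩) (hφ.sub o₀)
  have b1 := bp_lat hh h0 hΛ ((G₀.comp bg).sub G₀)
  have b2 := bp_lat hg h0 hΛ ((G₀.comp bh).sub G₀)
  have e : (fun x => φ₀ (g x) - φ₀ x - (φ₀ (g (h x)) - φ₀ (h x))) =
      fun x => φ₀ (h x) - φ₀ x - (φ₀ (h (g x)) - φ₀ (g x)) := by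
    funext x
    have : g (h x) = h (g x) := LinearMap.congr_fun hc.eq x
    rw [this]
    ring
  rw [e] at b1
  unfold PrA
  linear_combination b1 - b2 - a1 + a2 - c1 + c2

theorem Pr_swap (g h : Module.End k V) : Pr h g = - Pr g h := by
  unfold Pr
  split_ifs
  · unfold PrA; ring
  · simp

theorem Pr_self (g : Module.End k V) : Pr g g = 0 := by
  unfold Pr
  split_ifs
  · unfold PrA; ring
  · rfl

/-- `PrA Λ φ (g g') h = PrA Λ φ g' h + PrA (g'Λ) φ g h` for a global gauge -/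
theorem Pr_mul_left {g g' h : Module.End k V} (hg : IsUnit g) (hg' : IsUnit g') (hh : IsUnit h)
    (hc : Commute g h) (hc' : Commute g' h) : Pr (g * g') h = Pr g h + Pr g' h := by
  by_cases H : ∃ p : Submodule k V × (V → ZMod 3), Lat p.1 ∧ Glob k p.2
  swap
  · simp only [Pr, dif_neg H, add_zero]
  obtain ⟨hΛ, hφ⟩ := H.choose_spec
  have bg := bp_bij hg
  have bg' := bp_bij hg'
  have bh := bp_bij hh
  have l1 := hΛ.map bg'.2
  have l2 := l1.map bg.2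
  have l3 := l1.map bh.2
  have l4 := hΛ.map bh.2
  rw [Pr_eq hg hh hc l1 (hφ _ (((l1.inf l2).inf l3).inf (l1.map (bp_bij (hg.mul hh)).2))), Pr, Pr,
    dif_pos H, dif_pos H]
  generalize H.choose.1 = Λ at *
  generalize H.choose.2 = φ at *
  have G : bpG k 1 φ := hφ
  have c := Jv_chain hΛ l1 l2 le_rfl ((G.comp bh).sub G _ ((hΛ.inf l1).inf l2))
  have s := Jv_sub hΛ l4 le_rfl ((G.comp (bp_bij (hg.mul hg'))).sub G _ (hΛ.inf l4))
    ((G.comp bg').sub G _ (hΛ.inf l4))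
  have m := Jv_map hΛ l4 bg' le_rfl ((G.comp bg).sub G _ (l1.inf (l4.map bg'.2)))
  have e : (fun x => φ ((g * g') x) - φ x - (φ (g' x) - φ x)) = fun x => φ (g (g' x)) - φ (g' x) := by
    funext x
    simp only [Module.End.mul_apply]
    ring
  rw [e, m, ← bp_map_mul, hc'.eq, bp_map_mul] at s
  unfold PrA
  rw [bp_map_mul]
  linear_combination c - s

/-- if `φ'` is a global gauge on `V'` then `φ' ∘ e` is a global gauge on `V`; `Jv_map` -/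
theorem Pr_conj (e : V ≃ₗ[k] V') {g h : Module.End k V} {g' h' : Module.End k V'} (hg : IsUnit g)
    (hh : IsUnit h) (hc : Commute g h) (eg : ∀ x, e (g x) = g' (e x)) (eh : ∀ x, e (h x) = h' (e x)) :
    Pr g' h' = Pr g h := by
  have be : Function.Bijective (e : V →ₗ[k] V') := e.bijective
  by_cases H : ∃ p : Submodule k V' × (V' → ZMod 3), Lat p.1 ∧ Glob k p.2
  swap
  · have H' : ¬ ∃ p : Submodule k V × (V → ZMod 3), Lat p.1 ∧ Glob k p.2 := by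
      rintro ⟨p, hp, -⟩
      obtain ⟨φ, hφ⟩ := exists_glob (hp.map be.2)
      exact H ⟨(_, φ), hp.map be.2, hφ⟩
    simp only [Pr, dif_neg H, dif_neg H']
  obtain ⟨hΛ, hφ⟩ := H.choose_spec
  rw [Pr, dif_pos H]
  generalize H.choose.1 = Λ at *
  generalize H.choose.2 = φ at *
  have G : bpG k 1 φ := hφ
  have l0 := hΛ.comap be
  have key : ∀ {g h : Module.End k V} {g' h' : Module.End k V'}, IsUnit g → IsUnit h →
      (∀ x, e (g x) = g' (e x)) → (∀ x, e (h x) = h' (e x)) →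
      Jv Λ (Λ.map h') (fun x => φ (g' x) - φ x) = Jv (Λ.comap (e : V →ₗ[k] V'))
        ((Λ.comap (e : V →ₗ[k] V')).map h) (fun x => φ (e (g x)) - φ (e x)) := by
    intro g h g' h' hg hh eg eh
    have bg' : Function.Bijective g' := by
      have : (g' : V' → V') = e ∘ g ∘ e.symm := by
        funext x
        simp [eg]
      rw [this]
      exact e.bijective.comp ((bp_bij hg).comp e.symm.bijective)
    have l1 := l0.map (bp_bij hh).2
    have m := Jv_map l0 l1 be le_rfl ((G.comp bg').sub G _ ((l0.map be.2).inf (l1.map be.2)))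
    have e1 : (Λ.comap (e : V →ₗ[k] V')).map (e : V →ₗ[k] V') = Λ :=
      Submodule.map_comap_eq_of_surjective be.2 Λ
    have e2 : ((Λ.comap (e : V →ₗ[k] V')).map h).map (e : V →ₗ[k] V') = Λ.map h' := by
      conv_rhs => rw [← e1]
      rw [← Submodule.map_comp, ← Submodule.map_comp]
      congr 1
      ext x
      exact eh x
    rw [e1, e2] at m
    rw [← m]
    simp only [eg, LinearEquiv.coe_coe]
  have l1 := l0.map (bp_bij hg).2
  have l2 := l0.map (bp_bij hh).2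
  rw [Pr_eq hg hh hc l0 (G.comp be _ (((l0.inf l1).inf l2).inf (l0.map (bp_bij (hg.mul hh)).2)))]
  unfold PrA
  rw [key hg hh eg eh, key hh hg eh eg]
  rfl

end Crest.Agent.R312.B1
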