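import Crest.Agent.R312.B1Pr

/-!
# R312 / B1Pull : the pairing `T a b` on a commutative ring and its computation on a presentation
-/

set_option autoImplicit false

noncomputable section

open scoped Classical

namespace Crest.Agent.R312.B1

/-- the pairing of two units of a commutative `k`-algebra -/
def T (k : Type) [CommRing k] [Cu k] {A : Type} [CommRing A] [Algebra k A] (a b : A) : ZMod 3 :=
  Pr (Algebra.lmul k A a) (Algebra.lmul k A b)

/-- the ideal `(a)` as a `k`-module -/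
def N1 (k : Type) [CommRing k] {P : Type} [CommRing P] [Algebra k P] (a : P) : Submodule k P :=
  (Ideal.span {a}).restrictScalars k

/-- the ideal `(f, g)` as a `k`-module -/
def N2 (k : Type) [CommRing k] {P : Type} [CommRing P] [Algebra k P] (f g : P) : Submodule k P :=
  (Ideal.span {f, g}).restrictScalars k

variable {k : Type} [CommRing k] {A A' P : Type} [CommRing A] [Algebra k A] [CommRing A']
  [Algebra k A'] [CommRing P] [Algebra k P]

theorem mem_N1 {a x : P} : x ∈ N1 k a ↔ a ∣ x := Ideal.mem_span_singleton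

theorem mem_N2 {f g x : P} : x ∈ N2 k f g ↔ ∃ a b, x = f * a + g * b := by
  change x ∈ Ideal.span {f, g} ↔ _
  rw [Ideal.mem_span_pair]
  exact ⟨fun ⟨a, b, e⟩ => ⟨a, b, by rw [← e]; ring⟩, fun ⟨a, b, e⟩ => ⟨a, b, by rw [e]; ring⟩⟩

theorem N2_zero (a : P) : N2 k 0 a = N1 k a := by
  ext x
  rw [mem_N2, mem_N1]
  exact ⟨fun ⟨_, b, e⟩ => ⟨b, by rw [e]; ring⟩, fun ⟨b, e⟩ => ⟨0, b, by rw [e]; ring⟩⟩

theorem N2_comm (f g : P) : N2 k f g = N2 k g f := by
  rw [N2, N2, Set.pair_comm]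

/-- `π` maps `P` onto a lattice, with kernel `(f)` -/
structure Pres (π : P →ₐ[k] A) (f : P) : Prop where
  ker : ∀ x, π x = 0 ↔ f ∣ x
  lat : Lat (LinearMap.range π.toLinearMap)

/-- `x ∈ (f, g)` iff `π x ∈ π(g) Λ` -/
theorem Pres.comap_map {π : P →ₐ[k] A} {f : P} (hπ : Pres π f) (g : P) :
    ((LinearMap.range π.toLinearMap).map (Algebra.lmul k A (π g))).comap π.toLinearMap = N2 k f g := by
  ext x
  rw [mem_N2, Submodule.mem_comap, Submodule.mem_map]
  constructor
  · rintro ⟨_, ⟨a, rfl⟩, e⟩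
    have e' : π g * π a = π x := e
    obtain ⟨b, hb⟩ := (hπ.ker (x - g * a)).1 (by rw [map_sub, map_mul, e', sub_self])
    exact ⟨b, a, by linear_combination hb⟩
  · rintro ⟨a, b, rfl⟩
    refine ⟨_, ⟨b, rfl⟩, ?_⟩
    change π g * π b = π (f * a + g * b)
    rw [map_add, (hπ.ker _).2 (Dvd.intro a rfl), zero_add, map_mul]

/-- cancellation: `g` is not a zero divisor modulo `f` -/
theorem Pres.dvd_of_dvd_mul {π : P →ₐ[k] A} {f g : P} (hπ : Pres π f) (hg : IsUnit (π g)) {x : P}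
    (h : f ∣ g * x) : f ∣ x := by
  have := (hπ.ker _).2 h
  rw [map_mul] at this
  exact (hπ.ker x).1 (hg.mul_right_eq_zero.1 this)

theorem bl_unit {a : A} (ha : IsUnit a) : IsUnit (Algebra.lmul k A a) := ha.map _

theorem bl_comm (a b : A) : Commute (Algebra.lmul k A a) (Algebra.lmul k A b) :=
  (Commute.all a b).map _

variable [Cu k]

/-- `P / (f, g)` injects into the image of `Λ` in `A / gΛ` (`Lat.fi`) -/
theorem Pres.finite {π : P →ₐ[k] A} {f g : P} (hπ : Pres π f) (hg : IsUnit (π g)) :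
    Finite (P ⧸ N2 k f g) := by
  have hΛ := hπ.lat
  have hI := hΛ.map (bp_bij (bl_unit (k := k) hg)).2
  have hf := hI.fi hΛ
  have hle := (hπ.comap_map g).ge
  have hk : LinearMap.ker ((N2 k f g).mapQ _ π.toLinearMap hle) = ⊥ := by
    rw [Submodule.ker_mapQ, hπ.comap_map, Submodule.mkQ_map_self]
  refine Set.finite_univ_iff.1 (Set.Finite.of_finite_image (hf.subset ?_)
    (LinearMap.ker_eq_bot.1 hk).injOn)
  rintro _ ⟨q, -, rfl⟩
  obtain ⟨x, rfl⟩ := Submodule.Quotient.mk_surjective _ q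
  exact ⟨π x, ⟨x, rfl⟩, rfl⟩

theorem T_swap (a b : A) : T k b a = - T k a b := Pr_swap _ _

theorem T_self (a : A) : T k a a = 0 := Pr_self _

theorem T_mul_left {a a' b : A} (ha : IsUnit a) (ha' : IsUnit a') (hb : IsUnit b) :
    T k (a * a') b = T k a b + T k a' b := by
  rw [T, map_mul]
  exact Pr_mul_left (bl_unit ha) (bl_unit ha') (bl_unit hb) (bl_comm _ _) (bl_comm _ _)

theorem T_mul_right {a b b' : A} (ha : IsUnit a) (hb : IsUnit b) (hb' : IsUnit b') :
    T k a (b * b') = T k a b + T k a b' := by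
  rw [T_swap, T_mul_left hb hb' ha, T_swap a b, T_swap a b']
  ring

theorem T_one_left {b : A} (hb : IsUnit b) : T k 1 b = 0 := by
  have := T_mul_left (k := k) isUnit_one isUnit_one hb
  rw [mul_one] at this
  linear_combination - this

theorem T_one_right {a : A} (ha : IsUnit a) : T k a 1 = 0 := by
  rw [T_swap, T_one_left ha, neg_zero]

theorem T_pow_left {a b : A} (ha : IsUnit a) (hb : IsUnit b) (j : ℕ) :
    T k (a ^ j) b = j * T k a b := by
  induction j with
  | zero => simp [T_one_left hb]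
  | succ j ih => rw [pow_succ, T_mul_left (ha.pow j) ha hb, ih]; push_cast; ring

theorem T_pow_right {a b : A} (ha : IsUnit a) (hb : IsUnit b) (j : ℕ) :
    T k a (b ^ j) = j * T k a b := by
  rw [T_swap, T_pow_left hb ha, T_swap a b]
  ring

theorem T_cube_left {a b : A} (ha : IsUnit a) (hb : IsUnit b) : T k (a ^ 3) b = 0 := by
  rw [T_pow_left ha hb, show ((3 : ℕ) : ZMod 3) = 0 from rfl, zero_mul]

theorem T_cube_right {a b : A} (ha : IsUnit a) (hb : IsUnit b) : T k a (b ^ 3) = 0 := by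
  rw [T_swap, T_cube_left hb ha, neg_zero]

/-- `-1 = (-1)³` -/
theorem T_neg_left {a b : A} (ha : IsUnit a) (hb : IsUnit b) : T k (-a) b = T k a b := by
  rw [show -a = (-1) ^ 3 * a by ring, T_mul_left (isUnit_one.neg.pow 3) ha hb,
    T_cube_left isUnit_one.neg hb, zero_add]

theorem T_neg_right {a b : A} (ha : IsUnit a) (hb : IsUnit b) : T k a (-b) = T k a b := by
  rw [T_swap, T_neg_left hb ha, ← T_swap]

theorem T_div_left {L : Type} [Field L] [Algebra k L] {a a' b : L} (ha : a ≠ 0) (ha' : a' ≠ 0)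
    (hb : b ≠ 0) : T k (a / a') b = T k a b - T k a' b := by
  have := T_mul_left (k := k) (Ne.isUnit (div_ne_zero ha ha')) (Ne.isUnit ha') (Ne.isUnit hb)
  rw [div_mul_cancel₀ _ ha'] at this
  linear_combination - this

theorem T_div_right {L : Type} [Field L] [Algebra k L] {a b b' : L} (ha : a ≠ 0) (hb : b ≠ 0)
    (hb' : b' ≠ 0) : T k a (b / b') = T k a b - T k a b' := by
  rw [T_swap, T_div_left hb hb' ha, T_swap a b, T_swap a b']
  ring

theorem T_conj (e : A ≃ₐ[k] A') {a b : A} (ha : IsUnit a) (hb : IsUnit b) :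
    T k (e a) (e b) = T k a b :=
  Pr_conj e.toLinearEquiv (bl_unit ha) (bl_unit hb) (bl_comm _ _) (fun x => map_mul e a x)
    (fun x => map_mul e b x)

/-- one half of `T_pull` -/
theorem bl_half {π : P →ₐ[k] A} {f g h : P} (hπ : Pres π f) (hg : IsUnit (π g)) (hh : IsUnit (π h))
    {ψ : A → ZMod 3}
    (hψ : Gauge ((LinearMap.range π.toLinearMap).map (Algebra.lmul k A (π (g * h)))) ψ)
    {I : Submodule k P} (hI : I ≤ N2 k f (g * h)) [Finite (P ⧸ I)] :
    Jv (LinearMap.range π.toLinearMap) ((LinearMap.range π.toLinearMap).map (Algebra.lmul k A (π h)))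
      (fun x => ψ (Algebra.lmul k A (π g) x) - ψ x) =
      Ig I (fun x => (1 - ind (N2 k f h) x) * (ψ (π (g * x)) - ψ (π x))) := by
  have hΛ := hπ.lat
  have hgh : IsUnit (π (g * h)) := by rw [map_mul]; exact hg.mul hh
  have hL := hΛ.map (bp_bij (bl_unit (k := k) hgh)).2
  have m0 : ∀ x, π x ∈ LinearMap.range π.toLinearMap := fun x => ⟨x, rfl⟩
  have m1 : ∀ u x, π x ∈ (LinearMap.range π.toLinearMap).map (Algebra.lmul k A (π u)) ↔
      x ∈ N2 k f u := fun u x => by rw [← hπ.comap_map u]; rfl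
  generalize hΛe : LinearMap.range π.toLinearMap = Λ at *
  have mm : ∀ u y, y ∈ Λ.map (Algebra.lmul k A (π u)) ↔ ∃ a, π u * π a = y := fun u y => by
    subst hΛe
    constructor
    · rintro ⟨_, ⟨a, rfl⟩, e⟩
      exact ⟨a, e⟩
    · rintro ⟨a, e⟩
      exact ⟨_, ⟨a, rfl⟩, e⟩
  have le1 : Λ.map (Algebra.lmul k A (π h)) ≤ Λ := fun y hy => by
    obtain ⟨a, rfl⟩ := (mm _ _).1 hy
    rw [← map_mul]
    exact m0 _
  have le2 : Λ.map (Algebra.lmul k A (π (g * h))) ≤ Λ.map (Algebra.lmul k A (π h)) := fun y hy => by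
    obtain ⟨a, rfl⟩ := (mm _ _).1 hy
    exact (mm _ _).2 ⟨g * a, by simp only [map_mul]; ring⟩
  have hw : ∀ x, ind Λ x - ind (Λ.map (Algebra.lmul k A (π h))) x ≠ 0 →
      x ∈ Λ ∧ x ∉ Λ.map (Algebra.lmul k A (π h)) := by
    intro x hx
    by_cases h2 : x ∈ Λ.map (Algebra.lmul k A (π h))
    · exact absurd (by simp only [ind, h2, le1 h2, if_true, sub_self]) hx
    · by_cases h1 : x ∈ Λ
      · exact ⟨h1, h2⟩
      · exact absurd (by simp only [ind, h1, h2, if_false, sub_self]) hx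
  have hc : Adm (Λ.map (Algebra.lmul k A (π (g * h)))) (fun x => (ind Λ x -
      ind (Λ.map (Algebra.lmul k A (π h))) x) * (ψ (Algebra.lmul k A (π g) x) - ψ x)) := by
    refine ⟨fun x y hy => ?_, fun x => ?_, fun x hx => ?_,
      (hL.fi hΛ).fs fun x hx => (hw x (left_ne_zero_of_mul hx)).1⟩
    · have : Algebra.lmul k A (π g) y ∈ Λ.map (Algebra.lmul k A (π (g * h))) := by
        obtain ⟨a, rfl⟩ := (mm _ _).1 hy
        exact (mm _ _).2 ⟨g * a, by change _ = π g * _; simp only [map_mul]; ring⟩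
      simp only [ind, Λ.add_mem_iff_left (le1 (le2 hy)), Submodule.add_mem_iff_left _ (le2 hy), map_add,
        hψ.prd _ _ this, hψ.prd x y hy]
    · rw [ind_om, ind_om]
      by_cases hx : ind Λ x - ind (Λ.map (Algebra.lmul k A (π h))) x = 0
      · rw [hx, zero_mul, zero_mul]
      · rw [map_smul, hψ.om x fun e => (hw x hx).2 (le2 e), hψ.om _ fun e => (hw x hx).2 ?_,
          add_sub_add_right_eq_sub]
        obtain ⟨a, ha⟩ := (mm _ _).1 e
        refine (mm _ _).2 ⟨a, hg.mul_left_cancel ?_⟩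
        rw [← mul_assoc, ← map_mul]
        exact ha
    · simp only [ind, le2 hx, le1 (le2 hx), if_true, sub_self, zero_mul]
  rw [Jv, IV_eq hL hc, ← (Ig_comp π.toLinearMap (I₁ := I)
    (I₂ := Λ.map (Algebra.lmul k A (π (g * h)))) (fun x hx => (m1 _ x).2 (hI hx))
    (Fi.of_finite _ _) hc
    (fun y hy => Submodule.mem_sup_left (hΛe ▸ (hw y (left_ne_zero_of_mul hy)).1))).2]
  congr 1
  funext x
  simp only [AlgHom.toLinearMap_apply, ind, m0, m1, if_true, map_mul]
  rfl

/-- Let `Λ = range π ≥ gΛ, hΛ ≥ ghΛ`.  Define `φ_A v = φ (preimage of v)` for `v ∈ Λ` and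
`gauge (ghΛ) v` otherwise: a gauge modulo `ghΛ` with `φ_A ∘ π = φ` (`Pres.comap_map`).  Apply `Pr_eq`
(`Gauge.off`), `IV_eq` with the lattice `ghΛ` (support in `Λ`, `Lat.fi`), and `Ig_comp` along `π`. -/
theorem T_pull {π : P →ₐ[k] A} {f g h : P} (hπ : Pres π f) (hg : IsUnit (π g)) (hh : IsUnit (π h))
    {φ : P → ZMod 3} (hφ : Gauge (N2 k f (g * h)) φ) {I : Submodule k P} (hI : I ≤ N2 k f (g * h))
    [Finite (P ⧸ I)] :
    T k (π g) (π h) = Ig I (fun x => (1 - ind (N2 k f h) x) * (φ (g * x) - φ x))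
      - Ig I (fun x => (1 - ind (N2 k f g) x) * (φ (h * x) - φ x)) := by
  have hΛ := hπ.lat
  have hgh : IsUnit (π (g * h)) := by rw [map_mul]; exact hg.mul hh
  have hL := hΛ.map (bp_bij (bl_unit (k := k) hgh)).2
  have m1 : ∀ x, π x ∈ (LinearMap.range π.toLinearMap).map (Algebra.lmul k A (π (g * h))) ↔
      x ∈ N2 k f (g * h) := fun x => by rw [← hπ.comap_map]; rfl
  have hγ := gauge_spec ((LinearMap.range π.toLinearMap).map (Algebra.lmul k A (π (g * h))))
  let ψ : A → ZMod 3 := fun v => if H : ∃ x, π x = v then φ H.choose else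
    gauge ((LinearMap.range π.toLinearMap).map (Algebra.lmul k A (π (g * h)))) v
  have e1 : ∀ x, ψ (π x) = φ x := fun x => by
    have H : ∃ y, π y = π x := ⟨x, rfl⟩
    simp only [ψ, dif_pos H]
    refine hφ.prd.congr ((m1 _).1 ?_)
    rw [map_sub, H.choose_spec, sub_self]
    exact zero_mem _
  have hψ : Gauge ((LinearMap.range π.toLinearMap).map (Algebra.lmul k A (π (g * h)))) ψ := by
    refine ⟨fun v y hy => ?_, fun v hv => ?_⟩
    · obtain ⟨_, ⟨a, rfl⟩, e⟩ := id hy
      have e' : π (g * h * a) = y := by rw [map_mul]; exact e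
      by_cases H : ∃ x, π x = v
      · obtain ⟨x, rfl⟩ := H
        rw [← e', ← map_add, e1, e1]
        exact hφ.prd _ _ ((m1 _).1 (e' ▸ hy))
      · have H' : ¬ ∃ x, π x = v + y := fun ⟨x, hx⟩ => H ⟨x - g * h * a, by rw [map_sub, hx, e']; ring⟩
        simp only [ψ, dif_neg H, dif_neg H']
        exact hγ.prd v y hy
    · by_cases H : ∃ x, π x = v
      · obtain ⟨x, rfl⟩ := H
        rw [← map_smul, e1, e1]
        exact hφ.om x fun e => hv ((m1 x).2 e)
      · have H' : ¬ ∃ x, π x = (Cu.om : k) • v := fun e =>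
          H ((om_smul_mem (I := LinearMap.range π.toLinearMap)).1 e)
        simp only [ψ, dif_neg H, dif_neg H']
        exact hγ.om v hv
  have hle : ∀ u, (LinearMap.range π.toLinearMap).map (Algebra.lmul k A (π u)) ≤
      LinearMap.range π.toLinearMap := by
    rintro u _ ⟨_, ⟨a, rfl⟩, rfl⟩
    exact ⟨u * a, map_mul π u a⟩
  rw [T, Pr_eq (bl_unit hg) (bl_unit hh) (bl_comm _ _) hΛ ((hψ.off hL).mono ?_), PrA,
    bl_half hπ hg hh hψ hI, bl_half hπ hh hg (I := I) (by rwa [mul_comm]) (by rwa [mul_comm])]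
  · simp only [e1]
  · rintro _ ⟨_, ⟨a, rfl⟩, rfl⟩
    refine ⟨⟨⟨hle _ ⟨_, ⟨a, rfl⟩, rfl⟩, _, ⟨h * a, rfl⟩, ?_⟩, _, ⟨g * a, rfl⟩, ?_⟩, _, ⟨a, rfl⟩, ?_⟩
    · change π g * π (h * a) = π (g * h) * π a
      simp only [map_mul]; ring
    · change π h * π (g * a) = π (g * h) * π a
      simp only [map_mul]; ring
    · rw [← map_mul, ← map_mul]

end Crest.Agent.R312.B1
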