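import Crest.Agent.R312.B1Det

/-!
# R312 / B1Tau : `τ(f, h) = T_{F[X]/f}(X, h)` and its rules
-/

set_option autoImplicit false

noncomputable section

open scoped Classical
open Polynomial

namespace Crest.Agent.R312.B1

/-- `τ(f, h)` -/
def tauP (k : Type) [CommRing k] [Cu k] {F : Type} [Field F] [Algebra k F] (f h : F[X]) : ZMod 3 :=
  T k (AdjoinRoot.root f) (AdjoinRoot.mk f h)

theorem btau_unit_iff {F : Type} [Field F] {f h : F[X]} : IsUnit (AdjoinRoot.mk f h) ↔ IsCoprime f h := by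
  constructor
  · intro hu
    obtain ⟨y, hy⟩ := hu.exists_left_inv
    obtain ⟨p, rfl⟩ := AdjoinRoot.mk_surjective y
    rw [← map_mul, ← map_one (AdjoinRoot.mk f), AdjoinRoot.mk_eq_mk] at hy
    obtain ⟨q, hq⟩ := hy
    exact ⟨-q, p, by linear_combination hq⟩
  · rintro ⟨a, b, e⟩
    refine IsUnit.of_mul_eq_one_right (AdjoinRoot.mk f b) ?_
    have := congrArg (AdjoinRoot.mk f) e
    rwa [map_add, map_mul, AdjoinRoot.mk_self, mul_zero, zero_add, map_mul, map_one] at this

theorem btau_root_iff {F : Type} [Field F] {f : F[X]} : IsUnit (AdjoinRoot.root f) ↔ f.coeff 0 ≠ 0 := by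
  rw [← AdjoinRoot.mk_X, btau_unit_iff, isCoprime_comm, irreducible_X.coprime_iff_not_dvd, X_dvd_iff]

variable {k F : Type} [CommRing k] [Cu k] [Field F] [CharZero F] [Algebra k F] [Base k F]

omit [CharZero F] [Base k F] in
theorem tauP_congr {f h h' : F[X]} (e : f ∣ h - h') : tauP k f h = tauP k f h' := by
  rw [tauP, tauP, AdjoinRoot.mk_eq_mk.2 e]

omit [CharZero F] [Base k F] in
theorem tauP_mul {f h h' : F[X]} (hf : f.coeff 0 ≠ 0) (hh : IsCoprime f h) (hh' : IsCoprime f h') :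
    tauP k f (h * h') = tauP k f h + tauP k f h' := by
  rw [tauP, map_mul, T_mul_right (btau_root_iff.2 hf) (btau_unit_iff.2 hh) (btau_unit_iff.2 hh'), tauP, tauP]

omit [CharZero F] [Base k F] in
theorem tauP_X (f : F[X]) : tauP k f X = 0 :=
  T_self _

omit [CharZero F] [Base k F] in
theorem tauP_X_pow {f : F[X]} (hf : f.coeff 0 ≠ 0) (j : ℕ) : tauP k f (X ^ j) = 0 := by
  rw [tauP, map_pow, AdjoinRoot.mk_X, T_pow_right (btau_root_iff.2 hf) (btau_root_iff.2 hf), T_self, mul_zero]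

omit [CharZero F] [Base k F] in
/-- in the trivial ring `root 1 = mk 1 h`; `T_self` -/
theorem tauP_one (h : F[X]) : tauP k 1 h = 0 := by
  rw [tauP, AdjoinRoot.mk_eq_mk.2 (one_dvd (h - X))]
  exact T_self _

/-- `T_norm`; the norm of the root is `(-1)^n f(0)` (`AdjoinRoot.powerBasis'`,
`Algebra.PowerBasis.norm_gen_eq_coeff_zero_minpoly` / `AdjoinRoot.minpoly_powerBasis_gen_of_monic`) -/
theorem tauP_C {f : F[X]} (hm : f.Monic) (hf : f.coeff 0 ≠ 0) {e : F} (he : e ≠ 0) :
    tauP k f (C e) = T k (f.coeff 0) e := by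
  have := hm.finite_adjoinRoot
  have h1 := Algebra.PowerBasis.norm_gen_eq_coeff_zero_minpoly (AdjoinRoot.powerBasis hm.ne_zero)
  rw [AdjoinRoot.minpoly_powerBasis_gen_of_monic hm, AdjoinRoot.powerBasis_gen] at h1
  rw [tauP, AdjoinRoot.mk_C, ← AdjoinRoot.algebraMap_eq, T_norm (btau_root_iff.2 hf) he, h1]
  rcases neg_one_pow_eq_or F (AdjoinRoot.powerBasis hm.ne_zero).dim with h | h
  · rw [h, one_mul]
  · rw [h, neg_one_mul, T_neg_left hf.isUnit he.isUnit]

/-- the map `k[Y] → F[X]/f`, `Y ↦ n X` -/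
def scMap (k : Type) [CommRing k] {F : Type} [Field F] [Algebra k F] (f : F[X]) (n : F) :
    k[X] →ₐ[k] AdjoinRoot f := aeval (algebraMap F (AdjoinRoot f) n * AdjoinRoot.root f)

omit [Cu k] in
/-- `f̃ = n^{deg f} f(Y/n)` with coefficients in `k` generates the kernel (division by the monic `f̃`;
a polynomial of degree `< deg f` divisible by `f` vanishes); the range is spanned by the powers
`(n x)^j`, `j < deg f`. -/
theorem pres_scMap {f : F[X]} (hm : f.Monic) {n : F} (hn : n ≠ 0) {f' : k[X]} (hm' : f'.Monic)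
    (e : f'.map (algebraMap k F) = f.scaleRoots n) : Pres (scMap k f n) f' := by
  have h0 : scMap k f n f' = 0 := by
    rw [scMap, ← aeval_map_algebraMap F, e]
    exact scaleRoots_aeval_eq_zero (by rw [AdjoinRoot.aeval_eq, AdjoinRoot.mk_self])
  have : Nontrivial k := (algebraMap k F).domain_nontrivial
  refine ⟨fun x => ⟨fun hx => ?_, ?_⟩, ⟨_, IsIntegral.fg_adjoin_singleton ⟨f', hm', h0⟩, ?_⟩, fun v => ?_⟩
  · rw [← modByMonic_eq_zero_iff_dvd hm']
    have h1 : scMap k f n (x %ₘ f') = 0 := by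
      rwa [← modByMonic_add_div x f', map_add, map_mul, h0, zero_mul, add_zero] at hx
    have h2 : f ∣ ((x %ₘ f').map (algebraMap k F)).comp (C n * X) := by
      rw [← AdjoinRoot.mk_eq_zero, ← AdjoinRoot.aeval_eq, aeval_comp, map_mul, aeval_C, aeval_X, aeval_map_algebraMap]
      exact h1
    have h3 : ((x %ₘ f').map (algebraMap k F)).degree < f.degree := by
      rw [← degree_scaleRoots f (s := n), ← e, hm'.degree_map]
      exact degree_map_le.trans_lt (degree_modByMonic_lt x hm')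
    have h4 := eq_zero_of_dvd_of_degree_lt h2 (by
      rw [degree_eq_natDegree hm.ne_zero, degree_lt_iff_coeff_zero] at h3 ⊢
      intro j hj
      rw [comp_C_mul_X_coeff, h3 j hj, zero_mul])
    rwa [comp_C_mul_X_eq_zero_iff (mem_nonZeroDivisors_of_ne_zero hn), Polynomial.map_eq_zero_iff Base.inj] at h4
  · rintro ⟨y, rfl⟩
    rw [map_mul, h0, zero_mul]
  · rintro _ ⟨x, rfl⟩
    exact aeval_mem_adjoin_singleton k _
  · obtain ⟨p, rfl⟩ := AdjoinRoot.mk_surjective v
    induction p using Polynomial.induction_on' with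
    | add p q hp hq =>
      obtain ⟨a, ha, hp⟩ := hp
      obtain ⟨b, hb, hq⟩ := hq
      refine ⟨a * b, mul_ne_zero ha hb, ?_⟩
      rw [map_add, smul_add]
      refine add_mem ?_ ?_
      · rw [mul_comm, mul_smul]
        exact nsmul_mem hp b
      · rw [mul_smul]
        exact nsmul_mem hq a
    | monomial j a =>
      obtain ⟨m, hm0, b, hb⟩ := Base.den (k := k) (a / n ^ j)
      refine ⟨m, hm0, C b * X ^ j, ?_⟩
      change scMap k f n _ = _
      rw [scMap, map_mul, map_pow, aeval_C, aeval_X, IsScalarTower.algebraMap_apply k F, hb, mul_pow, ← map_pow,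
        ← mul_assoc, ← map_mul, mul_assoc, div_mul_cancel₀ _ (pow_ne_zero j hn), map_mul, map_natCast,
        ← C_mul_X_pow_eq_monomial, map_mul, map_pow, AdjoinRoot.mk_C, AdjoinRoot.mk_X, nsmul_eq_mul, mul_assoc]
      rfl

omit [Cu k] [CharZero F] in
theorem btau_den (f : F[X]) : ∃ m : ℕ, m ≠ 0 ∧ ∀ i, (m : F) * f.coeff i ∈ (algebraMap k F).range := by
  choose n hn a ha using Base.den (k := k) (F := F)
  refine ⟨∏ i ∈ f.support, n (f.coeff i), Finset.prod_ne_zero_iff.2 fun i _ => hn _, fun i => ?_⟩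
  by_cases hi : i ∈ f.support
  · rw [← Finset.prod_erase_mul _ _ hi, Nat.cast_mul, mul_assoc, ← ha]
    exact mul_mem (natCast_mem _ _) ⟨_, rfl⟩
  · rw [notMem_support_iff.1 hi, mul_zero]
    exact zero_mem _

omit [Cu k] [CharZero F] [Base k F] in
theorem btau_lift {f : F[X]} (hm : f.Monic) {m : ℕ} (h : ∀ i, (m : F) * f.coeff i ∈ (algebraMap k F).range) {N : ℕ}
    (hN : m ∣ N) : ∃ f' : k[X], f'.Monic ∧ f'.map (algebraMap k F) = f.scaleRoots (N : F) := by
  obtain ⟨c, rfl⟩ := hN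
  have : f.scaleRoots ((m * c : ℕ) : F) ∈ lifts (algebraMap k F) := by
    rw [lifts_iff_coeff_lifts]
    intro i
    change _ ∈ (algebraMap k F).range
    rw [coeff_scaleRoots]
    rcases lt_trichotomy i f.natDegree with hi | rfl | hi
    · obtain ⟨j, hj⟩ := Nat.exists_eq_add_one_of_ne_zero (Nat.sub_ne_zero_of_lt hi)
      convert mul_mem (h i) (natCast_mem _ (c * (m * c) ^ j)) using 1
      rw [hj]
      push_cast
      ring
    · rw [hm.coeff_natDegree, one_mul]
      exact pow_mem (natCast_mem _ _) _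
    · rw [coeff_eq_zero_of_natDegree_lt hi, zero_mul]
      exact zero_mem _
  obtain ⟨q, h1, -, h2⟩ := lifts_and_natDegree_eq_and_monic this ((monic_scaleRoots_iff _).2 hm)
  exact ⟨q, h2, h1⟩

theorem btau_cube {A : Type} [CommRing A] [Algebra k A] {c d u v : A} (hc : IsUnit c) (hd : IsUnit d) (hu : IsUnit u)
    (hv : IsUnit v) : T k (c ^ 3 * u) (d ^ 3 * v) = T k u v := by
  rw [T_mul_left (hc.pow 3) hu ((hd.pow 3).mul hv), T_cube_left hc ((hd.pow 3).mul hv), T_mul_right hu (hd.pow 3) hv,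
    T_cube_right hu hd, zero_add, zero_add]

omit [Cu k] [CharZero F] [Base k F] in
theorem btau_sc (f : F[X]) (n : F) {r : F[X]} {r' : k[X]} (e : r'.map (algebraMap k F) = r.scaleRoots n) :
    scMap k f n r' = algebraMap F (AdjoinRoot f) n ^ r.natDegree * AdjoinRoot.mk f r := by
  rw [scMap, ← aeval_map_algebraMap F, e, aeval_def, scaleRoots_eval₂_mul, ← aeval_def, AdjoinRoot.aeval_eq]

omit [Cu k] in
theorem btau_pres0 : Pres (aeval (0 : F) : k[X] →ₐ[k] F) X := by
  refine ⟨fun x => ?_, ?_⟩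
  · rw [aeval_def, eval₂_at_zero, map_eq_zero_iff _ Base.inj, X_dvd_iff]
  · convert (pres_ofId (k := k) (F := F)).lat using 1
    ext y
    constructor
    · rintro ⟨x, rfl⟩
      exact ⟨x.coeff 0, (eval₂_at_zero _).symm⟩
    · rintro ⟨a, rfl⟩
      exact ⟨C a, aeval_C _ _⟩

/-- **reciprocity**.  Choose a natural number `m ≠ 0` that clears the denominators of the coefficients
of `f` and `r`, `n = m³`; lift `f.scaleRoots n`, `r.scaleRoots n` to monic `f̃, r̃ ∈ k[Y]`
(`Polynomial.lifts_and_natDegree_eq_and_monic`) and apply `T_hex` to `f̃, r̃, Y` with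
`scMap f n`, `scMap r n` and `aeval 0 : k[Y] → F`.  `scMap f n r̃ = n^{deg r} · mk f r`; the powers of `n`
are cubes and drop out. -/
theorem tauP_rec {f r : F[X]} (hf : f.Monic) (hr : r.Monic) (hf0 : f.coeff 0 ≠ 0)
    (hr0 : r.coeff 0 ≠ 0) (h : IsCoprime f r) :
    tauP k f r = tauP k r f + T k (f.coeff 0) (r.coeff 0) := by
  obtain ⟨m1, h1, d1⟩ := btau_den (k := k) f
  obtain ⟨m2, h2, d2⟩ := btau_den (k := k) r
  obtain ⟨f', mf, ef⟩ := btau_lift hf d1 (N := (m1 * m2) ^ 3) (dvd_pow (dvd_mul_right _ _) three_ne_zero)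
  obtain ⟨r', mr, er⟩ := btau_lift hr d2 (N := (m1 * m2) ^ 3) (dvd_pow (dvd_mul_left _ _) three_ne_zero)
  have hm : ((m1 * m2 : ℕ) : F) ≠ 0 := Nat.cast_ne_zero.2 (mul_ne_zero h1 h2)
  rw [Nat.cast_pow] at ef er
  generalize ((m1 * m2 : ℕ) : F) = m at ef er hm
  have hn := pow_ne_zero 3 hm
  have eX : ∀ g : F[X], scMap k g (m ^ 3) X = algebraMap F (AdjoinRoot g) m ^ 3 * AdjoinRoot.root g := fun g => by
    rw [scMap, aeval_X, map_pow]
  have eS : ∀ g : F[X], ∀ {s : F[X]} {s' : k[X]}, s'.map (algebraMap k F) = s.scaleRoots (m ^ 3) →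
      scMap k g (m ^ 3) s' = (algebraMap F (AdjoinRoot g) m ^ s.natDegree) ^ 3 * AdjoinRoot.mk g s := fun g s s' e => by
    rw [btau_sc g _ e, map_pow, pow_right_comm]
  have e0 : ∀ {s : F[X]} {s' : k[X]}, s'.map (algebraMap k F) = s.scaleRoots (m ^ 3) →
      aeval (0 : F) s' = (m ^ s.natDegree) ^ 3 * s.coeff 0 := fun {s s'} e => by
    rw [aeval_def, eval₂_at_zero, ← coeff_map, e, coeff_scaleRoots, Nat.sub_zero, pow_right_comm, mul_comm]
  have um : ∀ g : F[X], IsUnit (algebraMap F (AdjoinRoot g) m) := fun g => hm.isUnit.map _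
  have u1 := btau_unit_iff.2 h
  have u2 := btau_unit_iff.2 h.symm
  have v1 := btau_root_iff.2 hf0
  have v2 := btau_root_iff.2 hr0
  have := T_hex (pres_scMap hf hn mf ef) (pres_scMap hr hn mr er) (btau_pres0 (k := k) (F := F))
    (by rw [eS f er]; exact (((um f).pow _).pow 3).mul u1) (by rw [eX]; exact ((um f).pow 3).mul v1)
    (by rw [eX]; exact ((um r).pow 3).mul v2) (by rw [eS r ef]; exact (((um r).pow _).pow 3).mul u2)
    (by rw [e0 ef]; exact ((hm.isUnit.pow _).pow 3).mul hf0.isUnit)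
    (by rw [e0 er]; exact ((hm.isUnit.pow _).pow 3).mul hr0.isUnit)
  rw [eS f er, eX, eX, eS r ef, e0 ef, e0 er, btau_cube ((um f).pow _) (um f) u1 v1,
    btau_cube (um r) ((um r).pow _) v2 u2, btau_cube (hm.isUnit.pow _) (hm.isUnit.pow _) hf0.isUnit hr0.isUnit,
    T_swap] at this
  rw [tauP, tauP]
  linear_combination -this

omit [CharZero F] [Base k F] in
/-- `AdjoinRoot f ≃ A` (`AdjoinRoot.liftAlgHom` is onto between spaces of the same dimension); `T_conj` -/
theorem tauP_eq {A : Type} [Field A] [Algebra F A] [Algebra k A] [IsScalarTower k F A]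
    [Module.Finite F A] {f : F[X]} (hm : f.Monic) (hd : f.natDegree = Module.finrank F A) {x : A}
    (hx : aeval x f = 0) (hs : ∀ y : A, ∃ p : F[X], aeval x p = y) (hx0 : x ≠ 0) {h : F[X]}
    (hh : aeval x h ≠ 0) :
    f.coeff 0 ≠ 0 ∧ IsCoprime f h ∧ tauP k f h = T k x (aeval x h) := by
  have := hm.finite_adjoinRoot
  let φ : AdjoinRoot f →ₐ[F] A := AdjoinRoot.liftAlgHom f (Algebra.ofId F A) x hx
  have hφ : ∀ p, φ (AdjoinRoot.mk f p) = aeval x p := fun p => rfl
  have hsur : Function.Surjective φ := fun y => by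
    obtain ⟨p, rfl⟩ := hs y
    exact ⟨_, hφ p⟩
  have hinj : Function.Injective φ :=
    (LinearMap.injective_iff_surjective_of_finrank_eq_finrank (f := φ.toLinearMap)
      ((AdjoinRoot.powerBasis' hm).finrank.trans hd)).2 hsur
  let e := AlgEquiv.ofBijective φ ⟨hinj, hsur⟩
  have hu : ∀ p, aeval x p ≠ 0 → IsUnit (AdjoinRoot.mk f p) := fun p hp => by
    have := hp.isUnit.map e.symm
    rwa [← hφ, show φ (AdjoinRoot.mk f p) = e (AdjoinRoot.mk f p) from rfl, e.symm_apply_apply] at this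
  have h1 : IsUnit (AdjoinRoot.root f) := hu X (by rwa [aeval_X])
  refine ⟨btau_root_iff.1 h1, btau_unit_iff.1 (hu h hh), ?_⟩
  rw [tauP, ← T_conj (e.restrictScalars k) h1 (hu h hh)]
  congr 1
  exact (hφ X).trans (aeval_X x)

end Crest.Agent.R312.B1
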