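import Crest.Agent.R312.B1F

/-!
# R312 / B1Top : the `Q`-adic topology on `K` and on `F`
-/

set_option autoImplicit false

noncomputable section

open scoped Classical NumberField Topology
open Filter

namespace Crest.Agent.R312.B1

section top
variable (K : Type) [Field K] [NumberField K] [Loc K]

/-- `Q^n · SInt` -/
def Bs (n : ℕ) : AddSubgroup K where
  carrier := {x | ∃ s : K, SInt s ∧ x = (Loc.Q K : K) ^ n * s}
  zero_mem' := ⟨0, SInt.zero, by simp⟩
  add_mem' := by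
    rintro _ _ ⟨s, hs, rfl⟩ ⟨t, ht, rfl⟩
    exact ⟨s + t, hs.add ht, by ring⟩
  neg_mem' := by
    rintro _ ⟨s, hs, rfl⟩
    exact ⟨-s, hs.neg, by ring⟩

/-- `RingSubgroupsBasis.of_comm`, `exists_pow_mul_sInt` -/
theorem bs_basis : RingSubgroupsBasis (Bs K) := by
  refine RingSubgroupsBasis.of_comm _ (fun i j => ⟨i + j, ?_⟩) (fun i => ⟨i, ?_⟩) (fun x i => ?_)
  · rintro _ ⟨s, hs, rfl⟩
    exact ⟨⟨(Loc.Q K : K) ^ j * s, (loc_Qp j).mul hs, by ring⟩,
      ⟨(Loc.Q K : K) ^ i * s, (loc_Qp i).mul hs, by ring⟩⟩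
  · rintro _ ⟨_, ⟨s, hs, rfl⟩, _, ⟨t, ht, rfl⟩, rfl⟩
    exact ⟨(Loc.Q K : K) ^ i * s * t, ((loc_Qp i).mul hs).mul ht, by ring⟩
  · obtain ⟨m, hm⟩ := exists_pow_mul_sInt x
    refine ⟨i + m, ?_⟩
    rintro _ ⟨s, hs, rfl⟩
    exact ⟨(Loc.Q K : K) ^ m * x * s, hm.mul hs, by ring⟩

/-- the `Q`-adic topology -/
scoped instance topK : TopologicalSpace K := (bs_basis K).topology

scoped instance topK_ring : IsTopologicalRing K := (bs_basis K).toRingFilterBasis.isTopologicalRing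

variable {K}

theorem mem_nhds_K {x : K} {s : Set K} : s ∈ 𝓝 x ↔ ∃ n, ∀ y, y - x ∈ Bs K n → y ∈ s := by
  have h := ((bs_basis K).hasBasis_nhds x).mem_iff (t := s)
  refine h.trans ⟨?_, ?_⟩
  · rintro ⟨n, -, hn⟩
    exact ⟨n, fun y hy => hn hy⟩
  · rintro ⟨n, hn⟩
    exact ⟨n, trivial, fun y hy => hn y hy⟩

theorem eventually_inU {x : K} (hx : x ≠ 0) (n : ℕ) : ∀ᶠ y in 𝓝 x, InU n (y / x) := by
  obtain ⟨m, hm⟩ := exists_pow_mul_sInt x⁻¹
  refine mem_nhds_K.2 ⟨n + m, ?_⟩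
  rintro y ⟨s, hs, e⟩
  refine ⟨(Loc.Q K : K) ^ m * x⁻¹ * s, hm.mul hs, ?_⟩
  have e' : y = x + (Loc.Q K : K) ^ (n + m) * s := by rw [← e]; ring
  rw [e']
  field_simp
  ring

theorem exists_inU_of_eventually {x y : K} {p : K × K → Prop} (h : ∀ᶠ q in 𝓝 (x, y), p q) :
    ∃ n : ℕ, 1 ≤ n ∧ ∀ u v : K, InU n u → InU n v → p (x * u, y * v) := by
  rw [nhds_prod_eq] at h
  obtain ⟨s, hs, t, ht, hst⟩ := Filter.mem_prod_iff.1 h
  obtain ⟨a, ha⟩ := mem_nhds_K.1 hs
  obtain ⟨b, hb⟩ := mem_nhds_K.1 ht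
  obtain ⟨c, hc⟩ := exists_pow_mul_sInt x
  obtain ⟨d, hd⟩ := exists_pow_mul_sInt y
  refine ⟨a + b + c + d + 1, by omega, ?_⟩
  rintro _ _ ⟨u, hu, rfl⟩ ⟨v, hv, rfl⟩
  refine hst (Set.mk_mem_prod (ha _ ?_) (hb _ ?_))
  · exact ⟨(Loc.Q K : K) ^ (b + d + 1) * ((Loc.Q K : K) ^ c * x) * u,
      ((loc_Qp _).mul hc).mul hu, by ring⟩
  · exact ⟨(Loc.Q K : K) ^ (a + c + 1) * ((Loc.Q K : K) ^ d * y) * v,
      ((loc_Qp _).mul hd).mul hv, by ring⟩

/-- `eventually_inU`, `InU.ne_zero` -/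
theorem t1_K : T1Space K := by
  refine IsTopologicalAddGroup.t1Space K ?_
  rw [← isOpen_compl_iff, isOpen_iff_mem_nhds]
  intro x hx
  have hx0 : x ≠ 0 := hx
  filter_upwards [eventually_inU hx0 1] with y hy
  intro h0
  have h0' : y = 0 := h0
  exact hy.ne_zero le_rfl (by rw [h0', zero_div])

scoped instance : T1Space K := t1_K

/-- `y⁻¹ = x⁻¹ (y/x)⁻¹`, `InU.inv` -/
theorem inv_K : ContinuousInv₀ K := by
  refine ⟨fun x hx => ?_⟩
  intro s hs
  obtain ⟨a, ha⟩ := mem_nhds_K.1 hs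
  obtain ⟨c, hc⟩ := exists_pow_mul_sInt x⁻¹
  rw [Filter.mem_map]
  filter_upwards [eventually_inU hx (a + c + 1)] with y hy
  obtain ⟨t, ht, e⟩ := hy.inv (by omega)
  refine ha _ ⟨(Loc.Q K : K) ^ 1 * ((Loc.Q K : K) ^ c * x⁻¹) * t, ((loc_Qp _).mul hc).mul ht, ?_⟩
  have e2 : y⁻¹ = x⁻¹ * (y / x)⁻¹ := by
    rw [inv_div]
    field_simp
  rw [e2, e]
  ring

scoped instance : ContinuousInv₀ K := inv_K

theorem btop_nat (L : K →ₗ[ℚ] K) (b : ℕ) (s : K) : L ((b : K) * s) = (b : K) * L s := by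
  rw [← nsmul_eq_mul, map_nsmul, nsmul_eq_mul]

theorem btop_bound (L : K →ₗ[ℚ] K) : ∃ m : ℕ, ∀ s : K, SInt s → SInt ((Loc.Q K : K) ^ m * L s) := by
  choose f hf using fun i => exists_pow_mul_sInt (L (NumberField.integralBasis K i))
  refine ⟨∑ i, f i, ?_⟩
  have key : ∀ y ∈ Submodule.span ℤ (Set.range (NumberField.integralBasis K)),
      SInt ((Loc.Q K : K) ^ (∑ i, f i) * L y) := by
    intro y hy
    induction hy using Submodule.span_induction with
    | mem y hy =>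
      obtain ⟨i, rfl⟩ := hy
      obtain ⟨c, hc⟩ := Nat.exists_eq_add_of_le
        (Finset.single_le_sum (f := f) (fun _ _ => Nat.zero_le _) (Finset.mem_univ i))
      rw [hc, pow_add, mul_right_comm]
      exact (hf i).mul (loc_Qp c)
    | zero => simpa using SInt.zero
    | add y z _ _ hy hz =>
      rw [map_add, mul_add]
      exact hy.add hz
    | smul a y _ hy =>
      rw [map_zsmul, zsmul_eq_mul, mul_left_comm]
      exact (loc_sint a).mul hy
  rintro s ⟨b, hb, hs⟩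
  obtain ⟨y, hy⟩ := loc_mk hs
  have h1 := key (y : K) (NumberField.mem_span_integralBasis K |>.2 ⟨y, rfl⟩)
  rw [hy, btop_nat] at h1
  have h2 := (SInt.inv_natCast hb).mul h1
  have hb0 := loc_ne (K := K) hb
  convert h2 using 1
  field_simp

/-- `Q^m L` maps an integral basis into `SInt`, hence `SInt` into `SInt` -/
theorem continuous_ratLinear (L : K →ₗ[ℚ] K) : Continuous L := by
  obtain ⟨m, hm⟩ := btop_bound L
  refine continuous_iff_continuousAt.2 fun x s hs => ?_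
  obtain ⟨a, ha⟩ := mem_nhds_K.1 hs
  refine Filter.mem_map.2 (mem_nhds_K.2 ⟨a + m, ?_⟩)
  rintro y ⟨t, ht, e⟩
  refine ha _ ⟨(Loc.Q K : K) ^ m * L t, hm t ht, ?_⟩
  rw [← map_sub, e, ← Nat.cast_pow, btop_nat, Nat.cast_pow]
  ring

end top

variable {K : Type} [Field K] [NumberField K] [Fld K] [Loc K]

/-- subspace topology -/
theorem top_F : IsTopologicalDivisionRing (FF K) := by
  have h1 : IsTopologicalRing (FF K) := Subring.instIsTopologicalRing (FF K).toSubfield.toSubring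
  have h2 : ContinuousInv₀ (FF K) := by
    refine ⟨fun x hx => ?_⟩
    rw [Topology.IsInducing.subtypeVal.continuousAt_iff]
    have hx' : (x : K) ≠ 0 := fun h => hx (Subtype.ext h)
    exact (continuousAt_inv₀ hx').comp (f := fun y : FF K => (y : K)) continuous_subtype_val.continuousAt
  exact { }

scoped instance : IsTopologicalDivisionRing (FF K) := top_F

theorem continuous_linear (L : K →ₗ[FF K] FF K) : Continuous L := by
  refine continuous_induced_rng.2 ?_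
  exact continuous_ratLinear (((FF K).val.toLinearMap.restrictScalars ℚ).comp (L.restrictScalars ℚ))

end Crest.Agent.R312.B1
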