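import Crest.Agent.R17.Basic1

/-!
# R312 / B2Fin : cubic Jacobi sums over an arbitrary finite field (owner helper3)

`ρ : ℤ[ω] → F`, `χ` the cubic character with `ρ (χ x) = x^{(q-1)/3}`, `J = J(χ,χ) ∈ ℤ[ω]`.
Every prime factor of `J` lies in the kernel of `ρ` (Lucas' theorem).
-/

set_option autoImplicit false

noncomputable section

open scoped Classical ComplexConjugate
open Finset

namespace Crest.Agent.R312.B2

open Crest.Agent.R17 (O om toC omC nm)

theorem lucas {l e : ℕ} (hl : l.Prime) (he : l = 3 * e + 1) :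
    ∀ f k : ℕ, l ^ f = 3 * k + 1 → ¬ l ∣ (2 * k).choose k := by
  intro f
  induction f with
  | zero =>
    intro k hk
    obtain rfl : k = 0 := by rw [pow_zero] at hk; omega
    simpa using hl.one_lt.ne'
  | succ f ih =>
    intro k hk
    have h1 : l ^ f % 3 = 1 := by
      rw [Nat.pow_mod, show l % 3 = 1 by omega]; simp
    obtain ⟨k', hk'⟩ : ∃ k', l ^ f = 3 * k' + 1 := ⟨l ^ f / 3, by omega⟩
    have h2 : k = e + l * k' := by
      rw [pow_succ, hk'] at hk
      have : (3 * k' + 1) * l = 3 * (l * k') + l := by ring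
      omega
    have := Fact.mk hl
    have h3 := Choose.choose_modEq_choose_mod_mul_choose_div_nat (n := 2 * k) (k := k) (p := l)
    have hl0 : 0 < l := hl.pos
    have a1 : 2 * k % l = 2 * e := by
      rw [show 2 * k = 2 * e + l * (2 * k') by rw [h2]; ring, Nat.add_mul_mod_self_left,
        Nat.mod_eq_of_lt (by omega)]
    have a2 : 2 * k / l = 2 * k' := by
      rw [show 2 * k = 2 * e + l * (2 * k') by rw [h2]; ring, Nat.add_mul_div_left _ _ hl0,
        Nat.div_eq_of_lt (by omega), zero_add]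
    have a3 : k % l = e := by
      rw [h2, Nat.add_mul_mod_self_left, Nat.mod_eq_of_lt (by omega)]
    have a4 : k / l = k' := by
      rw [h2, Nat.add_mul_div_left _ _ hl0, Nat.div_eq_of_lt (by omega), zero_add]
    rw [a1, a2, a3, a4] at h3
    intro hd
    have h4 := (h3.dvd_iff dvd_rfl).1 hd
    rcases (Nat.Prime.dvd_mul hl).1 h4 with h | h
    · have h5 : (2 * e).choose e ∣ (2 * e).factorial :=
        ⟨e.factorial * (2 * e - e).factorial, by
          rw [← mul_assoc, Nat.choose_mul_factorial_mul_factorial (by omega)]⟩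
      have := (hl.dvd_factorial).1 (h.trans h5)
      omega
    · exact ih k' hk' h

variable {F : Type} [Field F] [Fintype F]

theorem sum_pow_pos {i : ℕ} (hi : 0 < i) :
    ∑ x : F, x ^ i = if Fintype.card F - 1 ∣ i then -1 else 0 := by
  rw [← FiniteField.sum_pow_units F i]
  let φ : Fˣ ↪ F := ⟨fun x => x, Units.val_injective⟩
  have h : univ.map φ = univ \ {0} := by
    ext x
    simp only [mem_map, mem_univ, Function.Embedding.coeFn_mk, true_and, mem_sdiff,
      mem_singleton, φ]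
    exact isUnit_iff_ne_zero
  calc ∑ x : F, x ^ i = ∑ x ∈ univ \ {(0 : F)}, x ^ i := by
        rw [← sum_sdiff ({0} : Finset F).subset_univ, sum_singleton, zero_pow hi.ne', add_zero]
    _ = ∑ x : Fˣ, (x ^ i : F) := by rw [← h, univ.sum_map φ]; rfl

theorem sum_beta {k : ℕ} (hk : 0 < k) (hq : Fintype.card F = 3 * k + 1) :
    ∑ x : F, x ^ (2 * k) * (1 - x) ^ (2 * k) = -((-1) ^ k * ((2 * k).choose k : F)) := by
  have h1 : ∀ x : F, x ^ (2 * k) * (1 - x) ^ (2 * k) =
      ∑ j ∈ range (2 * k + 1), (-1) ^ j * ((2 * k).choose j : F) * x ^ (2 * k + j) := by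
    intro x
    rw [show (1 : F) - x = -x + 1 by ring, add_pow, mul_sum]
    refine sum_congr rfl fun j _ => ?_
    rw [neg_pow, pow_add]; ring
  simp only [h1]
  rw [sum_comm, sum_eq_single k]
  · rw [← mul_sum, sum_pow_pos (by omega), if_pos ⟨1, by omega⟩]; ring
  · intro j hj hjk
    rw [← mul_sum, sum_pow_pos (by omega), if_neg, mul_zero]
    rintro ⟨c, hc⟩
    have hj' := mem_range.1 hj
    rw [hq, Nat.add_sub_cancel] at hc
    rcases c with _ | _ | c
    · omega
    · omega
    · have : 3 * k * (c + 1 + 1) = 3 * k * c + 6 * k := by ring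
      omega
  · intro h
    exact absurd (mem_range.2 (by omega)) h

omit [Fintype F] in
theorem root_inj (ρ : O →+* F) (h3 : (3 : F) ≠ 0) {u v : O} (hu : u ^ 3 = 1) (hv : v ^ 3 = 1)
    (h : ρ u = ρ v) : u = v := by
  have h1 : (u - v) * (u ^ 2 + u * v + v ^ 2) = 0 := by linear_combination hu - hv
  rcases mul_eq_zero.1 h1 with h2 | h2
  · exact sub_eq_zero.1 h2
  · exfalso
    have h4 := congrArg ρ h2
    have h5 := congrArg ρ hv
    simp only [map_add, map_mul, map_pow, map_zero, map_one, h] at h4 h5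
    exact h3 (by linear_combination ρ v * h4 - 3 * h5)

theorem card_eq (ρ : O →+* F) (h3 : (3 : F) ≠ 0) :
    ∃ k, 0 < k ∧ Fintype.card F = 3 * k + 1 := by
  have h1 : ρ om ^ 3 = 1 := by rw [← map_pow, R17.om_cube, map_one]
  have h2 : ρ om ≠ 1 := fun h => by
    have := root_inj ρ h3 R17.om_cube (one_pow 3) (h.trans (map_one ρ).symm)
    exact absurd this (by decide)
  have h0 : ρ om ≠ 0 := fun h => by rw [h] at h1; simp at h1
  have : Fact (Nat.Prime 3) := ⟨by norm_num⟩
  have h4 : orderOf (ρ om) = 3 := orderOf_eq_prime h1 h2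
  have h5 := orderOf_dvd_of_pow_eq_one (FiniteField.pow_card_sub_one_eq_one _ h0)
  rw [h4] at h5
  have h6 : 1 < Fintype.card F := Fintype.one_lt_card
  obtain ⟨k, hk⟩ := h5
  exact ⟨k, by omega, by omega⟩

theorem exists_chi (ρ : O →+* F) (h3 : (3 : F) ≠ 0) :
    ∃ χ : MulChar F O, (∀ x, ρ (χ x) = x ^ ((Fintype.card F - 1) / 3)) ∧
      ∀ x, x ≠ 0 → χ x = 1 ∨ χ x = om ∨ χ x = om ^ 2 := by
  obtain ⟨k, hk, hq⟩ := card_eq ρ h3
  have hk' : (Fintype.card F - 1) / 3 = k := by omega
  rw [hk']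
  have key : ∀ x : F, ∃ u : O, ρ u = x ^ k ∧ (x = 0 → u = 0) ∧
      (x ≠ 0 → u = 1 ∨ u = om ∨ u = om ^ 2) := by
    intro x
    by_cases hx : x = 0
    · exact ⟨0, by simp [hx, hk.ne'], fun _ => rfl, fun h => absurd hx h⟩
    · have h1 : (x ^ k) ^ 3 = 1 := by
        rw [← pow_mul, show k * 3 = Fintype.card F - 1 by omega]
        exact FiniteField.pow_card_sub_one_eq_one x hx
      have h2 : ρ om ^ 2 + ρ om + 1 = 0 := by
        simpa using congrArg ρ R17.om_sq_add
      have h4 : (x ^ k - 1) * ((x ^ k - ρ om) * (x ^ k - ρ om ^ 2)) = 0 := by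
        linear_combination h1 + (-(x ^ k) ^ 2 + x ^ k + (x ^ k - 1) * (ρ om - 1) + x ^ k * 0) * h2
      rcases mul_eq_zero.1 h4 with h | h
      · exact ⟨1, by rw [map_one]; exact (sub_eq_zero.1 h).symm, fun h => absurd h hx,
          fun _ => Or.inl rfl⟩
      · rcases mul_eq_zero.1 h with h | h
        · exact ⟨om, (sub_eq_zero.1 h).symm, fun h => absurd h hx, fun _ => Or.inr (Or.inl rfl)⟩
        · exact ⟨om ^ 2, by rw [map_pow]; exact (sub_eq_zero.1 h).symm, fun h => absurd h hx,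
            fun _ => Or.inr (Or.inr rfl)⟩
  choose c hc1 hc2 hc3 using key
  have hc4 : ∀ x, x ≠ 0 → c x ^ 3 = 1 := fun x hx => by
    rcases hc3 x hx with h | h | h <;> rw [h] <;> decide
  refine ⟨⟨⟨⟨c, ?_⟩, fun x y => ?_⟩, fun a ha => hc2 a (by simpa using ha)⟩, hc1, hc3⟩
  · exact root_inj ρ h3 (hc4 1 one_ne_zero) (one_pow 3) (by rw [hc1, one_pow, map_one])
  · show c (x * y) = c x * c y
    by_cases hx : x = 0
    · rw [hc2 x hx, hc2 _ (by simp [hx]), zero_mul]
    by_cases hy : y = 0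
    · rw [hc2 y hy, hc2 _ (by simp [hy]), mul_zero]
    exact root_inj ρ h3 (hc4 _ (mul_ne_zero hx hy)) (by rw [mul_pow, hc4 x hx, hc4 y hy, mul_one])
      (by rw [map_mul, hc1, hc1, hc1, mul_pow])

theorem fin_main (ρ : O →+* F) (h3 : (3 : F) ≠ 0) (χ : MulChar F O)
    (h1 : ∀ x, ρ (χ x) = x ^ ((Fintype.card F - 1) / 3))
    (h2 : ∀ x, x ≠ 0 → χ x = 1 ∨ χ x = om ∨ χ x = om ^ 2) {ψ : AddChar F ℂ} (hψ : ψ.IsPrimitive) :
    ∃ J : O, gaussSum (χ.ringHomComp toC) ψ ^ 3 = Fintype.card F * toC J ∧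
      nm J = Fintype.card F ∧ R17.Prim (-J) ∧ ∀ π : O, Prime π → π ∣ J → ρ π = 0 := by
  obtain ⟨k, hk, hq⟩ := card_eq ρ h3
  have hk' : (Fintype.card F - 1) / 3 = k := by omega
  rw [hk'] at h1
  have hc : ∀ x, x ≠ 0 → χ x ^ 3 = 1 := fun x hx => by
    rcases h2 x hx with h | h | h <;> rw [h] <;> decide
  have hstar : ∀ x, star (χ x) = χ x ^ 2 := fun x => by
    by_cases hx : x = 0
    · rw [hx, χ.map_zero]; simp
    · rcases h2 x hx with h | h | h <;> rw [h] <;> decide
  have hχ3 : χ ^ 3 = 1 := by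
    ext x
    rw [MulChar.pow_apply_coe, hc _ x.ne_zero, MulChar.one_apply_coe]
    rw [MulChar.pow_apply_coe, hc _ x.ne_zero, MulChar.one_apply_coe]
  have hχ1 : χ ≠ 1 := by
    intro h
    have : Fintype.card F - 1 ∣ k := (FiniteField.forall_pow_eq_one_iff F k).1 fun x => by
      apply Units.val_injective
      have := h1 x
      rw [h, MulChar.one_apply_coe, map_one] at this
      simpa using this.symm
    have := Nat.le_of_dvd hk this
    omega
  set χc := χ.ringHomComp toC with hχc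
  have hc3 : χc ^ 3 = 1 := by rw [hχc, MulChar.ringHomComp_pow, hχ3, MulChar.ringHomComp_one]
  have hc1 : χc ≠ 1 := (MulChar.ringHomComp_ne_one_iff R17.toC_injective).2 hχ1
  have : Fact (Nat.Prime 3) := ⟨by norm_num⟩
  have hord : orderOf χc = 3 := orderOf_eq_prime hc3 hc1
  have hJ : jacobiSum χc χc = toC (jacobiSum χ χ) := jacobiSum_ringHomComp χ χ toC
  have hJs : star (jacobiSum χ χ) = ∑ x : F, χ x ^ 2 * χ (1 - x) ^ 2 := by
    rw [jacobiSum, star_sum]
    exact sum_congr rfl fun x _ => by rw [star_mul', hstar, hstar]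
  have hinv : χc⁻¹ = (χ ^ 2).ringHomComp toC := by
    rw [← MulChar.ringHomComp_pow]
    exact inv_eq_of_mul_eq_one_right (by rw [← pow_succ', hc3])
  have hJ2 : jacobiSum χc⁻¹ χc⁻¹ = toC (star (jacobiSum χ χ)) := by
    rw [hinv, jacobiSum_ringHomComp, hJs, jacobiSum]
    congr 1
    exact sum_congr rfl fun x _ => by
      rw [MulChar.pow_apply' χ two_ne_zero, MulChar.pow_apply' χ two_ne_zero]
  obtain ⟨f, hl, hf⟩ := FiniteField.card F (ringChar F)
  have hnm : nm (jacobiSum χ χ) = Fintype.card F := by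
    have h4 := jacobiSum_mul_jacobiSum_inv (F := F) (F' := ℂ)
      (by rw [ringChar.eq_zero]; exact hl.ne_zero.symm) hc1 hc1 (fun h => hc1 (by
        rw [← hc3, pow_succ, sq, h, one_mul]))
    rw [hJ, hJ2, ← map_mul, R17.mul_star_self, map_natCast] at h4
    exact_mod_cast h4
  refine ⟨jacobiSum χ χ, ?_, hnm, ?_, fun π hπ hd => ?_⟩
  · have h4 := gaussSum_pow_eq_prod_jacobiSum (χ := χc) (by omega) hψ
    have h5 : χ (-1) = 1 := by
      have a1 : χ (-1) ^ 2 = 1 := by rw [← map_pow]; simp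
      have a2 := hc (-1) (by simp)
      rw [pow_succ, a1, one_mul] at a2
      exact a2
    rw [hord] at h4
    rw [h4, hχc, MulChar.ringHomComp_apply, h5, map_one, one_mul]
    simp [← hJ, hχc]
  · have hμ : IsPrimitiveRoot om 3 := by
      have := IsPrimitiveRoot.orderOf om
      rwa [orderOf_eq_prime R17.om_cube (by decide)] at this
    obtain ⟨z, -, hz⟩ := exists_jacobiSum_eq_neg_one_add (by norm_num) hχ3 hχ3 ⟨k, by omega⟩ hμ
    refine ⟨z * om, ?_⟩
    rw [hz]
    linear_combination (-z) * R17.om_sq_add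
  · by_contra hρ
    set l := ringChar F with hldef
    have hl0 : ρ (l : O) = 0 := by rw [map_natCast]; exact ringChar.Nat.cast_ringChar
    have a1 : π ∣ (l : O) := by
      have : π ∣ (l : O) ^ (f : ℕ) := by
        rw [← Nat.cast_pow, ← hf, ← hnm, ← R17.mul_star_self]
        exact hd.mul_right _
      exact hπ.dvd_of_dvd_pow this
    obtain ⟨c, hc'⟩ := a1
    have a2 : ρ c = 0 := by
      rw [hc', map_mul] at hl0
      exact (mul_eq_zero.1 hl0).resolve_left hρ
    have a3 : nm c ≠ 1 := fun h => by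
      have := (R17.isUnit_iff_nm.2 h).map ρ
      rw [a2] at this
      exact not_isUnit_zero this
    have a4 : nm π ≠ 1 := fun h => hπ.not_isUnit (R17.isUnit_iff_nm.2 h)
    have a5 : nm π * nm c = l ^ 2 := by rw [← R17.nm_mul, ← hc', R17.nm_natCast]
    have a6 : nm π = l := ((hl.mul_eq_prime_sq_iff a4 a3).1 a5).1
    have a7 : star π = c := mul_left_cancel₀ hπ.ne_zero (by rw [R17.mul_star_self, a6, hc'])
    obtain ⟨t, ht⟩ := hd
    have a8 : ρ (star (jacobiSum χ χ)) = 0 := by
      rw [ht, star_mul', map_mul, a7, a2, zero_mul]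
    have a9 : l % 3 = 1 := by
      rw [← a6]
      refine R17.b1_nm_mod_three fun h => ?_
      have b1 := R17.b1_lam_dvd_iff_nm.1 h
      rw [a6] at b1
      have b2 : l = 3 := ((Nat.prime_dvd_prime_iff_eq (by norm_num) hl).1 b1).symm
      rw [map_natCast, b2] at hl0
      exact h3 (by exact_mod_cast hl0)
    rw [hJs, map_sum] at a8
    simp only [map_mul, map_pow, h1, ← pow_mul, mul_comm k 2] at a8
    rw [sum_beta hk hq, neg_eq_zero, mul_eq_zero] at a8
    rcases a8 with h | h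
    · exact pow_ne_zero k (neg_ne_zero.2 one_ne_zero) h
    · exact lucas (e := l / 3) hl (by omega) f k (by rw [← hf, hq]) ((ringChar.spec F _).1 h)

end Crest.Agent.R312.B2
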