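import Crest.Agent.R312.B2Nrm

/-!
# R312 / B2Loc : the few facts on `R K`, `ee`, `res` needed for B2 (owner helper3)
-/

set_option autoImplicit false
set_option linter.unusedSectionVars false

noncomputable section

open scoped Classical ComplexConjugate NumberField
open Finset

namespace Crest.Agent.R312.B2

open Crest.Agent.R17 (O om toC omC)

variable {K : Type} [Field K] [NumberField K] [Fld K] [Loc K]

theorem Q_ne : ((Loc.Q K : ℕ) : K) ≠ 0 := Nat.cast_ne_zero.2 Loc.Q_ne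

theorem mem_R {x : K} (hx : IsIntegral ℤ x) : x ∈ RR K (Loc.Q K) := ⟨0, by simpa using hx⟩

theorem Q_unit : IsUnit ((Loc.Q K : ℕ) : R K) := by
  refine IsUnit.of_mul_eq_one ⟨((Loc.Q K : ℕ) : K)⁻¹, 1, ?_⟩ (Subtype.ext ?_)
  · rw [pow_one, mul_inv_cancel₀ Q_ne]; exact isIntegral_one
  · simpa using mul_inv_cancel₀ (Q_ne (K := K))

variable (K) in
/-- `𝓞 → R` -/
def toR : 𝓞 K →+* R K :=
  (algebraMap (𝓞 K) K).codRestrict (RR K (Loc.Q K)) fun x => mem_R x.isIntegral_coe

theorem coe_toR (y : 𝓞 K) : ((toR K y : R K) : K) = (y : K) := rfl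

theorem toR_inj : Function.Injective (toR K) := fun a b h =>
  NumberField.RingOfIntegers.ext (by rw [← coe_toR, h, coe_toR])

variable (K) in
/-- `ℤ[ω] → R` -/
def iR : O →+* R K := (iK K).codRestrict (RR K (Loc.Q K)) fun x => mem_R (iK_int x)

theorem coe_iR (z : O) : ((iR K z : R K) : K) = iK K z := rfl

theorem exists_toR (x : R K) : ∃ (k : ℕ) (y : 𝓞 K), toR K y = (Loc.Q K : R K) ^ k * x := by
  obtain ⟨k, hk⟩ := x.2
  exact ⟨k, ⟨_, hk⟩, Subtype.ext (by simp [coe_toR])⟩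

theorem card_quot {y : 𝓞 K} (hy : y ≠ 0) : Finite (R K ⧸ Ideal.span {toR K y}) ∧
    ∃ m, Ideal.absNorm (Ideal.span {y}) = nm (toR K y) * m ∧
      ∀ l : ℕ, l.Prime → l ∣ m → l ∣ Loc.Q K := by
  have hfin : Finite (𝓞 K ⧸ Ideal.span {y}) :=
    Ideal.finiteQuotientOfFreeOfNeBot _ (by simpa using hy)
  let f : 𝓞 K ⧸ Ideal.span {y} →+* R K ⧸ Ideal.span {toR K y} :=
    Ideal.quotientMap _ (toR K) (by
      rw [Ideal.span_le, Set.singleton_subset_iff]
      exact Ideal.mem_span_singleton_self _)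
  have hf : ∀ z, f (Ideal.Quotient.mk _ z) = Ideal.Quotient.mk _ (toR K z) := fun z =>
    Ideal.quotientMap_mk
  have hQ : IsUnit ((Loc.Q K : ℕ) : R K ⧸ Ideal.span {toR K y}) := by
    simpa using (Q_unit (K := K)).map (Ideal.Quotient.mk (Ideal.span {toR K y}))
  have hn : ∃ n, ((Loc.Q K : ℕ) : R K ⧸ Ideal.span {toR K y}) ^ (n + 1) = 1 := by
    have key : ∀ i j : ℕ, i < j → ((Loc.Q K : ℕ) : 𝓞 K ⧸ Ideal.span {y}) ^ i = (Loc.Q K : ℕ) ^ j →
        ∃ n, ((Loc.Q K : ℕ) : R K ⧸ Ideal.span {toR K y}) ^ (n + 1) = 1 := by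
      intro i j hij h
      obtain ⟨n, rfl⟩ := Nat.exists_eq_add_of_lt hij
      have h1 := congrArg f h
      rw [map_pow, map_pow, map_natCast, add_assoc, pow_add] at h1
      exact ⟨n, ((hQ.pow i).mul_left_cancel (by rw [mul_one]; exact h1)).symm⟩
    obtain ⟨i, j, hij, h⟩ := Finite.exists_ne_map_eq_of_infinite
      fun i : ℕ => ((Loc.Q K : ℕ) : 𝓞 K ⧸ Ideal.span {y}) ^ i
    rcases lt_or_gt_of_ne hij with h1 | h1
    · exact key i j h1 h
    · exact key j i h1 h.symm
  have hsurj : Function.Surjective f := by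
    intro c
    obtain ⟨x, rfl⟩ := Ideal.Quotient.mk_surjective c
    obtain ⟨n, hn⟩ := hn
    obtain ⟨k, z, hz⟩ := exists_toR x
    refine ⟨((Loc.Q K : ℕ) : 𝓞 K ⧸ Ideal.span {y}) ^ (n * k) * Ideal.Quotient.mk _ z, ?_⟩
    rw [map_mul, hf, hz, map_pow, map_natCast, map_mul, map_pow, map_natCast, ← mul_assoc, ← pow_add,
      show n * k + k = (n + 1) * k by ring, pow_mul, hn, one_pow, one_mul]
  refine ⟨Finite.of_surjective f hsurj, Nat.card f.toAddMonoidHom.ker, ?_, fun l hl hd => ?_⟩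
  · rw [Ideal.absNorm_apply, Submodule.cardQuot_apply,
      AddSubgroup.card_eq_card_quotient_mul_card_addSubgroup f.toAddMonoidHom.ker,
      Nat.card_congr (QuotientAddGroup.quotientKerEquivOfSurjective f.toAddMonoidHom hsurj).toEquiv]
    rfl
  · have := Fact.mk hl
    obtain ⟨g, hg⟩ := exists_prime_addOrderOf_dvd_card' l hd
    obtain ⟨z, hz⟩ := Ideal.Quotient.mk_surjective g.1
    have h1 : f g.1 = 0 := g.2
    rw [← hz, hf, Ideal.Quotient.eq_zero_iff_mem, Ideal.mem_span_singleton] at h1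
    obtain ⟨r, hr⟩ := h1
    obtain ⟨k, w, hw⟩ := exists_toR r
    have h2 : ((Loc.Q K : ℕ) : 𝓞 K) ^ k * z = y * w := toR_inj (by
      rw [map_mul, map_mul, map_pow, map_natCast, hr, hw]; ring)
    have h3 : (Loc.Q K ^ k) • g = 0 := by
      apply Subtype.ext
      rw [AddSubgroup.coe_nsmul, ← hz, ← map_nsmul, nsmul_eq_mul, Nat.cast_pow, h2]
      exact Ideal.Quotient.eq_zero_iff_mem.2 (Ideal.mem_span_singleton.2 (dvd_mul_right _ _))
    exact hl.dvd_of_dvd_pow (hg ▸ addOrderOf_dvd_of_nsmul_eq_zero h3)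

theorem nm_assoc {a b : R K} (h : Associated a b) : nm a = nm b := by
  unfold nm
  rw [Ideal.span_singleton_eq_span_singleton.2 h]

theorem exists_gen {x : R K} (hx : x ≠ 0) : ∃ (k : ℕ) (y : 𝓞 K), y ≠ 0 ∧
    toR K y = (Loc.Q K : R K) ^ k * x ∧ Associated x (toR K y) := by
  obtain ⟨k, y, hy⟩ := exists_toR x
  have h : Associated x (toR K y) := by
    rw [hy]
    exact (associated_unit_mul_left x _ (Q_unit.pow k)).symm
  refine ⟨k, y, fun h0 => hx ?_, hy, h⟩
  rw [h0, map_zero] at h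
  exact h.eq_zero_iff.2 rfl

theorem finite_quot {x : R K} (hx : x ≠ 0) : Finite (R K ⧸ Ideal.span {x}) := by
  obtain ⟨k, y, hy, -, h⟩ := exists_gen hx
  rw [Ideal.span_singleton_eq_span_singleton.2 h]
  exact (card_quot hy).1

theorem sum_res {q : R K} [Fintype (R K ⧸ Ideal.span {q})] (f : R K → ℂ) :
    ∑ x ∈ res q, f x = ∑ c : R K ⧸ Ideal.span {q}, f (Quotient.out c) := by
  have h : res q = univ.image fun c : R K ⧸ Ideal.span {q} => Quotient.out c := by
    rw [res, dif_pos (Set.finite_range _)]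
    ext x
    simp
  rw [h]
  exact sum_image fun a _ b _ hab => Quotient.out_injective hab

/-! ### the additive character -/

theorem sint_add {x y : K} (hx : SInt x) (hy : SInt y) : SInt (x + y) := by
  obtain ⟨a, ha, hx⟩ := hx
  obtain ⟨b, hb, hy⟩ := hy
  refine ⟨a * b, ha.mul_left hb, ?_⟩
  have := ((natCast_int b).mul hx).add ((natCast_int a).mul hy)
  rwa [show (b : K) * (a * x) + a * (b * y) = ((a * b : ℕ) : K) * (x + y) by push_cast; ring] at this

theorem sint_mul {x y : K} (hy : IsIntegral ℤ y) (hx : SInt x) : SInt (y * x) := by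
  obtain ⟨a, ha, hx⟩ := hx
  exact ⟨a, ha, by rw [mul_left_comm]; exact hy.mul hx⟩

theorem int_of_sint {x : R K} (hx : SInt (x : K)) : IsIntegral ℤ (x : K) := by
  obtain ⟨b, hb, h1⟩ := hx
  obtain ⟨k, h2⟩ := x.2
  obtain ⟨u, v, huv⟩ : IsCoprime (b : ℤ) ((Loc.Q K ^ k : ℕ) : ℤ) :=
    Nat.isCoprime_iff_coprime.2 (hb.pow_right k)
  have h3 : (u : K) * b + v * (Loc.Q K : K) ^ k = 1 := by exact_mod_cast congrArg (Int.cast (R := K)) huv
  have := ((intCast_int u).mul h1).add ((intCast_int v).mul h2)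
  rwa [show (u : K) * (b * x) + v * ((Loc.Q K : K) ^ k * x) = x by linear_combination (x : K) * h3]
    at this

theorem nat_split (Q : ℕ) : ∀ m : ℕ, 0 < m → ∃ a b k, m = a * b ∧ a ∣ Q ^ k ∧ b.Coprime Q := by
  intro m
  induction m using Nat.strong_induction_on with
  | _ m ih =>
    intro hm
    by_cases h : m.Coprime Q
    · exact ⟨1, m, 0, by simp, by simp, h⟩
    · obtain ⟨m', hm'⟩ := Nat.gcd_dvd_left m Q
      have h1 : 0 < m.gcd Q := Nat.gcd_pos_of_pos_left Q hm
      have h2 : 1 < m.gcd Q := lt_of_le_of_ne h1 fun e => h e.symm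
      have h3 : 0 < m' := Nat.pos_of_ne_zero fun e => by rw [e, mul_zero] at hm'; omega
      obtain ⟨a, b, k, e, ha, hb⟩ := ih m' (by nlinarith) h3
      exact ⟨m.gcd Q * a, b, k + 1, by rw [mul_assoc, ← e, ← hm'],
        by rw [pow_succ']; exact mul_dvd_mul (Nat.gcd_dvd_right m Q) ha, hb⟩

theorem exists_dec (x : K) : ∃ r : R K, SInt (x - r) := by
  have halg : IsAlgebraic ℤ x :=
    (IsFractionRing.isAlgebraic_iff ℤ ℚ K).2 (Algebra.IsAlgebraic.isAlgebraic x)
  obtain ⟨m, hm, h⟩ := halg.exists_integral_multiple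
  have h1 : IsIntegral ℤ ((m.natAbs : K) * x) := by
    rw [zsmul_eq_mul] at h
    rcases Int.natAbs_eq m with e | e
    · rwa [e, Int.cast_natCast] at h
    · rw [e, Int.cast_neg, Int.cast_natCast, neg_mul] at h
      simpa using h.neg
  obtain ⟨a, b, k, e, ⟨c, hc⟩, hb⟩ := nat_split (Loc.Q K) m.natAbs (Int.natAbs_pos.2 hm)
  obtain ⟨u, v, huv⟩ : IsCoprime (a : ℤ) (b : ℤ) :=
    Nat.isCoprime_iff_coprime.2 ((hb.pow_right k).coprime_dvd_right ⟨c, hc⟩).symm
  have h3 : (u : K) * a + v * b = 1 := by exact_mod_cast congrArg (Int.cast (R := K)) huv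
  have h4 : (Loc.Q K : K) ^ k = a * c := by exact_mod_cast congrArg (Nat.cast (R := K)) hc
  rw [e, Nat.cast_mul] at h1
  refine ⟨⟨v * b * x, k, ?_⟩, b, hb, ?_⟩
  · have := ((intCast_int v).mul (natCast_int c)).mul h1
    rwa [show (v : K) * c * (a * b * x) = (Loc.Q K : K) ^ k * (v * b * x) by rw [h4]; ring] at this
  · have := (intCast_int u).mul h1
    rwa [show (u : K) * (a * b * x) = b * (x - v * b * x) by linear_combination (b * x) * h3] at this

theorem eT_add (x y : K) : eT (x + y) = eT x * eT y := by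
  unfold eT
  rw [← Complex.exp_add, add_div, map_add]
  push_cast
  rw [mul_add]

theorem eT_int {x : K} (hx : IsIntegral ℤ x) : eT x = 1 := by
  obtain ⟨n, hn⟩ := (Fld.dual x).2 hx 1
  have h : x * ((1 : 𝓞 K) : K) = x := by simp
  rw [h] at hn
  unfold eT
  rw [hn, mul_comm]
  exact_mod_cast Complex.exp_int_mul_two_pi_mul_I n

theorem ee_eq {x : K} {r : R K} (h : SInt (x - r)) : ee x = eT (x - r) := by
  have hx : ∃ r : R K, SInt (x - (r : K)) := ⟨r, h⟩
  have h1 : SInt (((r - hx.choose : R K)) : K) := by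
    have := sint_add hx.choose_spec (sint_mul isIntegral_one.neg h)
    rwa [show x - (hx.choose : K) + -1 * (x - r) = ((r - hx.choose : R K) : K) by push_cast; ring]
      at this
  rw [ee, dif_pos hx, show x - (hx.choose : K) = x - r + ((r - hx.choose : R K) : K) by
    push_cast; ring, eT_add, eT_int (int_of_sint h1), mul_one]

theorem ee_add (x y : K) : ee (x + y) = ee x * ee y := by
  obtain ⟨r, hr⟩ := exists_dec x
  obtain ⟨s, hs⟩ := exists_dec y
  have e : x + y - ((r + s : R K) : K) = x - r + (y - s) := by push_cast; ring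
  rw [ee_eq hr, ee_eq hs, ee_eq (r := r + s) (e ▸ sint_add hr hs), e, eT_add]

theorem ee_R (r : R K) : ee (r : K) = 1 := by
  rw [ee_eq (r := r) ⟨1, Nat.coprime_one_left _, by simpa using isIntegral_zero⟩, sub_self]
  exact eT_int isIntegral_zero

theorem ad_add (q x y : R K) : ad q (x + y) = ad q x * ad q y := by
  unfold ad
  rw [← ee_add, Subring.coe_add, add_div]

theorem ad_congr {q x y : R K} (hq : q ≠ 0) (h : q ∣ x - y) : ad q x = ad q y := by
  obtain ⟨t, ht⟩ := h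
  have hq' : (q : K) ≠ 0 := fun e => hq (Subtype.ext e)
  have : ad q (q * t) = 1 := by
    rw [ad, Subring.coe_mul, mul_div_cancel_left₀ _ hq', ee_R]
  rw [show x = y + q * t by linear_combination ht, ad_add, this, mul_one]

theorem unit_of_ad {q : R K} (hq : q ≠ 0) (h : ∀ x, ad q x = 1) : IsUnit q := by
  have hq' : (q : K) ≠ 0 := fun e => hq (Subtype.ext e)
  obtain ⟨r, hr⟩ := exists_dec (1 / (q : K))
  have h1 : IsIntegral ℤ (1 / (q : K) - r) := by
    refine (Fld.dual _).1 fun y => ?_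
    have h2 := h (toR K y)
    have e : (y : K) / q - ((toR K y * r : R K) : K) = y * (1 / (q : K) - r) := by
      rw [Subring.coe_mul, coe_toR]; ring
    rw [ad, coe_toR, ee_eq (r := toR K y * r) (e ▸ sint_mul y.isIntegral_coe hr), e, eT,
      Complex.exp_eq_one_iff] at h2
    obtain ⟨n, hn⟩ := h2
    refine ⟨n, ?_⟩
    rw [mul_comm (n : ℂ)] at hn
    have h3 := mul_left_cancel₀ Complex.two_pi_I_ne_zero hn
    rw [mul_comm _ (y : K)]
    exact_mod_cast h3
  refine IsUnit.of_mul_eq_one (⟨_, mem_R h1⟩ + r) (Subtype.ext ?_)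
  simp [hq']

end Crest.Agent.R312.B2
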