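import Crest.Agent.R312.BDefs
import Crest.Agent.R312.B2Fin
import Crest.Agent.R312.B2Loc

/-!
# R312 / B2Ang : the cube of the cubic Gauss sum (head module, part B2)
-/

set_option autoImplicit false

noncomputable section

open scoped Classical ComplexConjugate NumberField
open MeasureTheory

namespace Crest.Agent.R312

variable {K : Type} [Field K] [NumberField K] [Fld K] [Loc K]

namespace B2

open Crest.Agent.R17 (O om toC omC)
open Finset

theorem cub_prime {p : R K} (hp : Prime p) (d : R K) : cub p d = symP 3 p d := by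
  obtain ⟨b, hb, h⟩ := UniqueFactorizationMonoid.factors_eq_singleton_of_irreducible hp.irreducible
  unfold cub sym
  rw [h, Multiset.map_singleton, Multiset.prod_singleton]
  unfold symP
  simp only [nm_assoc hb, hb.dvd_iff_dvd_left]

theorem iR_om : iR K om = omR K := Subtype.ext (by simp [coe_iR, iK_apply, om, omR])

theorem iR_inj : Function.Injective (iR K) := fun a b h => by
  obtain ⟨v⟩ := pl_nonempty (K := K)
  refine R17.toC_injective ?_
  rw [← emb_iK v, ← emb_iK v, ← coe_iR, h, coe_iR]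

theorem units6_eq {u : R K} (hu : u ∈ units6 K) : ∃ z : O, iR K z = u := by
  simp only [units6, mem_insert, mem_singleton] at hu
  rcases hu with rfl | rfl | rfl | rfl | rfl | rfl
  · exact ⟨1, map_one _⟩
  · exact ⟨-1, by simp⟩
  · exact ⟨om, iR_om⟩
  · exact ⟨-om, by rw [map_neg, iR_om]⟩
  · exact ⟨om ^ 2, by rw [map_pow, iR_om]⟩
  · exact ⟨-om ^ 2, by rw [map_neg, map_pow, iR_om]⟩

theorem prime_main {p : R K} (hp : Prime p) : ∃ J : O,
    -(g3 p) ^ 3 = toC (-J) / (‖toC (-J)‖ : ℂ) ∧ R17.Prim (-J) ∧ R17.nm J = nm p ∧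
      (∀ π : O, Prime π → π ∣ J → p ∣ iR K π) ∧ 1 < nm p ∧
      ∃ l f : ℕ, l.Prime ∧ nm p = l ^ f ∧ ¬ l ∣ Loc.Q K := by
  have hmax : (Ideal.span {p}).IsMaximal :=
    PrincipalIdealRing.isMaximal_of_irreducible hp.irreducible
  let _ := Ideal.Quotient.field (Ideal.span {p})
  have hfin := finite_quot hp.ne_zero
  let _ := Fintype.ofFinite (R K ⧸ Ideal.span {p})
  have hcard : Fintype.card (R K ⧸ Ideal.span {p}) = nm p := Nat.card_eq_fintype_card.symm
  have hz : ∀ x : R K, Ideal.Quotient.mk (Ideal.span {p}) x = 0 ↔ p ∣ x := fun x => by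
    rw [Ideal.Quotient.eq_zero_iff_mem, Ideal.mem_span_singleton]
  have hQ : ∀ l : ℕ, l ∣ Loc.Q K → (l : R K ⧸ Ideal.span {p}) ≠ 0 := fun l hl h => by
    have h1 : p ∣ (l : R K) := (hz _).1 (by rw [map_natCast]; exact h)
    exact hp.not_isUnit (isUnit_of_dvd_unit (h1.trans (Nat.cast_dvd_cast hl)) Q_unit)
  have h3 : (3 : R K ⧸ Ideal.span {p}) ≠ 0 := by
    exact_mod_cast hQ 3 (Nat.dvd_trans (by norm_num) Loc.six_dvd)
  let ρ : O →+* R K ⧸ Ideal.span {p} := (Ideal.Quotient.mk _).comp (iR K)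
  obtain ⟨χ, h1, h2⟩ := exists_chi ρ h3
  have hcub : ∀ d : R K, cub p d = toC (χ (Ideal.Quotient.mk _ d)) := by
    intro d
    have hiff : ∀ z : O, (iR K z ^ 3 = 1 ∧ p ∣ d ^ ((nm p - 1) / 3) - iR K z) ↔
        (z ^ 3 = 1 ∧ ρ z = ρ (χ (Ideal.Quotient.mk _ d))) := fun z => by
      rw [← hz, map_sub, map_pow, h1, hcard, sub_eq_zero, ← map_pow, ← map_one (iR K),
        iR_inj.eq_iff]
      exact and_congr_right fun _ => eq_comm
    rw [cub_prime hp, symP]
    by_cases hd : Ideal.Quotient.mk (Ideal.span {p}) d = 0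
    · rw [hd, χ.map_zero, map_zero]
      refine sum_eq_zero fun u hu => if_neg fun h => ?_
      obtain ⟨z, rfl⟩ := units6_eq hu
      obtain ⟨a1, a2⟩ := (hiff z).1 h
      have a3 := congrArg ρ a1
      rw [map_pow, a2, hd, χ.map_zero, map_zero, map_one] at a3
      simp at a3
    · have hc : χ (Ideal.Quotient.mk _ d) ^ 3 = 1 := by
        rcases h2 _ hd with h | h | h <;> rw [h] <;> decide
      rw [sum_eq_single_of_mem (iR K (χ (Ideal.Quotient.mk _ d))), if_pos ((hiff _).2 ⟨hc, rfl⟩),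
        coe_iR, toC0_iK]
      · rcases h2 _ hd with h | h | h <;> rw [h] <;> simp [units6, iR_om]
      · intro u hu hne
        obtain ⟨z, rfl⟩ := units6_eq hu
        refine if_neg fun h => hne ?_
        obtain ⟨a1, a2⟩ := (hiff z).1 h
        rw [root_inj ρ h3 a1 hc a2]
  have hout : ∀ x : R K, ad p (Quotient.out (Ideal.Quotient.mk (Ideal.span {p}) x)) = ad p x :=
    fun x => ad_congr hp.ne_zero ((hz _).1 (by rw [map_sub, Ideal.Quotient.mk_out, sub_self]))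
  let ψ : AddChar (R K ⧸ Ideal.span {p}) ℂ :=
    { toFun := fun c => ad p (Quotient.out c)
      map_zero_eq_one' := by
        rw [← map_zero (Ideal.Quotient.mk (Ideal.span {p})), hout, ad]
        simpa using ee_R (0 : R K)
      map_add_eq_mul' := fun a b => by
        rw [← ad_add, ← hout (_ + _), map_add, Ideal.Quotient.mk_out, Ideal.Quotient.mk_out] }
  have hψ : ψ.IsPrimitive := AddChar.IsPrimitive.of_ne_one fun h =>
    hp.not_isUnit (unit_of_ad hp.ne_zero fun x => by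
      rw [← hout]; exact DFunLike.congr_fun h (Ideal.Quotient.mk _ x))
  obtain ⟨J, hJ1, hJ2, hJ3, hJ4⟩ := fin_main ρ h3 χ h1 h2 hψ
  have hgs : gs p (cub p) 1 = gaussSum (χ.ringHomComp toC) ψ := by
    rw [gs, sum_res, gaussSum]
    refine sum_congr rfl fun c _ => ?_
    rw [hcub, Ideal.Quotient.mk_out, one_mul]
    rfl
  have hlt : 1 < nm p := hcard ▸ Fintype.one_lt_card
  obtain ⟨f, hl, hf⟩ := FiniteField.card (R K ⧸ Ideal.span {p}) (ringChar _)
  rw [hcard] at hJ1 hJ2 hf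
  refine ⟨J, ?_, hJ3, hJ2, fun π hπ hd => (hz _).1 (hJ4 π hπ hd), hlt, _, f, hl, hf,
    fun h => hQ _ h ringChar.Nat.cast_ringChar⟩
  have hN : (0 : ℝ) < N p := by unfold N; exact_mod_cast (by omega : 0 < nm p)
  have hs : ((Real.sqrt (N p) : ℝ) : ℂ) ≠ 0 := by exact_mod_cast (Real.sqrt_pos.2 hN).ne'
  have hs2 : ((Real.sqrt (N p) : ℝ) : ℂ) ^ 2 = nm p := by
    rw [← Complex.ofReal_pow, Real.sq_sqrt hN.le, N]; simp
  rw [map_neg, norm_neg, R17.norm_toC, R17.N, hJ2, g3, hgs, div_pow, hJ1, ← hs2]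
  change _ = -toC J / ((Real.sqrt (N p) : ℝ) : ℂ)
  field_simp

/-- `s` is composed of primes above `Q` -/
def Sm (Q : ℕ) (s : O) : Prop := ∀ a : O, IsCoprime a Q → IsCoprime a s

theorem Sm.mul {Q : ℕ} {s t : O} (hs : Sm Q s) (ht : Sm Q t) : Sm Q (s * t) :=
  fun a ha => (hs a ha).mul_right (ht a ha)

theorem sm_of_primes {Q : ℕ} {s : O} (hs : s ≠ 0) (h : ∀ π : O, Prime π → π ∣ s → π ∣ Q) :
    Sm Q s := fun _ ha =>
  isCoprime_of_prime_dvd (fun h => hs h.2) fun π hπ h1 h2 =>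
    hπ.not_isUnit (ha.isUnit_of_dvd' h1 (h π hπ h2))

theorem key_dvd {y : R K} {ν π : O} (hν : toC ν = rn (y : K)) (hπ : Prime π) (hd : π ∣ ν)
    (hc : IsCoprime y (iR K π)) : π ∣ (Loc.Q K : O) := by
  obtain ⟨a, b, hab⟩ := hc
  obtain ⟨k, hk⟩ := a.2
  obtain ⟨j, hj⟩ := b.2
  have hab' : (a : K) * y + b * iK K π = 1 := by
    have := congrArg (fun z : R K => (z : K)) hab
    simpa [coe_iR] using this
  obtain ⟨α, hα⟩ := rn_int (((natCast_int (Loc.Q K)).pow j).mul hk)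
  obtain ⟨W, hW, h⟩ := rn_congr ((Loc.Q K : O) ^ (k + j)) π
    (((natCast_int (A := K) (Loc.Q K)).pow k).mul hj).neg
  have e : iK K ((Loc.Q K : O) ^ (k + j)) + iK K π * -((Loc.Q K : K) ^ k * ((Loc.Q K : K) ^ j * b)) =
      (Loc.Q K : K) ^ j * ((Loc.Q K : K) ^ k * a) * y := by
    rw [map_pow, map_natCast, pow_add]
    linear_combination (-((Loc.Q K : K) ^ k * (Loc.Q K : K) ^ j)) * hab'
  obtain ⟨t, rfl⟩ := hd
  rw [e, rn_mul, ← hα, ← hν, map_mul, ← map_pow] at h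
  have h1 := dvd_of_int (a := ((Loc.Q K : O) ^ (k + j)) ^ dd K) hπ.ne_zero
    (((toC_int α).mul (toC_int t)).sub hW) (by linear_combination -h)
  exact hπ.dvd_of_dvd_pow (hπ.dvd_of_dvd_pow h1)

theorem exists_nu {x : R K} (hx : x ≠ 0) : ∃ (j : ℕ) (y : 𝓞 K) (ν : O), y ≠ 0 ∧ ν ≠ 0 ∧
    Associated x (toR K y) ∧ toC ν = rn (y : K) ∧ rn (x : K) * toC ((Loc.Q K : O) ^ j) = toC ν := by
  obtain ⟨k, y, hy0, hy, hxy⟩ := exists_gen hx
  obtain ⟨ν, hν⟩ : ∃ ν : O, toC ν = rn (y : K) := rn_int y.isIntegral_coe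
  have hy1 : (y : K) = x * iK K ((Loc.Q K : O) ^ k) := by
    rw [← coe_toR, hy, map_pow, map_natCast, mul_comm]; simp
  refine ⟨k * dd K, y, ν, hy0, fun h => ?_, hxy, hν, ?_⟩
  · rw [h, map_zero] at hν
    exact rn_ne (fun e => hy0 (NumberField.RingOfIntegers.ext e)) hν.symm
  · rw [hν, hy1, rn_mul, rn_iK, pow_mul, map_pow toC _ (dd K)]

theorem unit_rel {u : R K} (hu : IsUnit u) : ∃ s t : O, Sm (Loc.Q K) s ∧ Sm (Loc.Q K) t ∧
    rn (u : K) * toC s = toC t := by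
  obtain ⟨j, y, ν, -, hν0, hxy, hν, h⟩ := exists_nu hu.ne_zero
  refine ⟨_, ν, fun a ha => ha.pow_right, sm_of_primes hν0 fun π hπ hd =>
    key_dvd (y := toR K y) hν hπ hd ?_, h⟩
  obtain ⟨v, hv⟩ := (hxy.isUnit hu).exists_left_inv
  exact ⟨v, 0, by rw [hv, zero_mul, add_zero]⟩

theorem prime_rel {p : R K} (hp : Prime p) : ∃ A s t : O, R17.Prim A ∧ IsCoprime A (Loc.Q K : O) ∧
    Sm (Loc.Q K) s ∧ Sm (Loc.Q K) t ∧ rn (p : K) * toC s = toC A * toC t ∧
    -(g3 p) ^ 3 = toC A / (‖toC A‖ : ℂ) := by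
  obtain ⟨J, hg, hP, hn, hJ, hlt, l, f, hl, hf, hlQ⟩ := prime_main hp
  obtain ⟨j, y, ν, hy0, hν0, hxy, hν, h⟩ := exists_nu hp.ne_zero
  have hJ0 : J ≠ 0 := fun e => by rw [e, R17.nm_zero] at hn; omega
  have hJu : ¬ IsUnit J := fun e => by rw [R17.isUnit_iff_nm] at e; omega
  obtain ⟨π, hπi, hπJ⟩ := WfDvdMonoid.exists_irreducible_factor hJu hJ0
  have hπ : Prime π := hπi.prime
  have huniq : ∀ π' : O, Prime π' → p ∣ iR K π' → π ∣ π' := fun π' _ hd => by
    by_contra hc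
    exact hp.not_isUnit ((((hπ.coprime_iff_not_dvd).2 hc).map (iR K)).isUnit_of_dvd'
      (hJ π hπ hπJ) hd)
  obtain ⟨b, u, hu, hJb⟩ := WfDvdMonoid.max_power_factor hJ0 hπi
  obtain ⟨a, s, hs, hνa⟩ := WfDvdMonoid.max_power_factor hν0 hπi
  have hu0 : u ≠ 0 := fun e => hu (e ▸ dvd_zero π)
  have hs0 : s ≠ 0 := fun e => hs (e ▸ dvd_zero π)
  have huu : IsUnit u := by
    by_contra hc
    obtain ⟨π', h1, h2⟩ := WfDvdMonoid.exists_irreducible_factor hc hu0
    exact hu ((huniq π' h1.prime (hJ π' h1.prime (hJb ▸ h2.mul_left _))).trans h2)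
  have hsm : Sm (Loc.Q K) s := sm_of_primes hs0 fun π' h1 h2 =>
    key_dvd (y := toR K y) hν h1 (hνa ▸ h2.mul_left _)
      ((hxy.prime hp).coprime_iff_not_dvd.2 fun h3 =>
        hs ((huniq π' h1 (hxy.dvd.trans h3)).trans h2))
  obtain ⟨-, m, hm, hmQ⟩ := card_quot hy0
  have e1 : R17.nm π ^ a * R17.nm s = R17.nm π ^ b * m := by
    have a1 : R17.nm J = R17.nm π ^ b := by
      rw [hJb, R17.nm_mul, R17.b1_nm_pow, R17.isUnit_iff_nm.1 huu, mul_one]
    rw [← R17.b1_nm_pow, ← R17.nm_mul, ← hνa, nm_rn hν, hm, ← nm_assoc hxy, ← hn, a1]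
  have hπl : R17.nm π ∣ l ^ f := by rw [← hf, ← hn]; exact R17.b1_nm_dvd hπJ
  have c1 : (R17.nm π).Coprime m :=
    ((hl.coprime_iff_not_dvd.2 fun e => hlQ (hmQ l hl e)).pow_left f).coprime_dvd_left hπl
  have c2 : (R17.nm π).Coprime (R17.nm s) := by
    refine ((hl.coprime_iff_not_dvd.2 fun e => ?_).pow_left f).coprime_dvd_left hπl
    have a1 : IsCoprime (l : O) s := hsm _ (hl.coprime_iff_not_dvd.2 hlQ).cast
    have a2 : IsCoprime (l : O) (star s) := by
      obtain ⟨c, d, hcd⟩ := a1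
      exact ⟨star c, star d, by simpa [star_mul'] using congrArg star hcd⟩
    have a3 := a1.mul_right a2
    rw [R17.mul_star_self] at a3
    have a4 := R17.isUnit_iff_nm.1 (a3.isUnit_of_dvd (Nat.cast_dvd_cast e))
    rw [R17.nm_natCast] at a4
    have := hl.one_lt
    nlinarith
  have hπ1 : 1 < R17.nm π := lt_of_le_of_ne (R17.nm_pos hπ.ne_zero)
    fun e => hπ.not_isUnit (R17.isUnit_iff_nm.2 e.symm)
  have hab : a = b := le_antisymm
    ((Nat.pow_dvd_pow_iff_le_right hπ1).1 ((c1.pow_left a).dvd_of_dvd_mul_right ⟨_, e1.symm⟩))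
    ((Nat.pow_dvd_pow_iff_le_right hπ1).1 ((c2.pow_left b).dvd_of_dvd_mul_right ⟨_, e1⟩))
  refine ⟨-J, (Loc.Q K : O) ^ j * u, -s, hP, ?_,
    fun c hc => hc.pow_right.mul_right (R17.b1_unit_coprime huu c).symm,
    fun c hc => (hsm c hc).neg_right, ?_, hg⟩
  · refine isCoprime_of_prime_dvd (fun e => hJ0 (neg_eq_zero.1 e.1)) fun π' h1 h2 h3 => ?_
    have a1 := (hJ π' h1 (dvd_neg.1 h2)).trans (map_dvd (iR K) h3)
    rw [map_natCast] at a1
    exact hp.not_isUnit (isUnit_of_dvd_unit a1 Q_unit)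
  · rw [map_mul, ← mul_assoc, h, ← map_mul, ← map_mul, hνa, hJb, hab]
    congr 1
    ring

theorem prod_rel (M : Multiset (R K)) (hM : ∀ p ∈ M, Prime p) : ∃ A s t : O, R17.Prim A ∧
    IsCoprime A (Loc.Q K : O) ∧ Sm (Loc.Q K) s ∧ Sm (Loc.Q K) t ∧
    rn ((M.prod : R K) : K) * toC s = toC A * toC t ∧
    (M.map fun p => -(g3 p) ^ 3).prod = toC A / (‖toC A‖ : ℂ) := by
  induction M using Multiset.induction_on with
  | empty =>
    exact ⟨1, 1, 1, R17.Prim.one, isCoprime_one_left, fun _ _ => isCoprime_one_right,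
      fun _ _ => isCoprime_one_right, by simp [rn_one], by simp⟩
  | cons p M ih =>
    obtain ⟨A, s, t, h1, h2, h3, h4, h5, h6⟩ := ih fun q hq => hM q (Multiset.mem_cons_of_mem hq)
    obtain ⟨A', s', t', g1, g2, g3', g4, g5, g6⟩ := prime_rel (hM p (Multiset.mem_cons_self _ _))
    refine ⟨A' * A, s' * s, t' * t, g1.mul h1, g2.mul_left h2, g3'.mul h3, g4.mul h4, ?_, ?_⟩
    · rw [Multiset.prod_cons, Subring.coe_mul, rn_mul, map_mul, map_mul, map_mul]
      linear_combination rn ((M.prod : R K) : K) * toC s * g5 + toC A' * toC t' * h5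
    · rw [Multiset.map_cons, Multiset.prod_cons, h6, g6, map_mul, norm_mul]
      push_cast
      ring

theorem exists_nu_one {x : R K} (hx : InU 1 (x : K)) :
    ∃ ν : O, toC ν = rn (x : K) ∧ (Loc.Q K : O) ∣ ν - 1 := by
  obtain ⟨s, hs, e⟩ := hx
  rw [pow_one] at e
  have hx1 : SInt (x : K) := e ▸ sint_add ⟨1, Nat.coprime_one_left _, by simpa using isIntegral_one⟩
    (sint_mul (natCast_int _) hs)
  obtain ⟨ν, hν⟩ := rn_int (int_of_sint hx1)
  obtain ⟨b, hb, hbs⟩ := hs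
  obtain ⟨W, hW, h⟩ := rn_congr (b : O) (Loc.Q K : O) hbs
  have e2 : iK K (b : O) + iK K (Loc.Q K : O) * (b * s) = iK K (b : O) * x := by
    rw [e, map_natCast, map_natCast]; ring
  rw [e2, rn_mul, rn_iK, ← hν] at h
  have hQ0 : (Loc.Q K : O) ≠ 0 := fun e => by
    have := R17.nm_natCast (Loc.Q K)
    rw [e, R17.nm_zero] at this
    exact Loc.Q_ne (pow_eq_zero_iff two_ne_zero |>.1 this.symm)
  have h1 := dvd_of_int (a := (b : O) ^ dd K * (ν - 1)) hQ0 hW (by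
    rw [map_mul, map_pow, map_sub, map_one]; linear_combination h)
  exact ⟨ν, hν, (hb.symm.cast.pow_right).dvd_of_dvd_mul_left h1⟩

end B2

/-- `angN x = ang x` for `x ≡ 1 mod Q` -/
theorem angN_eq_ang {x : R K} (hx : InU 1 (x : K)) : angN x = ang (x : K) := by
  have hx0 : x ≠ 0 := fun h => hx.ne_zero le_rfl (by rw [h]; rfl)
  obtain ⟨ν, hν, hν1⟩ := B2.exists_nu_one hx
  obtain ⟨A, s, t, h1, h2, h3, h4, h5, h6⟩ := B2.prod_rel (UniqueFactorizationMonoid.factors x)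
    UniqueFactorizationMonoid.prime_of_factor
  obtain ⟨u, hu⟩ := UniqueFactorizationMonoid.factors_prod hx0
  obtain ⟨s', t', g1, g2, g3⟩ := B2.unit_rel u.isUnit
  have e : ν * (s * s') = A * (t * t') := R17.toC_injective (by
    rw [map_mul, map_mul, map_mul, map_mul, hν, ← hu, Subring.coe_mul, B2.rn_mul]
    linear_combination B2.rn ((u : R K) : K) * R17.toC s' * h5 + R17.toC A * R17.toC t * g3)
  have hc : IsCoprime ν (Loc.Q K : R17.O) := by
    obtain ⟨c, hc⟩ := hν1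
    exact ⟨1, -c, by linear_combination hc⟩
  have hP : R17.Prim ν := by
    have h3Q : ((3 : ℕ) : R17.O) ∣ (Loc.Q K : R17.O) :=
      Nat.cast_dvd_cast (Nat.dvd_trans (by norm_num) Loc.six_dvd)
    exact Dvd.dvd.trans (by exact_mod_cast h3Q) hν1
  have hA : ν = A := hP.eq_of_associated h1 (associated_of_dvd_dvd
    (((h4.mul g2) ν hc).dvd_of_dvd_mul_right ⟨_, e.symm⟩)
    (((h3.mul g1) A h2).dvd_of_dvd_mul_right ⟨_, e⟩))
  rw [angN, h6, ← hA, hν, ang, B2.rn, Finset.prod_div_distrib, norm_prod]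
  push_cast
  rfl

end Crest.Agent.R312
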