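import Crest.Agent.R312.BDefs
import Crest.Agent.R17.Basic1

/-!
# R312 / B2Nrm : the relative norm `rn x = ∏_v x_v` to `ℚ(ω)` (owner helper3)
-/

set_option autoImplicit false

noncomputable section

open scoped Classical ComplexConjugate NumberField
open Finset

namespace Crest.Agent.R312.B2

open Crest.Agent.R17 (O om toC omC)

theorem toC_om : toC om = omC := by simp [R17.toC_apply, om]

theorem omC_int : IsIntegral ℤ omC :=
  IsIntegral.of_pow (n := 3) (by norm_num) (by
    rw [← toC_om, ← map_pow, R17.om_cube, map_one]; exact isIntegral_one)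

theorem intCast_int {A : Type} [CommRing A] (n : ℤ) : IsIntegral ℤ (n : A) :=
  isIntegral_algebraMap (R := ℤ) (A := A) (x := n)

theorem natCast_int {A : Type} [CommRing A] (n : ℕ) : IsIntegral ℤ (n : A) := by
  simpa using intCast_int (A := A) n

theorem toC_int (z : O) : IsIntegral ℤ (toC z) :=
  (intCast_int _).add ((intCast_int _).mul omC_int)

theorem conj_omC : conj omC = -1 - omC := by
  apply Complex.ext
  · simp [omC]; norm_num
  · simp [omC]

theorem rat_int {q : ℚ} (h : IsIntegral ℤ (q : ℂ)) : ∃ n : ℤ, (n : ℚ) = q := by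
  have h1 : IsIntegral ℤ (algebraMap ℚ ℂ q) := h
  rw [isIntegral_algebraMap_iff (algebraMap ℚ ℂ).injective] at h1
  exact IsIntegrallyClosed.isIntegral_iff.1 h1

theorem int_of_rat {a b : ℚ} (h : IsIntegral ℤ ((a : ℂ) + b * omC)) :
    ∃ z : O, toC z = a + b * omC := by
  have hc : IsIntegral ℤ (conj ((a : ℂ) + b * omC)) := h.map (starRingEnd ℂ).toIntAlgHom
  have hd := h.sub hc
  have e : (a : ℂ) + b * omC - conj ((a : ℂ) + b * omC) = b * (1 + 2 * omC) := by
    rw [map_add, map_mul, conj_omC, map_ratCast, map_ratCast]; ring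
  rw [e] at hd
  have h1 : IsIntegral ℤ ((-3 * b : ℚ) : ℂ) := by
    have := hd.mul (isIntegral_one.add ((natCast_int 2).mul omC_int))
    rwa [show (b : ℂ) * (1 + 2 * omC) * (1 + ((2 : ℕ) : ℂ) * omC) = ((-3 * b : ℚ) : ℂ) by
      push_cast; linear_combination (4 * (b : ℂ)) * R17.omC_sq] at this
  have h2 : IsIntegral ℤ ((-3 * b ^ 2 : ℚ) : ℂ) := by
    have := hd.mul hd
    rwa [show (b : ℂ) * (1 + 2 * omC) * ((b : ℂ) * (1 + 2 * omC)) = ((-3 * b ^ 2 : ℚ) : ℂ) by
      push_cast; linear_combination (4 * (b : ℂ) ^ 2) * R17.omC_sq] at this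
  obtain ⟨c, hc'⟩ := rat_int h1
  obtain ⟨m, hm⟩ := rat_int h2
  have h3 : c ^ 2 = 3 * -m := by
    have : (c : ℚ) ^ 2 = 3 * -m := by rw [hc', hm]; ring
    exact_mod_cast this
  obtain ⟨s, hs⟩ : (3 : ℤ) ∣ c := Int.prime_three.dvd_of_dvd_pow ⟨_, h3⟩
  have hb : b = ((-s : ℤ) : ℚ) := by
    rw [hs] at hc'
    push_cast at hc' ⊢
    linarith
  have h4 : IsIntegral ℤ (a : ℂ) := by
    have := h.sub ((intCast_int (A := ℂ) (-s)).mul omC_int)
    rwa [show (a : ℂ) + b * omC - ((-s : ℤ) : ℂ) * omC = a by rw [hb]; push_cast; ring] at this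
  obtain ⟨r, hr⟩ := rat_int h4
  refine ⟨⟨r, -s⟩, ?_⟩
  rw [R17.toC_apply, ← hr, hb]
  simp

theorem dvd_of_int {a π : O} {w : ℂ} (hπ : π ≠ 0) (hw : IsIntegral ℤ w) (h : toC a = toC π * w) :
    π ∣ a := by
  have hN : ((R17.nm π : ℕ) : ℂ) ≠ 0 := Nat.cast_ne_zero.2 (R17.nm_pos hπ).ne'
  have h1 : toC (a * star π) = R17.nm π * w := by
    rw [map_mul, h, mul_right_comm, ← map_mul, R17.mul_star_self, map_natCast]
  have h2 : w = (((a * star π).re / R17.nm π : ℚ) : ℂ) +
      (((a * star π).im / R17.nm π : ℚ) : ℂ) * omC := by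
    rw [R17.toC_apply] at h1
    push_cast
    field_simp
    linear_combination -h1
  obtain ⟨z, hz⟩ := int_of_rat (h2 ▸ hw)
  exact ⟨z, R17.toC_injective (by rw [map_mul, hz, ← h2, h])⟩

variable {K : Type} [Field K] [NumberField K] [Fld K]

/-- the relative norm -/
def rn (x : K) : ℂ := ∏ v : Pl K, emb v x

theorem rn_mul (x y : K) : rn (x * y) = rn x * rn y := by
  simp [rn, emb, prod_mul_distrib]

theorem rn_one : rn (1 : K) = 1 := by simp [rn, emb]

theorem rn_ne {x : K} (hx : x ≠ 0) : rn x ≠ 0 :=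
  prod_ne_zero_iff.2 fun v _ => (map_ne_zero v.1).2 hx

theorem omK_sq : ((Fld.om : 𝓞 K) : K) * (Fld.om : 𝓞 K) = -1 - (Fld.om : 𝓞 K) := by
  have := congrArg (algebraMap (𝓞 K) K) (Fld.om_eq (K := K))
  simp only [map_add, map_pow, map_one, map_zero] at this
  linear_combination this

variable (K) in
/-- `ℤ[ω] → K` -/
def iK : O →+* K where
  toFun x := x.re + x.im * ((Fld.om : 𝓞 K) : K)
  map_one' := by simp [QuadraticAlgebra.re_one, QuadraticAlgebra.im_one]
  map_zero' := by simp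
  map_add' x y := by simp; ring
  map_mul' x y := by
    simp only [QuadraticAlgebra.re_mul, QuadraticAlgebra.im_mul]
    push_cast
    linear_combination (-(x.im : K) * y.im) * omK_sq (K := K)

theorem iK_apply (x : O) : iK K x = x.re + x.im * ((Fld.om : 𝓞 K) : K) := rfl

theorem emb_iK (v : Pl K) (x : O) : emb v (iK K x) = toC x := by
  rw [iK_apply, R17.toC_apply, emb, map_add, map_mul, map_intCast, map_intCast, v.2]

theorem iK_int (x : O) : IsIntegral ℤ (iK K x) :=
  (intCast_int _).add ((intCast_int _).mul (Fld.om : 𝓞 K).isIntegral_coe)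

theorem rn_iK (x : O) : rn (iK K x) = toC x ^ dd K := by
  simp [rn, emb_iK, dd]

theorem emb_int (v : Pl K) {x : K} (hx : IsIntegral ℤ x) : IsIntegral ℤ (emb v x) :=
  hx.map v.1.toIntAlgHom

theorem rn_rat (x : K) : ∃ a b : ℚ, rn x = a + b * omC := by
  have : Fact (∀ r : ℚ, r ^ 2 ≠ -1 + -1 * r) := ⟨fun r h => by nlinarith [sq_nonneg (2 * r + 1)]⟩
  let F := QuadraticAlgebra ℚ (-1) (-1)
  let fK : F →ₐ[ℚ] K := QuadraticAlgebra.lift ⟨((Fld.om : 𝓞 K) : K), by
    rw [omK_sq]; simp [sub_eq_add_neg]⟩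
  let fC : F →ₐ[ℚ] ℂ := QuadraticAlgebra.lift ⟨omC, by rw [R17.omC_sq]; simp [sub_eq_add_neg]⟩
  have hK : ∀ z : F, fK z = z.re + z.im * ((Fld.om : 𝓞 K) : K) := fun z => by
    show z.re • (1 : K) + z.im • ((Fld.om : 𝓞 K) : K) = _
    simp [Rat.smul_def]
  have hC : ∀ z : F, fC z = z.re + z.im * omC := fun z => by
    show z.re • (1 : ℂ) + z.im • omC = _
    simp [Rat.smul_def]
  let _ : Algebra F K := fK.toRingHom.toAlgebra
  let _ : Algebra F ℂ := fC.toRingHom.toAlgebra
  have : IsScalarTower ℚ F K := IsScalarTower.of_algebraMap_eq fun r => (fK.commutes r).symm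
  have : Module.Finite F K := Module.Finite.of_restrictScalars_finite ℚ F K
  have : CharZero F := algebraRat.charZero F
  have h := Algebra.norm_eq_prod_embeddings F ℂ x
  refine ⟨(Algebra.norm F x).re, (Algebra.norm F x).im, ?_⟩
  rw [← hC]
  refine Eq.trans ?_ h.symm
  let e : Pl K ≃ (K →ₐ[F] ℂ) :=
    { toFun := fun v => { v.1 with
        commutes' := fun z => by
          show v.1 (fK z) = fC z
          rw [hK, hC, map_add, map_mul, map_ratCast, map_ratCast, v.2] }
      invFun := fun σ => ⟨σ.toRingHom, by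
        have h1 := σ.commutes (⟨0, 1⟩ : F)
        change σ (fK _) = fC _ at h1
        rw [hK, hC] at h1
        simpa using h1⟩
      left_inv := fun v => rfl
      right_inv := fun σ => rfl }
  exact Fintype.prod_equiv e _ _ fun v => rfl

theorem rn_int {x : K} (hx : IsIntegral ℤ x) : ∃ ν : O, toC ν = rn x := by
  obtain ⟨a, b, h⟩ := rn_rat x
  rw [h]
  exact int_of_rat (h ▸ IsIntegral.prod _ fun v _ => emb_int v hx)

theorem rn_congr (c t : O) {w : K} (hw : IsIntegral ℤ w) :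
    ∃ W : ℂ, IsIntegral ℤ W ∧ rn (iK K c + iK K t * w) = toC c ^ dd K + toC t * W := by
  have key : ∀ s : Finset (Pl K), ∃ W : ℂ, IsIntegral ℤ W ∧
      ∏ v ∈ s, emb v (iK K c + iK K t * w) = toC c ^ s.card + toC t * W := by
    intro s
    induction s using Finset.induction_on with
    | empty => exact ⟨0, isIntegral_zero, by simp⟩
    | insert v s hv ih =>
      obtain ⟨W, hW, h⟩ := ih
      refine ⟨toC c * W + emb v w * toC c ^ s.card + toC t * emb v w * W,
        (((toC_int c).mul hW).add ((emb_int v hw).mul ((toC_int c).pow _))).add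
          (((toC_int t).mul (emb_int v hw)).mul hW), ?_⟩
      have : emb v (iK K c + iK K t * w) = toC c + toC t * emb v w := by
        rw [← emb_iK v c, ← emb_iK v t]; simp [emb]
      rw [prod_insert hv, h, card_insert_of_notMem hv, this]
      ring
  exact key univ

theorem omC_ne : omC ≠ conj omC := fun h => by
  have := congrArg Complex.im h
  simp only [omC, Complex.conj_im] at this
  have h3 : 0 < Real.sqrt 3 := by positivity
  linarith

theorem emb_om (φ : K →+* ℂ) (h : φ (Fld.om : 𝓞 K) ≠ omC) : φ (Fld.om : 𝓞 K) = conj omC := by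
  have h1 := congrArg φ (omK_sq (K := K))
  simp only [map_mul, map_sub, map_neg, map_one] at h1
  have h2 : (φ (Fld.om : 𝓞 K) - omC) * (φ (Fld.om : 𝓞 K) - conj omC) = 0 := by
    rw [conj_omC]
    linear_combination h1 - R17.omC_sq
  exact sub_eq_zero.1 ((mul_eq_zero.1 h2).resolve_left (sub_ne_zero.2 h))

theorem pl_nonempty : Nonempty (Pl K) := by
  obtain ⟨φ⟩ : Nonempty (K →+* ℂ) := inferInstance
  by_cases h : φ (Fld.om : 𝓞 K) = omC
  · exact ⟨⟨φ, h⟩⟩
  · exact ⟨⟨(starRingEnd ℂ).comp φ, by rw [RingHom.comp_apply, emb_om φ h, Complex.conj_conj]⟩⟩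

theorem toC0_iK (x : O) : toC0 (iK K x) = toC x := by
  rw [toC0, dif_pos pl_nonempty, emb_iK]

theorem prod_emb (x : K) : ∏ φ : K →+* ℂ, φ x = rn x * conj (rn x) := by
  rw [← prod_filter_mul_prod_filter_not univ fun φ : K →+* ℂ => φ (Fld.om : 𝓞 K) = omC]
  congr 1
  · exact prod_subtype _ (by simp) fun φ : K →+* ℂ => φ x
  · rw [rn, map_prod]
    symm
    refine prod_bij (fun v _ => (starRingEnd ℂ).comp v.1) (fun v _ => ?_) (fun v _ w _ h => ?_)
      (fun φ hφ => ?_) fun v _ => rfl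
    · rw [mem_filter, RingHom.comp_apply, v.2]
      exact ⟨mem_univ _, omC_ne.symm⟩
    · refine Subtype.ext (RingHom.ext fun y => ?_)
      exact (starRingEnd ℂ).injective (RingHom.congr_fun h y)
    · refine ⟨⟨(starRingEnd ℂ).comp φ, ?_⟩, mem_univ _, RingHom.ext fun y => by simp⟩
      rw [RingHom.comp_apply, emb_om φ (mem_filter.1 hφ).2, Complex.conj_conj]

theorem nm_rn {y : 𝓞 K} {ν : O} (h : toC ν = rn (y : K)) :
    R17.nm ν = Ideal.absNorm (Ideal.span {y}) := by
  have h1 := Algebra.norm_eq_prod_embeddings ℚ ℂ (y : K)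
  rw [← Fintype.prod_equiv (RingHom.equivRatAlgHom K ℂ) (fun φ : K →+* ℂ => φ y) _ fun φ => rfl,
    prod_emb, ← h, ← R17.toC_star, ← map_mul, R17.mul_star_self, map_natCast,
    ← Algebra.coe_norm_int] at h1
  have h2 : Algebra.norm ℤ y = (R17.nm ν : ℤ) := by
    have : ((Algebra.norm ℤ y : ℤ) : ℂ) = ((R17.nm ν : ℤ) : ℂ) := by simpa using h1
    exact_mod_cast this
  rw [Ideal.absNorm_span_singleton, h2, Int.natAbs_natCast]

end Crest.Agent.R312.B2
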