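import Crest.Agent.R312.B0Arch

/-!
# R312 / B3Emb : the embedding `K → K_∞ = (Pl K → ℂ)`, `aN = |Norm|`, the character `eI`
(owner helper6; complements `B0Arch`)
-/

set_option autoImplicit false
set_option linter.unusedSectionVars false

noncomputable section

open scoped Classical ComplexConjugate NumberField
open MeasureTheory
open Crest.Agent.R17 (omC)

namespace Crest.Agent.R312

variable {K : Type} [Field K] [NumberField K] [Fld K]

/-- the embedding `K → K_∞` -/
def embv (x : K) : Pl K → ℂ := fun v => emb v x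

/-- `δ_v` -/
def dlt (v : Pl K) : ℂ := emb v ((Fld.δ : 𝓞 K) : K)

/-- the additive character `exp(2πi ∑_v 2 Re(y_v/δ_v))` of `K_∞`; `eT x = eI (embv x)` -/
def eI (y : Pl K → ℂ) : ℂ :=
  Complex.exp (2 * Real.pi * Complex.I * ((∑ v, 2 * (y v / dlt v).re : ℝ) : ℂ))

/-- `|N_{K/ℚ} x|` -/
def aN (x : K) : ℝ := |((Algebra.norm ℚ x : ℚ) : ℝ)|

theorem emb_sub (v : Pl K) (x y : K) : emb v (x - y) = emb v x - emb v y := map_sub v.1 x y
theorem emb_neg (v : Pl K) (x : K) : emb v (-x) = -emb v x := map_neg v.1 x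
theorem emb_zpow (v : Pl K) (x : K) (n : ℤ) : emb v (x ^ n) = emb v x ^ n := map_zpow₀ v.1 x n
theorem emb_natCast (v : Pl K) (n : ℕ) : emb v (n : K) = n := map_natCast v.1 n
theorem emb_intCast (v : Pl K) (n : ℤ) : emb v (n : K) = n := map_intCast v.1 n

@[simp] theorem embv_apply (x : K) (v : Pl K) : embv x v = emb v x := rfl
@[simp] theorem embv_zero : embv (0 : K) = 0 := funext fun v => emb_zero v
@[simp] theorem embv_one : embv (1 : K) = 1 := funext fun v => emb_one v
theorem embv_add (x y : K) : embv (x + y) = embv x + embv y := funext fun v => emb_add v x y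
theorem embv_sub (x y : K) : embv (x - y) = embv x - embv y := funext fun v => emb_sub v x y
theorem embv_neg (x : K) : embv (-x) = -embv x := funext fun v => emb_neg v x
theorem embv_mul (x y : K) : embv (x * y) = embv x * embv y := funext fun v => emb_mul v x y

theorem dlt_ne_zero (v : Pl K) : dlt v ≠ 0 :=
  emb_ne_zero v (by exact_mod_cast (Fld.δ_ne : (Fld.δ : 𝓞 K) ≠ 0))

theorem norm_dlt (v : Pl K) : ‖dlt v‖ = dl v := rfl

theorem pl_bijective : Function.Bijective
    (fun v : Pl K => (NumberField.InfinitePlace.mk v.1 : NumberField.InfinitePlace K)) := by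
  refine ⟨fun v w h => ?_, fun w => ?_⟩
  · rcases NumberField.InfinitePlace.mk_eq_iff.1 h with h | h
    · exact Subtype.ext h
    · exfalso
      have h1 := w.2
      rw [← h, NumberField.ComplexEmbedding.conjugate_coe_eq, v.2] at h1
      exact omC_ne_conj h1.symm
  · rcases emb_om_cases w.embedding with h | h
    · exact ⟨⟨w.embedding, h⟩, w.mk_embedding⟩
    · refine ⟨⟨NumberField.ComplexEmbedding.conjugate w.embedding, ?_⟩, ?_⟩
      · rw [NumberField.ComplexEmbedding.conjugate_coe_eq, h, Complex.conj_conj]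
      · simp only [NumberField.InfinitePlace.mk_conjugate_eq, NumberField.InfinitePlace.mk_embedding]

/-- `Pl K` is the set of infinite places -/
def plEquiv (K : Type) [Field K] [NumberField K] [Fld K] : Pl K ≃ NumberField.InfinitePlace K :=
  Equiv.ofBijective _ pl_bijective

theorem plEquiv_apply (v : Pl K) (x : K) : plEquiv K v x = ‖emb v x‖ := rfl

theorem plEquiv_mult (v : Pl K) : (plEquiv K v).mult = 2 := by
  have h : ¬ (plEquiv K v).IsReal := by
    intro h
    have h1 : NumberField.ComplexEmbedding.IsReal v.1 :=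
      NumberField.InfinitePlace.isReal_mk_iff.1 h
    have h2 := congrArg (fun φ : K →+* ℂ => φ ((Fld.om : 𝓞 K) : K))
      (NumberField.ComplexEmbedding.isReal_iff.1 h1)
    simp only [NumberField.ComplexEmbedding.conjugate_coe_eq] at h2
    rw [v.2] at h2
    exact omC_ne_conj h2.symm
  simp [NumberField.InfinitePlace.mult, h]

theorem aN_eq_prod (x : K) : aN x = ∏ v : Pl K, ‖emb v x‖ ^ 2 := by
  rw [aN, norm_eq, abs_of_nonneg (Finset.prod_nonneg fun v _ => sq_nonneg _)]

theorem aN_nonneg (x : K) : 0 ≤ aN x := abs_nonneg _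

theorem aN_pos {x : K} (hx : x ≠ 0) : 0 < aN x := by
  rw [aN_eq_prod]
  exact Finset.prod_pos fun v _ => pow_pos (norm_pos_iff.2 (emb_ne_zero v hx)) 2

theorem aN_mul (x y : K) : aN (x * y) = aN x * aN y := by
  simp only [aN_eq_prod, emb_mul, norm_mul, mul_pow, Finset.prod_mul_distrib]

theorem aN_div (x y : K) : aN (x / y) = aN x / aN y := by
  simp only [aN_eq_prod, emb_div, norm_div, div_pow, Finset.prod_div_distrib]

theorem aN_one : aN (1 : K) = 1 := by simp [aN_eq_prod]

theorem aN_natCast (n : ℕ) : aN (n : K) = (n : ℝ) ^ (2 * dd K) := by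
  simp only [aN_eq_prod, emb_natCast, Complex.norm_natCast, Finset.prod_const, Finset.card_univ, dd,
    pow_mul]

theorem aN_eq_absNorm (x : 𝓞 K) : aN (x : K) = (Ideal.absNorm (Ideal.span {x}) : ℝ) := by
  rw [aN_eq_prod, absNorm_span_eq]

theorem aN_unit (u : (𝓞 K)ˣ) : aN ((u : 𝓞 K) : K) = 1 := by
  rw [aN_eq_absNorm, Ideal.span_singleton_eq_top.2 u.isUnit, Ideal.absNorm_top, Nat.cast_one]

theorem one_le_aN {x : 𝓞 K} (hx : x ≠ 0) : 1 ≤ aN (x : K) := by
  rw [aN_eq_absNorm]
  exact_mod_cast Nat.one_le_iff_ne_zero.2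
    (Ideal.absNorm_eq_zero_iff.not.2 (Ideal.span_singleton_eq_bot.not.2 hx))

theorem sum_lg {x : K} (hx : x ≠ 0) : ∑ v, lg x v = Real.log (aN x) := by
  rw [aN_eq_prod, Real.log_prod fun v _ => pow_ne_zero 2 (norm_ne_zero_iff.2 (emb_ne_zero v hx))]
  rfl

theorem exp_lg {x : K} (hx : x ≠ 0) (v : Pl K) : Real.exp (lg x v) = ‖emb v x‖ ^ 2 :=
  Real.exp_log (pow_pos (norm_pos_iff.2 (emb_ne_zero v hx)) 2)

theorem lg_mul' {x y : K} (hx : x ≠ 0) (hy : y ≠ 0) : lg (x * y) = lg x + lg y :=
  funext fun v => lg_mul hx hy v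

theorem lg_zpow (x : K) (n : ℤ) : lg (x ^ n) = (n : ℝ) • lg x := by
  funext v
  simp only [lg, emb_zpow, norm_zpow, Pi.smul_apply, smul_eq_mul, Real.log_pow, Real.log_zpow]
  ring

theorem eT_eq_eI (x : K) : eT x = eI (embv x) := by
  have h := trace_eq (x / ((Fld.δ : 𝓞 K) : K))
  unfold eT eI
  simp only [emb_div] at h
  rw [← Complex.ofReal_ratCast, h]
  rfl

theorem eI_zero : eI (0 : Pl K → ℂ) = 1 := by simp [eI]

theorem eI_add (y z : Pl K → ℂ) : eI (y + z) = eI y * eI z := by
  unfold eI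
  rw [← Complex.exp_add, ← mul_add, ← Complex.ofReal_add, ← Finset.sum_add_distrib]
  simp only [Pi.add_apply, add_div, Complex.add_re, mul_add]

theorem eI_neg (y : Pl K → ℂ) : eI (-y) = conj (eI y) := by
  unfold eI
  rw [← Complex.exp_conj]
  simp only [Pi.neg_apply, neg_div, Complex.neg_re, mul_neg, Finset.sum_neg_distrib, map_mul,
    Complex.conj_ofReal, Complex.conj_I, Complex.ofReal_neg, map_ofNat, neg_mul]

theorem norm_eI (y : Pl K → ℂ) : ‖eI y‖ = 1 := by
  unfold eI
  rw [show 2 * (Real.pi : ℂ) * Complex.I * ((∑ v, 2 * (y v / dlt v).re : ℝ) : ℂ) =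
    ((2 * Real.pi * ∑ v, 2 * (y v / dlt v).re : ℝ) : ℂ) * Complex.I by push_cast; ring]
  exact Complex.norm_exp_ofReal_mul_I _

theorem continuous_eI : Continuous (eI : (Pl K → ℂ) → ℂ) := by
  unfold eI
  fun_prop

theorem eI_eq_prod (y : Pl K → ℂ) :
    eI y = ∏ v, Complex.exp (2 * Real.pi * Complex.I * ((2 * (y v / dlt v).re : ℝ) : ℂ)) := by
  unfold eI
  rw [← Complex.exp_sum, Complex.ofReal_sum, Finset.mul_sum]

end Crest.Agent.R312
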