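import Mathlib

/-!
# R312 / B3LSa : invariant means, the one-dimensional quadratic Gauss sum, the smoothing lemma
-/

set_option autoImplicit false

noncomputable section

open scoped Classical ComplexConjugate Real
open Complex

namespace Crest.Agent.R312.LS

/-- `f` has the invariant mean `w` -/
def HM {G : Type} [AddCommGroup G] (f : G → ℂ) (w : ℂ) : Prop :=
  ∃ (ι : Type) (_ : Fintype ι) (_ : Nonempty ι) (s : ι → G),
    ∀ g, ∑ i, f (s i + g) = Fintype.card ι * w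

section mean
variable {G G₀ : Type} [AddCommGroup G] [AddCommGroup G₀]

theorem HM.unique {f : G → ℂ} {w w' : ℂ} (h : HM f w) (h' : HM f w') : w = w' := by
  obtain ⟨ι, _, _, s, hs⟩ := h
  obtain ⟨κ, _, _, t, ht⟩ := h'
  have e : ∑ i, ∑ j, f (t j + s i) = ∑ j, ∑ i, f (s i + t j) := by
    rw [Finset.sum_comm]
    simp only [add_comm]
  simp only [hs, ht, Finset.sum_const, Finset.card_univ, nsmul_eq_mul] at e
  have h1 : (Fintype.card ι : ℂ) ≠ 0 := Nat.cast_ne_zero.2 Fintype.card_ne_zero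
  have h2 : (Fintype.card κ : ℂ) ≠ 0 := Nat.cast_ne_zero.2 Fintype.card_ne_zero
  apply mul_left_cancel₀ (mul_ne_zero h1 h2)
  linear_combination -e

theorem HM.comp_iff (φ : G₀ →+ G) {f : G → ℂ} {w : ℂ}
    (h : ∀ g, ∃ g0, ∀ x, f (x + g) = f (x + φ g0)) : HM (fun x => f (φ x)) w ↔ HM f w := by
  constructor
  · rintro ⟨ι, _, _, s, hs⟩
    refine ⟨ι, inferInstance, inferInstance, fun i => φ (s i), fun g => ?_⟩
    obtain ⟨g0, h0⟩ := h g
    simpa only [h0, map_add] using hs g0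
  · rintro ⟨ι, _, _, s, hs⟩
    choose σ hσ using h
    refine ⟨ι, inferInstance, inferInstance, fun i => σ (s i), fun g => ?_⟩
    rw [← hs (φ g)]
    refine Finset.sum_congr rfl fun i _ => ?_
    simp only [map_add]
    rw [add_comm, ← hσ, add_comm]

theorem HM.mul {f₁ f₂ : G → ℂ} {w₁ w₂ : ℂ} (h₁ : HM f₁ w₁) (h₂ : HM f₂ w₂)
    (h : ∀ g, ∃ a b, g = a + b ∧ (∀ x, f₁ (x + a) = f₁ x) ∧ ∀ x, f₂ (x + b) = f₂ x) :
    HM (fun x => f₁ x * f₂ x) (w₁ * w₂) := by
  obtain ⟨ι, _, _, s, hs⟩ := h₁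
  obtain ⟨κ, _, _, t, ht⟩ := h₂
  choose a b hab ha hb using h
  refine ⟨ι × κ, inferInstance, inferInstance, fun p => b (s p.1) + a (t p.2), fun g => ?_⟩
  have e : ∀ p : ι × κ, f₁ (b (s p.1) + a (t p.2) + g) * f₂ (b (s p.1) + a (t p.2) + g) =
      f₁ (s p.1 + g) * f₂ (t p.2 + g) := fun p => by
    congr 1
    · rw [← ha (s p.1), ← ha (t p.2) (s p.1 + g)]
      congr 1
      nth_rewrite 3 [hab (s p.1)]
      abel
    · rw [← hb (t p.2), ← hb (s p.1) (t p.2 + g)]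
      congr 1
      nth_rewrite 3 [hab (t p.2)]
      abel
  simp only [e, Fintype.sum_prod_type]
  rw [← Finset.sum_mul_sum, hs, ht, Fintype.card_prod]
  push_cast
  ring

theorem HM.pi {ι : Type} [Fintype ι] {f : ι → G → ℂ} {w : ι → ℂ} (h : ∀ i, HM (f i) (w i)) :
    HM (fun x : ι → G => ∏ i, f i (x i)) (∏ i, w i) := by
  choose κ hκ hκ' s hs using h
  refine ⟨∀ i, κ i, inferInstance, inferInstance, fun c i => s i (c i), fun g => ?_⟩
  simp only [Pi.add_apply]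
  rw [← Fintype.piFinset_univ, ← Finset.prod_univ_sum (fun i => (Finset.univ : Finset (κ i)))
    (fun i j => f i (s i j + g i)), Fintype.card_pi]
  simp only [hs, Finset.prod_mul_distrib, Nat.cast_prod]

theorem HM.conj {f : G → ℂ} {w : ℂ} (h : HM f w) : HM (fun x => conj (f x)) (conj w) := by
  obtain ⟨ι, _, _, s, hs⟩ := h
  refine ⟨ι, inferInstance, inferInstance, s, fun g => ?_⟩
  rw [← map_sum, hs, map_mul, map_natCast]

end mean

theorem sum_out_add {A : Type} [CommRing A] (J : Ideal A) [Fintype (A ⧸ J)] {f : A → ℂ}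
    (hf : ∀ x, ∀ a ∈ J, f (x + a) = f x) (g : A) :
    ∑ c : A ⧸ J, f (c.out + g) = ∑ c : A ⧸ J, f c.out := by
  refine Fintype.sum_equiv (Equiv.addRight (Ideal.Quotient.mk J g)) _ _ fun c => ?_
  rw [← hf _ ((Equiv.addRight (Ideal.Quotient.mk J g) c).out - (c.out + g))
    (Ideal.Quotient.eq.1 (by simp))]
  congr 1
  ring

theorem HM.quot {A : Type} [CommRing A] (J : Ideal A) [Fintype (A ⧸ J)] {f : A → ℂ}
    (hf : ∀ x, ∀ a ∈ J, f (x + a) = f x) :
    HM f ((Fintype.card (A ⧸ J) : ℂ)⁻¹ * ∑ c : A ⧸ J, f c.out) :=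
  ⟨A ⧸ J, inferInstance, inferInstance, fun c => c.out, fun g => by
    rw [sum_out_add J hf, mul_inv_cancel_left₀ (Nat.cast_ne_zero.2 Fintype.card_ne_zero)]⟩

theorem sum_out_char {A : Type} [CommRing A] (J : Ideal A) [Fintype (A ⧸ J)] {β : A → ℂ}
    (hβ : ∀ x y, β (x + y) = β x * β y) (hJ : ∀ a ∈ J, β a = 1) :
    ∑ c : A ⧸ J, β c.out = if ∀ a, β a = 1 then (Fintype.card (A ⧸ J) : ℂ) else 0 := by
  split_ifs with h
  · simp [h]
  · push Not at h
    obtain ⟨a, ha⟩ := h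
    have e := sum_out_add J (f := β) (fun x a ha => by rw [hβ, hJ a ha, mul_one]) a
    simp only [hβ, ← Finset.sum_mul] at e
    exact (mul_eq_zero.1 (show (∑ c : A ⧸ J, β c.out) * (β a - 1) = 0 by
      linear_combination e)).resolve_right (sub_ne_zero.2 ha)

/-- passing from a lattice `Φ(G) ⊇ A` to the self-dual lattice `A` does not change the phase -/
theorem smooth {K A G : Type} [Field K] [CommRing A] [AddCommGroup G] {ψ : K → ℂ}
    (hψ : ∀ x y, ψ (x + y) = ψ x * ψ y) (j : A →+* K) (h1 : ∀ a, ψ (j a) = 1)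
    (hd : ∀ x, (∀ a, ψ (x * j a) = 1) → ∃ a, j a = x) (Φ : G →+ K) (hΦ : ∀ a, ∃ g, Φ g = j a)
    (d : A) [Finite (A ⧸ Ideal.span {d})] (hdΦ : ∀ g, ∃ a, j d * Φ g = j a) (m : A)
    (hm : 4 * j m ≠ 0) {w : ℂ} (h : HM (fun g => ψ (Φ g ^ 2 / (4 * j m))) w) :
    ∃ t : ℝ, 0 < t ∧ HM (fun a => ψ (j a ^ 2 / (4 * j m))) (t * w) := by
  obtain ⟨ι, _, ⟨i0⟩, s0, hs0⟩ := h
  obtain ⟨s, hs, hi0⟩ : ∃ s : ι → G, (∀ g, ∑ i, ψ (Φ (s i + g) ^ 2 / (4 * j m)) = Fintype.card ι * w) ∧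
      ∃ a, j a = Φ (s i0) :=
    ⟨fun i => s0 i - s0 i0, fun g => by simpa only [sub_eq_add_neg, add_assoc] using hs0 (-s0 i0 + g),
      0, by simp⟩
  choose σ hσ using hΦ
  have := Fintype.ofFinite (A ⧸ Ideal.span {d})
  have h4 : (4 : K) ≠ 0 := left_ne_zero_of_mul hm
  have h5 : j m ≠ 0 := right_ne_zero_of_mul hm
  have key : ∀ x : G, ∑ c : A ⧸ Ideal.span {d}, ψ (Φ (x + σ (2 * m * c.out)) ^ 2 / (4 * j m)) =
      ψ (Φ x ^ 2 / (4 * j m)) *
        if ∃ a, j a = Φ x then (Fintype.card (A ⧸ Ideal.span {d}) : ℂ) else 0 := fun x => by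
    have e := sum_out_char (Ideal.span {d}) (β := fun a => ψ (Φ x * j a))
      (fun a b => by rw [map_add, mul_add, hψ]) (fun a ha => by
        obtain ⟨b, rfl⟩ := Ideal.mem_span_singleton'.1 ha
        obtain ⟨a', ha'⟩ := hdΦ x
        rw [map_mul, show Φ x * (j b * j d) = j b * (j d * Φ x) by ring, ha', ← map_mul, h1])
    have e2 : (∀ a, ψ (Φ x * j a) = 1) ↔ ∃ a, j a = Φ x :=
      ⟨hd _, fun ⟨b, hb⟩ a => by rw [← hb, ← map_mul, h1]⟩
    simp only [e2] at e
    rw [← e, Finset.mul_sum]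
    refine Finset.sum_congr rfl fun c _ => ?_
    rw [← hψ, ← mul_one (ψ (_ + _)), ← h1 (m * c.out ^ 2), ← hψ, map_add, hσ]
    congr 1
    simp only [map_mul, map_pow, map_ofNat]
    field_simp
    ring
  let ι' := {i // ∃ a, j a = Φ (s i)}
  have : Nonempty ι' := ⟨⟨i0, hi0⟩⟩
  have c1 : (0 : ℝ) < Fintype.card ι := Nat.cast_pos.2 (Fintype.card_pos_iff.2 ⟨i0⟩)
  have c2 : (0 : ℝ) < Fintype.card ι' := Nat.cast_pos.2 Fintype.card_pos
  have c3 : (Fintype.card (A ⧸ Ideal.span {d}) : ℂ) ≠ 0 := Nat.cast_ne_zero.2 Fintype.card_ne_zero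
  have c4 : (Fintype.card ι' : ℂ) ≠ 0 := Nat.cast_ne_zero.2 Fintype.card_ne_zero
  refine ⟨Fintype.card ι / Fintype.card ι', div_pos c1 c2, ι', inferInstance, inferInstance,
    fun i => i.2.choose, fun y => ?_⟩
  have e : ∑ c : A ⧸ Ideal.span {d}, ∑ i, ψ (Φ (s i + (σ y + σ (2 * m * c.out))) ^ 2 / (4 * j m)) =
      ∑ i, ∑ c : A ⧸ Ideal.span {d}, ψ (Φ (s i + σ y + σ (2 * m * c.out)) ^ 2 / (4 * j m)) := by
    rw [Finset.sum_comm]
    simp only [add_assoc]
  have e2 : ∀ i, (∃ a, j a = Φ (s i + σ y)) ↔ ∃ a, j a = Φ (s i) := fun i => by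
    rw [map_add, hσ]
    exact ⟨fun ⟨a, ha⟩ => ⟨a - y, by rw [map_sub, ha, add_sub_cancel_right]⟩,
      fun ⟨a, ha⟩ => ⟨a + y, by rw [map_add, ha]⟩⟩
  simp only [hs, key, e2, Finset.sum_const, Finset.card_univ, nsmul_eq_mul, mul_ite, mul_zero] at e
  rw [← Finset.sum_filter, ← Finset.sum_mul, Finset.sum_subtype (p := fun i => ∃ a, j a = Φ (s i)) _
    (by simp)] at e
  have e3 : ∀ i : ι', ψ (j (i.2.choose + y) ^ 2 / (4 * j m)) = ψ (Φ (s i + σ y) ^ 2 / (4 * j m)) :=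
    fun i => by rw [map_add, map_add, i.2.choose_spec, hσ]
  simp only [e3]
  apply mul_left_cancel₀ c3
  push_cast
  rw [mul_comm _ (∑ _, _), ← e]
  field_simp

/-- `exp(2πi q)` -/
def E (q : ℚ) : ℂ := cexp (2 * π * I * (q : ℂ))

theorem E_add (p q : ℚ) : E (p + q) = E p * E q := by
  unfold E
  rw [← Complex.exp_add]
  push_cast
  ring_nf

theorem E_int (n : ℤ) : E n = 1 := by
  unfold E
  rw [← Complex.exp_int_mul_two_pi_mul_I n]
  push_cast
  ring_nf

theorem E_neg (q : ℚ) : E (-q) = conj (E q) := by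
  unfold E
  rw [← Complex.exp_conj]
  congr 1
  simp only [map_mul, conj_ofReal, conj_I, map_ratCast, map_ofNat]
  push_cast
  ring

theorem E_eq_one {q : ℚ} (h : E q = 1) : ∃ n : ℤ, q = n := by
  obtain ⟨n, hn⟩ := Complex.exp_eq_one_iff.1 h
  refine ⟨n, ?_⟩
  have : (q : ℂ) = n := mul_left_cancel₀ Complex.two_pi_I_ne_zero (by rw [hn]; ring)
  exact_mod_cast this

theorem E_sum {ι : Type} (s : Finset ι) (q : ι → ℚ) : E (∑ i ∈ s, q i) = ∏ i ∈ s, E (q i) := by
  unfold E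
  rw [← Complex.exp_sum]
  push_cast
  rw [Finset.mul_sum]

theorem summable_gau {a : ℂ} (ha : 0 < a.re) (b : ℂ) :
    Summable fun n : ℤ => cexp (-π * a * n ^ 2 + 2 * π * b * n) := by
  refine ((summable_jacobiTheta₂_term_iff (-I * b) (I * a)).2 (by simpa using ha)).congr fun n => ?_
  unfold jacobiTheta₂_term
  congr 1
  linear_combination (π * a * n ^ 2 - 2 * π * b * n) * I_sq

theorem re_sqrt {a : ℂ} (ha : 0 < a.re) : |(a ^ (1 / 2 : ℂ)).im| < (a ^ (1 / 2 : ℂ)).re := by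
  rw [one_div, abs_cpow_inv_two_im, cpow_inv_two_re]
  exact Real.sqrt_lt_sqrt (by linarith [re_le_norm a]) (by linarith)

theorem sum_shift {N : ℕ} {f : ℤ → ℂ} (hf : ∀ x, f (x + N) = f x) (g : ℤ) :
    ∑ r : Fin N, f (r + g) = ∑ r : Fin N, f r := by
  have h : ∀ g : ℤ, ∑ r : Fin N, f (r + (g + 1)) = ∑ r : Fin N, f (r + g) := fun g => by
    rw [Fin.sum_univ_eq_sum_range (fun r : ℕ => f (r + (g + 1))),
      Fin.sum_univ_eq_sum_range (fun r : ℕ => f (r + g))]
    have h1 := Finset.sum_range_succ (fun r : ℕ => f (r + g)) N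
    rw [Finset.sum_range_succ', add_comm (N : ℤ), hf] at h1
    simp only [Nat.cast_zero, zero_add, add_left_inj] at h1
    rw [← h1]
    refine Finset.sum_congr rfl fun r _ => ?_
    congr 1
    push_cast
    ring
  induction g using Int.induction_on with
  | zero => simp
  | succ n ih => rw [h, ih]
  | pred n ih => rw [← h, sub_add_cancel, ih]

/-- the phase of the classical quadratic Gauss sum -/
theorem gauss1 {k : ℕ} (hk : k ≠ 0) :
    ∃ t : ℝ, 0 < t ∧ HM (fun x : ℤ => E (x ^ 2 / (4 * k))) (t * (1 + I)) := by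
  have : NeZero (2 * k) := ⟨by omega⟩
  have hkQ : (k : ℚ) ≠ 0 := Nat.cast_ne_zero.2 hk
  have hkC : (k : ℂ) ≠ 0 := Nat.cast_ne_zero.2 hk
  have hkR : (0 : ℝ) < k := Nat.cast_pos.2 (Nat.pos_of_ne_zero hk)
  obtain ⟨f, hf⟩ : ∃ f : ℤ → ℂ, f = fun x : ℤ => E (x ^ 2 / (4 * k)) := ⟨_, rfl⟩
  have hper : ∀ x, f (x + (2 * k : ℕ)) = f x := fun x => by
    simp only [hf]
    rw [← mul_one (E (x ^ 2 / _)), ← E_int (x + k), ← E_add]
    congr 1
    push_cast
    field_simp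
    ring
  obtain ⟨G, hG⟩ : ∃ G, G = ∑ r : Fin (2 * k), f r := ⟨_, rfl⟩
  suffices h : ∃ t : ℝ, 0 < t ∧ G = t * (1 + I) by
    obtain ⟨t, ht, e⟩ := h
    refine ⟨t / (2 * k), by positivity, Fin (2 * k), inferInstance, inferInstance, fun r => r, fun g => ?_⟩
    have := sum_shift hper g
    rw [← hG, e] at this
    simp only [hf] at this
    rw [this, Fintype.card_fin]
    push_cast
    field_simp
  obtain ⟨a, ha⟩ : ∃ a : ℂ, a = (1 - 2 * k * I) / (4 * k ^ 2) := ⟨_, rfl⟩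
  obtain ⟨b, hb⟩ : ∃ b : ℂ, b = 1 + I / (2 * k) := ⟨_, rfl⟩
  have ha0 : 0 < a.re := by
    rw [ha, show (4 * k ^ 2 : ℂ) = ((4 * k ^ 2 : ℝ) : ℂ) by push_cast; rfl, div_ofReal_re]
    simp only [sub_re, one_re, mul_re, re_ofNat, natCast_re, im_ofNat, natCast_im, mul_zero, sub_zero,
      I_re, mul_im, zero_mul, add_zero, I_im]
    positivity
  have hb1 : b.re = 1 := by
    rw [hb, show (2 * k : ℂ) = ((2 * k : ℝ) : ℂ) by push_cast; rfl, add_re, div_ofReal_re]
    simp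
  have hb0 : 0 < b.re := by rw [hb1]; exact one_pos
  have ha1 : a ≠ 0 := fun h => by simp [h] at ha0
  have hb2 : b ≠ 0 := fun h => by simp [h] at hb0
  have hab : b = 2 * k * I * a := by
    rw [ha, hb]
    field_simp
    linear_combination (8 * k) * I_sq
  -- `θ(a) = G θ(b)`
  have h1 : ∑' n : ℤ, cexp (-π * a * n ^ 2) = G * ∑' n : ℤ, cexp (-π * b * n ^ 2) := by
    have s1 : Summable fun n : ℤ => cexp (-π * a * n ^ 2) := by simpa using summable_gau ha0 0
    have s2 := (Int.divModEquiv (2 * k)).symm.summable_iff.2 s1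
    have s3 := (Equiv.prodComm _ _).summable_iff.2 s2
    rw [← (Int.divModEquiv (2 * k)).symm.tsum_eq, ← (Equiv.prodComm _ _).tsum_eq]
    refine s3.tsum_prod.trans ?_
    rw [tsum_fintype]
    have e1 : ∀ r : Fin (2 * k), ∑' m : ℤ, cexp (-π * a * ((m * (2 * k : ℕ) + r : ℤ) : ℂ) ^ 2) =
        ∑' n : ℤ, f r * cexp (-π * 1 * n ^ 2 + 2 * π * (-I * r / (2 * k)) * n) := fun r => by
      rw [tsum_mul_left, tsum_exp_neg_quadratic (by simp), one_cpow, div_one, one_mul, ← tsum_mul_left]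
      refine tsum_congr fun m => ?_
      simp only [hf, E]
      rw [← Complex.exp_add, ha]
      refine Complex.exp_eq_exp_iff_exists_int.2 ⟨m * r + k * m ^ 2, ?_⟩
      push_cast
      field_simp
      ring_nf
      simp only [I_pow_four, I_sq]
      ring
    refine (Finset.sum_congr rfl fun r _ => e1 r).trans ?_
    rw [← Summable.tsum_finsetSum fun r _ => (summable_gau (a := 1) (by simp) _).mul_left _, ← tsum_mul_left]
    refine tsum_congr fun n => ?_
    rw [hG, ← sum_shift hper (-n), Finset.sum_mul]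
    refine Finset.sum_congr rfl fun r _ => ?_
    simp only [hf, E]
    rw [← Complex.exp_add, ← Complex.exp_add, hb]
    congr 1
    push_cast
    field_simp
    ring
  have h2 : ∑' n : ℤ, cexp (-π / a * n ^ 2) = ∑' n : ℤ, cexp (-π / b * n ^ 2) := tsum_congr fun n => by
    refine Complex.exp_eq_exp_iff_exists_int.2 ⟨-k * n ^ 2, ?_⟩
    have : 1 / a = 2 * k * I + 1 / b := by
      have h3 : 2 * k * I * b = 2 * k * I - 1 := by
        rw [hb]
        field_simp
        linear_combination I_sq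
      field_simp
      linear_combination hab - a * h3
    push_cast
    linear_combination (-π * n ^ 2) * this
  have h3 : ∑' n : ℤ, cexp (-π * b * n ^ 2) ≠ 0 := fun h => by
    have e : jacobiTheta (I * b) = ∑' n : ℤ, cexp (-π * b * n ^ 2) := tsum_congr fun n => by
      congr 1
      linear_combination (π * b * n ^ 2) * I_sq
    have h4 := norm_jacobiTheta_sub_one_le (τ := I * b) (by simpa using hb0)
    rw [e, h, show (I * b).im = 1 by simpa using hb1, zero_sub, norm_neg, norm_one, mul_one] at h4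
    have h5 : Real.exp (-π) < 1 / 3 := by
      rw [Real.exp_neg, ← one_div]
      exact one_div_lt_one_div_of_lt (by norm_num) (by linarith [Real.add_one_le_exp π, Real.pi_gt_three])
    rw [div_mul_eq_mul_div, le_div_iff₀ (by linarith)] at h4
    linarith
  rw [tsum_exp_neg_mul_int_sq ha0, h2] at h1
  have h4 := tsum_exp_neg_mul_int_sq hb0
  obtain ⟨u, hu⟩ : ∃ u, u = a ^ (1 / 2 : ℂ) := ⟨_, rfl⟩
  obtain ⟨v, hv⟩ : ∃ v, v = b ^ (1 / 2 : ℂ) := ⟨_, rfl⟩
  have u1 := re_sqrt ha0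
  have v1 := re_sqrt hb0
  have u2 : u ^ 2 = a := by rw [hu, one_div]; exact cpow_ofNat_inv_pow a 2
  have v2 : v ^ 2 = b := by rw [hv, one_div]; exact cpow_ofNat_inv_pow b 2
  rw [← hu] at h1 u1
  rw [← hv] at h4 v1
  have u3 : u ≠ 0 := fun h => ha1 (by rw [← u2, h]; simp)
  have v3 : v ≠ 0 := fun h => hb2 (by rw [← v2, h]; simp)
  have h5 : G * u = v := by
    apply mul_right_cancel₀ h3
    rw [mul_right_comm, ← h1, h4]
    field_simp
  have h6 : G ^ 2 = 2 * k * I := mul_right_cancel₀ ha1 (by rw [← hab, ← v2, ← h5, ← u2]; ring)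
  have h7 : 0 < G.re := by
    rw [eq_div_of_mul_eq u3 h5, div_re, ← add_div]
    refine div_pos ?_ (normSq_pos.2 u3)
    have := mul_lt_mul'' v1 u1 (abs_nonneg _) (abs_nonneg _)
    rw [← abs_mul] at this
    linarith [neg_abs_le (v.im * u.im)]
  have h8 := congrArg re h6
  have h9 := congrArg im h6
  simp only [pow_two, mul_re, mul_im, re_ofNat, natCast_re, im_ofNat, natCast_im, I_re, I_im] at h8 h9
  have h10 : 0 < G.im := by nlinarith
  refine ⟨G.re, h7, Complex.ext (by simp) ?_⟩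
  simp only [mul_im, ofReal_re, add_im, one_im, I_im, zero_add, mul_one, ofReal_im, zero_mul, add_zero]
  nlinarith

end Crest.Agent.R312.LS
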