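import Crest.Agent.R312.BDefs
import Crest.Agent.R312.B3LSa

/-!
# R312 / B3LSb : the mean of `eT(y²/4m)` over `𝓞 K` is a positive real number

Diagonalise `x ↦ Tr(x²/(4mδ))` over `ℚ`; its signature is `0` (multiplication by `√-3`), so on a
suitable diagonal lattice containing `𝓞 K` the mean is a product of one-dimensional Gauss sums whose
phases cancel.
-/

set_option autoImplicit false

noncomputable section

open scoped Classical ComplexConjugate NumberField
open Complex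

namespace Crest.Agent.R312.LS

theorem gauss2 {w : ℚ} (hw : w ≠ 0) {u : ℕ} (hu : u ≠ 0) : ∃ t : ℝ, 0 < t ∧
    HM (fun x : ℤ => E (w * (x / (2 * w.num * u)) ^ 2)) (t * if 0 < w then 1 + I else 1 - I) := by
  have hn : w.num ≠ 0 := Rat.num_ne_zero.2 hw
  have hn' : (w.num : ℚ) ≠ 0 := Int.cast_ne_zero.2 hn
  have hd : (w.den : ℚ) ≠ 0 := Nat.cast_ne_zero.2 w.den_nz
  have hu' : (u : ℚ) ≠ 0 := Nat.cast_ne_zero.2 hu
  obtain ⟨t, ht, h⟩ := gauss1 (k := w.den * w.num.natAbs * u ^ 2)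
    (mul_ne_zero (mul_ne_zero w.den_nz (Int.natAbs_ne_zero.2 hn)) (pow_ne_zero 2 hu))
  have e : ∀ x : ℤ, w * (x / (2 * w.num * u)) ^ 2 = x ^ 2 / (4 * (w.den * w.num * u ^ 2)) := fun x => by
    nth_rewrite 1 [← Rat.num_div_den w]
    field_simp
    ring
  refine ⟨t, ht, ?_⟩
  simp only [e]
  simp only [Nat.cast_mul, Nat.cast_pow, Nat.cast_natAbs, Int.cast_abs] at h
  split_ifs with h0
  · rwa [abs_of_pos (Int.cast_pos.2 (Rat.num_pos.2 h0))] at h
  · have h1 := h.conj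
    rw [abs_of_nonpos (Int.cast_nonpos.2 (Rat.num_nonpos.2 (not_lt.1 h0)))] at h1
    simp only [← E_neg, map_mul, conj_ofReal, map_add, map_one, conj_I, ← sub_eq_add_neg] at h1
    simpa only [mul_neg, neg_mul, div_neg, neg_neg] using h1

theorem sig_le {V : Type} [AddCommGroup V] [Module ℚ V] [Module.Finite ℚ V] (Q : QuadraticForm ℚ V)
    (J : V ≃ₗ[ℚ] V) (hJ : ∀ x, Q (J x) = -3 * Q x) : sigPos Q ≤ sigNeg Q := by
  obtain ⟨P, h1, h2⟩ := exists_finrank_eq_sigPos_and_posDef Q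
  rw [← h1, ← J.finrank_map_eq P]
  refine le_sigNeg_of_negDef Q ?_
  rintro ⟨_, x, hx, rfl⟩ h0
  have h3 := h2 ⟨x, hx⟩ fun h => h0 (Subtype.ext (by simpa using h))
  have h4 := hJ x
  simp only [QuadraticMap.restrict_apply, neg_apply, LinearEquiv.coe_coe] at h3 ⊢
  linarith

variable {K : Type} [Field K] [NumberField K] [Fld K]

theorem diag {c : K} (hc : c ≠ 0) : ∃ (n : ℕ) (e : K ≃ₗ[ℚ] (Fin n → ℚ)) (w : Fin n → ℚ),
    (∀ i, w i ≠ 0) ∧ {i | 0 < w i}.ncard = {i | w i < 0}.ncard ∧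
    ∀ x, Algebra.trace ℚ K (c * x ^ 2) = ∑ i, w i * e x i ^ 2 := by
  let B : LinearMap.BilinForm ℚ K := (Algebra.traceForm ℚ K).compl₁₂ (LinearMap.mulLeft ℚ c) LinearMap.id
  have hB : ∀ x y, B x y = Algebra.trace ℚ K (c * x * y) := fun x y => rfl
  let Q : QuadraticForm ℚ K := B.toQuadraticMap
  have hQ : ∀ x, Q x = Algebra.trace ℚ K (c * x ^ 2) := fun x => by
    rw [pow_two, ← mul_assoc]
    rfl
  obtain ⟨w, he⟩ := Q.equivalent_weightedSumSquares_units_of_nondegenerate' (by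
    rw [show QuadraticMap.associated (R := ℚ) Q = B from
      QuadraticMap.associated_left_inverse ℚ fun x y => by rw [hB, hB, mul_right_comm]]
    intro x hx
    exact (mul_eq_zero.1 ((traceForm_nondegenerate ℚ K).1 (c * x) hx)).resolve_left hc)
  have he' : QuadraticMap.Equivalent Q (QuadraticMap.weightedSumSquares ℚ fun i => (w i : ℚ)) := he
  have hθ : (1 + 2 * ((Fld.om : 𝓞 K) : K)) ^ 2 = -3 := by
    have h : ((Fld.om : 𝓞 K) : K) ^ 2 + ((Fld.om : 𝓞 K) : K) + 1 = 0 := by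
      exact_mod_cast congrArg (fun x : 𝓞 K => (x : K)) Fld.om_eq
    linear_combination 4 * h
  have hθ0 : 1 + 2 * ((Fld.om : 𝓞 K) : K) ≠ 0 := fun h => by
    rw [h] at hθ
    norm_num at hθ
  let J : K ≃ₗ[ℚ] K := (LinearEquiv.smulOfNeZero K K _ hθ0).restrictScalars ℚ
  have hJ : ∀ x, Q (J x) = -3 * Q x := fun x => by
    rw [hQ, hQ, show J x = (1 + 2 * ((Fld.om : 𝓞 K) : K)) * x from rfl, mul_pow, hθ, ← smul_eq_mul (-3 : ℚ),
      ← map_smul, Algebra.smul_def]
    congr 1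
    simp only [map_neg, map_ofNat]
    ring
  have h1 := sig_le Q J hJ
  have h2 := sig_le (-Q) J fun x => by simp only [neg_apply, hJ]; ring
  rw [sigPos_neg, sigNeg_neg] at h2
  have h3 := le_antisymm h1 h2
  rw [QuadraticForm.sigPos_of_equiv_weightedSumSquares he',
    QuadraticForm.sigNeg_of_equiv_weightedSumSquares he'] at h3
  obtain ⟨e⟩ := he'
  refine ⟨_, e.toLinearEquiv, fun i => w i, fun i => (w i).ne_zero, h3, fun x => ?_⟩
  rw [← hQ, ← e.map_app, QuadraticMap.weightedSumSquares_apply]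
  simp only [smul_eq_mul, pow_two]
  rfl

theorem eT_eq (x : K) : eT x = E (Algebra.trace ℚ K (x / ((Fld.δ : 𝓞 K) : K))) := rfl

theorem eT_add (x y : K) : eT (x + y) = eT x * eT y := by
  rw [eT_eq, add_div, map_add, E_add, eT_eq, eT_eq]

theorem eT_int {x : K} (hx : IsIntegral ℤ x) : eT x = 1 := by
  obtain ⟨n, hn⟩ := (Fld.dual x).2 hx 1
  rw [eT_eq, ← E_int n, ← hn]
  simp

theorem eT_dual {x : K} (h : ∀ a : 𝓞 K, eT (x * a) = 1) : IsIntegral ℤ x :=
  (Fld.dual x).1 fun y => E_eq_one (h y)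

theorem norm_eT (x : K) : eT x * conj (eT x) = 1 := by
  rw [eT_eq, ← E_neg, ← E_add, add_neg_cancel]
  exact_mod_cast E_int 0

omit [Fld K] in
theorem finite_quot {d : 𝓞 K} (hd : d ≠ 0) : Finite (𝓞 K ⧸ Ideal.span {d}) :=
  Ideal.finiteQuotientOfFreeOfNeBot _ (by simpa using hd)

theorem pos_mean {m : 𝓞 K} (hm : m ≠ 0) :
    ∃ t : ℝ, 0 < t ∧ HM (fun y : 𝓞 K => eT ((y : K) ^ 2 / (4 * (m : K)))) t := by
  have hm' : (4 : K) * m ≠ 0 := mul_ne_zero (by norm_num) (by exact_mod_cast hm)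
  have hδ : ((Fld.δ : 𝓞 K) : K) ≠ 0 := by exact_mod_cast Fld.δ_ne
  obtain ⟨n, e, w, hw, hs, he⟩ := diag (c := (4 * (m : K) * (Fld.δ : 𝓞 K))⁻¹) (inv_ne_zero (mul_ne_zero hm' hδ))
  let b := NumberField.RingOfIntegers.basis K
  obtain ⟨u, hu, hub⟩ : ∃ u : ℕ, u ≠ 0 ∧ ∀ j i, ∃ z : ℤ, (z : ℚ) = u * e (b j : K) i := by
    obtain ⟨u, hu⟩ := IsLocalization.exist_integer_multiples_of_finite (nonZeroDivisors ℤ)
      (fun p : _ × Fin n => e (b p.1 : K) p.2)
    refine ⟨(u : ℤ).natAbs, Int.natAbs_ne_zero.2 (nonZeroDivisors.coe_ne_zero u), fun j i => ?_⟩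
    obtain ⟨z, hz⟩ := hu (j, i)
    refine ⟨(u : ℤ).sign * z, ?_⟩
    rw [Nat.cast_natAbs, ← Int.sign_mul_self_eq_abs]
    simp only [eq_intCast, zsmul_eq_mul] at hz
    push_cast
    rw [hz, mul_assoc]
  have hu' : (u : ℚ) ≠ 0 := Nat.cast_ne_zero.2 hu
  have hn : ∀ i, ((w i).num : ℚ) ≠ 0 := fun i => Int.cast_ne_zero.2 (Rat.num_ne_zero.2 (hw i))
  let Φ : (Fin n → ℤ) →+ K := AddMonoidHom.mk' (fun x => e.symm fun i => x i / (2 * (w i).num * u))
    fun x y => by
      rw [← map_add]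
      congr 1
      ext i
      simp [add_div]
  have hΦ : ∀ x i, e (Φ x) i = x i / (2 * (w i).num * u) := fun x i => by simp [Φ]
  choose t ht h using fun i => gauss2 (hw i) hu
  have h1 := HM.pi h
  have h2 : ∏ i, ((t i : ℂ) * if 0 < w i then 1 + I else 1 - I) =
      (((∏ i, t i) * 2 ^ {i | 0 < w i}.ncard : ℝ) : ℂ) := by
    have a1 : (Finset.univ.filter fun i => 0 < w i).card = {i | 0 < w i}.ncard := by
      rw [← Set.ncard_coe_finset]
      simp
    have a2 : (Finset.univ.filter fun i => ¬ 0 < w i).card = {i | 0 < w i}.ncard := by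
      rw [← Set.ncard_coe_finset, hs]
      congr 1
      ext i
      simpa using ⟨fun h => lt_of_le_of_ne h (hw i), le_of_lt⟩
    rw [Finset.prod_mul_distrib, Finset.prod_ite, Finset.prod_const, Finset.prod_const, a1, a2, ← mul_pow,
      show (1 + I) * (1 - I) = 2 by linear_combination -I_sq]
    push_cast
    rfl
  have h3 : (fun x : Fin n → ℤ => ∏ i, E (w i * (x i / (2 * (w i).num * u)) ^ 2)) =
      fun x => eT (Φ x ^ 2 / (4 * algebraMap (𝓞 K) K m)) := funext fun x => by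
    rw [← E_sum, eT_eq, div_div, div_eq_inv_mul (Φ x ^ 2)]
    simp only [← hΦ, ← he]
  rw [h2, h3] at h1
  obtain ⟨d, hd, hd'⟩ := exists_integral_multiples ℤ ℚ (Finset.univ.image fun i => Φ (Pi.single i 1))
  have := finite_quot (K := K) (d := d) (Int.cast_ne_zero.2 hd)
  obtain ⟨s, hs0, h4⟩ := smooth eT_add (algebraMap (𝓞 K) K) (fun a => eT_int a.isIntegral_coe)
    (fun x hx => ⟨⟨x, eT_dual hx⟩, rfl⟩) Φ (fun a => by
      change algebraMap (𝓞 K) K a ∈ Φ.range
      rw [← b.sum_repr a, map_sum]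
      refine sum_mem fun j _ => ?_
      rw [map_zsmul]
      refine zsmul_mem ?_ _
      choose z hz using hub j
      refine ⟨fun i => 2 * (w i).num * z i, e.injective (funext fun i => ?_)⟩
      rw [hΦ]
      have := hn i
      push_cast
      rw [hz]
      field_simp) d (fun g => by
      suffices h : algebraMap (𝓞 K) K d * Φ g ∈ integralClosure ℤ K from ⟨⟨_, h⟩, rfl⟩
      rw [← Finset.univ_sum_single g, map_sum, Finset.mul_sum]
      refine sum_mem fun i _ => ?_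
      rw [show Pi.single i (g i) = g i • (Pi.single i 1 : Fin n → ℤ) by simp [← Pi.single_smul], map_zsmul,
        mul_smul_comm]
      refine zsmul_mem ?_ _
      rw [mem_integralClosure_iff]
      simpa using hd' _ (Finset.mem_image_of_mem _ (Finset.mem_univ i))) m hm' h1
  refine ⟨s * ((∏ i, t i) * 2 ^ {i | 0 < w i}.ncard), mul_pos hs0 (mul_pos (Finset.prod_pos fun i _ => ht i)
    (by positivity)), ?_⟩
  rw [ofReal_mul]
  exact h4

end Crest.Agent.R312.LS
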