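import Crest.Agent.R312.B3LSb

/-!
# R312 / B3LSc : the characters `ee`, `eS`; `gam` as a mean, `|gam| = 1`, `gam (n t²) = gam n`
-/

set_option autoImplicit false

noncomputable section

open scoped Classical ComplexConjugate NumberField
open Complex

namespace Crest.Agent.R312.LS

theorem nat_split (Q : ℕ) {d : ℕ} (hd : d ≠ 0) : ∃ b k : ℕ, b.Coprime Q ∧ d ∣ b * Q ^ k := by
  induction d using induction_on_primes with
  | zero => exact (hd rfl).elim
  | one => exact ⟨1, 0, by simp, by simp⟩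
  | prime_mul p a hp ih =>
    obtain ⟨b, k, h1, h2⟩ := ih (right_ne_zero_of_mul hd)
    by_cases h : p ∣ Q
    · exact ⟨b, k + 1, h1, by rw [pow_succ, ← mul_assoc, mul_comm p]; exact mul_dvd_mul h2 h⟩
    · exact ⟨p * b, k, Nat.Coprime.mul_left ((Nat.Prime.coprime_iff_not_dvd hp).2 h) h1,
        by rw [mul_assoc]; exact mul_dvd_mul_left p h2⟩

theorem bezout {A : Type} [CommRing A] {b Q : ℕ} (h : b.Coprime Q) (k : ℕ) :
    ∃ α β : ℤ, (α : A) * b + β * (Q : A) ^ k = 1 := by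
  obtain ⟨α, β, e⟩ := Nat.isCoprime_iff_coprime.2 (h.pow_right k)
  refine ⟨α, β, ?_⟩
  have := congrArg (Int.cast : ℤ → A) e
  push_cast at this
  exact this

theorem int_mul {K : Type} [Field K] (α : ℤ) {x : K} (h : IsIntegral ℤ x) : IsIntegral ℤ ((α : K) * x) :=
  (isIntegral_algebraMap (R := ℤ) (x := α)).mul h

theorem nat_mul {K : Type} [Field K] (α : ℕ) {x : K} (h : IsIntegral ℤ x) : IsIntegral ℤ ((α : K) * x) := by
  simpa using int_mul α h

theorem phase {z w : ℂ} {s t : ℝ} (hs : 0 < s) (ht : 0 < t) (hz : ‖z‖ = 1) (hw : ‖w‖ = 1)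
    (h : s * z = t * w) : z = w := by
  have h1 := congrArg norm h
  rw [norm_mul, norm_mul, hz, hw, norm_real, norm_real, Real.norm_of_nonneg hs.le,
    Real.norm_of_nonneg ht.le, mul_one, mul_one] at h1
  rw [h1] at h
  exact mul_left_cancel₀ (ofReal_ne_zero.2 ht.ne') h

variable {K : Type} [Field K] [Loc K]

variable (K) in
/-- the semilocal ring of `S`-integral elements -/
def SR : Subring K where
  carrier := {x | SInt x}
  one_mem' := ⟨1, by simp, by simpa using isIntegral_one⟩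
  zero_mem' := ⟨1, by simp, by simpa using isIntegral_zero⟩
  mul_mem' := by
    rintro x y ⟨a, ha, hx⟩ ⟨b, hb, hy⟩
    refine ⟨a * b, Nat.Coprime.mul_left ha hb, ?_⟩
    have := hx.mul hy
    rwa [mul_mul_mul_comm, ← Nat.cast_mul] at this
  add_mem' := by
    rintro x y ⟨a, ha, hx⟩ ⟨b, hb, hy⟩
    refine ⟨a * b, Nat.Coprime.mul_left ha hb, ?_⟩
    have := (nat_mul b hx).add (nat_mul a hy)
    rwa [show (b : K) * (a * x) + a * (b * y) = ((a * b : ℕ) : K) * (x + y) by push_cast; ring] at this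
  neg_mem' := by
    rintro x ⟨a, ha, hx⟩
    exact ⟨a, ha, by rw [mul_neg]; exact hx.neg⟩

theorem mem_SR {x : K} : x ∈ SR K ↔ SInt x := Iff.rfl

theorem mem_R {x : K} : x ∈ RR K (Loc.Q K) ↔ ∃ n : ℕ, IsIntegral ℤ ((Loc.Q K : K) ^ n * x) := Iff.rfl

theorem int_of {x : K} (h1 : x ∈ RR K (Loc.Q K)) (h2 : x ∈ SR K) : IsIntegral ℤ x := by
  obtain ⟨n, hn⟩ := h1
  obtain ⟨b, hb, hx⟩ := h2
  obtain ⟨α, β, e⟩ := bezout (A := K) hb n
  have := (int_mul α hx).add (int_mul β hn)
  rwa [← mul_assoc, ← mul_assoc, ← add_mul, e, one_mul] at this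

theorem R_of_int {x : K} (h : IsIntegral ℤ x) : x ∈ RR K (Loc.Q K) := ⟨0, by simpa using h⟩

theorem S_of_int {x : K} (h : IsIntegral ℤ x) : x ∈ SR K := ⟨1, by simp, by simpa using h⟩

variable [NumberField K]

theorem den (x : K) : ∃ b k : ℕ, b.Coprime (Loc.Q K) ∧ IsIntegral ℤ ((b : K) * (Loc.Q K : K) ^ k * x) := by
  obtain ⟨d, hd, h⟩ := exists_integral_multiples ℤ ℚ {x}
  obtain ⟨b, k, hb, h2⟩ := nat_split (Loc.Q K) (Int.natAbs_ne_zero.2 hd)
  obtain ⟨c, hc⟩ := Int.natAbs_dvd.1 (Int.natCast_dvd_natCast.2 h2)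
  refine ⟨b, k, hb, ?_⟩
  have h3 := int_mul c (h x (Finset.mem_singleton_self x))
  have h4 := congrArg (Int.cast : ℤ → K) hc
  push_cast at h4
  rwa [zsmul_eq_mul, ← mul_assoc, mul_comm (c : K), ← h4] at h3

theorem exists_dec (x : K) : ∃ r : R K, SInt (x - r) := by
  obtain ⟨b, k, hb, h⟩ := den x
  obtain ⟨α, β, e⟩ := bezout (A := K) hb k
  refine ⟨⟨α * b * x, k, ?_⟩, b, hb, ?_⟩
  · convert int_mul α h using 1
    ring
  · convert int_mul β h using 1
    linear_combination (-(b : K) * x) * e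

variable (K) in
/-- `𝓞 K → R K` -/
def toR : 𝓞 K →+* R K := (algebraMap (𝓞 K) K).codRestrict _ fun y => R_of_int y.isIntegral_coe

variable (K) in
/-- `𝓞 K → SR K` -/
def toS : 𝓞 K →+* SR K := (algebraMap (𝓞 K) K).codRestrict _ fun y => S_of_int y.isIntegral_coe

omit [NumberField K] in
@[simp] theorem coe_toR (y : 𝓞 K) : ((toR K y : R K) : K) = y := rfl

omit [NumberField K] in
@[simp] theorem coe_toS (y : 𝓞 K) : ((toS K y : SR K) : K) = y := rfl

theorem dvd_nat {n : R K} (hn : n ≠ 0) : ∃ b : ℕ, b.Coprime (Loc.Q K) ∧ n ∣ b := by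
  have hn' : (n : K) ≠ 0 := by simpa using hn
  obtain ⟨b, k, hb, h⟩ := den (n : K)⁻¹
  refine ⟨b, hb, ⟨b * (n : K)⁻¹, k, by convert h using 1; ring⟩, Subtype.ext ?_⟩
  push_cast
  field_simp

theorem approxR {n : R K} (hn : n ≠ 0) (r : R K) : ∃ y : 𝓞 K, n ∣ r - toR K y := by
  obtain ⟨b, hb, h⟩ := dvd_nat hn
  obtain ⟨k, hk⟩ := r.2
  obtain ⟨α, β, e⟩ := bezout (A := K) hb k
  refine ⟨⟨_, int_mul β hk⟩, h.trans ⟨α * r, Subtype.ext ?_⟩⟩
  push_cast
  change (r : K) - β * ((Loc.Q K : K) ^ k * r) = _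
  linear_combination (-(r : K)) * e

omit [NumberField K] in
theorem approxS (P : ℕ) (s : SR K) : ∃ y : 𝓞 K, (Loc.Q K : SR K) ^ P ∣ s - toS K y := by
  obtain ⟨b, hb, h⟩ := s.2
  obtain ⟨α, β, e⟩ := bezout (A := K) hb P
  refine ⟨⟨_, int_mul α h⟩, β * s, Subtype.ext ?_⟩
  push_cast
  change (s : K) - α * (b * s) = _
  linear_combination (-(s : K)) * e

theorem finite_R {n : R K} (hn : n ≠ 0) : Finite (R K ⧸ Ideal.span {n}) := by
  let φ := (Ideal.Quotient.mk (Ideal.span {n})).comp (toR K)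
  have hφ : Function.Surjective φ := fun c => by
    obtain ⟨r, rfl⟩ := Ideal.Quotient.mk_surjective c
    obtain ⟨y, hy⟩ := approxR hn r
    exact ⟨y, (Ideal.Quotient.eq.2 (Ideal.mem_span_singleton.2 hy)).symm⟩
  obtain ⟨b, hb, h⟩ := dvd_nat hn
  have hb0 : b ≠ 0 := by
    rintro rfl
    have := Loc.six_dvd (K := K)
    rw [Nat.coprime_zero_left _ |>.1 hb] at this
    omega
  have : Finite (𝓞 K ⧸ RingHom.ker φ) := Ideal.finiteQuotientOfFreeOfNeBot _ fun h0 => by
    have : (b : 𝓞 K) ∈ RingHom.ker φ := by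
      rw [RingHom.mem_ker, RingHom.comp_apply, map_natCast]
      exact Ideal.Quotient.eq_zero_iff_mem.2 (Ideal.mem_span_singleton.2 h)
    rw [h0, Ideal.mem_bot] at this
    exact hb0 (by exact_mod_cast this)
  exact Finite.of_equiv _ (RingHom.quotientKerEquivOfSurjective hφ).toEquiv

theorem half : ∃ h : R K, 2 * h = 1 := by
  obtain ⟨c, hc⟩ := Loc.six_dvd (K := K)
  refine ⟨⟨2⁻¹, 1, ?_⟩, Subtype.ext ?_⟩
  · convert nat_mul (3 * c) (isIntegral_one (R := ℤ) (B := K)) using 1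
    rw [hc]
    push_cast
    ring
  · change (2 : K) * 2⁻¹ = 1
    norm_num

variable [Fld K]

theorem ee_eq {x : K} (r : R K) (h : SInt (x - r)) : ee x = eT (x - r) := by
  have h0 : ∃ r : R K, SInt (x - (r : K)) := ⟨r, h⟩
  unfold ee
  rw [dif_pos h0, ← mul_one (eT (x - r)), ← eT_int (x := (r : K) - (h0.choose : R K)), ← eT_add, sub_add_sub_cancel]
  refine int_of (sub_mem r.2 h0.choose.2) ?_
  have := (SR K).sub_mem h0.choose_spec h
  rwa [sub_sub_sub_cancel_left] at this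

theorem ee_add (x y : K) : ee (x + y) = ee x * ee y := by
  obtain ⟨r, hr⟩ := exists_dec x
  obtain ⟨s, hs⟩ := exists_dec y
  have e : x + y - ((r + s : R K) : K) = x - r + (y - s) := by push_cast; ring
  rw [ee_eq r hr, ee_eq s hs, ee_eq (r + s) (e ▸ (SR K).add_mem hr hs), e, eT_add]

theorem ee_R {x : K} (h : x ∈ RR K (Loc.Q K)) : ee x = 1 := by
  rw [ee_eq ⟨x, h⟩ (by rw [sub_self]; exact (SR K).zero_mem), sub_self, eT_int isIntegral_zero]

theorem ee_S {x : K} (h : x ∈ SR K) : ee x = eT x := by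
  simpa using ee_eq (x := x) 0 (by simpa [mem_SR] using h)

theorem norm_ee (x : K) : ee x * conj (ee x) = 1 := by
  obtain ⟨r, hr⟩ := exists_dec x
  rw [ee_eq r hr, norm_eT]

theorem ee_dual {x : K} (h : ∀ a : R K, ee (x * a) = 1) : ∃ a : R K, (a : K) = x := by
  obtain ⟨r, hr⟩ := exists_dec x
  have : IsIntegral ℤ (x - r) := eT_dual fun a => by
    rw [← ee_S ((SR K).mul_mem hr (S_of_int a.isIntegral_coe)), sub_mul]
    have e := ee_add (x * a - r * a) (r * a)
    rwa [sub_add_cancel, ee_R (x := (r : K) * a) (r * toR K a).2, mul_one, show ee (x * a) = 1 from h (toR K a),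
      eq_comm] at e
  exact ⟨⟨_, R_of_int this⟩ + r, by simp⟩

theorem ee_per {n : R K} (hn : n ≠ 0) (x : R K) :
    ∀ a ∈ Ideal.span {n}, ee (((x + a : R K) : K) ^ 2 / n) = ee ((x : K) ^ 2 / n) := fun a ha => by
  have hn' : (n : K) ≠ 0 := by simpa using hn
  obtain ⟨b, rfl⟩ := Ideal.mem_span_singleton'.1 ha
  rw [← mul_one (ee ((x : K) ^ 2 / n)), ← ee_R (2 * x * b + b ^ 2 * n : R K).2, ← ee_add]
  congr 1
  push_cast
  rw [show ((2 : R K) : K) = 2 from rfl]
  field_simp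
  ring

theorem gam_eq {n : R K} [Fintype (R K ⧸ Ideal.span {n})] :
    ∑ c : R K ⧸ Ideal.span {n}, ee (((c.out : R K) : K) ^ 2 / n) =
      √(Fintype.card (R K ⧸ Ideal.span {n})) * gam n := by
  have h : (Set.range (fun c : R K ⧸ Ideal.span {n} => Quotient.out c)).Finite := Set.finite_range _
  have h2 : (0 : ℝ) < Fintype.card (R K ⧸ Ideal.span {n}) := Nat.cast_pos.2 Fintype.card_pos
  unfold gam res N nm
  rw [dif_pos h, Nat.card_eq_fintype_card, mul_div_cancel₀ _ (ofReal_ne_zero.2 (Real.sqrt_pos.2 h2).ne'),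
    Set.Finite.toFinset_range, Finset.sum_image (g := fun c : R K ⧸ Ideal.span {n} => c.out)
      fun _ _ _ _ h => Quotient.out_injective h]
  simp [ad]

theorem gam_mean {n : R K} (hn : n ≠ 0) :
    ∃ t : ℝ, 0 < t ∧ HM (fun x : R K => ee ((x : K) ^ 2 / n)) (t * gam n) := by
  have := finite_R hn
  have := Fintype.ofFinite (R K ⧸ Ideal.span {n})
  have h2 : (0 : ℝ) < Fintype.card (R K ⧸ Ideal.span {n}) := Nat.cast_pos.2 Fintype.card_pos
  have h := HM.quot (Ideal.span {n}) (f := fun x : R K => ee ((x : K) ^ 2 / n)) (ee_per hn)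
  rw [gam_eq, ← mul_assoc] at h
  exact ⟨(Fintype.card (R K ⧸ Ideal.span {n}) : ℝ)⁻¹ * √(Fintype.card (R K ⧸ Ideal.span {n})),
    by positivity, by push_cast; exact h⟩

theorem norm_gam {n : R K} (hn : n ≠ 0) : ‖gam n‖ = 1 := by
  have := finite_R hn
  have := Fintype.ofFinite (R K ⧸ Ideal.span {n})
  have hn' : (n : K) ≠ 0 := by simpa using hn
  have h2 : (0 : ℝ) < Fintype.card (R K ⧸ Ideal.span {n}) := Nat.cast_pos.2 Fintype.card_pos
  obtain ⟨S, hS⟩ : ∃ S, S = ∑ c : R K ⧸ Ideal.span {n}, ee (((c.out : R K) : K) ^ 2 / n) := ⟨_, rfl⟩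
  have h3 : S * conj S = Fintype.card (R K ⧸ Ideal.span {n}) := by
    have e1 : ∀ y : R K ⧸ Ideal.span {n}, S * conj (ee (((y.out : R K) : K) ^ 2 / n)) =
        ∑ c : R K ⧸ Ideal.span {n}, ee (((c.out : R K) : K) ^ 2 / n) *
          ee (2 * ((c.out : R K) : K) / n * (y.out : R K)) := fun y => by
      rw [hS, ← sum_out_add _ (f := fun x : R K => ee ((x : K) ^ 2 / n)) (ee_per hn) y.out, Finset.sum_mul]
      refine Finset.sum_congr rfl fun c _ => ?_
      rw [← mul_one (ee _ * ee _), ← norm_ee (((y.out : R K) : K) ^ 2 / n), ← mul_assoc, ← ee_add, ← ee_add]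
      congr 2
      push_cast
      ring
    have e2 : ∀ c : R K ⧸ Ideal.span {n}, ∑ y : R K ⧸ Ideal.span {n},
        ee (2 * ((c.out : R K) : K) / n * (y.out : R K)) =
          if c = 0 then (Fintype.card (R K ⧸ Ideal.span {n}) : ℂ) else 0 := fun c => by
      rw [sum_out_char _ (β := fun y : R K => ee (2 * ((c.out : R K) : K) / n * y))
        (fun x y => by push_cast; rw [mul_add, ee_add]) (fun a ha => by
          obtain ⟨b, rfl⟩ := Ideal.mem_span_singleton'.1 ha
          rw [← ee_R (2 * c.out * b : R K).2]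
          congr 1
          push_cast
          rw [show ((2 : R K) : K) = 2 from rfl]
          field_simp)]
      refine if_congr ⟨fun h => ?_, fun h a => ?_⟩ rfl rfl
      · obtain ⟨a, ha⟩ := ee_dual h
        obtain ⟨h, hh⟩ := half (K := K)
        rw [← Ideal.Quotient.mk_out c, Ideal.Quotient.eq_zero_iff_mem, Ideal.mem_span_singleton']
        have e : a * n = 2 * c.out := Subtype.ext (by
          push_cast
          rw [ha, show ((2 : R K) : K) = 2 from rfl]
          field_simp)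
        exact ⟨h * a, by linear_combination h * e + c.out * hh⟩
      · rw [← Ideal.Quotient.mk_out c, Ideal.Quotient.eq_zero_iff_mem, Ideal.mem_span_singleton'] at h
        obtain ⟨b, hb⟩ := h
        rw [← hb, ← ee_R (2 * b * a : R K).2]
        congr 1
        push_cast
        rw [show ((2 : R K) : K) = 2 from rfl]
        field_simp
    nth_rewrite 2 [hS]
    rw [map_sum, Finset.mul_sum]
    simp only [e1]
    rw [Finset.sum_comm]
    simp only [← Finset.mul_sum, e2, mul_ite, mul_zero, Finset.sum_ite_eq', Finset.mem_univ, if_true]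
    have e3 := ee_per hn 0 ((0 : R K ⧸ Ideal.span {n}).out)
      (Ideal.Quotient.eq_zero_iff_mem.1 (Ideal.Quotient.mk_out _))
    rw [zero_add] at e3
    rw [e3, ee_R (by simp), one_mul]
  rw [hS, gam_eq, mul_conj, normSq_eq_norm_sq, norm_mul, norm_real, Real.norm_of_nonneg (Real.sqrt_nonneg _),
    mul_pow, Real.sq_sqrt h2.le] at h3
  have h4 : (Fintype.card (R K ⧸ Ideal.span {n}) : ℝ) * ‖gam n‖ ^ 2 = Fintype.card (R K ⧸ Ideal.span {n}) := by
    exact_mod_cast h3
  exact (pow_eq_one_iff_of_nonneg (norm_nonneg _) two_ne_zero).1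
    (mul_left_cancel₀ h2.ne' (h4.trans (mul_one _).symm))

theorem gam_sq {n t : R K} (hn : n ≠ 0) (ht : t ≠ 0) : gam (n * t ^ 2) = gam n := by
  have := finite_R ht
  have ht' : (t : K) ≠ 0 := by simpa using ht
  have hn' : (n : K) ≠ 0 := by simpa using hn
  obtain ⟨h, hh⟩ := half (K := K)
  have h4 : 4 * (RR K (Loc.Q K)).subtype (h ^ 2 * n) = n := by
    have e : (2 : K) * h = 1 := congrArg Subtype.val hh
    simp only [Subring.subtype_apply]
    push_cast
    linear_combination ((n : K) * (2 * h + 1)) * e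
  have hnt := mul_ne_zero hn (pow_ne_zero 2 ht)
  obtain ⟨s, hs, h1⟩ := gam_mean hn
  obtain ⟨s', hs', h2⟩ := gam_mean hnt
  obtain ⟨r, hr, h3⟩ := smooth ee_add (RR K (Loc.Q K)).subtype (fun a => ee_R a.2) (fun x => ee_dual)
    ((AddMonoidHom.mulRight (t : K)⁻¹).comp (RR K (Loc.Q K)).subtype.toAddMonoidHom)
    (fun a => ⟨a * t, by simp [ht']⟩) t (fun g => ⟨g, by simp; field_simp⟩) (h ^ 2 * n) (h4.symm ▸ hn')
    (w := s' * gam (n * t ^ 2)) (by
      rw [h4]
      convert h2 using 3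
      simp
      field_simp)
  rw [h4] at h3
  have h5 := HM.unique h3 h1
  rw [← mul_assoc, ← ofReal_mul] at h5
  exact phase (mul_pos hr hs') hs (norm_gam hnt) (norm_gam hn) h5

end Crest.Agent.R312.LS
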