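import Crest.Agent.R312.B3L_Chi
import Crest.Agent.R312.B3L_Zeta

/-!
# R312 / B3L_Cls : splitting by ideal classes
-/

set_option autoImplicit false

noncomputable section

open scoped Classical ComplexConjugate NumberField nonZeroDivisors
open MeasureTheory

namespace Crest.Agent.R312.BL

variable {K : Type} [Field K] [NumberField K] [Fld K]

variable {f : ℕ} {ξ : Pl K → ℝ} {ψ : Ideal (𝓞 K) → ℂ}

omit [Fld K] in
/-- For a class `c` take `J` with `mk0 J = c⁻¹` (`ClassGroup.mk0_surjective`) and `a` with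
`(f) * J ⊔ span {a} = J` (`IsDedekindDomain.exists_sup_span_eq`; if `f = 1` or `a = 0` treat directly:
`a = 0` forces `(f) = ⊤`, then any representative works); `span {a} = J * A`, cancel `J`:
`(f) ⊔ A = ⊤`; `mk0 J * mk0 A = 1` (`ClassGroup.mk0_eq_one_iff`). -/
theorem exists_reps (hf : f ≠ 0) : ∃ A, Reps (K := K) f A := by
  have key : ∀ c : ClassGroup (𝓞 K), ∃ A : (Ideal (𝓞 K))⁰, ClassGroup.mk0 A = c ∧
      IsCoprime (A : Ideal (𝓞 K)) (Ideal.span {(f : 𝓞 K)}) := by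
    intro c
    obtain ⟨J, hJ⟩ := ClassGroup.mk0_surjective c⁻¹
    have hJ0 : (J : Ideal (𝓞 K)) ≠ 0 := nonZeroDivisors.coe_ne_zero J
    have hF : Ideal.span {(f : 𝓞 K)} ≠ 0 := by simpa using hf
    obtain ⟨a, ha⟩ := IsDedekindDomain.exists_sup_span_eq
      (I := (J : Ideal (𝓞 K)) * Ideal.span {(f : 𝓞 K)}) (J := J) Ideal.mul_le_left
      (mul_ne_zero hJ0 hF)
    obtain ⟨A, hA⟩ : (J : Ideal (𝓞 K)) ∣ Ideal.span {a} := Ideal.dvd_iff_le.2 (le_sup_right.trans ha.le)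
    have h1 : Ideal.span {(f : 𝓞 K)} ⊔ A = ⊤ := by
      rw [hA, ← Ideal.mul_sup] at ha
      rw [← Ideal.one_eq_top]
      exact mul_left_cancel₀ hJ0 (ha.trans (mul_one _).symm)
    by_cases h0 : A = 0
    · obtain ⟨B, hB⟩ := ClassGroup.mk0_surjective c
      refine ⟨B, hB, ?_⟩
      rw [h0, Ideal.zero_eq_bot, sup_bot_eq] at h1
      rw [h1, ← Ideal.one_eq_top]
      exact isCoprime_one_right
    · refine ⟨⟨A, mem_nonZeroDivisors_of_ne_zero h0⟩, ?_, (Ideal.isCoprime_iff_sup_eq.2 h1).symm⟩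
      rw [← inv_inv c, ← hJ, eq_inv_iff_mul_eq_one, ← map_mul, ClassGroup.mk0_eq_one_iff]
      change (A * (J : Ideal (𝓞 K))).IsPrincipal
      rw [mul_comm, ← hA]
      exact ⟨a, rfl⟩
  choose A h1 h2 using key
  refine ⟨A, ?_, h2⟩
  simp only [h1]
  exact Function.bijective_id

omit [Fld K] in
theorem Reps.mul {A : ClassGroup (𝓞 K) → (Ideal (𝓞 K))⁰} (hA : Reps f A) (B : (Ideal (𝓞 K))⁰)
    (hB : IsCoprime (B : Ideal (𝓞 K)) (Ideal.span {(f : 𝓞 K)})) : Reps f (fun c => A c * B) := by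
  refine ⟨?_, fun c => (hA.cop c).mul_left hB⟩
  simp only [map_mul]
  exact (Group.mulRight_bijective (ClassGroup.mk0 B)).comp hA.bij

omit [Fld K] in
/-- `I ↦ I * A` is injective with range the multiples of `A` (`Function.Injective.tsum_eq`) -/
theorem tsum_dvd {E : Type} [NormedAddCommGroup E] {A : Ideal (𝓞 K)} (hA : A ≠ ⊥)
    (G : Ideal (𝓞 K) → E) : ∑' J, (if A ∣ J then G J else 0) = ∑' I, G (I * A) := by
  rw [← Function.Injective.tsum_eq (g := fun I => I * A) fun I J h => mul_right_cancel₀ hA h]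
  · simp only [dvd_mul_left, if_true]
  · intro J hJ
    rw [Function.mem_support] at hJ
    obtain ⟨I, hI⟩ : A ∣ J := by
      by_contra hc
      exact hJ (if_neg hc)
    exact ⟨I, by rw [hI, mul_comm]⟩

omit [NumberField K] [Fld K] in
theorem cls_summable_ite {E : Type} [NormedAddCommGroup E] [CompleteSpace E] {g : Ideal (𝓞 K) → E}
    (hg : Summable g) (p : Ideal (𝓞 K) → Prop) [DecidablePred p] :
    Summable fun I => if p I then g I else 0 :=
  (hg.indicator {I | p I}).congr fun I => by simp only [Set.indicator_apply, Set.mem_ofPred_eq]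

omit [Fld K] in
/-- for `I ≠ ⊥` exactly one `c` makes `I * A c` principal (`ClassGroup.mk0_eq_one_iff`);
`Summable.tsum_finsetSum` -/
theorem tsum_split {E : Type} [NormedAddCommGroup E] [CompleteSpace E]
    {A : ClassGroup (𝓞 K) → (Ideal (𝓞 K))⁰}
    (hA : Function.Bijective (fun c => ClassGroup.mk0 (A c))) {g : Ideal (𝓞 K) → E}
    (hg : Summable g) (h0 : g ⊥ = 0) :
    ∑' I, g I = ∑ c, ∑' I, (if (I * (A c : Ideal (𝓞 K))).IsPrincipal then g I else 0) := by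
  rw [← Summable.tsum_finsetSum fun c _ => cls_summable_ite hg _]
  refine tsum_congr fun I => ?_
  by_cases hI : I = ⊥
  · simp [hI, h0]
  have hI' : I ∈ (Ideal (𝓞 K))⁰ := mem_nonZeroDivisors_of_ne_zero hI
  have key : ∀ c, (I * (A c : Ideal (𝓞 K))).IsPrincipal ↔
      ClassGroup.mk0 (A c) = (ClassGroup.mk0 ⟨I, hI'⟩)⁻¹ := by
    intro c
    rw [eq_inv_iff_mul_eq_one, mul_comm (ClassGroup.mk0 _), ← map_mul, ClassGroup.mk0_eq_one_iff]
    rfl
  obtain ⟨c, hc⟩ := hA.2 (ClassGroup.mk0 ⟨I, hI'⟩)⁻¹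
  rw [Finset.sum_eq_single c (fun c' _ hc' => if_neg fun h => hc' (hA.1 (((key c').1 h).trans hc.symm)))
    (by simp), if_pos ((key c).2 hc)]

/-- `pc_phiA`, `tsum_dvd`, `ψ (I * A) = ψ I * ψ A`, `ψ A ≠ 0`, `Complex.natCast_mul_natCast_cpow`,
`tsum_split` with `summable_Lser`. -/
theorem Lser_decomp (h : HChar f ξ ψ) {A : ClassGroup (𝓞 K) → (Ideal (𝓞 K))⁰} (hA : Reps f A)
    {s : ℂ} (hs : 1 < s.re) :
    Lser ψ s = ∑ c, (ψ (A c))⁻¹ * (Ideal.absNorm (A c : Ideal (𝓞 K)) : ℂ) ^ s *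
      Lser (pc (phiA ψ ξ (A c)) ξ) s := by
  rw [Lser, tsum_split hA.bij (summable_Lser (norm_psi_le h) hs) (by rw [psi_bot h, zero_mul])]
  refine Finset.sum_congr rfl fun c _ => ?_
  have hA0 : (A c : Ideal (𝓞 K)) ≠ ⊥ := nonZeroDivisors.coe_ne_zero _
  have hψ : ψ (A c) ≠ 0 := by rw [← norm_ne_zero_iff, h.norm _ (hA.cop c)]; exact one_ne_zero
  have hN : (Ideal.absNorm (A c : Ideal (𝓞 K)) : ℂ) ≠ 0 := by
    rw [Nat.cast_ne_zero, Ne, Ideal.absNorm_eq_zero_iff]; exact hA0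
  have e : Lser (pc (phiA ψ ξ (A c)) ξ) s = ∑' J, if (A c : Ideal (𝓞 K)) ∣ J then
      (if J.IsPrincipal then ψ J * (Ideal.absNorm J : ℂ) ^ (-s) else 0) else 0 := by
    refine tsum_congr fun J => ?_
    rw [pc_phiA h]
    by_cases h1 : J.IsPrincipal <;> by_cases h2 : (A c : Ideal (𝓞 K)) ∣ J <;> simp [h1, h2]
  rw [e, tsum_dvd hA0, ← tsum_mul_left]
  refine tsum_congr fun I => ?_
  split_ifs
  · rw [h.mul, map_mul, Nat.cast_mul, Complex.natCast_mul_natCast_cpow,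
      Complex.cpow_neg (Ideal.absNorm (A c : Ideal (𝓞 K)) : ℂ)]
    have : (Ideal.absNorm (A c : Ideal (𝓞 K)) : ℂ) ^ s ≠ 0 := Complex.cpow_ne_zero_iff.2 (Or.inl hN)
    field_simp
  · rw [mul_zero]

/-- One class.  `a = N A`, `span {a} = A * A'`.  If `pc (ft ..) (-ξ) J ≠ 0` then `J = span {x}` and
`span {x} * A ≤ span {a} = A' * A` (`ft_phiA_supp`), so `A' ∣ J`.  Hence with `σ' = re z`
`‖Lser‖ ≤ ∑' J, if A' ∣ J then (if J.IsPrincipal then M N(J)^{-σ'} else 0) else 0`,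
`M = (f a)^{2d}/a` (`norm_ft_phiA_le`); `tsum_dvd`. -/
theorem norm_dual_le (h : HChar f ξ ψ) {A A' : Ideal (𝓞 K)} (hA : A ≠ ⊥)
    (hc : IsCoprime A (Ideal.span {(f : 𝓞 K)}))
    (hA' : A * A' = Ideal.span {((Ideal.absNorm A : ℕ) : 𝓞 K)}) {z : ℂ} (hz : 1 < z.re) :
    ‖Lser (pc (ft (f * Ideal.absNorm A) (phiA ψ ξ A)) (-ξ)) z‖ ≤
      ((f * Ideal.absNorm A : ℕ) : ℝ) ^ (2 * dd K) / (Ideal.absNorm A : ℝ) *
        (Ideal.absNorm A' : ℝ) ^ (-z.re) *
        ∑' I : Ideal (𝓞 K), (if (I * A').IsPrincipal then (Ideal.absNorm I : ℝ) ^ (-z.re) else 0) := by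
  set M : ℝ := ((f * Ideal.absNorm A : ℕ) : ℝ) ^ (2 * dd K) / (Ideal.absNorm A : ℝ) with hM
  have hM0 : 0 ≤ M := by positivity
  have hA'0 : A' ≠ ⊥ := by
    rintro rfl
    rw [Ideal.mul_bot, eq_comm, Ideal.span_singleton_eq_bot, Nat.cast_eq_zero,
      Ideal.absNorm_eq_zero_iff] at hA'
    exact hA hA'
  have hsum : Summable fun J : Ideal (𝓞 K) => if A' ∣ J then
      (if J.IsPrincipal then M * (Ideal.absNorm J : ℝ) ^ (-z.re) else 0) else 0 :=
    cls_summable_ite (cls_summable_ite ((summable_absNorm hz).mul_left M) _) _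
  refine (tsum_of_norm_bounded hsum.hasSum fun J => ?_).trans (le_of_eq ?_)
  · by_cases h0 : pc (ft (f * Ideal.absNorm A) (phiA ψ ξ A)) (-ξ) J = 0
    · rw [h0, zero_mul, norm_zero]
      split_ifs <;> positivity
    have hex : ∃ x : 𝓞 K, x ≠ 0 ∧ Ideal.span {x} = J := by
      by_contra hc
      exact h0 (dif_neg hc)
    rw [pc, dif_pos hex] at h0 ⊢
    obtain ⟨-, hx⟩ := hex.choose_spec
    generalize hex.choose = x at h0 hx ⊢
    have h1 : A' ∣ J := by
      rw [← mul_dvd_mul_iff_left (a := A) hA, hA', Ideal.dvd_iff_le, ← hx, Ideal.mul_le]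
      intro y hy w hw
      obtain ⟨t, rfl⟩ := Ideal.mem_span_singleton'.1 hw
      rw [Ideal.mem_span_singleton, show y * (t * x) = x * y * t by ring]
      exact (ft_phiA_supp h hA (left_ne_zero_of_mul h0) hy).mul_right t
    rw [if_pos h1, if_pos ⟨x, hx.symm⟩, norm_mul, norm_mul, norm_ch, mul_one,
      norm_absNorm_cpow J (by linarith)]
    exact mul_le_mul_of_nonneg_right (norm_ft_phiA_le h hA hc x) (by positivity)
  · rw [tsum_dvd hA'0, ← tsum_mul_left]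
    refine tsum_congr fun I => ?_
    split_ifs
    · rw [map_mul, Nat.cast_mul, Real.mul_rpow (Nat.cast_nonneg _) (Nat.cast_nonneg _)]; ring
    · rw [mul_zero]

theorem cls_pow {f a b σ : ℝ} {d : ℕ} (hf : 0 < f) (ha : 0 < a) (hb : 0 < b)
    (h : a * b = a ^ (2 * d)) :
    a ^ σ * (f * a) ^ (-(2 * d * σ)) * ((f * a) ^ (2 * d) / a * b ^ (-(1 - σ))) =
      f ^ (2 * d * (1 - σ)) := by
  have h1 : Real.log b = 2 * d * Real.log a - Real.log a := by
    have := congrArg Real.log h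
    rw [Real.log_mul ha.ne' hb.ne', Real.log_pow] at this
    push_cast at this
    linarith
  refine Real.log_injOn_pos (Set.mem_Ioi.2 (by positivity)) (Set.mem_Ioi.2 (by positivity)) ?_
  rw [Real.log_mul (by positivity) (by positivity), Real.log_mul (by positivity) (by positivity),
    Real.log_mul (by positivity) (by positivity), Real.log_div (by positivity) (by positivity),
    Real.log_rpow ha, Real.log_rpow (by positivity), Real.log_rpow hb, Real.log_rpow hf,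
    Real.log_pow, Real.log_mul hf.ne' ha.ne', h1]
  push_cast
  ring

/-- All classes.  `N A · N A' = a^{2d}` (`absNorm_natCast`), so with `σ = re s`
`a^σ (fa)^{-2dσ} (fa)^{2d} a⁻¹ (N A')^{σ-1} = f^{2d(1-σ)}`; `mk0 (A' c) = (mk0 (A c))⁻¹` is again bijective in
`c`; `tsum_split` for `I ↦ N(I)^{-(1-σ)}`. -/
theorem dual_bound (h : HChar f ξ ψ) {A : ClassGroup (𝓞 K) → (Ideal (𝓞 K))⁰} (hA : Reps f A)
    {s : ℂ} (hs : s.re < 0) :
    ∑ c, ‖(Ideal.absNorm (A c : Ideal (𝓞 K)) : ℂ) ^ s *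
        ((f * Ideal.absNorm (A c : Ideal (𝓞 K)) : ℕ) : ℂ) ^ (-(2 * dd K * s)) *
        Lser (pc (ft (f * Ideal.absNorm (A c : Ideal (𝓞 K))) (phiA ψ ξ (A c))) (-ξ)) (1 - s)‖ ≤
      (f : ℝ) ^ (2 * dd K * (1 - s.re)) * zetaK K (1 - s.re) := by
  have hA0 : ∀ c, (A c : Ideal (𝓞 K)) ≠ ⊥ := fun c => nonZeroDivisors.coe_ne_zero _
  have hN : ∀ c, 0 < Ideal.absNorm (A c : Ideal (𝓞 K)) := fun c =>
    Nat.pos_of_ne_zero (by rw [Ne, Ideal.absNorm_eq_zero_iff]; exact hA0 c)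
  have hex : ∀ c, ∃ A' : (Ideal (𝓞 K))⁰, (A c : Ideal (𝓞 K)) * A' =
      Ideal.span {((Ideal.absNorm (A c : Ideal (𝓞 K)) : ℕ) : 𝓞 K)} := by
    intro c
    obtain ⟨A', hA'⟩ := Ideal.dvd_span_singleton.2 (Ideal.absNorm_mem (A c : Ideal (𝓞 K)))
    refine ⟨⟨A', mem_nonZeroDivisors_of_ne_zero ?_⟩, hA'.symm⟩
    rintro rfl
    rw [mul_zero, Ideal.zero_eq_bot, Ideal.span_singleton_eq_bot, Nat.cast_eq_zero] at hA'
    exact (hN c).ne' hA'
  choose A' hA' using hex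
  have hbij : Function.Bijective fun c => ClassGroup.mk0 (A' c) := by
    have : (fun c => ClassGroup.mk0 (A' c)) = fun c => (ClassGroup.mk0 (A c))⁻¹ := by
      funext c
      rw [ClassGroup.mk0_eq_mk0_inv_iff]
      exact ⟨_, Nat.cast_ne_zero.2 (hN c).ne', by rw [mul_comm, hA' c]⟩
    rw [this]
    exact inv_involutive.bijective.comp hA.bij
  have hz : 1 < (1 - s).re := by simp; linarith
  have hre : (1 - s).re = 1 - s.re := by simp
  have hf : 0 < f := by have := h.two_le; omega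
  rw [zetaK, tsum_split hbij (summable_absNorm (σ := 1 - s.re) (by linarith))
    (by rw [Ideal.absNorm_bot, Nat.cast_zero, Real.zero_rpow (by linarith)]), Finset.mul_sum]
  refine Finset.sum_le_sum fun c _ => ?_
  have h1 := norm_dual_le h (hA0 c) (hA.cop c) (hA' c) hz
  rw [hre] at h1
  have h2 : Ideal.absNorm (A c : Ideal (𝓞 K)) * Ideal.absNorm (A' c : Ideal (𝓞 K)) =
      Ideal.absNorm (A c : Ideal (𝓞 K)) ^ (2 * dd K) := by rw [← map_mul, hA' c, absNorm_natCast]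
  have hb : 0 < Ideal.absNorm (A' c : Ideal (𝓞 K)) := Nat.pos_of_ne_zero (by
    rw [Ne, Ideal.absNorm_eq_zero_iff]; exact nonZeroDivisors.coe_ne_zero _)
  rw [norm_mul, norm_mul, Complex.norm_natCast_cpow_of_pos (hN c),
    Complex.norm_natCast_cpow_of_pos (Nat.mul_pos hf (hN c))]
  refine (mul_le_mul_of_nonneg_left h1 (by positivity)).trans (le_of_eq ?_)
  rw [← mul_assoc]
  congr 1
  have e : (-(2 * (dd K : ℂ) * s)).re = -(2 * dd K * s.re) := by simp
  rw [e, Nat.cast_mul]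
  exact cls_pow (by exact_mod_cast hf) (by exact_mod_cast hN c) (by exact_mod_cast hb)
    (by exact_mod_cast h2)

end Crest.Agent.R312.BL
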