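import Crest.Agent.R312.BDefs

/-!
# R312 / B3L_Defs : definitions for B3L (owner helper45).  DO NOT EDIT.

Plan (all files `B3L_*`, namespace `Crest.Agent.R312.BL`), `d = dd K`, `r = rk K = d - 1`.
For `φ : 𝓞 K → ℂ` periodic mod an INTEGER `q` (`PerO`) with `φ · ch ξ` invariant under units (`Eqv`):
* `th φ t = ∑ φ(x) exp(-2π ∑ t_v |x_v|²/dl v)`; Poisson: `th φ t = (q^{2d} ∏t)⁻¹ th (ft q φ) (1/(q²t))`;
* `FF φ ξ y = ∫_{u ∈ [0,1]^r} th φ (y e^{eta u}) e^{-i ξ·eta u} du` (`eta u = ∑ u_j lg ε_j`), a `WeakFEPair`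
  of weight `k = d`; unfolding: `mellin (FF - φ(0) kap) (d s) = C₀ · GF ξ s · Lser (pc φ ξ) s`;
* an `HChar` is `∑_{classes} ψ(A)⁻¹ N(A)^s Lser (pc (phiA ψ ξ A) ξ) s`, `phiA = 1_A · χ`, periodic mod
  `f · N(A)`.
-/

set_option autoImplicit false

noncomputable section

open scoped Classical ComplexConjugate NumberField nonZeroDivisors
open MeasureTheory

namespace Crest.Agent.R312.BL

variable {K : Type} [Field K] [NumberField K] [Fld K]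

/-- the Gaussian with parameters `t_v > 0` -/
def gr (t : Pl K → ℝ) (x : K) : ℝ :=
  Real.exp (-(2 * Real.pi * ∑ v : Pl K, t v * ‖emb v x‖ ^ 2 / dl v))

/-- theta series -/
def th (φ : 𝓞 K → ℂ) (t : Pl K → ℝ) : ℂ := ∑' x : 𝓞 K, φ x * (gr t (x : K) : ℂ)

omit [NumberField K] [Fld K] in
/-- periodic modulo the integer `q` -/
def PerO (q : ℕ) (φ : 𝓞 K → ℂ) : Prop := ∀ x y : 𝓞 K, φ (x + (q : 𝓞 K) * y) = φ x

/-- `φ · ch ξ` is invariant under units -/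
def Eqv (ξ : Pl K → ℝ) (φ : 𝓞 K → ℂ) : Prop :=
  ∀ (u : (𝓞 K)ˣ) (x : 𝓞 K), φ ((u : 𝓞 K) * x) * ch ξ ((u : 𝓞 K) : K) = φ x

variable (K) in
/-- `𝓞/q` -/
abbrev Qt (q : ℕ) : Type := 𝓞 K ⧸ Ideal.span {(q : 𝓞 K)}

/-- finite Fourier transform `∑_{c mod q} φ(c) eT(hc/q)` (a finite sum for `q ≠ 0`) -/
def ft (q : ℕ) (φ : 𝓞 K → ℂ) (h : 𝓞 K) : ℂ :=
  ∑' c : Qt K q, φ (Quotient.out c) * eT ((h : K) * ((Quotient.out c : 𝓞 K) : K) / (q : K))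

variable (K) in
/-- unit rank -/
abbrev rk : ℕ := NumberField.Units.rank K

/-- the fundamental units -/
abbrev eps (j : Fin (rk K)) : (𝓞 K)ˣ := NumberField.Units.fundSystem K j

/-- `∑_j u_j lg ε_j` -/
def eta (u : Fin (rk K) → ℝ) (v : Pl K) : ℝ := ∑ j, u j * lg ((eps j : 𝓞 K) : K) v

/-- the linear coordinates `(w,u) ↦ w·𝟙 + eta u` on `ℝ^d` -/
def uL (p : ℝ × (Fin (rk K) → ℝ)) (v : Pl K) : ℝ := p.1 + eta p.2 v

/-- `e^{-i ξ·τ}` -/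
def chE (ξ τ : Pl K → ℝ) : ℂ := Complex.exp (-(((∑ v, ξ v * τ v : ℝ) : ℂ) * Complex.I))

/-- the theta series averaged over the unit torus -/
def FF (φ : 𝓞 K → ℂ) (ξ : Pl K → ℝ) (y : ℝ) : ℂ :=
  ∫ u in Set.Icc (0 : Fin (rk K) → ℝ) 1, th φ (fun v => y * Real.exp (eta u v)) * chE ξ (eta u)

/-- the mean of `chE ξ` over the unit torus -/
def kap (ξ : Pl K → ℝ) : ℂ := ∫ u in Set.Icc (0 : Fin (rk K) → ℝ) 1, chE ξ (eta u)

/-- the Gamma factor -/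
def GF (ξ : Pl K → ℝ) (s : ℂ) : ℂ :=
  ∏ v : Pl K, Complex.Gamma (s - ξ v * Complex.I) *
    ((2 * Real.pi / dl v : ℝ) : ℂ) ^ (-(s - ξ v * Complex.I))

/-- the integrand whose integral over `ℝ^d` is `GF ξ s` -/
def H1 (ξ : Pl K → ℝ) (s : ℂ) (τ : Pl K → ℝ) : ℂ :=
  ∏ v : Pl K, (Real.exp (-(2 * Real.pi / dl v * Real.exp (τ v))) : ℂ) *
    Complex.exp ((s - ξ v * Complex.I) * τ v)

/-- the function on principal ideals attached to `φ`: `(x) ↦ φ(x) ch ξ x` -/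
def pc (φ : 𝓞 K → ℂ) (ξ : Pl K → ℝ) (I : Ideal (𝓞 K)) : ℂ :=
  if h : ∃ x : 𝓞 K, x ≠ 0 ∧ Ideal.span {x} = I then φ h.choose * ch ξ ((h.choose : 𝓞 K) : K) else 0

/-- the finite part `x ↦ ψ((x)) conj (ch ξ x)` of a Hecke character: a Dirichlet character mod `f` -/
def chi0 (ψ : Ideal (𝓞 K) → ℂ) (ξ : Pl K → ℝ) (x : 𝓞 K) : ℂ :=
  ψ (Ideal.span {x}) * conj (ch ξ (x : K))

/-- `1_A · chi0` -/
def phiA (ψ : Ideal (𝓞 K) → ℂ) (ξ : Pl K → ℝ) (A : Ideal (𝓞 K)) (x : 𝓞 K) : ℂ :=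
  if x ∈ A then chi0 ψ ξ x else 0

omit [Fld K] in
/-- a system of representatives of the class group, coprime to `f` -/
structure Reps (f : ℕ) (A : ClassGroup (𝓞 K) → (Ideal (𝓞 K))⁰) : Prop where
  bij : Function.Bijective (fun c => ClassGroup.mk0 (A c))
  cop : ∀ c, IsCoprime (A c : Ideal (𝓞 K)) (Ideal.span {(f : 𝓞 K)})

omit [Fld K] in
variable (K) in
/-- `ζ_K(σ)` -/
def zetaK (σ : ℝ) : ℝ := ∑' I : Ideal (𝓞 K), (Ideal.absNorm I : ℝ) ^ (-σ)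

end Crest.Agent.R312.BL
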