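import Crest.Agent.R312.B3L_Theta
import Crest.Agent.R312.B3L_Unf
import Crest.Agent.R312.B3L_Zeta

/-!
# R312 / B3L_Mel : the Mellin transform of `FF` (unfolding; owner helper45)
-/

set_option autoImplicit false

noncomputable section

open scoped Classical ComplexConjugate NumberField nonZeroDivisors
open MeasureTheory

namespace Crest.Agent.R312.BL

variable {K : Type} [Field K] [NumberField K] [Fld K]

theorem pc_span {φ : 𝓞 K → ℂ} {ξ : Pl K → ℝ} (he : Eqv ξ φ) {x : 𝓞 K} (hx : x ≠ 0) :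
    pc φ ξ (Ideal.span {x}) = φ x * ch ξ (x : K) := by
  have h : ∃ y : 𝓞 K, y ≠ 0 ∧ Ideal.span {y} = Ideal.span {x} := ⟨x, hx, rfl⟩
  unfold pc
  rw [dif_pos h]
  obtain ⟨h0, h1⟩ := h.choose_spec
  obtain ⟨u, hu⟩ := Ideal.span_singleton_eq_span_singleton.1 h1
  generalize h.choose = y at h0 hu
  subst hu
  have h2 : ((y * (u : 𝓞 K) : 𝓞 K) : K) = (y : K) * ((u : 𝓞 K) : K) := by push_cast; rfl
  rw [h2, ch_mul ξ (NumberField.RingOfIntegers.coe_ne_zero_iff.2 h0) (unit_ne_zero u), ← he u y,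
    mul_comm y]
  ring

theorem norm_pc_le {φ : 𝓞 K → ℂ} {M : ℝ} (hM : ∀ x, ‖φ x‖ ≤ M) (ξ : Pl K → ℝ) (I : Ideal (𝓞 K)) :
    ‖pc φ ξ I‖ ≤ M := by
  unfold pc
  split_ifs with h
  · rw [norm_mul, norm_ch, mul_one]
    exact hM _
  · rw [norm_zero]
    exact (norm_nonneg _).trans (hM 0)

omit [Fld K] in
theorem countable_O : Countable (𝓞 K) :=
  (NumberField.RingOfIntegers.basis K).equivFun.injective.countable

/-- abstract unfolding -/
theorem unfold_sum {r : ℕ} {ι : Type} [Countable ι] {G : ℝ × (Fin r → ℝ) → ℂ} (hG : Integrable G)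
    {b : ι → ℂ} (hb : Summable fun i => ‖b i‖) (c : ι → ℝ × (Fin r → ℝ)) :
    ∫ w : ℝ, ∑' p : ι × (Fin r → ℤ), b p.1 * ∫ u in Set.Icc (0 : Fin r → ℝ) 1,
      G ((w, u + fun j => (p.2 j : ℝ)) + c p.1) = (∑' i, b i) * ∫ p, G p := by
  haveI : (volume : Measure (ℝ × (Fin r → ℝ))).IsAddRightInvariant :=
    inferInstanceAs ((volume : Measure ℝ).prod (volume : Measure (Fin r → ℝ))).IsAddRightInvariant
  have hD : (volume : Measure (ℝ × (Fin r → ℝ))).restrict (Set.univ ×ˢ Set.Icc 0 1) =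
      (volume : Measure ℝ).prod (volume.restrict (Set.Icc 0 1)) := by
    rw [Measure.volume_eq_prod, ← Measure.prod_restrict, Measure.restrict_univ]
  have hsh : ∀ (p : ι × (Fin r → ℤ)) (q : ℝ × (Fin r → ℝ)),
      (q.1, q.2 + fun j => (p.2 j : ℝ)) + c p.1 = q + ((0, fun j => (p.2 j : ℝ)) + c p.1) := by
    intro p q
    rw [← add_assoc]
    congr 1
    ext <;> simp
  have hint : ∀ p : ι × (Fin r → ℤ), Integrable
      (fun q : ℝ × (Fin r → ℝ) => G ((q.1, q.2 + fun j => (p.2 j : ℝ)) + c p.1))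
      ((volume : Measure ℝ).prod (volume.restrict (Set.Icc 0 1))) := by
    intro p
    rw [← hD]
    simp only [hsh]
    exact (hG.comp_add_right _).integrableOn
  have hcube : ∀ i, HasSum (fun n : Fin r → ℤ => ∫ q, G ((q.1, q.2 + fun j => (n j : ℝ)) + c i)
      ∂((volume : Measure ℝ).prod (volume.restrict (Set.Icc 0 1)))) (∫ p, G p) := by
    intro i
    have h := hasSum_cube (H := fun p => G (p + c i)) (hG.comp_add_right _)
    rwa [hD, integral_add_right_eq_self G (c i)] at h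
  have hcube' : ∀ i, HasSum (fun n : Fin r → ℤ => ∫ q, ‖G ((q.1, q.2 + fun j => (n j : ℝ)) + c i)‖
      ∂((volume : Measure ℝ).prod (volume.restrict (Set.Icc 0 1)))) (∫ p, ‖G p‖) := by
    intro i
    have h := hasSum_cube (H := fun p => ‖G (p + c i)‖) (hG.comp_add_right _).norm
    rwa [hD, integral_add_right_eq_self (fun p => ‖G p‖) (c i)] at h
  have hsum : Summable fun p : ι × (Fin r → ℤ) => ‖b p.1‖ *
      ∫ q, ‖G ((q.1, q.2 + fun j => (p.2 j : ℝ)) + c p.1)‖
        ∂((volume : Measure ℝ).prod (volume.restrict (Set.Icc 0 1))) := by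
    refine (summable_prod_of_nonneg fun p => ?_).2
      ⟨fun i => ((hcube' i).mul_left ‖b i‖).summable, ?_⟩
    · exact mul_nonneg (norm_nonneg _) (integral_nonneg fun _ => norm_nonneg _)
    · refine (hb.mul_right (∫ p, ‖G p‖)).congr fun i => ?_
      exact ((hcube' i).mul_left ‖b i‖).tsum_eq.symm
  have h1 := hasSum_integral_of_summable_integral_norm (μ := (volume : Measure ℝ))
    (F := fun (p : ι × (Fin r → ℤ)) (w : ℝ) => b p.1 * ∫ u in Set.Icc (0 : Fin r → ℝ) 1,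
      G ((w, u + fun j => (p.2 j : ℝ)) + c p.1))
    (fun p => (hint p).integral_prod_left.const_mul _) (by
      refine Summable.of_nonneg_of_le (fun p => integral_nonneg fun _ => norm_nonneg _)
        (fun p => ?_) hsum
      rw [integral_prod _ (hint p).norm, ← integral_const_mul]
      refine integral_mono ((hint p).integral_prod_left.const_mul _).norm
        ((hint p).norm.integral_prod_left.const_mul _) fun w => ?_
      simp only [norm_mul]
      exact mul_le_mul_of_nonneg_left (norm_integral_le_integral_norm _) (norm_nonneg _))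
  have h2 := h1.prod_fiberwise (g := fun i => b i * ∫ p, G p) fun i => by
    have h3 := (hcube i).mul_left (b i)
    have h4 : (fun n : Fin r → ℤ => ∫ w : ℝ, b i * ∫ u in Set.Icc (0 : Fin r → ℝ) 1,
        G ((w, u + fun j => (n j : ℝ)) + c i)) = fun n : Fin r → ℤ => b i *
          ∫ q, G ((q.1, q.2 + fun j => (n j : ℝ)) + c i)
            ∂((volume : Measure ℝ).prod (volume.restrict (Set.Icc 0 1))) := by
      funext n
      rw [integral_const_mul, integral_prod _ (hint (i, n))]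
    rw [← h4] at h3
    exact h3
  rw [← h2.tsum_eq, tsum_mul_right]

/-- the integrand of the Mellin transform is a translate of `H1` -/
theorem H1_shift {ξ : Pl K → ℝ} (hξ : ∑ v, ξ v = 0) (s : ℂ) {x : 𝓞 K} (hx : x ≠ 0) (w : ℝ)
    (u : Fin (rk K) → ℝ) :
    Complex.exp (dd K * s * w) *
        ((gr (fun v => Real.exp w * Real.exp (eta u v)) (x : K) : ℂ) * chE ξ (eta u)) =
      ch ξ (x : K) * ((Ideal.absNorm (Ideal.span {x}) : ℂ) ^ (-s) * H1 ξ s (uL (w, u) + lg (x : K))) := by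
  have hx' : (x : K) ≠ 0 := NumberField.RingOfIntegers.coe_ne_zero_iff.2 hx
  have hN : (Ideal.absNorm (Ideal.span {x}) : ℂ) ^ (-s) =
      Complex.exp (((∑ v : Pl K, lg (x : K) v : ℝ) : ℂ) * (-s)) := by
    have h0 : (0 : ℝ) < Ideal.absNorm (Ideal.span {x}) := by
      rw [← aN_eq_absNorm]
      exact aN_pos hx'
    rw [sum_lg hx', aN_eq_absNorm, Complex.cpow_def_of_ne_zero (by exact_mod_cast h0.ne'),
      Complex.ofReal_log h0.le, Complex.ofReal_natCast]
  have h1 : ∀ v : Pl K, Real.exp ((uL (w, u) + lg (x : K)) v) =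
      Real.exp w * Real.exp (eta u v) * ‖emb v (x : K)‖ ^ 2 := by
    intro v
    rw [Pi.add_apply, uL, Real.exp_add, Real.exp_add, exp_lg hx']
  have hξ' : ∑ v, (ξ v : ℂ) = 0 := by exact_mod_cast hξ
  have hη : ∑ v : Pl K, (eta u v : ℂ) = 0 := by exact_mod_cast sum_eta u
  rw [hN]
  unfold H1 gr chE ch
  simp only [h1, Complex.ofReal_exp, ← Complex.exp_add, ← Complex.exp_sum]
  congr 1
  have h2 : ∀ v : Pl K, ((-(2 * Real.pi / dl v * (Real.exp w * Real.exp (eta u v) *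
      ‖emb v (x : K)‖ ^ 2)) : ℝ) : ℂ) + (s - ξ v * Complex.I) * (((uL (w, u) + lg (x : K)) v : ℝ) : ℂ) =
      -(2 * Real.pi * ((Real.exp w * Real.exp (eta u v) * ‖emb v (x : K)‖ ^ 2 / dl v : ℝ) : ℂ)) +
        s * w + s * (eta u v : ℂ) + s * (lg (x : K) v : ℂ) - (ξ v : ℂ) * (w * Complex.I) -
        ((ξ v * eta u v : ℝ) : ℂ) * Complex.I - ((ξ v * lg (x : K) v : ℝ) : ℂ) * Complex.I := by
    intro v
    simp only [Pi.add_apply, uL]
    push_cast
    ring
  rw [Finset.sum_congr rfl fun v _ => h2 v]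
  simp only [Finset.sum_add_distrib, Finset.sum_sub_distrib, Finset.sum_neg_distrib,
    ← Finset.mul_sum, ← Finset.sum_mul, hξ', hη, Finset.sum_const, Finset.card_univ, nsmul_eq_mul]
  push_cast
  unfold dd
  ring

theorem mellin_FF : ∃ C0 : ℝ, 0 < C0 ∧ ∀ (φ : 𝓞 K → ℂ) (M : ℝ) (ξ : Pl K → ℝ),
    (∀ x, ‖φ x‖ ≤ M) → Eqv ξ φ → ∑ v, ξ v = 0 → ∀ s : ℂ, 1 < s.re →
      mellin (fun y => FF φ ξ y - φ 0 * kap ξ) (dd K * s) = C0 * GF ξ s * Lser (pc φ ξ) s := by
  obtain ⟨J, hJ, hjac⟩ := exists_jac (K := K)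
  obtain ⟨e, he⟩ := exists_uL_equiv (K := K)
  haveI : Fintype (NumberField.Units.torsion K) := Fintype.ofFinite _
  refine ⟨Fintype.card (NumberField.Units.torsion K) * J,
    mul_pos (Nat.cast_pos.2 Fintype.card_pos) hJ, fun φ M ξ hM hE hξ s hs => ?_⟩
  obtain ⟨hH, hH'⟩ := integral_H1 ξ (s := s) (by linarith)
  obtain ⟨hG, hG'⟩ := hjac _ hH
  set g : {I : Ideal (𝓞 K) // ∃ x : 𝓞 K, x ≠ 0 ∧ Ideal.span {x} = I} → 𝓞 K :=
    fun I => I.2.choose with hgdef
  have hg0 : ∀ I, g I ≠ 0 := fun I => I.2.choose_spec.1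
  have hg : ∀ I, Ideal.span {g I} = I.1 := fun I => I.2.choose_spec.2
  obtain ⟨E, hEq⟩ := exists_param g hg
  set b : Ideal (𝓞 K) → ℂ := fun I => pc φ ξ I * (Ideal.absNorm I : ℂ) ^ (-s) with hb
  have hbs : Summable b := summable_Lser (norm_pc_le hM ξ) hs
  have hbs' : Summable fun i : {I : Ideal (𝓞 K) // ∃ x : 𝓞 K, x ≠ 0 ∧ Ideal.span {x} = I} ×
      NumberField.Units.torsion K => ‖b i.1.1‖ := by
    have h1 := (hbs.norm.subtype (fun I => ∃ x : 𝓞 K, x ≠ 0 ∧ Ideal.span {x} = I)).mul_of_nonneg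
      (Summable.of_finite (f := fun _ : NumberField.Units.torsion K => (1 : ℝ)))
      (fun _ => norm_nonneg _) (fun _ => zero_le_one)
    simpa using h1
  haveI : Countable (𝓞 K) := countable_O
  haveI : Countable ({I : Ideal (𝓞 K) // ∃ x : 𝓞 K, x ≠ 0 ∧ Ideal.span {x} = I} ×
      NumberField.Units.torsion K) :=
    Function.Injective.countable (f := fun i => E (i, 0))
      (fun i j h => (Prod.mk.inj (E.injective h)).1)
  have key := unfold_sum hG hbs' (fun i => e.symm (lg (g i.1 : K)))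
  rw [mellin_eq_exp]
  have h2 : ∀ w : ℝ, Complex.exp (dd K * s * w) * (FF φ ξ (Real.exp w) - φ 0 * kap ξ) =
      ∑' p : ({I : Ideal (𝓞 K) // ∃ x : 𝓞 K, x ≠ 0 ∧ Ideal.span {x} = I} ×
        NumberField.Units.torsion K) × (Fin (rk K) → ℤ), b p.1.1.1 *
        ∫ u in Set.Icc (0 : Fin (rk K) → ℝ) 1,
          H1 ξ s (uL ((w, u + fun j => (p.2 j : ℝ)) + e.symm (lg (g p.1.1 : K)))) := by
    intro w
    have h3 := ((hasSum_FF hM ξ (Real.exp_pos w)).mul_left (Complex.exp (dd K * s * w))).tsum_eq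
    rw [← h3, ← E.tsum_eq]
    refine tsum_congr ?_
    rintro ⟨⟨I, ζ⟩, n⟩
    have hx0 : (E ((I, ζ), n) : 𝓞 K) ≠ 0 := (E ((I, ζ), n)).2
    have hsp : Ideal.span {(E ((I, ζ), n) : 𝓞 K)} = I.1 := by
      rw [hEq, Ideal.span_singleton_mul_left_unit (Units.isUnit _), hg]
    have hlg : lg ((E ((I, ζ), n) : 𝓞 K) : K) = eta (fun j => (n j : ℝ)) + lg (g I : K) := by
      have h6 : ∀ (a : (𝓞 K)ˣ) (y : 𝓞 K), (((a : 𝓞 K) * y : 𝓞 K) : K) = ((a : 𝓞 K) : K) * (y : K) :=
        fun a y => map_mul (algebraMap (𝓞 K) K) _ _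
      rw [hEq, h6, lg_mul' (unit_ne_zero _) (NumberField.RingOfIntegers.coe_ne_zero_iff.2 (hg0 I)),
        lg_unit_mul]
      congr 1
      funext v
      rw [Pi.add_apply, lg_torsion ζ.2, zero_add, lg_prod_eps]
    simp only [hb]
    rw [← hsp, pc_span hE hx0, ← integral_const_mul, ← integral_const_mul, ← integral_const_mul]
    refine integral_congr_ae (Filter.Eventually.of_forall fun u => ?_)
    have h4 : uL ((w, u + fun j => (n j : ℝ)) + e.symm (lg (g I : K))) =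
        uL (w, u) + lg ((E ((I, ζ), n) : 𝓞 K) : K) := by
      rw [← he, map_add, e.apply_symm_apply, he, hlg]
      funext v
      simp only [uL, eta_add, Pi.add_apply]
      ring
    simp only [h4]
    linear_combination φ (E ((I, ζ), n) : 𝓞 K) * H1_shift hξ s hx0 w u
  simp only [h2]
  rw [key, hG', hH', hbs'.of_norm.tsum_prod]
  simp only [tsum_fintype, Finset.sum_const, Finset.card_univ, nsmul_eq_mul, tsum_mul_left]
  have h5 : ∑' I : {I : Ideal (𝓞 K) // ∃ x : 𝓞 K, x ≠ 0 ∧ Ideal.span {x} = I}, b I.1 =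
      Lser (pc φ ξ) s := by
    refine tsum_subtype_eq_of_support_subset (f := b) fun I hI => ?_
    by_contra h
    apply hI
    simp only [hb, pc]
    rw [dif_neg (show ¬ ∃ x : 𝓞 K, x ≠ 0 ∧ Ideal.span {x} = I from h), zero_mul]
  rw [h5]
  push_cast
  ring

end Crest.Agent.R312.BL
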