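import Crest.Agent.R312.B3Emb
import Crest.Agent.R312.B3PoisZ
import Crest.Agent.R312.B3Gauss

/-!
# R312 / B3Pois : Poisson summation over ideals of `𝓞 K` in `K_∞ = (Pl K → ℂ)` (owner helper6)

`FT` is the self-dual Fourier transform for the pairing `eI (y * z)`; the dual lattice of an ideal `I` is
`dualI I = I⁻¹`.  For a lattice `c • I` apply the theorems to `y ↦ f (embv c * y)` (`FT_comp_mul`); for
Gaussians absorb `c` in the widths.
-/

set_option autoImplicit false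
set_option linter.unusedSectionVars false

noncomputable section

open scoped Classical ComplexConjugate NumberField
open MeasureTheory

namespace Crest.Agent.R312

variable {K : Type} [Field K] [NumberField K] [Fld K]

/-- self-dual Fourier transform on `K_∞` -/
def FT (f : (Pl K → ℂ) → ℂ) (z : Pl K → ℂ) : ℂ :=
  ((∏ v : Pl K, 2 / dl v : ℝ) : ℂ) * ∫ y, f y * eI (-(z * y))

omit [Fld K] in
/-- the inverse `I⁻¹` of an ideal, as an additive subgroup of `K` -/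
def dualI (I : Ideal (𝓞 K)) : AddSubgroup K where
  carrier := {h | ∀ x ∈ I, IsIntegral ℤ (h * (x : K))}
  zero_mem' := fun x _ => by simpa using isIntegral_zero
  add_mem' := fun {a b} ha hb x hx => by rw [add_mul]; exact (ha x hx).add (hb x hx)
  neg_mem' := fun {a} ha x hx => by rw [neg_mul]; exact (ha x hx).neg

omit [Fld K] in
theorem mem_dualI {I : Ideal (𝓞 K)} {h : K} :
    h ∈ dualI I ↔ ∀ x ∈ I, IsIntegral ℤ (h * (x : K)) := Iff.rfl

/-- Gaussian with complex widths -/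
def gc (t : Pl K → ℂ) (y : Pl K → ℂ) : ℂ :=
  Complex.exp (-(2 * Real.pi * ∑ v, t v * ((‖y v‖ ^ 2 / dl v : ℝ) : ℂ)))

/-- Gaussian with real widths and a quadratic phase -/
def gq (t : Pl K → ℝ) (c : Pl K → ℂ) (y : Pl K → ℂ) : ℂ := gc (fun v => (t v : ℂ)) y * eI (c * y * y)

/-- the real pairing `∑_v 2 Re(y_v z_v/δ_v)` -/
def po_pr : (Pl K → ℂ) →ₗ[ℝ] (Pl K → ℂ) →ₗ[ℝ] ℝ :=
  LinearMap.mk₂ ℝ (fun y z => ∑ v, 2 * (y v * z v / dlt v).re)
    (fun y y' z => by simp only [Pi.add_apply, add_mul, add_div, Complex.add_re, mul_add,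
      Finset.sum_add_distrib])
    (fun c y z => by simp only [Pi.smul_apply, Complex.real_smul, smul_eq_mul, Finset.mul_sum,
      mul_assoc, mul_div_assoc, Complex.re_ofReal_mul, mul_left_comm c])
    (fun y z z' => by simp only [Pi.add_apply, add_div, Complex.add_re, mul_add,
      Finset.sum_add_distrib])
    (fun c y z => by simp only [Pi.smul_apply, Complex.real_smul, smul_eq_mul, Finset.mul_sum,
      mul_left_comm (y _), mul_div_assoc, Complex.re_ofReal_mul, mul_left_comm c])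

theorem po_pr_apply (y z : Pl K → ℂ) : po_pr y z = ∑ v, 2 * (y v * z v / dlt v).re := rfl

theorem po_pr_comm (y z : Pl K → ℂ) : po_pr y z = po_pr z y := by
  simp only [po_pr_apply, mul_comm (y _)]

theorem po_eI (y z : Pl K → ℂ) : eI (y * z) = eR (po_pr y z) := rfl

theorem po_pr_emb (x y : K) : po_pr (embv x) (embv y) =
    ((Algebra.trace ℚ K (x * y / ((Fld.δ : 𝓞 K) : K)) : ℚ) : ℝ) := by
  rw [trace_eq, po_pr_apply]
  simp only [emb_div, emb_mul, embv_apply, dlt]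

theorem po_embv_inj {x y : K} (h : embv x = embv y) : x = y := by
  obtain ⟨v⟩ := (inferInstance : Nonempty (Pl K))
  exact v.1.injective (congrFun h v)

theorem po_embv_sum {ι : Type} [Fintype ι] (n : ι → ℤ) (c : ι → K) :
    embv (∑ i, n i • c i) = ∑ i, (n i : ℝ) • embv (c i) := by
  funext v
  simp only [embv_apply, emb, map_sum, zsmul_eq_mul, map_mul, map_intCast, Finset.sum_apply,
    Pi.smul_apply, Complex.real_smul, Complex.ofReal_intCast]

theorem po_dual_basis {ι : Type} [Fintype ι] (hι : Fintype.card ι = Module.finrank ℚ K)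
    {β β' : ι → Pl K → ℂ} (h : ∀ i j, po_pr (β' i) (β j) = if j = i then 1 else 0) :
    ∃ b : Module.Basis ι ℝ (Pl K → ℂ), (∀ i, b i = β i) ∧ ∀ y i, b.repr y i = po_pr (β' i) y := by
  have key : ∀ (g : ι → ℝ) i, po_pr (β' i) (∑ j, g j • β j) = g i := fun g i => by
    simp [map_sum, h]
  have li : LinearIndependent ℝ β := Fintype.linearIndependent_iff.2 fun g hg i => by
    rw [← key g i, hg, map_zero]
  have hc : Fintype.card ι = Module.finrank ℝ (Pl K → ℂ) := by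
    rw [hι, ← two_mul_dd', Module.finrank_pi_fintype]
    simp [dd, mul_comm]
  refine ⟨basisOfLinearIndependentOfCardEqFinrank' β li hc, fun i => by simp, fun y i => ?_⟩
  set b := basisOfLinearIndependentOfCardEqFinrank' β li hc with hb
  have hb' : ∀ j, b j = β j := fun j => by simp [hb]
  conv_rhs => rw [← b.sum_repr y]
  simp only [hb', key]

theorem po_coord {ι : Type} [Fintype ι] (hι : Fintype.card ι = Module.finrank ℚ K)
    {I : Ideal (𝓞 K)} (bI : Module.Basis ι ℤ I) :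
    ∃ (b b' : Module.Basis ι ℝ (Pl K → ℂ)) (e : (ι → ℤ) ≃ I) (e' : (ι → ℤ) ≃ dualI I),
      (∀ i, b i = embv (((bI i : I) : 𝓞 K) : K)) ∧
      (∀ n, embv (((e n : I) : 𝓞 K) : K) = ∑ i, (n i : ℝ) • b i) ∧
      (∀ m, embv ((e' m : dualI I) : K) = ∑ i, (m i : ℝ) • b' i) ∧
      (∀ m y, eI (embv ((e' m : dualI I) : K) * y) = eR (∑ i, m i * b.repr y i)) := by
  have hδ : ((Fld.δ : 𝓞 K) : K) ≠ 0 := by exact_mod_cast (Fld.δ_ne : (Fld.δ : 𝓞 K) ≠ 0)
  let φ : I →ₗ[ℤ] K := (Algebra.linearMap (𝓞 K) K).restrictScalars ℤ ∘ₗ (I.subtype.restrictScalars ℤ)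
  have hφ : ∀ x : I, φ x = ((x : 𝓞 K) : K) := fun x => rfl
  have hφi : Function.Injective φ := fun x y h =>
    Subtype.ext (NumberField.RingOfIntegers.coe_injective h)
  set c : ι → K := fun i => (((bI i : I) : 𝓞 K) : K) with hc
  have li : LinearIndependent ℚ c := (LinearIndependent.iff_fractionRing ℤ ℚ).1
    (bI.linearIndependent.map' φ (LinearMap.ker_eq_bot.2 hφi))
  let cK := basisOfLinearIndependentOfCardEqFinrank' c li hι
  have hcK : ∀ i, cK i = c i := fun i => by simp [cK]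
  set c' : ι → K := fun i => ((Fld.δ : 𝓞 K) : K) * cK.traceDual i with hc'
  have htr : ∀ i j, Algebra.trace ℚ K (c' i * c j / ((Fld.δ : 𝓞 K) : K)) = if j = i then 1 else 0 := by
    intro i j
    rw [← cK.trace_traceDual_mul i j, hcK]
    congr 1
    simp only [hc']
    field_simp
  have hpr : ∀ i j, po_pr (embv (c' i)) (embv (c j)) = if j = i then 1 else 0 := fun i j => by
    rw [po_pr_emb, htr]
    split_ifs <;> simp
  obtain ⟨b, hb, hbr⟩ := po_dual_basis hι hpr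
  obtain ⟨b', hb', hbr'⟩ := po_dual_basis hι (β := fun i => embv (c' i)) (β' := fun i => embv (c i))
    fun i j => by rw [po_pr_comm, hpr]; simp only [eq_comm]
  have hx : ∀ x : I, ((x : 𝓞 K) : K) = ∑ i, bI.repr x i • c i := fun x => by
    conv_lhs => rw [← hφ, ← bI.sum_repr x, map_sum]
    simp only [map_zsmul]
    rfl
  have hmem : ∀ m : ι → ℤ, ∑ i, m i • c' i ∈ dualI I := fun m x hxI => by
    refine (Fld.dual _).1 fun y => ⟨∑ i, m i * bI.repr ⟨x * y, I.mul_mem_right y hxI⟩ i, ?_⟩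
    have e1 := hx ⟨x * y, I.mul_mem_right y hxI⟩
    push_cast at e1
    apply Rat.cast_injective (α := ℝ)
    rw [mul_assoc, e1, ← po_pr_emb, po_embv_sum, po_embv_sum]
    simp [map_sum, hpr, mul_comm]
  let f' : (ι → ℤ) → dualI I := fun m => ⟨_, hmem m⟩
  have hf' : ∀ m, embv ((f' m : dualI I) : K) = ∑ i, (m i : ℝ) • b' i := fun m => by
    simp only [f', po_embv_sum, hb']
  have hbij : Function.Bijective f' := by
    refine ⟨fun m m' h => funext fun i => ?_, fun h => ?_⟩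
    · have h1 : ∑ i, (m i : ℝ) • b' i = ∑ i, (m' i : ℝ) • b' i := by rw [← hf', ← hf', h]
      have h2 := congrArg (fun y => b'.repr y i) h1
      simpa [Finsupp.single_apply] using h2
    · have h1 : ∀ i, ∃ n : ℤ, Algebra.trace ℚ K (c i * (h : K) / ((Fld.δ : 𝓞 K) : K)) = n := fun i => by
        obtain ⟨n, hn⟩ := (Fld.dual _).2 (h.2 _ (bI i).2) 1
        exact ⟨n, by rw [← hn, mul_comm (c i)]; simp [hc]⟩
      choose m hm using h1
      refine ⟨m, Subtype.ext (po_embv_inj ?_)⟩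
      rw [hf']
      conv_rhs => rw [← b'.sum_repr (embv (h : K))]
      refine Finset.sum_congr rfl fun i _ => ?_
      rw [hbr', po_pr_emb, hm, Rat.cast_intCast]
  refine ⟨b, b', bI.equivFun.symm.toEquiv, Equiv.ofBijective f' hbij, hb, fun n => ?_, hf',
    fun m y => ?_⟩
  · rw [hx, po_embv_sum]
    refine Finset.sum_congr rfl fun i _ => ?_
    rw [hb, ← bI.equivFun_apply]
    congr 2
    exact congrFun (bI.equivFun.apply_symm_apply n) i
  · rw [Equiv.ofBijective_apply, po_eI, hf']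
    simp [map_sum, hbr, hb']

theorem po_basis0 : ∃ κ : ℝ, ∀ {I : Ideal (𝓞 K)}, I ≠ ⊥ →
    ∃ (ι : Type) (_ : Fintype ι) (b b' : Module.Basis ι ℝ (Pl K → ℂ)) (e : (ι → ℤ) ≃ I)
      (e' : (ι → ℤ) ≃ dualI I),
      (∀ n, embv (((e n : I) : 𝓞 K) : K) = ∑ i, (n i : ℝ) • b i) ∧
      (∀ m, embv ((e' m : dualI I) : K) = ∑ i, (m i : ℝ) • b' i) ∧
      (∀ m y, eI (embv ((e' m : dualI I) : K) * y) = eR (∑ i, m i * b.repr y i)) ∧
      (∏ v : Pl K, 2 / dl v) * (volume : Measure (Pl K → ℂ)).real (ZSpan.fundamentalDomain b) =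
        Ideal.absNorm I * κ := by
  let bO := NumberField.RingOfIntegers.basis K
  have hι : Fintype.card (Module.Free.ChooseBasisIndex ℤ (𝓞 K)) = Module.finrank ℚ K := by
    rw [← Module.finrank_eq_card_chooseBasisIndex, NumberField.RingOfIntegers.rank]
  obtain ⟨b0, -, -, -, hb0, -⟩ := po_coord hι (I := ⊤)
    (bO.map (Submodule.topEquiv.symm.restrictScalars ℤ))
  have hb0' : ∀ i, b0 i = embv ((bO i : 𝓞 K) : K) := fun i => by rw [hb0]; rfl
  refine ⟨(∏ v : Pl K, 2 / dl v) * (volume : Measure (Pl K → ℂ)).real (ZSpan.fundamentalDomain b0),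
    fun {I} hI => ?_⟩
  obtain ⟨b, b', e, e', hb, h1, h2, h3⟩ := po_coord hι (Ideal.selfBasis bO I hI)
  refine ⟨_, inferInstance, b, b', e, e', h1, h2, h3, ?_⟩
  rw [ZSpan.measureReal_fundamentalDomain b volume b0, mul_left_comm,
    ← Ideal.natAbs_det_basis_change bO I (Ideal.selfBasis bO I hI)]
  congr 1
  rw [Nat.cast_natAbs, Int.cast_abs, Module.Basis.det_apply, Module.Basis.det_apply, Int.cast_det]
  congr 2
  ext i j
  rw [Module.Basis.toMatrix_apply, Matrix.map_apply, Module.Basis.toMatrix_apply, hb,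
    Function.comp_apply]
  set x : 𝓞 K := (Ideal.selfBasis bO I hI j : 𝓞 K)
  have hx : (x : K) = ∑ i, bO.repr x i • ((bO i : 𝓞 K) : K) := by
    conv_lhs => rw [← bO.sum_repr x]
    simp
  rw [hx, po_embv_sum]
  simp [← hb0', Finsupp.single_apply]

theorem summable_exp_ideal (I : Ideal (𝓞 K)) {c : ℝ} (hc : 0 < c) :
    Summable fun x : I => Real.exp (-(c * ‖embv ((x : 𝓞 K) : K)‖)) := by
  by_cases hI : I = ⊥
  · subst hI
    exact .of_finite
  obtain ⟨κ, hκ⟩ := po_basis0 (K := K)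
  obtain ⟨ι, _, b, b', e, e', h1, -⟩ := hκ hI
  refine e.summable_iff.1 ((summable_exp_neg_norm_basis b hc).congr fun n => ?_)
  simp only [Function.comp_apply, h1]

theorem summable_exp_dual {I : Ideal (𝓞 K)} (hI : I ≠ ⊥) {c : ℝ} (hc : 0 < c) :
    Summable fun h : dualI I => Real.exp (-(c * ‖embv (h : K)‖)) := by
  obtain ⟨κ, hκ⟩ := po_basis0 (K := K)
  obtain ⟨ι, _, b, b', e, e', -, h2, -⟩ := hκ hI
  refine e'.summable_iff.1 ((summable_exp_neg_norm_basis b' hc).congr fun n => ?_)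
  simp only [Function.comp_apply, h2]

/-- `𝓞 K` is cocompact in `K_∞` -/
theorem exists_near : ∃ C : ℝ, ∀ y : Pl K → ℂ, ∃ x : 𝓞 K, ‖y - embv (x : K)‖ ≤ C := by
  obtain ⟨κ, hκ⟩ := po_basis0 (K := K)
  obtain ⟨ι, _, b, b', e, e', h1, -⟩ := hκ (I := ⊤) top_ne_bot
  refine ⟨∑ i, ‖b i‖, fun y => ⟨e fun i => ⌊b.repr y i⌋, ?_⟩⟩
  rw [h1]
  conv_lhs => rw [← b.sum_repr y]
  simp only [b.repr_sum_self]
  rw [← Finset.sum_sub_distrib]
  refine (norm_sum_le _ _).trans (Finset.sum_le_sum fun i _ => ?_)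
  rw [← sub_smul, norm_smul, Real.norm_eq_abs, Int.self_sub_floor, abs_of_nonneg (Int.fract_nonneg _)]
  exact mul_le_of_le_one_left (norm_nonneg _) (Int.fract_lt_one _).le

theorem po_c_pos : 0 < ∏ v : Pl K, 2 / dl v :=
  Finset.prod_pos fun v _ => div_pos two_pos (dl_pos v)

theorem po_pois {I : Ideal (𝓞 K)} {ι : Type} [Fintype ι] {b : Module.Basis ι ℝ (Pl K → ℂ)}
    {e : (ι → ℤ) ≃ I} {e' : (ι → ℤ) ≃ dualI I}
    (h1 : ∀ n, embv (((e n : I) : 𝓞 K) : K) = ∑ i, (n i : ℝ) • b i)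
    (h3 : ∀ m y, eI (embv ((e' m : dualI I) : K) * y) = eR (∑ i, m i * b.repr y i))
    {f : (Pl K → ℂ) → ℂ} (hf : Continuous f)
    (hloc : ∀ r : ℝ, ∃ g : I → ℝ, Summable g ∧
      ∀ (x : I) y, ‖y‖ ≤ r → ‖f (y + embv ((x : 𝓞 K) : K))‖ ≤ g x)
    (hs : Summable fun h : dualI I => FT f (embv (h : K))) (a : Pl K → ℂ) :
    ∑' x : I, f (a + embv ((x : 𝓞 K) : K)) = (((∏ v : Pl K, 2 / dl v) *
      (volume : Measure (Pl K → ℂ)).real (ZSpan.fundamentalDomain b) : ℝ) : ℂ)⁻¹ *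
      ∑' h : dualI I, FT f (embv (h : K)) * eI (embv (h : K) * a) := by
  have hc : ((∏ v : Pl K, 2 / dl v : ℝ) : ℂ) ≠ 0 := Complex.ofReal_ne_zero.2 po_c_pos.ne'
  have hFT : ∀ m, FT f (embv ((e' m : dualI I) : K)) =
      ((∏ v : Pl K, 2 / dl v : ℝ) : ℂ) * ∫ y, f y * eR (-∑ i, m i * b.repr y i) := fun m => by
    unfold FT
    congr 2
    funext y
    rw [← mul_neg, h3]
    simp
  have hs' : Summable fun m : ι → ℤ => ∫ y, f y * eR (-∑ i, m i * b.repr y i) := by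
    refine ((e'.summable_iff.2 hs).mul_left ((∏ v : Pl K, 2 / dl v : ℝ) : ℂ)⁻¹).congr fun m => ?_
    rw [Function.comp_apply, hFT, inv_mul_cancel_left₀ hc]
  have h := poisson_basis volume b hf (fun r => by
    obtain ⟨g, hg, hb⟩ := hloc r
    exact ⟨fun n => g (e n), e.summable_iff.2 hg, fun n y hy => by rw [← h1]; exact hb _ y hy⟩) hs' a
  rw [← e.tsum_eq, ← e'.tsum_eq]
  simp only [h1, h, hFT, h3, mul_assoc, tsum_mul_left]
  rw [Complex.ofReal_mul, mul_inv, mul_comm (_⁻¹) (_⁻¹), mul_assoc, inv_mul_cancel_left₀ hc]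

theorem po_loc (I : Ideal (𝓞 K)) {f : (Pl K → ℂ) → ℂ}
    {C c : ℝ} (hc : 0 < c) (hdec : ∀ y, ‖f y‖ ≤ C * Real.exp (-(c * ‖y‖))) (r : ℝ) :
    ∃ g : I → ℝ, Summable g ∧ ∀ (x : I) y, ‖y‖ ≤ r → ‖f (y + embv ((x : 𝓞 K) : K))‖ ≤ g x := by
  have hC : 0 ≤ C := by simpa using (norm_nonneg _).trans (hdec 0)
  refine ⟨fun x => C * Real.exp (c * r) * Real.exp (-(c * ‖embv ((x : 𝓞 K) : K)‖)),
    (summable_exp_ideal I hc).mul_left _, fun x y hy => (hdec _).trans ?_⟩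
  beta_reduce
  rw [mul_assoc, ← Real.exp_add]
  refine mul_le_mul_of_nonneg_left (Real.exp_le_exp.2 ?_) hC
  have := norm_sub_norm_le (embv ((x : 𝓞 K) : K)) (-y)
  rw [sub_neg_eq_add, norm_neg, add_comm] at this
  nlinarith

theorem FT_comp_mul (f : (Pl K → ℂ) → ℂ) {κ : Pl K → ℂ} (hκ : ∀ v, κ v ≠ 0) (z : Pl K → ℂ) :
    FT (fun y => f (κ * y)) z = (((∏ v, ‖κ v‖ ^ 2)⁻¹ : ℝ) : ℂ) * FT f (z / κ) := by
  let L : (Pl K → ℂ) →ₗ[ℝ] (Pl K → ℂ) :=
    LinearMap.pi fun v => (Algebra.lmul ℝ ℂ (κ v)).comp (LinearMap.proj v)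
  have hL : ∀ y, L y = κ * y := fun y => rfl
  have hdet : LinearMap.det L = ∏ v, ‖κ v‖ ^ 2 := by
    rw [LinearMap.det_pi]
    refine Finset.prod_congr rfl fun v _ => ?_
    rw [← Algebra.norm_apply, Algebra.norm_complex_apply, Complex.normSq_eq_norm_sq]
  have hp : 0 < ∏ v, ‖κ v‖ ^ 2 := Finset.prod_pos fun v _ => pow_pos (norm_pos_iff.2 (hκ v)) 2
  have hm := Measure.map_linearMap_addHaar_eq_smul_addHaar (volume : Measure (Pl K → ℂ)) (f := L)
    (by rw [hdet]; exact hp.ne')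
  let E : (Pl K → ℂ) ≃ₜ (Pl K → ℂ) := Homeomorph.piCongrRight fun v => Homeomorph.mulLeft₀ (κ v) (hκ v)
  have h := integral_map_equiv (μ := volume) E.toMeasurableEquiv fun y => f y * eI (-(z / κ * y))
  rw [show (⇑E.toMeasurableEquiv : (Pl K → ℂ) → Pl K → ℂ) = L from rfl, hm, integral_smul_measure,
    hdet, abs_of_pos (inv_pos.2 hp), ENNReal.toReal_ofReal (inv_pos.2 hp).le] at h
  unfold FT
  rw [Complex.real_smul] at h
  rw [mul_left_comm, h]
  congr 2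
  funext y
  rw [hL]
  congr 3
  funext v
  simp only [Pi.mul_apply, Pi.div_apply]
  field_simp [hκ v]

theorem continuous_gc (t : Pl K → ℂ) : Continuous (gc t) := by
  unfold gc
  fun_prop

theorem continuous_gq (t : Pl K → ℝ) (c : Pl K → ℂ) : Continuous (gq t c) :=
  (continuous_gc _).mul (continuous_eI.comp (by fun_prop))

theorem norm_gc (t y : Pl K → ℂ) :
    ‖gc t y‖ = Real.exp (-(2 * Real.pi * ∑ v, (t v).re * (‖y v‖ ^ 2 / dl v))) := by
  unfold gc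
  rw [Complex.norm_exp]
  congr 1
  rw [show (2 * (Real.pi : ℂ)) = ((2 * Real.pi : ℝ) : ℂ) by push_cast; rfl, Complex.neg_re,
    Complex.re_ofReal_mul, Complex.re_sum]
  simp only [Complex.re_mul_ofReal]

theorem norm_gq (t : Pl K → ℝ) (c y : Pl K → ℂ) :
    ‖gq t c y‖ = Real.exp (-(2 * Real.pi * ∑ v, t v * (‖y v‖ ^ 2 / dl v))) := by
  rw [gq, norm_mul, norm_eI, mul_one, norm_gc]
  simp only [Complex.ofReal_re]

theorem gc_decay {t : Pl K → ℂ} (ht : ∀ v, 0 < (t v).re) :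
    ∃ C : ℝ, ∀ y, ‖gc t y‖ ≤ C * Real.exp (-(1 * ‖y‖)) := by
  refine ⟨Real.exp (∑ v, dl v / (8 * Real.pi * (t v).re)), fun y => ?_⟩
  rw [norm_gc, ← Real.exp_add, Real.exp_le_exp, one_mul, Finset.mul_sum]
  have h1 : ‖y‖ ≤ ∑ v, ‖y v‖ := (pi_norm_le_iff_of_nonneg (by positivity)).2 fun v =>
    Finset.single_le_sum (f := fun v => ‖y v‖) (fun _ _ => norm_nonneg _) (Finset.mem_univ v)
  have h2 : ∑ v, ‖y v‖ ≤ ∑ v, (dl v / (8 * Real.pi * (t v).re) +
      2 * Real.pi * ((t v).re * (‖y v‖ ^ 2 / dl v))) := Finset.sum_le_sum fun v _ => by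
    have hd := dl_pos v
    have ha : 0 < 2 * Real.pi * (t v).re / dl v := by have := ht v; positivity
    have e1 : dl v / (8 * Real.pi * (t v).re) = 1 / (4 * (2 * Real.pi * (t v).re / dl v)) := by
      have := (ht v).ne'
      field_simp
      norm_num
    have e2 : 2 * Real.pi * ((t v).re * (‖y v‖ ^ 2 / dl v)) =
        (2 * Real.pi * (t v).re / dl v) * ‖y v‖ ^ 2 := by ring
    rw [e1, e2]
    generalize 2 * Real.pi * (t v).re / dl v = a at ha
    rw [div_add' _ _ _ (by positivity), le_div_iff₀ (by positivity)]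
    nlinarith [sq_nonneg (2 * a * ‖y v‖ - 1)]
  rw [Finset.sum_add_distrib] at h2
  linarith

theorem summable_gc (I : Ideal (𝓞 K)) {t : Pl K → ℂ} (ht : ∀ v, 0 < (t v).re) (a : Pl K → ℂ) :
    Summable fun x : I => ‖gc t (a + embv ((x : 𝓞 K) : K))‖ := by
  obtain ⟨C, hC⟩ := gc_decay ht
  obtain ⟨g, hg, hb⟩ := po_loc I one_pos hC ‖a‖
  exact hg.of_nonneg_of_le (fun _ => norm_nonneg _) fun x => hb x a le_rfl

theorem summable_gc_dual {I : Ideal (𝓞 K)} (hI : I ≠ ⊥) {t : Pl K → ℂ} (ht : ∀ v, 0 < (t v).re) :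
    Summable fun h : dualI I => ‖gc t (embv (h : K))‖ := by
  obtain ⟨C, hC⟩ := gc_decay ht
  exact ((summable_exp_dual hI one_pos).mul_left C).of_nonneg_of_le (fun _ => norm_nonneg _)
    fun x => hC _

theorem gc_eq_prod (t y : Pl K → ℂ) :
    gc t y = ∏ v, Complex.exp (-(2 * Real.pi * (t v * ((‖y v‖ ^ 2 / ‖dlt v‖ : ℝ) : ℂ)))) := by
  unfold gc
  rw [← Complex.exp_sum, Finset.mul_sum, Finset.sum_neg_distrib]
  rfl

theorem FT_gc {t : Pl K → ℂ} (ht : ∀ v, 0 < (t v).re) (z : Pl K → ℂ) :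
    FT (gc t) z = (∏ v, t v)⁻¹ * gc t⁻¹ z := by
  unfold FT
  simp only [gc_eq_prod, eI_eq_prod, ← Finset.prod_mul_distrib, Pi.neg_apply, Pi.mul_apply]
  rw [integral_fintype_prod_volume_eq_prod (fun v (y : ℂ) =>
    Complex.exp (-(2 * Real.pi * (t v * ((‖y‖ ^ 2 / ‖dlt v‖ : ℝ) : ℂ)))) *
      Complex.exp (2 * Real.pi * Complex.I * ((2 * (-(z v * y) / dlt v).re : ℝ) : ℂ))),
    Complex.ofReal_prod, ← Finset.prod_mul_distrib, ← Finset.prod_inv_distrib,
    ← Finset.prod_mul_distrib]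
  exact Finset.prod_congr rfl fun v _ => gauss_ft_c (dlt_ne_zero v) (ht v) (z v)

theorem FT_gq {t : Pl K → ℝ} (ht : ∀ v, 0 < t v) (c z : Pl K → ℂ) :
    FT (gq t c) z = (((∏ v, Real.sqrt (t v ^ 2 + 4 * ‖c v‖ ^ 2))⁻¹ : ℝ) : ℂ) *
      gq (fun v => t v / (t v ^ 2 + 4 * ‖c v‖ ^ 2))
        (fun v => -conj (c v) / ((t v ^ 2 + 4 * ‖c v‖ ^ 2 : ℝ) : ℂ)) z := by
  unfold FT gq
  simp only [gc_eq_prod, eI_eq_prod, ← Finset.prod_mul_distrib, Pi.neg_apply, Pi.mul_apply]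
  rw [integral_fintype_prod_volume_eq_prod (fun v (y : ℂ) =>
    Complex.exp (-(2 * Real.pi * (t v * ((‖y‖ ^ 2 / ‖dlt v‖ : ℝ) : ℂ)))) *
      Complex.exp (2 * Real.pi * Complex.I * ((2 * (c v * y * y / dlt v).re : ℝ) : ℂ)) *
      Complex.exp (2 * Real.pi * Complex.I * ((2 * (-(z v * y) / dlt v).re : ℝ) : ℂ))),
    Complex.ofReal_prod, ← Finset.prod_mul_distrib, ← Finset.prod_inv_distrib, Complex.ofReal_prod,
    ← Finset.prod_mul_distrib]
  exact Finset.prod_congr rfl fun v _ => gauss_ft_q (dlt_ne_zero v) (ht v) (c v) (z v)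

omit [Fld K] in
/-- `𝓞 K` is self-dual -/
def po_top : 𝓞 K ≃ dualI (⊤ : Ideal (𝓞 K)) where
  toFun x := ⟨x, fun y _ => x.isIntegral_coe.mul y.isIntegral_coe⟩
  invFun h := ⟨h, show IsIntegral ℤ (h : K) by simpa using h.2 1 trivial⟩
  left_inv _ := rfl
  right_inv _ := rfl

omit [Fld K] in
/-- `𝓞 K ≃ ⊤` -/
def po_top' : 𝓞 K ≃ (⊤ : Ideal (𝓞 K)) where
  toFun x := ⟨x, trivial⟩
  invFun h := h
  left_inv _ := rfl
  right_inv _ := rfl

theorem po_inv_re {t : Pl K → ℂ} (ht : ∀ v, 0 < (t v).re) (v : Pl K) : 0 < (t⁻¹ v).re := by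
  rw [Pi.inv_apply, Complex.inv_re]
  exact div_pos (ht v) (Complex.normSq_pos.2 fun h => by simpa [h] using ht v)

theorem po_sum_FT_gc {I : Ideal (𝓞 K)} (hI : I ≠ ⊥) {t : Pl K → ℂ} (ht : ∀ v, 0 < (t v).re) :
    Summable fun h : dualI I => FT (gc t) (embv (h : K)) := by
  simp only [FT_gc ht]
  exact (summable_gc_dual hI (po_inv_re ht)).of_norm.mul_left _

/-- Coordinates: real bases of `K_∞` adapted to `I` and to its dual. -/
theorem exists_ideal_basis {I : Ideal (𝓞 K)} (hI : I ≠ ⊥) :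
    ∃ (ι : Type) (_ : Fintype ι) (b b' : Module.Basis ι ℝ (Pl K → ℂ)) (e : (ι → ℤ) ≃ I)
      (e' : (ι → ℤ) ≃ dualI I),
      (∀ n, embv (((e n : I) : 𝓞 K) : K) = ∑ i, (n i : ℝ) • b i) ∧
      (∀ m, embv ((e' m : dualI I) : K) = ∑ i, (m i : ℝ) • b' i) ∧
      (∀ m y, eI (embv ((e' m : dualI I) : K) * y) = eR (∑ i, m i * b.repr y i)) ∧
      (∏ v : Pl K, 2 / dl v) * (volume : Measure (Pl K → ℂ)).real (ZSpan.fundamentalDomain b) =
        Ideal.absNorm I := by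
  obtain ⟨κ, hκ⟩ := po_basis0 (K := K)
  suffices h : κ = 1 by simpa only [h, mul_one] using hκ hI
  obtain ⟨ι, _, b, b', e, e', h1, -, h3, h4⟩ := hκ (I := ⊤) top_ne_bot
  have ht : ∀ v, 0 < ((1 : Pl K → ℂ) v).re := fun v => by simp
  obtain ⟨C, hC⟩ := gc_decay ht
  have h := po_pois h1 h3 (continuous_gc 1) (po_loc ⊤ one_pos hC) (po_sum_FT_gc top_ne_bot ht) 0
  simp only [h4, FT_gc ht, zero_add, mul_zero, eI_zero, mul_one, inv_one, Pi.one_apply,
    Finset.prod_const_one, one_mul, Ideal.absNorm_top, Nat.cast_one] at h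
  rw [← po_top.tsum_eq, ← po_top'.tsum_eq] at h
  have hg : ∀ y : Pl K → ℂ, gc 1 y = (‖gc 1 y‖ : ℂ) := fun y => by
    rw [norm_gc, gc]
    simp
  have hs : Summable fun x : 𝓞 K => ‖gc 1 (embv (x : K))‖ := by
    refine (po_top'.summable_iff.2 (summable_gc ⊤ ht 0)).congr fun x => ?_
    rw [Function.comp_apply, zero_add]
    rfl
  have hpos : 0 < ∑' x : 𝓞 K, ‖gc 1 (embv (x : K))‖ :=
    hs.tsum_pos (fun _ => norm_nonneg _) 0 (by rw [norm_gc]; exact Real.exp_pos _)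
  have hS : ∑' x : 𝓞 K, gc 1 (embv (x : K)) ≠ 0 := by
    rw [tsum_congr fun x : 𝓞 K => hg (embv (x : K)), ← Complex.ofReal_tsum]
    exact Complex.ofReal_ne_zero.2 hpos.ne'
  have h' : (κ : ℂ)⁻¹ = 1 := mul_right_cancel₀ hS (h.symm.trans (one_mul _).symm)
  exact_mod_cast inv_eq_one.1 h'

/-- **Poisson summation** over an ideal. -/
theorem poisson_ideal {I : Ideal (𝓞 K)} (hI : I ≠ ⊥) {f : (Pl K → ℂ) → ℂ} (hf : Continuous f)
    (hloc : ∀ r : ℝ, ∃ g : I → ℝ, Summable g ∧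
      ∀ (x : I) y, ‖y‖ ≤ r → ‖f (y + embv ((x : 𝓞 K) : K))‖ ≤ g x)
    (hs : Summable fun h : dualI I => FT f (embv (h : K))) (a : Pl K → ℂ) :
    ∑' x : I, f (a + embv ((x : 𝓞 K) : K)) = ((Ideal.absNorm I : ℂ))⁻¹ *
      ∑' h : dualI I, FT f (embv (h : K)) * eI (embv (h : K) * a) := by
  obtain ⟨ι, _, b, b', e, e', h1, -, h3, h4⟩ := exists_ideal_basis hI
  rw [po_pois h1 h3 hf hloc hs a, h4, Complex.ofReal_natCast]

/-- the same for functions with exponential decay -/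
theorem poisson_ideal_exp {I : Ideal (𝓞 K)} (hI : I ≠ ⊥) {f : (Pl K → ℂ) → ℂ} (hf : Continuous f)
    {C c : ℝ} (hc : 0 < c) (hdec : ∀ y, ‖f y‖ ≤ C * Real.exp (-(c * ‖y‖)))
    (hs : Summable fun h : dualI I => FT f (embv (h : K))) (a : Pl K → ℂ) :
    ∑' x : I, f (a + embv ((x : 𝓞 K) : K)) = ((Ideal.absNorm I : ℂ))⁻¹ *
      ∑' h : dualI I, FT f (embv (h : K)) * eI (embv (h : K) * a) :=
  poisson_ideal hI hf (po_loc I hc hdec) hs a

/-- **Theta transformation**, complex widths. -/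
theorem poisson_gc {I : Ideal (𝓞 K)} (hI : I ≠ ⊥) {t : Pl K → ℂ} (ht : ∀ v, 0 < (t v).re)
    (a : Pl K → ℂ) :
    ∑' x : I, gc t (a + embv ((x : 𝓞 K) : K)) = ((Ideal.absNorm I : ℂ))⁻¹ * (∏ v, t v)⁻¹ *
      ∑' h : dualI I, gc t⁻¹ (embv (h : K)) * eI (embv (h : K) * a) := by
  obtain ⟨C, hC⟩ := gc_decay ht
  rw [poisson_ideal_exp hI (continuous_gc t) one_pos hC (po_sum_FT_gc hI ht) a]
  simp only [FT_gc ht, mul_assoc, tsum_mul_left]

/-- **Theta transformation**, quadratic phase. -/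
theorem poisson_gq {I : Ideal (𝓞 K)} (hI : I ≠ ⊥) {t : Pl K → ℝ} (ht : ∀ v, 0 < t v)
    (c a : Pl K → ℂ) :
    ∑' x : I, gq t c (a + embv ((x : 𝓞 K) : K)) = ((Ideal.absNorm I : ℂ))⁻¹ *
      (((∏ v, Real.sqrt (t v ^ 2 + 4 * ‖c v‖ ^ 2))⁻¹ : ℝ) : ℂ) *
      ∑' h : dualI I, gq (fun v => t v / (t v ^ 2 + 4 * ‖c v‖ ^ 2))
        (fun v => -conj (c v) / ((t v ^ 2 + 4 * ‖c v‖ ^ 2 : ℝ) : ℂ)) (embv (h : K)) *
          eI (embv (h : K) * a) := by
  obtain ⟨C, hC⟩ := gc_decay (t := fun v => (t v : ℂ)) ht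
  have hn : ∀ (t : Pl K → ℝ) (c y : Pl K → ℂ), ‖gq t c y‖ = ‖gc (fun v => (t v : ℂ)) y‖ :=
    fun t c y => by rw [gq, norm_mul, norm_eI, mul_one]
  rw [poisson_ideal_exp hI (continuous_gq t c) one_pos (C := C) (fun y => by rw [hn]; exact hC y) ?_ a]
  · simp only [FT_gq ht, mul_assoc, tsum_mul_left]
  · simp only [FT_gq ht]
    refine Summable.mul_left _ (Summable.of_norm ?_)
    simp only [hn]
    exact summable_gc_dual hI fun v => by
      have := ht v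
      rw [Complex.ofReal_re]
      positivity

theorem po_gc_real (t : Pl K → ℝ) (y : Pl K → ℂ) : gc (fun v => (t v : ℂ)) y =
    (Real.exp (-(2 * Real.pi * ∑ v, t v * ‖y v‖ ^ 2 / dl v)) : ℂ) := by
  simp only [gc, mul_div_assoc]
  push_cast
  rfl

theorem summable_gauss (t : Pl K → ℝ) (ht : ∀ v, 0 < t v) (a : K) : Summable fun x : 𝓞 K =>
    Real.exp (-(2 * Real.pi * ∑ v, t v * ‖emb v ((x : K) + a)‖ ^ 2 / dl v)) := by
  refine (po_top'.summable_iff.2 (summable_gc ⊤ (t := fun v => (t v : ℂ)) ht (embv a))).congr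
    fun x => ?_
  rw [Function.comp_apply, po_gc_real, Complex.norm_real, Real.norm_of_nonneg (Real.exp_pos _).le,
    add_comm, ← embv_add]
  rfl

/-- **Theta transformation** over `𝓞 K`, real widths. -/
theorem poisson_gauss (t : Pl K → ℝ) (ht : ∀ v, 0 < t v) (a : K) :
    ∑' x : 𝓞 K, (Real.exp (-(2 * Real.pi * ∑ v, t v * ‖emb v ((x : K) + a)‖ ^ 2 / dl v)) : ℂ) =
      (((∏ v, t v)⁻¹ : ℝ) : ℂ) * ∑' h : 𝓞 K, eT ((h : K) * a) *
        (Real.exp (-(2 * Real.pi * ∑ v, (t v)⁻¹ * ‖emb v (h : K)‖ ^ 2 / dl v)) : ℂ) := by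
  have h := poisson_gc (I := ⊤) top_ne_bot (t := fun v => (t v : ℂ)) ht (embv a)
  rw [← po_top.tsum_eq, ← po_top'.tsum_eq, show (fun v => (t v : ℂ))⁻¹ = fun v => (((t v)⁻¹ : ℝ) : ℂ)
    from funext fun v => (Complex.ofReal_inv _).symm] at h
  simp only [po_gc_real, Ideal.absNorm_top, Nat.cast_one, inv_one, one_mul, ← embv_mul, ← embv_add,
    ← eT_eq_eI, add_comm a] at h
  rw [Complex.ofReal_inv, Complex.ofReal_prod]
  refine h.trans ?_
  congr 1
  exact tsum_congr fun x => mul_comm _ _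

theorem gau_eq_gc (x : K) (T : ℝ) :
    (gau x T : ℂ) = gc (fun _ => (((T ^ ((dd K : ℝ)⁻¹))⁻¹ : ℝ) : ℂ)) (embv x) := by
  rw [po_gc_real, gau]
  congr 4
  refine Finset.sum_congr rfl fun v _ => ?_
  rw [embv_apply]
  ring

end Crest.Agent.R312
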