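import Crest.Agent.R312.B3L_Unit
import Crest.Agent.R312.B3Pois

/-!
# R312 / B3L_P0 : Poisson summation for Gaussians on `𝓞 K` (bridge to `B3Pois`, owner helper45)
-/

set_option autoImplicit false

noncomputable section

open scoped Classical ComplexConjugate NumberField nonZeroDivisors
open MeasureTheory

namespace Crest.Agent.R312.BL

variable {K : Type} [Field K] [NumberField K] [Fld K]

theorem gr_eq_gc (t : Pl K → ℝ) (x : K) : (gr t x : ℂ) = gc (fun v => (t v : ℂ)) (embv x) := by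
  unfold gr gc
  simp only [embv_apply, mul_div_assoc]
  push_cast
  rfl

omit [Fld K] [NumberField K] in
/-- `𝓞 ≃ ⊤` -/
def topEq : 𝓞 K ≃ (⊤ : Ideal (𝓞 K)) where
  toFun x := ⟨x, Submodule.mem_top⟩
  invFun x := x.1
  left_inv _ := rfl
  right_inv _ := rfl

omit [Fld K] in
/-- `𝓞 ≃ ⊤⁻¹` -/
def dualEq : 𝓞 K ≃ dualI (⊤ : Ideal (𝓞 K)) where
  toFun x := ⟨(x : K), fun y _ => x.isIntegral_coe.mul y.isIntegral_coe⟩
  invFun h := ⟨h.1, (by simpa using h.2 1 Submodule.mem_top : IsIntegral ℤ h.1)⟩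
  left_inv _ := rfl
  right_inv _ := rfl

theorem summable_gr {t : Pl K → ℝ} (ht : ∀ v, 0 < t v) (a : K) :
    Summable (fun x : 𝓞 K => gr t ((x : K) + a)) := by
  have h := summable_gc (K := K) ⊤ (t := fun v => (t v : ℂ)) (fun v => by simpa using ht v) (embv a)
  rw [← (topEq (K := K)).summable_iff] at h
  refine h.congr fun x => ?_
  simp only [Function.comp_apply]
  rw [← embv_add, ← gr_eq_gc, Complex.norm_real, Real.norm_eq_abs, abs_of_pos (show 0 < gr t _ from Real.exp_pos _),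
    add_comm a]
  rfl

theorem poisson_gr {t : Pl K → ℝ} (ht : ∀ v, 0 < t v) (a : K) :
    ∑' x : 𝓞 K, (gr t ((x : K) + a) : ℂ) =
      (((∏ v, t v)⁻¹ : ℝ) : ℂ) * ∑' h : 𝓞 K, eT ((h : K) * a) * (gr (fun v => (t v)⁻¹) (h : K) : ℂ) := by
  have h := poisson_gc (K := K) (I := ⊤) top_ne_bot (t := fun v => (t v : ℂ))
    (fun v => by simpa using ht v) (embv a)
  rw [← (topEq (K := K)).tsum_eq, ← (dualEq (K := K)).tsum_eq, Ideal.absNorm_top] at h
  have h1 : ∀ x : 𝓞 K, (gr t ((x : K) + a) : ℂ) =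
      gc (fun v => (t v : ℂ)) (embv a + embv (((topEq x : (⊤ : Ideal (𝓞 K))) : 𝓞 K) : K)) := by
    intro x
    rw [gr_eq_gc, add_comm, embv_add]
    rfl
  rw [tsum_congr h1, h]
  push_cast
  rw [inv_one, one_mul]
  congr 1
  refine tsum_congr fun x => ?_
  rw [gr_eq_gc, eT_eq_eI, embv_mul, mul_comm]
  congr 2
  funext v
  simp

end Crest.Agent.R312.BL
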