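import Crest.Agent.R312.B0Basic1
import Crest.Agent.R312.B0Fin
import Crest.Agent.R312.B3Pois

/-!
# R312 / B3WVal : local units `IsW`, the finite group `K^*/W R^*`, `R^*/𝓞^*`, the norm `NK` on `K^*`,
summability over `S`-parts
-/

set_option autoImplicit false
set_option linter.unusedSectionVars false

noncomputable section

open scoped Classical ComplexConjugate NumberField
open MeasureTheory

namespace Crest.Agent.R312

variable {K : Type} [Field K] [NumberField K] [Fld K] [Loc K]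

/-- units at all primes of `S` -/
def IsW (w : K) : Prop := w ≠ 0 ∧ SInt w ∧ SInt w⁻¹

theorem IsW.one : IsW (1 : K) := ⟨one_ne_zero, SInt.one, by rw [inv_one]; exact SInt.one⟩

theorem IsW.mul {x y : K} (hx : IsW x) (hy : IsW y) : IsW (x * y) :=
  ⟨mul_ne_zero hx.1 hy.1, hx.2.1.mul hy.2.1, by rw [mul_inv]; exact hx.2.2.mul hy.2.2⟩

theorem IsW.inv {x : K} (hx : IsW x) : IsW x⁻¹ :=
  ⟨inv_ne_zero hx.1, hx.2.2, by rw [inv_inv]; exact hx.2.1⟩

theorem InU.isW {n : ℕ} (hn : 1 ≤ n) {x : K} (hx : InU n x) : IsW x :=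
  ⟨hx.ne_zero hn, hx.sInt, hx.sInt_inv hn⟩

theorem IsW.sInt_mul_iff {w : K} (hw : IsW w) (y : K) : SInt (w * y) ↔ SInt y :=
  ⟨fun h => by simpa [hw.1] using hw.2.2.mul h, fun h => hw.2.1.mul h⟩

theorem wv_unit_ne (u : (R K)ˣ) : ((u : R K) : K) ≠ 0 := fun h => u.ne_zero (Subtype.ext h)

theorem wv_unit_inv (u : (R K)ˣ) : (((u⁻¹ : (R K)ˣ) : R K) : K) = (((u : R K) : K))⁻¹ := by
  refine eq_inv_of_mul_eq_one_left ?_
  rw [← Subring.coe_mul, Units.inv_mul, Subring.coe_one]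

/-- `K^*/U_n R^*` is finite, with integral representatives.  `approx` (with `q = 1`) moves `x` into `R`,
`exists_normal_R` (`k = 1`) to `y ∈ 𝓞` with `Q^M/y ∈ SInt`; two such `y ≡ y' mod Q^(n+M)` have
`y'/y = 1 + Q^n (Q^M/y) t ∈ U_n`; choose one `y` in every residue class that occurs. -/
theorem exists_reps {n : ℕ} (hn : 1 ≤ n) : ∃ S : Finset (𝓞 K), (∀ y ∈ S, y ≠ 0) ∧
    ∀ x : K, x ≠ 0 → ∃ y ∈ S, ∃ (u : (R K)ˣ) (w : K), InU n w ∧ x = (y : K) * ((u : R K) : K) * w := by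
  obtain ⟨M, hM⟩ := exists_normal_R (K := K) (k := 1) le_rfl
  set I : Ideal (𝓞 K) := Ideal.span {((Loc.Q K : ℕ) : 𝓞 K) ^ (n + M)} with hI
  have := Ideal.finiteQuotientOfFreeOfNeBot I
    (by rw [Ne, Ideal.span_singleton_eq_bot]; exact pow_ne_zero _ b0fin_Q_ne)
  have _ := Fintype.ofFinite (𝓞 K ⧸ I)
  let P : (𝓞 K ⧸ I) → 𝓞 K → Prop := fun c y =>
    y ≠ 0 ∧ SInt ((Loc.Q K : K) ^ M / (y : K)) ∧ Ideal.Quotient.mk I y = c
  let g : (𝓞 K ⧸ I) → 𝓞 K := fun c => if h : ∃ y, P c y then h.choose else 1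
  refine ⟨Finset.univ.image g, fun y hy => ?_, fun x hx => ?_⟩
  · obtain ⟨c, -, rfl⟩ := Finset.mem_image.1 hy
    simp only [g]
    split_ifs with h
    · exact h.choose_spec.1
    · exact one_ne_zero
  · obtain ⟨r, -, hr⟩ := approx n hx (q := 1) one_ne_zero 0
    have hr0 : (r : K) ≠ 0 := fun h => hr.ne_zero hn (by rw [h, zero_div])
    obtain ⟨y, u, hy, e, hs⟩ := hM r (fun h => hr0 (by rw [h]; rfl))
    have h : ∃ y', P (Ideal.Quotient.mk I y) y' := ⟨y, hy, hs, rfl⟩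
    obtain ⟨h1, h2, h3⟩ : P (Ideal.Quotient.mk I y) (g (Ideal.Quotient.mk I y)) := by
      simp only [g, dif_pos h]
      exact h.choose_spec
    set y' := g (Ideal.Quotient.mk I y) with hy'
    obtain ⟨t, ht⟩ := Ideal.mem_span_singleton'.1 (Ideal.Quotient.eq.1 h3.symm)
    have k1 : (y' : K) ≠ 0 := by exact_mod_cast h1
    have ht' : (t : K) * (Loc.Q K : K) ^ (n + M) = (y : K) - (y' : K) := by
      exact_mod_cast congrArg (fun z : 𝓞 K => (z : K)) ht
    have k2 : InU n ((y : K) / (y' : K)) := by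
      refine ⟨_, h2.mul (SInt.coe t), ?_⟩
      field_simp
      linear_combination -ht'
    refine ⟨y', Finset.mem_image.2 ⟨_, Finset.mem_univ _, rfl⟩, u, _, k2.mul (hr.inv hn), ?_⟩
    have e' : (r : K) = (y : K) * ((u : R K) : K) := by
      rw [e, pow_one, Subring.coe_mul, coe_toR]
    rw [inv_div, e']
    have k3 : (y : K) ≠ 0 := by exact_mod_cast hy
    have k4 := wv_unit_ne u
    field_simp

variable (K) in
/-- the subgroup `W R^*` -/
def HS : Subgroup Kˣ where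
  carrier := {x | ∃ (u : (R K)ˣ) (w : K), IsW w ∧ (x : K) = ((u : R K) : K) * w}
  one_mem' := ⟨1, 1, IsW.one, by simp⟩
  mul_mem' := by
    rintro x y ⟨u, w, hw, hx⟩ ⟨u', w', hw', hy⟩
    exact ⟨u * u', w * w', hw.mul hw', by simp only [Units.val_mul, hx, hy, Subring.coe_mul]; ring⟩
  inv_mem' := by
    rintro x ⟨u, w, hw, hx⟩
    refine ⟨u⁻¹, w⁻¹, hw.inv, ?_⟩
    have h : (((u⁻¹ : (R K)ˣ) : R K) : K) * ((u : R K) : K) = 1 := by
      rw [← Subring.coe_mul, Units.inv_mul, Subring.coe_one]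
    rw [Units.val_inv_eq_inv_val, hx, mul_inv, eq_inv_of_mul_eq_one_left h]

instance finite_quot_HS : Finite (Kˣ ⧸ HS K) := by
  obtain ⟨S, h0, hS⟩ := exists_reps (K := K) (n := 1) le_rfl
  refine Finite.of_surjective (fun y : S => (QuotientGroup.mk (Units.mk0 ((y : 𝓞 K) : K)
    (by exact_mod_cast h0 y.1 y.2)) : Kˣ ⧸ HS K)) fun c => ?_
  obtain ⟨x, rfl⟩ := QuotientGroup.mk_surjective c
  obtain ⟨y, hy, u, w, hw, e⟩ := hS x x.ne_zero
  refine ⟨⟨y, hy⟩, QuotientGroup.eq.2 ⟨u, w, hw.isW le_rfl, ?_⟩⟩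
  have k3 : (y : K) ≠ 0 := by exact_mod_cast h0 y hy
  rw [Units.val_mul, Units.val_inv_eq_inv_val, Units.val_mk0, e]
  field_simp

/-- `𝓞^* → R^*` -/
def oU : (𝓞 K)ˣ →* (R K)ˣ := Units.map (toR (K := K)).toMonoidHom

theorem coe_oU (ε : (𝓞 K)ˣ) : (((oU ε : (R K)ˣ) : R K) : K) = ((ε : 𝓞 K) : K) := rfl

theorem oU_injective : Function.Injective (oU (K := K)) :=
  Units.map_injective toR_injective

theorem isW_unit (ε : (𝓞 K)ˣ) : IsW ((ε : 𝓞 K) : K) := by
  refine ⟨wv_unit_ne (oU ε), SInt.coe _, ?_⟩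
  rw [← coe_oU, ← wv_unit_inv, ← map_inv, coe_oU]
  exact SInt.coe _

/-- `W ∩ R^* = 𝓞^*` (`SInt.isIntegral` for `u` and `u⁻¹`) -/
theorem exists_oU {u : (R K)ˣ} (h : IsW ((u : R K) : K)) : ∃ ε, oU ε = u := by
  obtain ⟨a, ha⟩ := exists_toR_of_isIntegral (SInt.isIntegral h.2.1)
  obtain ⟨b, hb⟩ := exists_toR_of_isIntegral (x := ((u⁻¹ : (R K)ˣ) : R K))
    (SInt.isIntegral (by rw [wv_unit_inv]; exact h.2.2))
  have hab : a * b = 1 := toR_injective (by rw [map_mul, ha, hb, map_one, Units.mul_inv])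
  exact ⟨⟨a, b, hab, by rw [mul_comm, hab]⟩, Units.ext ha⟩

variable (K) in
/-- `R^*/𝓞^*` -/
abbrev JJ : Type := (R K)ˣ ⧸ (oU (K := K)).range

/-- the chosen representative, in `K` -/
def jo (j : JJ K) : K := (((Quotient.out j : (R K)ˣ) : R K) : K)

theorem jo_ne_zero (j : JJ K) : jo j ≠ 0 :=
  wv_unit_ne _

theorem wv_mk (ε : (𝓞 K)ˣ) (j : JJ K) : (QuotientGroup.mk (oU ε * Quotient.out j) : JJ K) = j := by
  rw [mul_comm, QuotientGroup.mk_mul_of_mem _ (MonoidHom.mem_range.2 ⟨ε, rfl⟩), QuotientGroup.out_eq']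

theorem exists_rEquiv : ∃ e : JJ K × (𝓞 K)ˣ ≃ (R K)ˣ,
    ∀ p, (((e p : (R K)ˣ) : R K) : K) = ((p.2 : 𝓞 K) : K) * jo p.1 := by
  refine ⟨Equiv.ofBijective (fun p => oU p.2 * Quotient.out p.1) ⟨?_, fun u => ?_⟩, fun p => rfl⟩
  · rintro ⟨j, ε⟩ ⟨j', ε'⟩ h
    have hj : j = j' := by
      have := congrArg (QuotientGroup.mk : (R K)ˣ → JJ K) h
      simpa only [wv_mk] using this
    subst hj
    exact Prod.ext rfl (oU_injective (mul_right_cancel h))
  · obtain ⟨⟨_, ε, rfl⟩, h⟩ := QuotientGroup.mk_out_eq_mul (oU (K := K)).range u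
    refine ⟨(QuotientGroup.mk u, ε⁻¹), ?_⟩
    change oU ε⁻¹ * Quotient.out (QuotientGroup.mk u : JJ K) = u
    rw [h, map_inv, mul_comm u, inv_mul_cancel_left]

theorem jo_mul (j : JJ K) (u : (R K)ˣ) : ∃ ε : (𝓞 K)ˣ,
    jo (j * QuotientGroup.mk u) = ((ε : 𝓞 K) : K) * (jo j * ((u : R K) : K)) := by
  obtain ⟨⟨_, ε, rfl⟩, h⟩ := QuotientGroup.mk_out_eq_mul (oU (K := K)).range (Quotient.out j * u)
  refine ⟨ε, ?_⟩
  have e : j * QuotientGroup.mk u = QuotientGroup.mk (Quotient.out j * u) := by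
    rw [QuotientGroup.mk_mul, QuotientGroup.out_eq']
  rw [e, jo, h, mul_comm]
  rfl

/-- the norm `N` extended to `K` -/
def NK (y : K) : ℝ := N (exists_div y).choose / N (exists_div y).choose_spec.choose

theorem NK_div (d : R K) {q : R K} (hq : q ≠ 0) : NK ((d : K) / (q : K)) = N d / N q := by
  obtain ⟨h1, h2⟩ := (exists_div ((d : K) / (q : K))).choose_spec.choose_spec
  unfold NK
  set a := (exists_div ((d : K) / (q : K))).choose
  set b := (exists_div ((d : K) / (q : K))).choose_spec.choose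
  have hq' : (q : K) ≠ 0 := fun h => hq (Subtype.ext h)
  have hb' : (b : K) ≠ 0 := fun h => h1 (Subtype.ext h)
  have e : d * b = a * q := Subtype.ext ((div_eq_div_iff hq' hb').1 h2)
  rw [div_eq_div_iff (N_pos h1).ne' (N_pos hq).ne', ← N_mul, ← N_mul, e]

theorem NK_pos {y : K} (hy : y ≠ 0) : 0 < NK y := by
  obtain ⟨a, b, hb, rfl⟩ := exists_div y
  rw [NK_div a hb]
  refine div_pos (N_pos ?_) (N_pos hb)
  rintro rfl
  exact hy (by simp)

theorem NK_mul (x y : K) : NK (x * y) = NK x * NK y := by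
  obtain ⟨a, b, hb, rfl⟩ := exists_div x
  obtain ⟨c, d, hd, rfl⟩ := exists_div y
  rw [div_mul_div_comm, ← Subring.coe_mul, ← Subring.coe_mul, NK_div _ (mul_ne_zero hb hd),
    NK_div _ hb, NK_div _ hd, N_mul, N_mul, div_mul_div_comm]

theorem NK_coe (d : R K) : NK (d : K) = N d := by
  have := NK_div d (q := 1) one_ne_zero
  rwa [Subring.coe_one, div_one, N_one, div_one] at this

theorem NK_unit (u : (R K)ˣ) : NK ((u : R K) : K) = 1 := by rw [NK_coe, N_unit u.isUnit]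

/-- `w = a/b`, `b ∈ ℕ` coprime to `Q`, `a ∈ 𝓞` coprime to `Q` (`isCoprime_of_sInt_inv`), `N_toR` -/
theorem NK_of_isW {w : K} (hw : IsW w) : NK w = aN w := by
  obtain ⟨b, hb, hi⟩ := hw.2.1
  obtain ⟨a, ha⟩ := loc_mk hi
  have hb0 := loc_ne hb
  have ha0 : a ≠ 0 := by
    rintro rfl
    exact mul_ne_zero hb0 hw.1 ha.symm
  have h1 : IsCoprime a ((Loc.Q K : ℕ) : 𝓞 K) := isCoprime_of_sInt_inv ha0 (by
    rw [ha, mul_inv]
    exact (SInt.inv_natCast hb).mul hw.2.2)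
  have h2 : IsCoprime (b : 𝓞 K) ((Loc.Q K : ℕ) : 𝓞 K) := Nat.Coprime.cast hb
  have hb1 : toR (b : 𝓞 K) ≠ 0 := fun h => hb0 (by simpa using congrArg Subtype.val h)
  have e : w = (toR a : K) / (toR (b : 𝓞 K) : K) := by
    rw [coe_toR, coe_toR, ha]
    push_cast
    field_simp
  rw [e, NK_div _ hb1, N_toR h1, N_toR h2, aN_div, aN_eq_prod, aN_eq_prod, coe_toR, coe_toR]

/-- Ideals supported on `S`: `I ↦ (count P (normalizedFactors I))_{P ∣ Q}` is injective on them and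
`absNorm I ≥ ∏ 2^count`; `summable_pi_prod`. -/
theorem summable_S_ideals {σ : ℝ} (hσ : 0 < σ) : Summable fun I : Ideal (𝓞 K) =>
    if ∃ k : ℕ, ((Loc.Q K : ℕ) : 𝓞 K) ^ k ∈ I then (Ideal.absNorm I : ℝ) ^ (-σ) else 0 := by
  set q : Ideal (𝓞 K) := Ideal.span {((Loc.Q K : ℕ) : 𝓞 K)} with hq
  have hq0 : q ≠ 0 := by
    rw [Ne, Ideal.zero_eq_bot, Ideal.span_singleton_eq_bot]; exact b0fin_Q_ne
  set S := (UniqueFactorizationMonoid.normalizedFactors q).toFinset with hS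
  have hP : ∀ P : S, Prime (P : Ideal (𝓞 K)) := fun P =>
    UniqueFactorizationMonoid.prime_of_normalized_factor _ (Multiset.mem_toFinset.1 P.2)
  have h2 : ∀ P : S, (2 : ℝ) ≤ Ideal.absNorm (P : Ideal (𝓞 K)) := fun P => by
    have h0 : Ideal.absNorm (P : Ideal (𝓞 K)) ≠ 0 := fun h =>
      (hP P).ne_zero (Ideal.absNorm_eq_zero_iff.1 h)
    have h1 : Ideal.absNorm (P : Ideal (𝓞 K)) ≠ 1 := fun h =>
      (hP P).not_isUnit (Ideal.isUnit_iff.2 (Ideal.absNorm_eq_one_iff.1 h))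
    exact_mod_cast (by omega : 2 ≤ Ideal.absNorm (P : Ideal (𝓞 K)))
  have hs : Summable fun c : S → ℕ =>
      ∏ P : S, ((Ideal.absNorm (P : Ideal (𝓞 K)) : ℝ) ^ (-σ)) ^ c P :=
    summable_pi_prod (f := fun (P : S) (k : ℕ) => ((Ideal.absNorm (P : Ideal (𝓞 K)) : ℝ) ^ (-σ)) ^ k)
      (fun P k => by positivity) fun P => summable_geometric_of_lt_one (by positivity)
        (Real.rpow_lt_one_of_one_lt_of_neg (by linarith [h2 P]) (by linarith))
  let F : (S → ℕ) → Ideal (𝓞 K) := fun c => ∏ P : S, (P : Ideal (𝓞 K)) ^ c P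
  have hF : ∀ c, ∏ P : S, ((Ideal.absNorm (P : Ideal (𝓞 K)) : ℝ) ^ (-σ)) ^ c P =
      (Ideal.absNorm (F c) : ℝ) ^ (-σ) := by
    intro c
    simp only [F, map_prod, map_pow, Nat.cast_prod, Nat.cast_pow]
    rw [← Real.finsetProd_rpow _ _ (fun P _ => by positivity)]
    refine Finset.prod_congr rfl fun P _ => ?_
    rw [← Real.rpow_natCast, ← Real.rpow_natCast, ← Real.rpow_mul (by positivity),
      ← Real.rpow_mul (by positivity), mul_comm]
  simp only [hF] at hs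
  have hex : ∀ I : {I : Ideal (𝓞 K) | ∃ k : ℕ, ((Loc.Q K : ℕ) : 𝓞 K) ^ k ∈ I}, ∃ c, F c = I := by
    rintro ⟨I, k, hk⟩
    have hd : I ∣ q ^ k := by
      rw [hq, Ideal.span_singleton_pow, Ideal.dvd_span_singleton]
      exact hk
    have hI0 : I ≠ 0 := ne_zero_of_dvd_ne_zero (pow_ne_zero k hq0) hd
    refine ⟨fun P => (UniqueFactorizationMonoid.normalizedFactors I).count (P : Ideal (𝓞 K)), ?_⟩
    simp only [F]
    rw [Finset.prod_coe_sort S fun P =>
      P ^ (UniqueFactorizationMonoid.normalizedFactors I).count P,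
      ← Finset.prod_multiset_count_of_subset _ S fun P hP' => ?_]
    · exact associated_iff_eq.1 (UniqueFactorizationMonoid.prod_normalizedFactors hI0)
    · have h3 := (UniqueFactorizationMonoid.dvd_iff_normalizedFactors_le_normalizedFactors hI0
        (pow_ne_zero k hq0)).1 hd
      rw [UniqueFactorizationMonoid.normalizedFactors_pow] at h3
      exact Multiset.mem_toFinset.2
        (Multiset.mem_of_mem_nsmul (Multiset.mem_of_le h3 (Multiset.mem_toFinset.1 hP')))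
  choose c hc using hex
  have hinj : Function.Injective c := fun I J h => Subtype.ext (by rw [← hc I, ← hc J, h])
  have h4 := hs.comp_injective hinj
  have h5 := (summable_subtype_iff_indicator
    (f := fun I : Ideal (𝓞 K) => (Ideal.absNorm I : ℝ) ^ (-σ))
    (s := {I : Ideal (𝓞 K) | ∃ k : ℕ, ((Loc.Q K : ℕ) : 𝓞 K) ^ k ∈ I})).1
    (h4.congr fun I => by simp only [Function.comp, hc])
  exact h5.congr fun I => by simp only [Set.indicator_apply, Set.mem_ofPred_eq]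

/-- a common denominator prime to `Q` on an `R`-orbit: `y = d/m`, `m = m₁ b`, `m₁ ∣ Q^k` -/
theorem exists_denom (y : K) : ∃ b : ℕ, b ≠ 0 ∧ b.Coprime (Loc.Q K) ∧
    ∀ r : R K, SInt ((r : K) * y) → IsIntegral ℤ ((b : K) * ((r : K) * y)) := by
  obtain ⟨c, hc, hi⟩ := loc_den y
  obtain ⟨c1, b, m, e, h1, hb⟩ := loc_split (Loc.Q K) c hc
  have hb0 : b ≠ 0 := by rintro rfl; exact hc (by rw [e, mul_zero])
  refine ⟨b, hb0, hb, fun r hr => ?_⟩
  obtain ⟨d, hd⟩ := loc_mk hi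
  obtain ⟨u, hu⟩ := isUnit_natCast_of_dvd (K := K) h1
  have hu' : ((u : R K) : K) = c1 := by rw [hu]; rfl
  have hu0 := wv_unit_ne u
  have e2 : ((r * toR d * (u⁻¹ : (R K)ˣ) : R K) : K) = (b : K) * ((r : K) * y) := by
    rw [Subring.coe_mul, Subring.coe_mul, coe_toR, wv_unit_inv, hd, e, Nat.cast_mul, ← hu']
    field_simp
  rw [← e2]
  refine SInt.isIntegral ?_
  rw [e2]
  exact (SInt.natCast b).mul hr

theorem exists_aN_ge {y : K} (hy : y ≠ 0) : ∃ c : ℝ, 0 < c ∧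
    ∀ u : (R K)ˣ, SInt (((u : R K) : K) * y) → c ≤ aN (((u : R K) : K) * y) := by
  obtain ⟨b, hb0, hb, h⟩ := exists_denom y
  have hbK : (b : K) ≠ 0 := Nat.cast_ne_zero.2 hb0
  refine ⟨(aN (b : K))⁻¹, inv_pos.2 (aN_pos hbK), fun u hu => ?_⟩
  obtain ⟨d, hd⟩ := loc_mk (h u hu)
  have hd0 : d ≠ 0 := by
    rintro rfl
    exact mul_ne_zero hbK (mul_ne_zero (wv_unit_ne u) hy) hd.symm
  have h1 := one_le_aN hd0
  rw [hd, aN_mul] at h1
  rw [inv_le_iff_one_le_mul₀' (aN_pos hbK)]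
  exact h1

/-- the `S`-part of `(x)` -/
def wvSp (x : K) : Ideal (𝓞 K) where
  carrier := {z | SInt ((z : K) / x)}
  zero_mem' := by simpa using SInt.zero
  add_mem' := fun {a b} ha hb => by
    change SInt _
    push_cast
    rw [add_div]
    exact SInt.add ha hb
  smul_mem' := fun c a ha => by
    change SInt _
    rw [smul_eq_mul]
    push_cast
    rw [mul_div_assoc]
    exact (SInt.coe c).mul ha

theorem wv_mem_sp {x : K} (hx : x ≠ 0) {d : 𝓞 K} {b : ℕ} (hd : (d : K) = b * x) : d ∈ wvSp x := by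
  change SInt _
  rw [hd, mul_div_cancel_right₀ _ hx]
  exact SInt.natCast b

/-- `j ↦ sp (jo j * y) = {z ∈ 𝓞 | SInt (z / (jo j * y))}` is injective on the `j` with `SInt (jo j * y)`,
contains a power of `Q` (`exists_pow_mul_sInt`) and `b * (jo j * y)`, so
`absNorm sp ≤ aN (jo j * y) b^{2d}`. -/
theorem summable_JJ {y : K} (hy : y ≠ 0) {σ : ℝ} (hσ : 0 < σ) :
    Summable fun j : JJ K => if SInt (jo j * y) then aN (jo j * y) ^ (-σ) else 0 := by
  obtain ⟨b, hb0, hb, h⟩ := exists_denom y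
  have hbK : (b : K) ≠ 0 := Nat.cast_ne_zero.2 hb0
  have hne : ∀ j : JJ K, jo j * y ≠ 0 := fun j => mul_ne_zero (jo_ne_zero j) hy
  have hdiv : ∀ j j' : JJ K, SInt (jo j * y) → wvSp (jo j * y) = wvSp (jo j' * y) →
      SInt (jo j / jo j') := by
    intro j j' hj e
    obtain ⟨d, hd⟩ := loc_mk (h _ hj)
    have h1 : d ∈ wvSp (jo j * y) := wv_mem_sp (hne j) hd
    rw [e] at h1
    have h2 := (SInt.inv_natCast hb).mul h1
    have h3 := jo_ne_zero j'
    convert h2 using 1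
    rw [hd]
    change _ = _ * (_ * (jo j * y) / _)
    field_simp
  let φ : {j : JJ K | SInt (jo j * y)} → Ideal (𝓞 K) := fun j => wvSp (jo j.1 * y)
  have hinj : Function.Injective φ := by
    rintro ⟨j, hj⟩ ⟨j', hj'⟩ e
    have h1 := hdiv j j' hj e
    have h2 := hdiv j' j hj' e.symm
    have h3 : ((((Quotient.out j : (R K)ˣ)⁻¹ * Quotient.out j' : (R K)ˣ) : R K) : K) =
        jo j' / jo j := by
      rw [Units.val_mul, Subring.coe_mul, wv_unit_inv, div_eq_inv_mul]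
      rfl
    obtain ⟨ε, hε⟩ := exists_oU (u := (Quotient.out j : (R K)ˣ)⁻¹ * Quotient.out j')
      ⟨wv_unit_ne _, by rw [h3]; exact h2, by rw [h3, inv_div]; exact h1⟩
    refine Subtype.ext ?_
    change j = j'
    rw [← QuotientGroup.out_eq' j, ← QuotientGroup.out_eq' j']
    exact QuotientGroup.eq.2 ⟨ε, hε⟩
  have h4 := ((summable_S_ideals (K := K) hσ).comp_injective hinj).mul_left (aN (b : K) ^ σ)
  have h5 := (summable_subtype_iff_indicator (f := fun j : JJ K => aN (jo j * y) ^ (-σ))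
    (s := {j : JJ K | SInt (jo j * y)})).1
    (h4.of_nonneg_of_le (fun j => Real.rpow_nonneg (aN_nonneg _) _) fun j => ?_)
  · exact h5.congr fun I => by simp only [Set.indicator_apply, Set.mem_ofPred_eq]
  · obtain ⟨j, hj⟩ := j
    obtain ⟨k, hk⟩ := exists_pow_mul_sInt (jo j * y)⁻¹
    have hk' : ((Loc.Q K : ℕ) : 𝓞 K) ^ k ∈ wvSp (jo j * y) := by
      change SInt _
      rw [div_eq_mul_inv]
      push_cast
      exact hk
    obtain ⟨d, hd⟩ := loc_mk (h _ hj)
    have h1 : d ∈ wvSp (jo j * y) := wv_mem_sp (hne j) hd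
    have hd' : (d : K) = b * (jo j * y) := hd
    have hd0 : d ≠ 0 := by
      rintro rfl
      exact mul_ne_zero hbK (hne j) hd'.symm
    have h6 : Ideal.absNorm (Ideal.span {d}) ≠ 0 := by
      rw [Ne, Ideal.absNorm_eq_zero_iff, Ideal.span_singleton_eq_bot]
      exact hd0
    have h7 := Ideal.absNorm_dvd_absNorm_of_le ((Ideal.span_singleton_le_iff_mem _).2 h1)
    have h8 : (0 : ℝ) < Ideal.absNorm (wvSp (jo j * y)) := by
      exact_mod_cast Nat.pos_of_ne_zero (ne_zero_of_dvd_ne_zero h6 h7)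
    have h9 : (Ideal.absNorm (wvSp (jo j * y)) : ℝ) ≤ aN (b : K) * aN (jo j * y) := by
      rw [← aN_mul, ← hd', aN_eq_absNorm]
      exact_mod_cast Nat.le_of_dvd (Nat.pos_of_ne_zero h6) h7
    simp only [Function.comp, φ]
    rw [if_pos ⟨k, hk'⟩]
    have ha := aN_pos hbK
    have ha' := aN_pos (hne j)
    calc aN (jo j * y) ^ (-σ) = aN (b : K) ^ σ * (aN (b : K) * aN (jo j * y)) ^ (-σ) := by
          rw [Real.mul_rpow ha.le ha'.le, ← mul_assoc, ← Real.rpow_add ha, add_neg_cancel,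
            Real.rpow_zero, one_mul]
      _ ≤ _ := mul_le_mul_of_nonneg_left (Real.rpow_le_rpow_of_nonpos h8 h9 (by linarith))
          (by positivity)

/-- `r ↦ b r y ∈ 𝓞` is injective; `summable_gauss` -/
theorem summable_gau_R {y : K} (hy : y ≠ 0) {T : ℝ} (hT : 0 < T) :
    Summable fun r : R K => if SInt ((r : K) * y) then gau ((r : K) * y) T else 0 := by
  obtain ⟨b, hb0, hb, h⟩ := exists_denom y
  have hbK : (b : K) ≠ 0 := Nat.cast_ne_zero.2 hb0
  have hbR : (0 : ℝ) < b := Nat.cast_pos.2 (Nat.pos_of_ne_zero hb0)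
  have hT' : 0 < T ^ ((dd K : ℝ)⁻¹) := Real.rpow_pos_of_pos hT _
  have hs := summable_gauss (K := K) (fun _ => ((b : ℝ) ^ 2 * T ^ ((dd K : ℝ)⁻¹))⁻¹)
    (fun _ => by positivity) 0
  choose φ hφ using fun r : {r : R K | SInt ((r : K) * y)} => loc_mk (h r.1 r.2)
  have hinj : Function.Injective φ := fun r r' e => by
    have h1 := hφ r
    rw [e, hφ r'] at h1
    exact Subtype.ext (Subtype.ext (mul_right_cancel₀ hy (mul_left_cancel₀ hbK h1)).symm)
  have h5 := (summable_subtype_iff_indicator (f := fun r : R K => gau ((r : K) * y) T)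
    (s := {r : R K | SInt ((r : K) * y)})).1 ((hs.comp_injective hinj).congr fun r => ?_)
  · exact h5.congr fun I => by simp only [Set.indicator_apply, Set.mem_ofPred_eq]
  · simp only [Function.comp, gau, add_zero, hφ]
    congr 3
    refine Finset.sum_congr rfl fun v _ => ?_
    rw [emb_mul, emb_natCast, norm_mul, Complex.norm_natCast]
    have := dl_pos v
    field_simp

theorem summable_Om {y : K} (hy : y ≠ 0) {T : ℝ} (hT : 0 < T) :
    Summable fun u : (R K)ˣ =>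
      if SInt (((u : R K) : K) * y) then gau (((u : R K) : K) * y) T else 0 :=
  (summable_gau_R hy hT).comp_injective Units.val_injective

end Crest.Agent.R312
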