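import Crest.Agent.R312.B0Basic4
import Crest.Agent.R312.B0Prim
import Crest.Agent.R312.B3WVal

/-!
# R312 / B3WPois : Poisson summation for unit-invariant periodic functions on `R K`
-/

set_option autoImplicit false
set_option linter.unusedSectionVars false

noncomputable section

open scoped Classical ComplexConjugate NumberField
open MeasureTheory

namespace Crest.Agent.R312

variable {K : Type} [Field K] [NumberField K] [Fld K] [Loc K] [Setup K]

theorem wp_equiv : ∃ e : {d : R K // Prim d} × (R K)ˣ ≃ {x : R K // x ≠ 0},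
    ∀ p, (e p).1 = (p.2 : R K) * p.1.1 := by
  refine ⟨Equiv.ofBijective (fun p => ⟨(p.2 : R K) * p.1.1, mul_ne_zero p.2.ne_zero p.1.2.ne_zero⟩)
    ⟨?_, ?_⟩, fun _ => rfl⟩
  · rintro ⟨⟨d, hd⟩, u⟩ ⟨⟨d', hd'⟩, u'⟩ h
    have h1 : (u : R K) * d = (u' : R K) * d' := congrArg Subtype.val h
    have h2 : d = d' := hd.eq_of_associated hd'
      (((associated_unit_mul_left d _ u.isUnit).symm.trans (h1 ▸ Associated.refl _)).trans
        (associated_unit_mul_left d' _ u'.isUnit))
    subst h2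
    rw [Units.ext (mul_right_cancel₀ hd.ne_zero h1)]
  · rintro ⟨x, hx⟩
    obtain ⟨u, b, hu, hb, rfl⟩ := exists_eq_unit_prim hx
    exact ⟨(⟨b, hb⟩, hu.unit), rfl⟩

/-- `(d, u) ↦ u d` is a bijection `Prim × R^* → R ∖ 0`; `summable_gau_R` with `y = q⁻¹` -/
theorem wp_regroup {q : R K} (hq : q ≠ 0) {ψ : R K → ℂ} {C : ℝ} (hb : ∀ x, ‖ψ x‖ ≤ C)
    (hu : ∀ (u : (R K)ˣ) (x : R K), ψ (u * x) = ψ x) {T : ℝ} (hT : 0 < T) :
    ∑' d : R K, ψ d * (wt d q T : ℂ) =
      ∑' d : R K, if SInt ((d : K) / (q : K)) then ψ d * (gau ((d : K) / (q : K)) T : ℂ) else 0 := by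
  have hq' : (q : K) ≠ 0 := b4_coe_ne_zero hq
  set G : R K → ℂ := fun d =>
    if SInt ((d : K) / (q : K)) then ψ d * (gau ((d : K) / (q : K)) T : ℂ) else 0 with hGdef
  have hG : Summable G := by
    refine Summable.of_norm_bounded ((summable_gau_R (inv_ne_zero hq') hT).mul_left C) fun d => ?_
    simp only [hGdef, div_eq_mul_inv]
    split_ifs
    · rw [norm_mul, Complex.norm_real, Real.norm_eq_abs, abs_of_pos (gau_pos _ _)]
      exact mul_le_mul_of_nonneg_right (hb d) (gau_pos _ _).le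
    · simp
  have hG0 : G 0 = ψ 0 := by
    simp [hGdef, SInt.zero, gau_zero]
  obtain ⟨e, he⟩ := wp_equiv (K := K)
  have h1 : HasSum (fun x : {x : R K // x ≠ 0} => G x.1) (∑' d, G d - G 0) := by
    have h3 := hasSum_ite_sub_hasSum hG.hasSum 0
    have h5 := (hasSum_subtype_iff_of_support_subset (s := {x : R K | x ≠ 0}) (by
      intro x hx h0
      exact hx (if_pos h0))).2 h3
    have h6 : ((fun n : R K => if n = 0 then 0 else G n) ∘ (Subtype.val : {x : R K | x ≠ 0} → R K)) =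
        fun x : {x : R K // x ≠ 0} => G x.1 := funext fun x => if_neg x.2
    rwa [h6] at h5
  have h2 : HasSum (fun p : {d : R K // Prim d} × (R K)ˣ => G ((p.2 : R K) * p.1.1))
      (∑' d, G d - G 0) := by
    have h3 := (e.hasSum_iff).2 h1
    have h4 : (fun x : {x : R K // x ≠ 0} => G x.1) ∘ e =
        fun p : {d : R K // Prim d} × (R K)ˣ => G ((p.2 : R K) * p.1.1) :=
      funext fun p => congrArg G (he p)
    rwa [h4] at h3
  have h3 := h2.prod_fiberwise (g := fun d => ψ d.1 * (wt d.1 q T : ℂ)) fun d => by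
    have h4 := (h2.summable.prod_factor d).hasSum
    have h5 : ∑' u : (R K)ˣ, G ((u : R K) * d.1) = ψ d.1 * (wt d.1 q T : ℂ) := by
      unfold wt Om
      rw [if_neg d.2.ne_zero, if_pos d.2, Complex.ofReal_tsum, ← tsum_mul_left]
      refine tsum_congr fun u => ?_
      simp only [hGdef, hu]
      push_cast
      rw [mul_div_assoc]
      split_ifs <;> simp
    rwa [h5] at h4
  have h4 : HasSum (fun d : R K => if Prim d then ψ d * (wt d q T : ℂ) else 0) (∑' d, G d - G 0) := by
    refine (hasSum_subtype_iff_of_support_subset (s := {d : R K | Prim d}) (by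
      intro x hx
      by_contra h0
      exact hx (if_neg h0))).1 ?_
    have h6 : ((fun d : R K => if Prim d then ψ d * (wt d q T : ℂ) else 0) ∘
        (Subtype.val : {d : R K | Prim d} → R K)) =
        fun d : {d : R K // Prim d} => ψ d.1 * (wt d.1 q T : ℂ) := funext fun x => if_pos x.2
    rw [h6]
    exact h3
  have h5 := h4.add (hasSum_ite_eq (0 : R K) (ψ 0))
  rw [hG0, sub_add_cancel] at h5
  rw [← h5.tsum_eq]
  refine tsum_congr fun d => ?_
  by_cases h0 : d = 0
  · subst h0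
    rw [if_neg (fun h : Prim (0 : R K) => h.ne_zero rfl), if_pos rfl]
    simp [wt]
  · by_cases hp : Prim d
    · rw [if_pos hp, if_neg h0, add_zero]
    · simp [wt, h0, hp]

/-- `⇒`: `nm q ∈ idl q` is coprime to `Q`; `Q^n q = toR y`, `y ∈ idl q`.  `⇐`: `R ∩ SInt = 𝓞`. -/
theorem wp_mem_dual {q : R K} (hq : q ≠ 0) (h : K) :
    h ∈ dualI (idl q) ↔ SInt h ∧ ∃ d : R K, h = (d : K) / (q : K) := by
  have hq' : (q : K) ≠ 0 := b4_coe_ne_zero hq
  rw [mem_dualI]
  constructor
  · intro H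
    constructor
    · refine ⟨nm q, nm_coprime_Q hq, ?_⟩
      have h1 := H (nm q : 𝓞 K) (by rw [mem_idl, map_natCast]; exact dvd_nm q)
      rw [mul_comm]
      exact_mod_cast h1
    · obtain ⟨n, y, hy⟩ := exists_toR q
      have h1 := H y (by rw [mem_idl, hy]; exact dvd_mul_left _ _)
      have h2 : (y : K) = (Loc.Q K : K) ^ n * (q : K) := by
        rw [← coe_toR, hy]
        push_cast
        rfl
      refine ⟨⟨h * q, n, ?_⟩, ?_⟩
      · rw [h2, mul_left_comm] at h1
        exact h1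
      · exact (mul_div_cancel_right₀ h hq').symm
  · rintro ⟨hs, d, rfl⟩ x hx
    obtain ⟨r, hr⟩ := mem_idl.1 hx
    have h1 : (d : K) / (q : K) * (x : K) = ((d * r : R K) : K) := by
      rw [← coe_toR, hr]
      push_cast
      field_simp
    have h2 := hs.mul (SInt.coe x)
    rw [h1] at h2 ⊢
    exact h2.isIntegral

omit [Fld K] [Loc K] [Setup K] in
theorem wp_resEquiv (I : Ideal (𝓞 K)) :
    ∃ e : (𝓞 K ⧸ I) × I ≃ 𝓞 K, ∀ c y, e (c, y) = Quotient.out c + (y : 𝓞 K) := by
  refine ⟨Equiv.ofBijective (fun p => Quotient.out p.1 + (p.2 : 𝓞 K)) ⟨?_, fun x => ?_⟩,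
    fun _ _ => rfl⟩
  · rintro ⟨c, y⟩ ⟨c', y'⟩ h
    simp only at h
    have h1 : c = c' := by
      rw [← Ideal.Quotient.mk_out c, ← Ideal.Quotient.mk_out c', Ideal.Quotient.eq]
      have h2 : Quotient.out c - Quotient.out c' = (y' : 𝓞 K) - y := by linear_combination h
      rw [h2]
      exact I.sub_mem y'.2 y.2
    subst h1
    rw [Subtype.ext (add_left_cancel h)]
  · have h : x - Quotient.out (Ideal.Quotient.mk I x) ∈ I := by
      rw [← Ideal.Quotient.eq, Ideal.Quotient.mk_out]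
    exact ⟨(Ideal.Quotient.mk I x, ⟨_, h⟩), add_sub_cancel _ _⟩

/-- Left side `= ∑_{x ∈ 𝓞} φ(toR x) gau(x,T)`; split `𝓞` into classes mod `I = idl q`, `poisson_gc`,
`gau_eq_gc`, `eI (embv h * embv c) = eT (h c) = ee (h c) = ad q (d * toR c)`, `b4_sum_res_map`. -/
theorem poisson_per' {q : R K} (hq : q ≠ 0) {φ : R K → ℂ} (hφ : Per q φ)
    (hu : ∀ (u : (R K)ˣ) (x : R K), φ (u * x) = φ x) {T : ℝ} (hT : 0 < T) :
    ∑' k : R K, φ k * (wt k 1 T : ℂ) =
      ((T / N q : ℝ) : ℂ) * ∑' d : R K, gs q φ d * (wt d q T⁻¹ : ℂ) := by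
  have hq' : (q : K) ≠ 0 := b4_coe_ne_zero hq
  have hI := idl_ne_bot hq
  haveI : Finite (𝓞 K ⧸ idl q) := Ideal.finiteQuotientOfFreeOfNeBot _ hI
  haveI : Fintype (𝓞 K ⧸ idl q) := Fintype.ofFinite _
  have hb : ∀ x, ‖φ x‖ ≤ ∑ r ∈ res q, ‖φ r‖ := by
    intro x
    obtain ⟨r, hr, hd⟩ := exists_res hq x
    rw [hφ.congr hd]
    exact Finset.single_le_sum (f := fun r => ‖φ r‖) (fun _ _ => norm_nonneg _) hr
  have hb' : ∀ k, ‖gs q φ k‖ ≤ ∑ r ∈ res q, ‖φ r‖ := by
    intro k
    refine (norm_sum_le _ _).trans (le_of_eq (Finset.sum_congr rfl fun r _ => ?_))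
    rw [norm_mul, norm_ad, mul_one]
  have hu' : ∀ (u : (R K)ˣ) (k : R K), gs q φ (u * k) = gs q φ k := by
    intro u k
    have h1 := sum_res_affine hq (hφ.mul (ad_per q k)) (prim_unit_coprime u.isUnit q) 0
    unfold gs
    rw [← h1]
    refine Finset.sum_congr rfl fun x _ => ?_
    rw [add_zero, hu, mul_left_comm k, mul_assoc]
  set t : Pl K → ℂ := fun _ => (((T ^ ((dd K : ℝ)⁻¹))⁻¹ : ℝ) : ℂ) with ht
  have htp : ∀ v, 0 < (t v).re := fun v => by
    simp only [ht, Complex.ofReal_re]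
    positivity
  have htprod : (∏ v, t v)⁻¹ = T := by
    simp only [ht]
    rw [Finset.prod_const, Finset.card_univ, ← Complex.ofReal_pow, ← Complex.ofReal_inv, inv_pow,
      inv_inv]
    exact congrArg _ (Real.rpow_inv_natCast_pow hT.le dd_pos.ne')
  have htinv : ∀ h : K, gc t⁻¹ (embv h) = (gau h T⁻¹ : ℂ) := by
    intro h
    rw [gau_eq_gc]
    congr 1
    funext v
    simp only [ht, Pi.inv_apply]
    rw [Real.inv_rpow hT.le, ← Complex.ofReal_inv]
  -- left side
  have hL : ∑' k : R K, φ k * (wt k 1 T : ℂ) = ∑' x : 𝓞 K, φ (toR x) * gc t (embv (x : K)) := by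
    rw [wp_regroup one_ne_zero hb hu hT, ← toR_injective.tsum_eq]
    · refine tsum_congr fun x => ?_
      simp only [OneMemClass.coe_one, div_one, coe_toR]
      rw [if_pos (SInt.coe x), gau_eq_gc]
    · intro d hd
      have h1 : SInt ((d : K) / ((1 : R K) : K)) := by
        by_contra h
        exact hd (if_neg h)
      rw [OneMemClass.coe_one, div_one] at h1
      exact exists_toR_of_isIntegral h1.isIntegral
  obtain ⟨e, he⟩ := wp_resEquiv (idl q)
  have hs : Summable fun x : 𝓞 K => φ (toR x) * gc t (embv (x : K)) := by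
    have h1 := (po_top' (K := K)).summable_iff.2 (summable_gc ⊤ htp 0)
    refine Summable.of_norm_bounded (h1.mul_left (∑ r ∈ res q, ‖φ r‖)) fun x => ?_
    rw [norm_mul, Function.comp_apply, zero_add]
    exact mul_le_mul_of_nonneg_right (hb _) (norm_nonneg _)
  have hs' : Summable fun p : (𝓞 K ⧸ idl q) × idl q => φ (toR (e p)) * gc t (embv (e p : K)) :=
    e.summable_iff.2 hs
  have h1 : ∀ (c : 𝓞 K ⧸ idl q) (y : idl q), φ (toR (e (c, y))) * gc t (embv (e (c, y) : K)) =
      φ (toR (Quotient.out c)) *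
        gc t (embv ((Quotient.out c : 𝓞 K) : K) + embv ((y : 𝓞 K) : K)) := by
    intro c y
    rw [he, ← embv_add, hφ.congr (y := toR (Quotient.out c))
      (by rw [map_add, add_sub_cancel_left]; exact mem_idl.1 y.2)]
    push_cast
    rfl
  -- right side
  have hj : ∀ h : dualI (idl q), ∃ d : R K, (h : K) = (d : K) / (q : K) :=
    fun h => ((wp_mem_dual hq _).1 h.2).2
  choose j hj using hj
  have hji : Function.Injective j := fun a b h => Subtype.ext (by rw [hj a, hj b, h])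
  have hgs : ∀ h : dualI (idl q), gs q φ (j h) = ∑ c : 𝓞 K ⧸ idl q, φ (toR (Quotient.out c)) *
      eI (embv (h : K) * embv ((Quotient.out c : 𝓞 K) : K)) := by
    intro h
    unfold gs
    rw [← b4_sum_res_map hq (hφ.mul (ad_per q (j h))) Finset.univ
      (fun c : 𝓞 K ⧸ idl q => toR (Quotient.out c)) ?_ ?_]
    · refine Finset.sum_congr rfl fun c _ => ?_
      have h2 : ((j h * toR (Quotient.out c) : R K) : K) / (q : K) =
          (h : K) * ((Quotient.out c : 𝓞 K) : K) := by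
        rw [hj h, ← coe_toR]
        push_cast
        ring
      rw [ad, h2, ee_of_sInt (((wp_mem_dual hq _).1 h.2).1.mul (SInt.coe _)), eT_eq_eI, embv_mul]
    · intro x
      obtain ⟨y, hy⟩ := exists_toR_congr hq x
      refine ⟨Ideal.Quotient.mk _ y, Finset.mem_univ _, ?_⟩
      have h2 : q ∣ toR (y - Quotient.out (Ideal.Quotient.mk (idl q) y)) := by
        rw [← mem_idl, ← Ideal.Quotient.eq, Ideal.Quotient.mk_out]
      rw [map_sub] at h2
      have h3 := dvd_add hy h2
      rwa [sub_add_sub_cancel] at h3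
    · intro a _ b _ hab
      rw [← map_sub, ← mem_idl, ← Ideal.Quotient.eq, Ideal.Quotient.mk_out,
        Ideal.Quotient.mk_out] at hab
      exact hab
  have hR : ∑' d : R K, gs q φ d * (wt d q T⁻¹ : ℂ) =
      ∑' h : dualI (idl q), gs q φ (j h) * gc t⁻¹ (embv (h : K)) := by
    rw [wp_regroup hq hb' hu' (inv_pos.2 hT), ← hji.tsum_eq]
    · refine tsum_congr fun h => ?_
      rw [← hj h, if_pos ((wp_mem_dual hq _).1 h.2).1, htinv]
    · intro d hd
      have h1 : SInt ((d : K) / (q : K)) := by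
        by_contra h
        exact hd (if_neg h)
      refine ⟨⟨_, (wp_mem_dual hq _).2 ⟨h1, d, rfl⟩⟩, Subtype.ext ?_⟩
      have h2 := hj ⟨_, (wp_mem_dual hq _).2 ⟨h1, d, rfl⟩⟩
      exact ((div_left_inj' hq').1 h2).symm
  have h3 : ∀ c : 𝓞 K ⧸ idl q, Summable fun h : dualI (idl q) => φ (toR (Quotient.out c)) *
      eI (embv (h : K) * embv ((Quotient.out c : 𝓞 K) : K)) * gc t⁻¹ (embv (h : K)) := by
    intro c
    refine Summable.of_norm ?_
    simp only [norm_mul, norm_eI, mul_one]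
    exact (summable_gc_dual hI (po_inv_re htp)).mul_left _
  rw [hL, hR, ← e.tsum_eq, hs'.tsum_prod, tsum_fintype]
  simp only [h1, tsum_mul_left, poisson_gc hI htp, hgs, Finset.sum_mul]
  rw [Summable.tsum_finsetSum fun c _ => h3 c, Finset.mul_sum]
  refine Finset.sum_congr rfl fun c _ => ?_
  rw [htprod, absNorm_idl, mul_left_comm, ← tsum_mul_left]
  congr 1
  · unfold N
    push_cast
    ring
  · exact tsum_congr fun h => by ring

end Crest.Agent.R312
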