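import Mathlib

/-!
# R312 / B3WAux : analytic helpers (pure Mathlib)
-/

set_option autoImplicit false
set_option linter.unusedSectionVars false

noncomputable section

open scoped Classical ComplexConjugate NumberField
open MeasureTheory

namespace Crest.Agent.R312

open Complex in
theorem w_norm_Gamma_le_re {s : ℂ} (hs : 0 < s.re) : ‖Complex.Gamma s‖ ≤ Real.Gamma s.re := by
  rw [Complex.Gamma_eq_integral hs, Real.Gamma_eq_integral hs, GammaIntegral]
  refine (norm_integral_le_integral_norm _).trans (le_of_eq ?_)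
  refine setIntegral_congr_fun measurableSet_Ioi fun x hx => ?_
  have hx0 : 0 < x := hx
  rw [norm_mul, norm_cpow_eq_rpow_re_of_pos hx0, Complex.norm_real,
    Real.norm_of_nonneg (Real.exp_pos _).le]
  simp

open Complex in
/-- copy of `R17.Gamma_decay` (R17/LMisc) -/
theorem w_Gamma_decay (m : ℕ) : ∀ a b : ℝ, 0 < a → ∃ C, 0 ≤ C ∧ ∀ σ τ : ℝ, a ≤ σ → σ ≤ b →
    ‖Complex.Gamma (σ + τ * Complex.I)‖ * (1 + |τ|) ^ m ≤ C := by
  induction m with
  | zero =>
    intro a b ha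
    have h1 : ContinuousOn Real.Gamma (Set.Icc a b) := fun x hx =>
      (Real.differentiableAt_Gamma fun m h => by
        have h2 : (0 : ℝ) ≤ m := Nat.cast_nonneg m
        linarith [hx.1]).continuousAt.continuousWithinAt
    obtain ⟨C, hC⟩ := isCompact_Icc.exists_bound_of_continuousOn h1
    refine ⟨|C|, abs_nonneg _, fun σ τ h1 h2 => ?_⟩
    have h3 := w_norm_Gamma_le_re (s := σ + τ * I) (by simp; linarith)
    have h4 := hC σ ⟨h1, h2⟩
    simp only [add_re, ofReal_re, mul_re, I_re, mul_zero, ofReal_im, I_im, mul_one, sub_self,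
      add_zero] at h3
    rw [pow_zero, mul_one]
    exact h3.trans ((le_abs_self _).trans (h4.trans (le_abs_self C)))
  | succ m ih =>
    intro a b ha
    obtain ⟨C, hC0, hC⟩ := ih (a + 1) (b + 1) (by linarith)
    refine ⟨(1 / a + 1) * C, by positivity, fun σ τ h1 h2 => ?_⟩
    have h3 := hC (σ + 1) τ (by linarith) (by linarith)
    have hre : a ≤ ‖(σ + τ * I : ℂ)‖ := by
      refine le_trans ?_ (re_le_norm _)
      simpa using h1
    have him : |τ| ≤ ‖(σ + τ * I : ℂ)‖ := by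
      refine le_trans ?_ (abs_im_le_norm _)
      simp
    have h0 : (σ + τ * I : ℂ) ≠ 0 := norm_pos_iff.1 (lt_of_lt_of_le ha hre)
    have e : (((σ + 1 : ℝ) : ℂ) + τ * I : ℂ) = (σ + τ * I) + 1 := by push_cast; ring
    rw [e, Complex.Gamma_add_one _ h0, norm_mul] at h3
    have h4 : 1 + |τ| ≤ (1 / a + 1) * ‖(σ + τ * I : ℂ)‖ := by
      have : 1 ≤ 1 / a * ‖(σ + τ * I : ℂ)‖ := by
        rw [div_mul_eq_mul_div, one_mul, le_div_iff₀ ha]
        linarith
      linarith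
    calc _ = (1 + |τ|) * (‖Gamma (σ + τ * I)‖ * (1 + |τ|) ^ m) := by ring
      _ ≤ ((1 / a + 1) * ‖(σ + τ * I : ℂ)‖) * (‖Gamma (σ + τ * I)‖ * (1 + |τ|) ^ m) :=
          mul_le_mul_of_nonneg_right h4 (by positivity)
      _ = (1 / a + 1) * (‖(σ + τ * I : ℂ)‖ * ‖Gamma (σ + τ * I)‖ * (1 + |τ|) ^ m) := by ring
      _ ≤ _ := mul_le_mul_of_nonneg_left h3 (by positivity)

/-- `∫ exp(s η - c e^η) dη = Γ(s) c^{-s}` (substitute `x = e^η`: `integral_comp_exp`-type change of variables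
`MeasureTheory.integral_image_eq_integral_abs_deriv_smul`, then `Complex.integral_cpow_mul_exp_neg_mul_Ioi`) -/
theorem w_integral_exp_exp {s : ℂ} (hs : 0 < s.re) {c : ℝ} (hc : 0 < c) :
    ∫ η : ℝ, Complex.exp (s * η - c * Real.exp η) = Complex.Gamma s * (c : ℂ) ^ (-s) := by
  have h := integral_image_eq_integral_abs_deriv_smul (s := Set.univ) MeasurableSet.univ
    (fun x _ => (Real.hasDerivAt_exp x).hasDerivWithinAt) Real.exp_injective.injOn
    (fun t : ℝ => (t : ℂ) ^ (s - 1) * Complex.exp (-(c * t)))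
  rw [Set.image_univ, Real.range_exp, Complex.integral_cpow_mul_exp_neg_mul_Ioi hs hc,
    Measure.restrict_univ] at h
  have hc' : (c : ℂ).arg ≠ Real.pi := by
    rw [Complex.arg_ofReal_of_nonneg hc.le]
    exact Real.pi_ne_zero.symm
  rw [Complex.cpow_neg, ← Complex.inv_cpow _ _ hc', ← one_div, mul_comm, h]
  refine integral_congr_ae (Filter.Eventually.of_forall fun η => ?_)
  have e : ((Real.exp η : ℝ) : ℂ) ^ (s - 1) = Complex.exp (η * (s - 1)) := by
    rw [Complex.cpow_def_of_ne_zero (Complex.ofReal_ne_zero.2 (Real.exp_pos η).ne'),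
      ← Complex.ofReal_log (Real.exp_pos η).le, Real.log_exp]
  simp only [abs_of_pos (Real.exp_pos η), Complex.real_smul, e]
  nth_rewrite 2 [Complex.ofReal_exp]
  rw [← Complex.exp_add, ← Complex.exp_add]
  congr 1
  ring

/-- `exp(σ η - c e^η) ≤ C exp(-σ|η|)` (for `η ≥ 0`: `x^{2σ} e^{-cx}` is bounded) -/
theorem w_exp_exp_le {σ c : ℝ} (hσ : 0 < σ) (hc : 0 < c) :
    ∃ C : ℝ, 0 ≤ C ∧ ∀ η : ℝ, Real.exp (σ * η - c * Real.exp η) ≤ C * Real.exp (-(σ * |η|)) := by
  refine ⟨Real.exp (2 * σ ^ 2 / c), (Real.exp_pos _).le, fun η => ?_⟩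
  rw [← Real.exp_add, Real.exp_le_exp]
  have h0 : 0 ≤ 2 * σ ^ 2 / c := by positivity
  have h1 := mul_pos hc (Real.exp_pos η)
  rcases le_total η 0 with h | h
  · rw [abs_of_nonpos h]
    linarith
  · rw [abs_of_nonneg h]
    have h2 := mul_le_mul_of_nonneg_left (Real.quadratic_le_exp_of_nonneg h) hc.le
    have h3 : 2 * σ * η - c * (η ^ 2 / 2) ≤ 2 * σ ^ 2 / c := by
      rw [le_div_iff₀ hc]
      nlinarith [sq_nonneg (c * η - 2 * σ)]
    nlinarith [mul_nonneg hc.le h]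

/-- if `∑ ξ = 0` then `1 + |τ| + ‖ξ‖ ≤ 3 ∏ (1 + |τ - ξ_v|)` (the mean of `τ - ξ_v` is `τ`) -/
theorem w_le_prod {ι : Type} [Fintype ι] [Nonempty ι] {ξ : ι → ℝ} (h : ∑ v, ξ v = 0) (τ : ℝ) :
    1 + |τ| + ‖ξ‖ ≤ 3 * ∏ v, (1 + |τ - ξ v|) := by
  have h1 : ∀ v, |τ - ξ v| ≤ ∏ v, (1 + |τ - ξ v|) - 1 := by
    intro v
    rw [← Finset.mul_prod_erase _ _ (Finset.mem_univ v)]
    have h2 : 1 ≤ ∏ w ∈ Finset.univ.erase v, (1 + |τ - ξ w|) :=
      Finset.one_le_prod fun w _ => le_add_of_nonneg_right (abs_nonneg _)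
    nlinarith [abs_nonneg (τ - ξ v)]
  generalize ∏ v, (1 + |τ - ξ v|) = P at h1 ⊢
  have hn : (0 : ℝ) < Fintype.card ι := Nat.cast_pos.2 Fintype.card_pos
  have h2 : |τ| ≤ P - 1 := by
    have h3 : ∑ v, (τ - ξ v) = Fintype.card ι * τ := by
      rw [Finset.sum_sub_distrib, h, sub_zero, Finset.sum_const, Finset.card_univ, nsmul_eq_mul]
    have h4 := (Finset.abs_sum_le_sum_abs _ _).trans (Finset.sum_le_sum fun v (_ : v ∈ Finset.univ) => h1 v)
    rw [h3, Finset.sum_const, Finset.card_univ, nsmul_eq_mul, abs_mul, abs_of_pos hn] at h4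
    exact le_of_mul_le_mul_left h4 hn
  have h3 : ‖ξ‖ ≤ 2 * (P - 1) := by
    refine (pi_norm_le_iff_of_nonempty _).2 fun v => ?_
    have h4 := abs_sub τ (τ - ξ v)
    rw [sub_sub_cancel] at h4
    rw [Real.norm_eq_abs]
    linarith [h1 v]
  linarith

theorem w_integrable_aux {f : ℝ → ℂ} {a : ℝ} (hm : AEStronglyMeasurable f volume)
    (hb : ∀ τ, ‖f τ‖ ≤ a / (1 + τ ^ 2)) : Integrable f ∧ ∫ τ, ‖f τ‖ ≤ Real.pi * a := by
  have h1 : Integrable fun τ : ℝ => a * (1 + τ ^ 2)⁻¹ := integrable_inv_one_add_sq.const_mul a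
  have h2 : Integrable f := h1.mono' hm (Filter.Eventually.of_forall hb)
  refine ⟨h2, (integral_mono h2.norm h1 hb).trans_eq ?_⟩
  rw [integral_const_mul, integral_univ_inv_one_add_sq, mul_comm]

/-- exchange of a sum with `∑' ∫` -/
theorem w_swap {J M : Type} [Countable J] [Countable M] {f : J → M → ℝ → ℂ} {α : J → ℝ} {β : M → ℝ}
    (hα : Summable α) (hβ : Summable β) (hm : ∀ j m, AEStronglyMeasurable (f j m) volume)
    (hb : ∀ j m τ, ‖f j m τ‖ ≤ α j * (β m / (1 + τ ^ 2))) :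
    ∑' j, ∑' m, ∫ τ, f j m τ = ∑' m, ∫ τ, ∑' j, f j m τ := by
  have h1 := fun j m => w_integrable_aux (a := |α j| * |β m|) (hm j m) fun τ => (hb j m τ).trans (by
    rw [← mul_div_assoc, ← abs_mul]
    exact div_le_div_of_nonneg_right (le_abs_self _) (by positivity))
  have h2 : Summable (Function.uncurry fun j m => ∫ τ, f j m τ) :=
    Summable.of_norm_bounded ((hα.abs.mul_of_nonneg hβ.abs (fun _ => abs_nonneg _)
      fun _ => abs_nonneg _).mul_left Real.pi) fun p =>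
      (norm_integral_le_integral_norm _).trans (h1 p.1 p.2).2
  rw [← h2.tsum_comm]
  refine tsum_congr fun m => integral_tsum_of_summable_integral_norm (fun j => (h1 j m).1) ?_
  exact Summable.of_nonneg_of_le (fun j => integral_nonneg fun _ => norm_nonneg _) (fun j => (h1 j m).2)
    ((hα.abs.mul_right _).mul_left _)

theorem w_integrable {f : ℝ → ℂ} {a : ℝ} (hm : AEStronglyMeasurable f volume)
    (hb : ∀ τ, ‖f τ‖ ≤ a / (1 + τ ^ 2)) : Integrable f ∧ ∫ τ, ‖f τ‖ ≤ Real.pi * a :=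
  w_integrable_aux hm hb

end Crest.Agent.R312
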