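import Crest.Agent.R312.B3Unit
import Crest.Agent.R312.B3WAux

/-!
# R312 / B3WUnit : Mellin expansion of the Gaussian summed over `𝓞^*`
-/

set_option autoImplicit false
set_option linter.unusedSectionVars false

noncomputable section

open scoped Classical ComplexConjugate NumberField
open MeasureTheory

namespace Crest.Agent.R312

variable {K : Type} [Field K] [NumberField K] [Fld K]

/-- the Gamma factor -/
def wu_G (ξ : Pl K → ℝ) (s : ℂ) : ℂ :=
  ∏ v, Complex.Gamma (s - ξ v * Complex.I) * ((2 * Real.pi / dl v : ℝ) : ℂ) ^ (-(s - ξ v * Complex.I))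

theorem wu_c_pos (v : Pl K) : 0 < 2 * Real.pi / dl v := div_pos Real.two_pi_pos (dl_pos v)

theorem wu_G_diff (ξ : Pl K → ℝ) : DifferentiableOn ℂ (wu_G ξ) {s | 0 < s.re} := by
  intro s hs
  refine (DifferentiableAt.fun_finsetProd fun v _ => DifferentiableAt.mul ?_ ?_).differentiableWithinAt
  · refine (Complex.differentiableAt_Gamma _ fun m hm => ?_).comp s (by fun_prop)
    have h := congrArg Complex.re hm
    have h0 : 0 < s.re := hs
    simp at h
    linarith [Nat.cast_nonneg (α := ℝ) m]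
  · exact DifferentiableAt.const_cpow (by fun_prop) (Or.inl (Complex.ofReal_ne_zero.2 (wu_c_pos v).ne'))

theorem wu_rpow_le {c σ1 σ σ2 : ℝ} (hc : 0 < c) (h1 : σ1 ≤ σ) (h2 : σ ≤ σ2) :
    c ^ (-σ) ≤ c ^ (-σ1) + c ^ (-σ2) := by
  rcases le_total 1 c with h | h
  · exact (Real.rpow_le_rpow_of_exponent_le h (by linarith)).trans
      (le_add_of_nonneg_right (by positivity))
  · exact (Real.rpow_le_rpow_of_exponent_ge hc h (by linarith)).trans
      (le_add_of_nonneg_left (by positivity))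

theorem wu_G_bound {σ1 : ℝ} (σ2 : ℝ) (h1 : 0 < σ1) (B : ℕ) :
    ∃ a : (UI K → ℤ) → ℝ, Summable a ∧ ∀ m (s : ℂ), σ1 ≤ s.re →
      s.re ≤ σ2 → ‖wu_G (xi m) s‖ * (1 + |s.im| + ‖xi m‖) ^ B ≤ a m / (1 + s.im ^ 2) := by
  obtain ⟨k, hk⟩ := summable_pow_xi (K := K)
  obtain ⟨C, hC0, hC⟩ := w_Gamma_decay (B + (k + 2)) σ1 σ2 h1
  refine ⟨fun m => (3 ^ (B + (k + 2)) * ∏ v : Pl K, C * ((2 * Real.pi / dl v) ^ (-σ1) +
    (2 * Real.pi / dl v) ^ (-σ2))) * ((1 + ‖xi m‖) ^ k)⁻¹, hk.mul_left _, fun m s hs1 hs2 => ?_⟩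
  have key : ‖wu_G (xi m) s‖ * (1 + |s.im| + ‖xi m‖) ^ (B + (k + 2)) ≤ 3 ^ (B + (k + 2)) *
      ∏ v : Pl K, C * ((2 * Real.pi / dl v) ^ (-σ1) + (2 * Real.pi / dl v) ^ (-σ2)) := by
    refine (mul_le_mul_of_nonneg_left (pow_le_pow_left₀ (by positivity)
      (w_le_prod (sum_xi m) s.im) _) (norm_nonneg _)).trans ?_
    rw [mul_pow, mul_left_comm, wu_G, norm_prod, ← Finset.prod_pow, ← Finset.prod_mul_distrib]
    refine mul_le_mul_of_nonneg_left (Finset.prod_le_prod (fun v _ => by positivity) fun v _ => ?_)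
      (by positivity)
    rw [norm_mul, mul_right_comm, Complex.norm_cpow_eq_rpow_re_of_pos (wu_c_pos v)]
    refine mul_le_mul ?_ ?_ (Real.rpow_nonneg (wu_c_pos v).le _) hC0
    · have := hC s.re (s.im - xi m v) hs1 hs2
      rwa [show (s.re : ℂ) + ((s.im - xi m v : ℝ) : ℂ) * Complex.I = s - xi m v * Complex.I by
        conv_rhs => rw [← Complex.re_add_im s]
        push_cast
        ring] at this
    · simpa using wu_rpow_le (wu_c_pos v) hs1 hs2
  beta_reduce
  rw [← div_eq_mul_inv, div_div, le_div_iff₀ (by positivity)]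
  refine le_trans ?_ key
  rw [mul_assoc, pow_add, pow_add]
  refine mul_le_mul_of_nonneg_left (mul_le_mul_of_nonneg_left (mul_le_mul
    (pow_le_pow_left₀ (by positivity) (by linarith [abs_nonneg s.im]) _) ?_ (by positivity)
    (by positivity)) (by positivity)) (norm_nonneg _)
  rw [← sq_abs]
  nlinarith [abs_nonneg s.im, norm_nonneg (xi m)]

theorem wu_fourier {σ : ℝ} (hσ : 0 < σ) (η : Pl K → ℝ) :
    ∑' n : UI K → ℤ, ((∏ v, Real.exp (σ * (η + lam n) v -
      2 * Real.pi / dl v * Real.exp ((η + lam n) v)) : ℝ) : ℂ) = ((2 * Real.pi * ucJ K : ℝ) : ℂ)⁻¹ *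
      ∑' m : UI K → ℤ, ∫ τ : ℝ, wu_G (xi m) (σ + τ * Complex.I) *
        Complex.exp (((∑ v, (xi m v - τ) * η v : ℝ) : ℂ) * Complex.I) := by
  choose C hC0 hC using fun v : Pl K => w_exp_exp_le hσ (wu_c_pos v)
  obtain ⟨a, ha, hb⟩ := wu_G_bound (K := K) σ hσ 0
  have e : ∀ (m : UI K → ℤ) (τ : ℝ), wu_G (fun v => xi m v + τ) σ =
      wu_G (xi m) (σ + ((-τ : ℝ) : ℂ) * Complex.I) := fun m τ => by
    unfold wu_G
    refine Finset.prod_congr rfl fun v _ => ?_
    rw [show (σ : ℂ) - ((xi m v + τ : ℝ) : ℂ) * Complex.I =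
      σ + ((-τ : ℝ) : ℂ) * Complex.I - xi m v * Complex.I by push_cast; ring]
  have hI : ∀ m : UI K → ℤ, Integrable (fun τ : ℝ => wu_G (fun v => xi m v + τ) σ) ∧
      ∫ τ : ℝ, ‖wu_G (fun v => xi m v + τ) σ‖ ≤ Real.pi * a m := fun m => by
    simp only [e]
    refine w_integrable (Continuous.aestronglyMeasurable ?_) fun τ => ?_
    · exact (wu_G_diff (xi m)).continuousOn.comp_continuous (by fun_prop) fun τ => by simpa using hσ
    · simpa using hb m (σ + ((-τ : ℝ) : ℂ) * Complex.I) (by simp) (by simp)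
  rw [unit_fourier (g := fun η => ((∏ v, Real.exp (σ * η v -
      2 * Real.pi / dl v * Real.exp (η v)) : ℝ) : ℂ)) (by fun_prop) (C := ∏ v, C v) hσ (fun η => ?_)
    (F := fun ζ => wu_G ζ σ) (fun ζ => ?_) (fun m => (hI m).1)
    ((ha.mul_left Real.pi).of_nonneg_of_le (fun m => integral_nonneg fun _ => norm_nonneg _)
      fun m => (hI m).2) η]
  · congr 1
    refine tsum_congr fun m => ?_
    rw [← integral_neg_eq_self]
    simp only [e, neg_neg, sub_eq_add_neg]
  · rw [Complex.norm_real, Real.norm_of_nonneg (by positivity)]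
    refine (Finset.prod_le_prod (fun _ _ => by positivity) fun v _ => hC v (η v)).trans ?_
    rw [Finset.prod_mul_distrib, ← Real.exp_sum, Finset.sum_neg_distrib, ← Finset.mul_sum]
    refine mul_le_mul_of_nonneg_left (Real.exp_le_exp.2 (neg_le_neg (mul_le_mul_of_nonneg_left ?_
      hσ.le))) (Finset.prod_nonneg fun v _ => hC0 v)
    exact (pi_norm_le_iff_of_nonneg (by positivity)).2 fun v =>
      Finset.single_le_sum (f := fun v => |η v|) (fun _ _ => abs_nonneg _) (Finset.mem_univ v)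
  · unfold wu_G
    rw [← Finset.prod_congr rfl fun v _ => w_integral_exp_exp (s := σ - ζ v * Complex.I)
      (by simpa using hσ) (wu_c_pos v), ← integral_fintype_prod_volume_eq_prod]
    refine integral_congr_ae (ae_of_all _ fun η => ?_)
    simp only [Complex.ofReal_prod, Complex.ofReal_exp, ← Complex.exp_sum, ← Complex.exp_add]
    congr 1
    push_cast
    rw [Finset.sum_mul, ← Finset.sum_neg_distrib, ← Finset.sum_add_distrib]
    exact Finset.sum_congr rfl fun v _ => by ring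

theorem wu_gau (x : K) (hx : x ≠ 0) {T : ℝ} (hT : 0 < T) : gau x T =
    ∏ v, Real.exp (-(2 * Real.pi / dl v * Real.exp (lg x v - Real.log T / dd K))) := by
  rw [gau, ← Real.exp_sum, Finset.sum_neg_distrib, Finset.mul_sum]
  congr 2
  refine Finset.sum_congr rfl fun v _ => ?_
  rw [Real.exp_sub, exp_lg hx, Real.rpow_def_of_pos hT, ← div_eq_mul_inv]
  ring

theorem wu_tsum_prod {A B : Type} [Finite A] [Nonempty A] (f : B → ℂ) :
    ∑' p : A × B, f p.2 = Nat.card A * ∑' b, f b := by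
  by_cases hs : Summable f
  · have : Fintype A := Fintype.ofFinite _
    have h : Summable fun p : A × B => ‖f p.2‖ :=
      (summable_prod_of_nonneg (f := fun p : A × B => ‖f p.2‖) fun _ => norm_nonneg _).2
        ⟨fun _ => hs.norm, .of_finite⟩
    rw [h.of_norm.tsum_prod' fun _ => hs, tsum_fintype]
    simp
  · rw [tsum_eq_zero_of_not_summable hs, mul_zero, tsum_eq_zero_of_not_summable]
    exact fun h' => hs (h'.prod_factor (Classical.arbitrary A))

/-- `G0 m s = #torsion/(2π ucJ) ∏_v Γ(s - i ξ_v) (2π/dl v)^{-(s - i ξ_v)}`, `ξ = xi m`.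
`unit_fourier` for `g η = ∏_v exp(σ η_v - (2π/dl v) e^{η_v})` at `η = lg x - (log T)/d`, then `τ ↦ -τ`. -/
theorem mellin_units : ∃ G0 : (UI K → ℤ) → ℂ → ℂ,
    (∀ m, DifferentiableOn ℂ (G0 m) {s | 0 < s.re}) ∧
    (∀ σ1 σ2 : ℝ, 0 < σ1 → ∀ B : ℕ, ∃ a : (UI K → ℤ) → ℝ, Summable a ∧ ∀ m (s : ℂ), σ1 ≤ s.re →
      s.re ≤ σ2 → ‖G0 m s‖ * (1 + |s.im| + ‖xi m‖) ^ B ≤ a m / (1 + s.im ^ 2)) ∧
    ∀ σ : ℝ, 0 < σ → ∀ x : K, x ≠ 0 → ∀ T : ℝ, 0 < T →
      ∑' ε : (𝓞 K)ˣ, (gau (((ε : 𝓞 K) : K) * x) T : ℂ) = ∑' m : UI K → ℤ, ∫ τ : ℝ,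
        G0 m (σ + τ * Complex.I) * ch (xi m) x * ((aN x / T : ℝ) : ℂ) ^ (-(σ + τ * Complex.I)) := by
  refine ⟨fun m s => (Nat.card (NumberField.Units.torsion K) * ((2 * Real.pi * ucJ K : ℝ) : ℂ)⁻¹) *
    wu_G (xi m) s, fun m => (wu_G_diff _).const_mul _, fun σ1 σ2 h1 B => ?_,
    fun σ hσ x hx T hT => ?_⟩
  · obtain ⟨a, ha, hb⟩ := wu_G_bound (K := K) σ2 h1 B
    refine ⟨_, ha.mul_left ‖(Nat.card (NumberField.Units.torsion K) *
      ((2 * Real.pi * ucJ K : ℝ) : ℂ)⁻¹)‖, fun m s hs1 hs2 => ?_⟩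
    rw [norm_mul, mul_assoc, mul_div_assoc]
    exact mul_le_mul_of_nonneg_left (hb m s hs1 hs2) (norm_nonneg _)
  have hd : (dd K : ℝ) ≠ 0 := Nat.cast_ne_zero.2 dd_pos.ne'
  have hN : 0 < aN x / T := div_pos (aN_pos hx) hT
  set η : Pl K → ℝ := fun v => lg x v - Real.log T / dd K with hη
  have hsum : ∑ v, η v = Real.log (aN x / T) := by
    rw [Finset.sum_sub_distrib, sum_lg hx, Finset.sum_const, Finset.card_univ, ← dd, nsmul_eq_mul,
      mul_div_cancel₀ _ hd, Real.log_div (aN_pos hx).ne' hT.ne']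
  have h := wu_fourier hσ η
  set γ : (UI K → ℤ) → ℝ := fun n =>
    ∏ v, Real.exp (-(2 * Real.pi / dl v * Real.exp ((η + lam n) v))) with hγ
  have e1 : ∀ n, ∏ v, Real.exp (σ * (η + lam n) v - 2 * Real.pi / dl v * Real.exp ((η + lam n) v)) =
      Real.exp (σ * Real.log (aN x / T)) * γ n := fun n => by
    simp only [sub_eq_add_neg, Real.exp_add _ (-_), Finset.prod_mul_distrib, hγ]
    congr 1
    rw [← Real.exp_sum, ← Finset.mul_sum]
    simp only [Pi.add_apply, Finset.sum_add_distrib, sum_lam, add_zero, hsum]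
  have e2 : ∀ p, gau (((uEquiv K p : (𝓞 K)ˣ) : 𝓞 K) * x) T = γ p.2 := fun p => by
    rw [wu_gau _ (mul_ne_zero (un_ne _) hx) hT, lg_mul' (un_ne _) hx, lg_uEquiv]
    refine Finset.prod_congr rfl fun v _ => ?_
    simp only [Pi.add_apply, hη]
    ring_nf
  simp only [e1, Complex.ofReal_mul, tsum_mul_left] at h
  have e3 : ∑' ε : (𝓞 K)ˣ, (gau (((ε : 𝓞 K) : K) * x) T : ℂ) =
      Nat.card (NumberField.Units.torsion K) * ∑' n, (γ n : ℂ) := by
    rw [← (uEquiv K).tsum_eq]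
    simp only [e2]
    exact wu_tsum_prod fun n => (γ n : ℂ)
  have hE : ((Real.exp (σ * Real.log (aN x / T)) : ℝ) : ℂ) ≠ 0 :=
    Complex.ofReal_ne_zero.2 (Real.exp_pos _).ne'
  rw [e3, (eq_inv_mul_iff_mul_eq₀ hE).2 h]
  simp only [← tsum_mul_left, ← integral_const_mul]
  refine tsum_congr fun m => integral_congr_ae (ae_of_all _ fun τ => ?_)
  have e4 : ∑ v, (xi m v - τ) * η v = ∑ v, xi m v * lg x v - τ * Real.log (aN x / T) := by
    rw [← hsum]
    simp only [sub_mul, Finset.sum_sub_distrib, ← Finset.mul_sum]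
    simp only [hη, mul_sub, Finset.sum_sub_distrib, ← Finset.sum_mul, sum_xi, zero_mul, sub_zero]
  simp only [e4, ch]
  rw [Complex.cpow_def_of_ne_zero (Complex.ofReal_ne_zero.2 hN.ne'), ← Complex.ofReal_log hN.le,
    Complex.ofReal_exp, ← Complex.exp_neg]
  have e5 : Complex.exp (((∑ v, xi m v * lg x v : ℝ) : ℂ) * Complex.I) *
      Complex.exp (Real.log (aN x / T) * -(σ + τ * Complex.I)) =
      Complex.exp (-((σ * Real.log (aN x / T) : ℝ) : ℂ)) * Complex.exp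
        (((∑ v, xi m v * lg x v - τ * Real.log (aN x / T) : ℝ) : ℂ) * Complex.I) := by
    rw [← Complex.exp_add, ← Complex.exp_add]
    congr 1
    push_cast
    ring
  rw [mul_assoc _ (Complex.exp _) (Complex.exp _), e5]
  push_cast
  ring

end Crest.Agent.R312
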