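import Crest.Agent.R312.B3WTw
import Crest.Agent.R312.B3WUnit

/-!
# R312 / B3WMel : Mellin expansion of `Om` with a holomorphic kernel
-/

set_option autoImplicit false
set_option linter.unusedSectionVars false

noncomputable section

open scoped Classical ComplexConjugate NumberField
open MeasureTheory

namespace Crest.Agent.R312

variable {K : Type} [Field K] [NumberField K] [Fld K] [Loc K] [Setup K]

/-- the sum over `R^*/𝓞^*` -/
def wm_t (m : UI K → ℤ) (s : ℂ) (x : K) : ℂ :=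
  if SInt x then ch (xi m) x * (aN x : ℂ) ^ (-s) else 0

/-- the invariant function -/
def wm_Φ (m : UI K → ℤ) (s : ℂ) (y : K) : ℂ := (∑' j : JJ K, wm_t m s (jo j * y)) * (NK y : ℂ) ^ s

omit [Setup K] in
theorem wm_t_W (m : UI K → ℤ) (s : ℂ) {w x : K} (hw : IsW w) (hx : x ≠ 0) :
    wm_t m s (w * x) = ch (xi m) w * (aN w : ℂ) ^ (-s) * wm_t m s x := by
  unfold wm_t
  rw [hw.sInt_mul_iff]
  split_ifs
  · rw [ch_mul _ hw.1 hx, aN_mul, Complex.ofReal_mul,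
      Complex.mul_cpow_ofReal_nonneg (aN_nonneg _) (aN_nonneg _)]
    ring
  · rw [mul_zero]

omit [Setup K] in
theorem wm_t_norm (m : UI K → ℤ) (s : ℂ) {x : K} (hx : x ≠ 0) :
    ‖wm_t m s x‖ = if SInt x then aN x ^ (-s.re) else 0 := by
  unfold wm_t
  split_ifs
  · rw [norm_mul, norm_ch, one_mul, Complex.norm_cpow_eq_rpow_re_of_pos (aN_pos hx), Complex.neg_re]
  · exact norm_zero

omit [Setup K] in
theorem wm_Φ_unit (m : UI K → ℤ) (s : ℂ) (u : (R K)ˣ) {y : K} (hy : y ≠ 0) :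
    wm_Φ m s (((u : R K) : K) * y) = wm_Φ m s y := by
  unfold wm_Φ
  rw [NK_mul, NK_unit, one_mul, ← (Equiv.mulRight (QuotientGroup.mk u : JJ K)).tsum_eq
    fun j => wm_t m s (jo j * y)]
  congr 1
  refine tsum_congr fun j => ?_
  obtain ⟨ε, hε⟩ := jo_mul j u
  rw [Equiv.coe_mulRight, hε, mul_assoc, wm_t_W m s (isW_unit ε)
    (mul_ne_zero (mul_ne_zero (jo_ne_zero j) (wv_unit_ne u)) hy), ch_xi_unit, aN_unit]
  simp [mul_assoc]

omit [Setup K] in
theorem wm_Φ_W (m : UI K → ℤ) (s : ℂ) {w y : K} (hw : IsW w) (hy : y ≠ 0) :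
    wm_Φ m s (w * y) = ch (xi m) w * wm_Φ m s y := by
  unfold wm_Φ
  simp only [mul_left_comm _ w, fun j => wm_t_W m s hw (mul_ne_zero (jo_ne_zero j) hy), tsum_mul_left]
  rw [NK_mul, NK_of_isW hw, Complex.ofReal_mul,
    Complex.mul_cpow_ofReal_nonneg (aN_nonneg _) (NK_pos hy).le, Complex.cpow_neg]
  have : (aN w : ℂ) ^ s ≠ 0 :=
    Complex.cpow_ne_zero_iff.2 (Or.inl (Complex.ofReal_ne_zero.2 (aN_pos hw.1).ne'))
  generalize ∑' j : JJ K, wm_t m s (jo j * y) = S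
  field_simp

omit [Setup K] in
theorem wm_t_le {y : K} (hy : y ≠ 0) {σ1 σ2 : ℝ} (h1 : 0 < σ1) (h2 : 0 < σ2) :
    ∃ u : JJ K → ℝ, Summable u ∧ ∀ m (s : ℂ), σ1 ≤ s.re → s.re ≤ σ2 → ∀ j,
      ‖wm_t m s (jo j * y)‖ ≤ u j := by
  refine ⟨_, (summable_JJ hy h1).add (summable_JJ hy h2), fun m s hs1 hs2 j => ?_⟩
  rw [wm_t_norm m s (mul_ne_zero (jo_ne_zero j) hy)]
  split_ifs
  · exact wu_rpow_le (aN_pos (mul_ne_zero (jo_ne_zero j) hy)) hs1 hs2
  · simp

omit [Setup K] in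
theorem wm_Φ_le {y : K} (hy : y ≠ 0) {σ1 : ℝ} (σ2 : ℝ) (h1 : 0 < σ1) :
    ∃ D : ℝ, 0 ≤ D ∧ ∀ m (s : ℂ), σ1 ≤ s.re → s.re ≤ σ2 → ‖wm_Φ m s y‖ ≤ D := by
  obtain ⟨u, hu, hb⟩ := wm_t_le hy h1 (h1.trans_le (le_max_left σ1 σ2))
  have hN := NK_pos hy
  refine ⟨|∑' j, u j| * (NK y ^ (- -σ2) + NK y ^ (- -σ1)), by positivity, fun m s hs1 hs2 => ?_⟩
  rw [wm_Φ, norm_mul, Complex.norm_cpow_eq_rpow_re_of_pos hN]
  refine mul_le_mul ((tsum_of_norm_bounded hu.hasSum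
    (hb m s hs1 (hs2.trans (le_max_right _ _)))).trans (le_abs_self _)) ?_ (by positivity)
    (abs_nonneg _)
  simpa using wu_rpow_le (σ := -s.re) hN (neg_le_neg hs2) (neg_le_neg hs1)

omit [Setup K] in
theorem wm_Φ_diff (m : UI K → ℤ) {y : K} (hy : y ≠ 0) :
    DifferentiableOn ℂ (fun s => wm_Φ m s y) {s | 0 < s.re} := by
  intro s hs
  have h0 : 0 < s.re := hs
  obtain ⟨u, hu, hb⟩ := wm_t_le hy (half_pos h0) (add_pos h0 one_pos)
  have hU : IsOpen {z : ℂ | s.re / 2 < z.re ∧ z.re < s.re + 1} :=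
    (isOpen_lt continuous_const Complex.continuous_re).inter
      (isOpen_lt Complex.continuous_re continuous_const)
  refine (DifferentiableAt.mul ((Complex.differentiableOn_tsum_of_summable_norm hu
    (fun j => Differentiable.differentiableOn ?_) hU fun j z hz =>
      hb m z hz.1.le hz.2.le j).differentiableAt (hU.mem_nhds ⟨by linarith, by linarith⟩))
    (DifferentiableAt.const_cpow differentiableAt_id
      (Or.inl (Complex.ofReal_ne_zero.2 (NK_pos hy).ne')))).differentiableWithinAt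
  unfold wm_t
  split_ifs
  · exact (Differentiable.const_cpow differentiable_neg (Or.inl (Complex.ofReal_ne_zero.2
      (aN_pos (mul_ne_zero (jo_ne_zero j) hy)).ne'))).const_mul _
  · exact differentiable_const _

omit [Setup K] [Fld K] in
theorem wm_countable_JJ : Countable (JJ K) := by
  have : Countable K := Finsupp.Countable.of_moduleFinite (R := ℚ)
  have : Countable (R K)ˣ := Units.val_injective.countable
  exact Quotient.countable

omit [Setup K] in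
theorem wm_Om {y : K} (hy : y ≠ 0) {T : ℝ} (hT : 0 < T) : (Om y T : ℂ) = ∑' j : JJ K,
    if SInt (jo j * y) then ∑' ε : (𝓞 K)ˣ, (gau (((ε : 𝓞 K) : K) * (jo j * y)) T : ℂ) else 0 := by
  obtain ⟨e, he⟩ := exists_rEquiv (K := K)
  have hs := Complex.summable_ofReal.2 (e.summable_iff.2 (summable_Om hy hT))
  rw [Om, ← e.tsum_eq, Complex.ofReal_tsum]
  refine hs.tsum_prod.trans (tsum_congr fun j => ?_)
  simp only [Function.comp_apply, he, mul_assoc, (isW_unit _).sInt_mul_iff]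
  split_ifs <;> simp

omit [Setup K] in
theorem wm_line {f : ℂ → ℂ} (hf : DifferentiableOn ℂ f {s | 0 < s.re}) {σ : ℝ} (hσ : 0 < σ) :
    Continuous fun τ : ℝ => f (σ + τ * Complex.I) :=
  hf.continuousOn.comp_continuous (by fun_prop) fun τ => by simpa using hσ

theorem wm_cpow_line {a : ℝ} (ha : 0 < a) (σ : ℝ) :
    Continuous fun τ : ℝ => (a : ℂ) ^ (-(σ + τ * Complex.I)) :=
  Continuous.const_cpow (by fun_prop) (Or.inl (Complex.ofReal_ne_zero.2 ha.ne'))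

theorem wm_cpow_norm {a : ℝ} (ha : 0 < a) (σ τ : ℝ) :
    ‖(a : ℂ) ^ (-(σ + τ * Complex.I))‖ = a ^ (-σ) := by
  rw [Complex.norm_cpow_eq_rpow_re_of_pos ha]
  simp

theorem wm_div_cpow {a T : ℝ} (ha : 0 ≤ a) (hT : 0 < T) (s : ℂ) :
    ((a / T : ℝ) : ℂ) ^ s = (a : ℂ) ^ s * ((T⁻¹ : ℝ) : ℂ) ^ s := by
  rw [div_eq_mul_inv, Complex.ofReal_mul, Complex.mul_cpow_ofReal_nonneg ha (inv_pos.2 hT).le]

omit [Setup K] in
theorem wm_step1 : ∃ G0 : (UI K → ℤ) → ℂ → ℂ,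
    (∀ m, DifferentiableOn ℂ (G0 m) {s | 0 < s.re}) ∧
    (∀ σ1 σ2 : ℝ, 0 < σ1 → ∀ B : ℕ, ∃ a : (UI K → ℤ) → ℝ, Summable a ∧ ∀ m (s : ℂ), σ1 ≤ s.re →
      s.re ≤ σ2 → ‖G0 m s‖ * (1 + |s.im| + ‖xi m‖) ^ B ≤ a m / (1 + s.im ^ 2)) ∧
    ∀ σ : ℝ, 0 < σ → ∀ y : K, y ≠ 0 → ∀ T : ℝ, 0 < T →
      (Om y T : ℂ) = ∑' m : UI K → ℤ, ∫ τ : ℝ, G0 m (σ + τ * Complex.I) *
        wm_Φ m (σ + τ * Complex.I) y * ((NK y / T : ℝ) : ℂ) ^ (-(σ + τ * Complex.I)) := by
  obtain ⟨G0, hd, hb, hG⟩ := mellin_units (K := K)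
  refine ⟨G0, hd, hb, fun σ hσ y hy T hT => ?_⟩
  have := wm_countable_JJ (K := K)
  obtain ⟨a, ha, hb⟩ := hb σ σ hσ 0
  have hj : ∀ j : JJ K, jo j * y ≠ 0 := fun j => mul_ne_zero (jo_ne_zero j) hy
  have h := w_swap (f := fun (j : JJ K) (m : UI K → ℤ) (τ : ℝ) => G0 m (σ + τ * Complex.I) *
      wm_t m (σ + τ * Complex.I) (jo j * y) * ((T⁻¹ : ℝ) : ℂ) ^ (-(σ + τ * Complex.I)))
    ((summable_JJ hy hσ).mul_right (T⁻¹ ^ (-σ))) ha
    (fun j m => Continuous.aestronglyMeasurable (by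
      refine ((wm_line (hd m) hσ).mul ?_).mul (wm_cpow_line (inv_pos.2 hT) σ)
      unfold wm_t
      split_ifs
      · exact (wm_cpow_line (aN_pos (hj j)) σ).const_mul _
      · exact continuous_const))
    (fun j m τ => by
      have h1 : ‖G0 m (σ + τ * Complex.I)‖ ≤ a m / (1 + τ ^ 2) := by
        simpa using hb m (σ + τ * Complex.I) (by simp) (by simp)
      rw [norm_mul, norm_mul, wm_t_norm _ _ (hj j), wm_cpow_norm (inv_pos.2 hT), mul_assoc, mul_comm,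
        show ((σ : ℂ) + τ * Complex.I).re = σ by simp]
      refine mul_le_mul_of_nonneg_left h1 (mul_nonneg ?_ (by positivity))
      split_ifs
      · exact Real.rpow_nonneg (aN_nonneg _) _
      · exact le_rfl)
  rw [wm_Om hy hT]
  refine (tsum_congr fun j => ?_).trans (h.trans
    (tsum_congr fun m => integral_congr_ae (ae_of_all _ fun τ => ?_)))
  · unfold wm_t
    split_ifs
    · rw [hG σ hσ _ (hj j) T hT]
      simp only [wm_div_cpow (aN_nonneg _) hT, mul_assoc]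
    · simp
  · have : (NK y : ℂ) ^ (σ + τ * Complex.I) ≠ 0 :=
      Complex.cpow_ne_zero_iff.2 (Or.inl (Complex.ofReal_ne_zero.2 (NK_pos hy).ne'))
    simp only [tsum_mul_left, tsum_mul_right, wm_Φ, wm_div_cpow (NK_pos hy).le hT]
    rw [Complex.cpow_neg (NK y : ℂ)]
    generalize ∑' j : JJ K, wm_t m (σ + τ * Complex.I) (jo j * y) = S
    field_simp

theorem mellin_hol : ∃ 𝒢 : Tw K → ℂ → ℂ,
    (∀ ν, DifferentiableOn ℂ (𝒢 ν) {s | 0 < s.re}) ∧
    (∀ σ1 σ2 : ℝ, 0 < σ1 → ∀ B : ℕ, ∃ a : Tw K → ℝ, Summable a ∧ ∀ ν (s : ℂ), σ1 ≤ s.re →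
      s.re ≤ σ2 → ‖𝒢 ν s‖ * (1 + |s.im| + ν.sz) ^ B ≤ a ν / (1 + s.im ^ 2)) ∧
    ∀ σ : ℝ, 0 < σ → ∀ y : K, y ≠ 0 → ∀ T : ℝ, 0 < T →
      (Om y T : ℂ) = ∑' ν : Tw K, ∫ τ : ℝ,
        𝒢 ν (σ + τ * Complex.I) * ν.f y * ((NK y / T : ℝ) : ℂ) ^ (-(σ + τ * Complex.I)) := by
  obtain ⟨G0, hd, hb, hG⟩ := wm_step1 (K := K)
  obtain ⟨X, C, _, _, rep, tw, hrep, hinj, hξ, hΦ⟩ := exists_tw_family (K := K)
  let co : (UI K → ℤ) × X → ℂ → ℂ := fun i s => G0 i.1 s *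
    ((Fintype.card C : ℂ)⁻¹ * ∑ c, wm_Φ i.1 s (rep c) * conj ((tw i).f (rep c)))
  have hcd : ∀ i, DifferentiableOn ℂ (co i) {s | 0 < s.re} := fun i =>
    (hd _).mul ((DifferentiableOn.fun_sum fun c _ => (wm_Φ_diff _ (hrep c)).mul_const _).const_mul _)
  have hcb : ∀ σ1 σ2 : ℝ, 0 < σ1 → ∀ B : ℕ, ∃ a : (UI K → ℤ) × X → ℝ, Summable a ∧ ∀ i (s : ℂ),
      σ1 ≤ s.re → s.re ≤ σ2 → ‖co i s‖ * (1 + |s.im| + ‖xi i.1‖) ^ B ≤ a i / (1 + s.im ^ 2) := by
    intro σ1 σ2 h1 B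
    obtain ⟨a, ha, hb⟩ := hb σ1 σ2 h1 B
    choose D hD0 hD using fun c => wm_Φ_le (hrep c) σ2 h1
    refine ⟨fun i => (‖(Fintype.card C : ℂ)⁻¹‖ * ∑ c, D c) * |a i.1|, Summable.mul_left _ ?_,
      fun i s hs1 hs2 => ?_⟩
    · exact (Equiv.prodComm _ _).summable_iff.1 ((summable_prod_of_nonneg
        (f := fun p : X × (UI K → ℤ) => |a p.2|) fun _ => abs_nonneg _).2 ⟨fun _ => ha.abs, .of_finite⟩)
    · simp only [co]
      rw [norm_mul, mul_right_comm, mul_comm, mul_div_assoc, norm_mul]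
      refine mul_le_mul (mul_le_mul_of_nonneg_left ((norm_sum_le _ _).trans
        (Finset.sum_le_sum fun c _ => ?_)) (norm_nonneg _)) ((hb i.1 s hs1 hs2).trans
        (div_le_div_of_nonneg_right (le_abs_self _) (by positivity))) (by positivity)
        (mul_nonneg (norm_nonneg _) (Finset.sum_nonneg fun c _ => hD0 c))
      rw [norm_mul, Complex.norm_conj, (tw i).norm _ (hrep c), mul_one]
      exact hD c _ s hs1 hs2
  refine ⟨Function.extend tw co 0, fun ν => ?_, fun σ1 σ2 h1 B => ?_, fun σ hσ y hy T hT => ?_⟩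
  · by_cases h : ∃ i, tw i = ν
    · obtain ⟨i, rfl⟩ := h
      rw [hinj.extend_apply]
      exact hcd i
    · rw [Function.extend_apply' _ _ _ h]
      exact differentiableOn_const 0
  · obtain ⟨a, ha, hb⟩ := hcb σ1 σ2 h1 B
    refine ⟨Function.extend tw a 0, (hinj.summable_iff (f := Function.extend tw a 0) fun ν hν =>
      Function.extend_apply' a (0 : Tw K → ℝ) ν hν).1 (by rwa [Function.extend_comp hinj]),
      fun ν s hs1 hs2 => ?_⟩
    by_cases h : ∃ i, tw i = ν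
    · obtain ⟨i, rfl⟩ := h
      rw [hinj.extend_apply, hinj.extend_apply, Tw.sz, hξ]
      exact hb i s hs1 hs2
    · rw [Function.extend_apply' _ _ _ h, Function.extend_apply' _ _ _ h]
      simp
  have hN : 0 < NK y / T := div_pos (NK_pos hy) hT
  obtain ⟨a, ha, hb⟩ := hcb σ σ hσ 0
  have hI : ∀ i, Integrable (fun τ : ℝ => co i (σ + τ * Complex.I) * (tw i).f y *
      ((NK y / T : ℝ) : ℂ) ^ (-(σ + τ * Complex.I))) ∧ ∫ τ : ℝ, ‖co i (σ + τ * Complex.I) * (tw i).f y *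
      ((NK y / T : ℝ) : ℂ) ^ (-(σ + τ * Complex.I))‖ ≤ Real.pi * (a i * (NK y / T) ^ (-σ)) := fun i => by
    refine w_integrable (((wm_line (hcd i) hσ).mul continuous_const).mul
      (wm_cpow_line hN σ)).aestronglyMeasurable fun τ => ?_
    rw [norm_mul, norm_mul, (tw i).norm y hy, mul_one, wm_cpow_norm hN, mul_div_right_comm]
    refine mul_le_mul_of_nonneg_right ?_ (by positivity)
    simpa using hb i (σ + τ * Complex.I) (by simp) (by simp)
  rw [← hinj.tsum_eq, hG σ hσ y hy T hT]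
  · simp only [hinj.extend_apply]
    rw [Summable.tsum_prod (((ha.mul_right _).mul_left Real.pi).of_norm_bounded fun i =>
      (norm_integral_le_integral_norm _).trans (hI i).2)]
    refine tsum_congr fun m => ?_
    rw [tsum_fintype, ← integral_finsetSum _ fun χ _ => (hI (m, χ)).1]
    refine integral_congr_ae (ae_of_all _ fun τ => ?_)
    simp only [co]
    rw [hΦ m (wm_Φ m (σ + τ * Complex.I)) (fun u y hy => wm_Φ_unit m _ u hy)
      (fun w y hw hy => wm_Φ_W m _ hw hy) y hy, Finset.mul_sum, Finset.sum_mul]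
    simp only [mul_assoc]
  · intro ν hν
    by_contra h
    rw [Function.mem_support, Function.extend_apply' _ _ _ h] at hν
    simp at hν

end Crest.Agent.R312
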