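import Crest.Agent.R312.B0Basic3
import Crest.Agent.R312.B0Hecke
import Crest.Agent.R312.B3L
import Crest.Agent.R312.B3WMel
import Crest.Agent.R17.Contour

/-!
# R312 / B3WSq : square sums
-/

set_option autoImplicit false
set_option linter.unusedSectionVars false

noncomputable section

open scoped Classical ComplexConjugate NumberField
open MeasureTheory

namespace Crest.Agent.R312

/-- `R17.shift_line_pole` for functions holomorphic on `0 < Re s` -/
theorem sq_shift_pole {G : ℂ → ℂ} {a b : ℝ} {s0 : ℂ} (h0 : 0 < a) (ha : a < s0.re) (hb : s0.re < b)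
    (hG : DifferentiableOn ℂ G {s | 0 < s.re})
    {g : ℝ → ℝ} (hg : Integrable g) (hg0 : Filter.Tendsto g (Filter.cocompact ℝ) (nhds 0))
    (hbd : ∀ σ τ : ℝ, a ≤ σ → σ ≤ b → ‖G (σ + τ * Complex.I)‖ ≤ g τ) :
    ∫ τ : ℝ, G (b + τ * Complex.I) / (b + τ * Complex.I - s0) =
      2 * Real.pi * G s0 + ∫ τ : ℝ, G (a + τ * Complex.I) / (a + τ * Complex.I - s0) := by
  have hab : a ≤ b := (ha.trans hb).le
  set α := s0.re - a with hα
  have hα0 : 0 < α := sub_pos.2 ha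
  have hsub : {s : ℂ | a ≤ s.re ∧ s.re ≤ b} ⊆ {s | 0 < s.re} := fun s hs => h0.trans_le hs.1
  have hop : {s : ℂ | 0 < s.re} ∈ nhds s0 :=
    (isOpen_lt continuous_const Complex.continuous_re).mem_nhds (h0.trans ha)
  set H : ℂ → ℂ := fun s => dslope G s0 s + G s0 / (s - s0 + 2 * α) with hH
  have hHd : DifferentiableOn ℂ H {s | a ≤ s.re ∧ s.re ≤ b} := by
    refine (((Complex.differentiableOn_dslope hop).2 hG).mono hsub).add
      ((differentiableOn_const _).div (by fun_prop) fun s hs h => ?_)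
    have := congrArg Complex.re h
    simp at this
    linarith [hs.1]
  have e0 : ∀ σ τ : ℝ, (σ : ℂ) + τ * Complex.I - s0 =
      (σ - s0.re : ℝ) + (τ - s0.im : ℝ) * Complex.I := fun σ τ => by
    conv_lhs => rw [← Complex.re_add_im s0]
    push_cast
    ring
  have e1 : ∀ σ τ : ℝ, (σ : ℂ) + τ * Complex.I - s0 ≠ 0 → H (σ + τ * Complex.I) =
      G (σ + τ * Complex.I) / (σ + τ * Complex.I - s0) -
        G s0 * (1 / ((σ - s0.re : ℝ) + (τ - s0.im : ℝ) * Complex.I) -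
          1 / ((σ - s0.re + 2 * α : ℝ) + (τ - s0.im : ℝ) * Complex.I)) := fun σ τ h => by
    have e2 : ((σ - s0.re + 2 * α : ℝ) : ℂ) + (τ - s0.im : ℝ) * Complex.I =
        σ + τ * Complex.I - s0 + 2 * α := by
      rw [e0]
      push_cast
      ring
    rw [e2, ← e0]
    simp only [hH]
    rw [dslope_of_ne _ (sub_ne_zero.1 h), slope_def_field]
    ring
  have line : ∀ σ : ℝ, a ≤ σ → σ ≤ b → σ - s0.re ≠ 0 → |σ - s0.re| ≤ σ - s0.re + 2 * α →
      Integrable (fun τ : ℝ => H (σ + τ * Complex.I)) ∧ ∫ τ : ℝ, H (σ + τ * Complex.I) =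
        (∫ τ : ℝ, G (σ + τ * Complex.I) / (σ + τ * Complex.I - s0)) -
          G s0 * (((∫ u : ℝ, (σ - s0.re) / ((σ - s0.re) ^ 2 + u ^ 2) : ℝ) : ℂ) - Real.pi) := by
    intro σ h1 h2 h3 h4
    have hne : ∀ τ : ℝ, (σ : ℂ) + τ * Complex.I - s0 ≠ 0 := fun τ => e0 σ τ ▸ R17.ct_ne h3 _
    obtain ⟨k1, k2⟩ := R17.ct_ker h3 h4
    have i1 : Integrable fun τ : ℝ => G (σ + τ * Complex.I) / (σ + τ * Complex.I - s0) := by
      refine (hg.div_const |σ - s0.re|).mono' (Continuous.aestronglyMeasurable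
        (((hG.continuousOn.mono hsub).comp_continuous (by fun_prop) fun τ => by
          simp [h1, h2]).div (by fun_prop) hne)) (Filter.Eventually.of_forall fun τ => ?_)
      rw [norm_div]
      refine div_le_div₀ ((norm_nonneg _).trans (hbd σ τ h1 h2)) (hbd σ τ h1 h2) (abs_pos.2 h3) ?_
      simpa using Complex.abs_re_le_norm ((σ : ℂ) + τ * Complex.I - s0)
    have i2 := (k1.comp_sub_right s0.im).const_mul (G s0)
    simp only [fun τ => e1 σ τ (hne τ)]
    refine ⟨i1.sub i2, ?_⟩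
    rw [integral_sub i1 i2, integral_const_mul, ← k2, integral_sub_right_eq_self
      (fun u : ℝ => 1 / (((σ - s0.re : ℝ) : ℂ) + u * Complex.I) -
        1 / ((σ - s0.re + 2 * α : ℝ) + u * Complex.I))]
  obtain ⟨ia, ja⟩ := line a le_rfl hab (by linarith) (abs_le.2 ⟨by linarith, by linarith⟩)
  obtain ⟨ib, jb⟩ := line b hab le_rfl (by linarith) (abs_le.2 ⟨by linarith, by linarith⟩)
  have hT : Filter.Tendsto (fun τ : ℝ => |τ - s0.im|) (Filter.cocompact ℝ) Filter.atTop :=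
    (tendsto_norm_cocompact_atTop (E := ℝ)).comp
      (Homeomorph.subRight s0.im).isClosedEmbedding.tendsto_cocompact
  have key := R17.ct_core hab hHd ia ib (g := fun τ => g τ + ‖G s0‖ * (2 * |τ - s0.im|⁻¹))
    (by simpa using hg0.add ((hT.inv_tendsto_atTop.const_mul 2).const_mul ‖G s0‖))
    ((hT.eventually_ge_atTop 1).mono fun τ hτ σ h1 h2 => by
      have a1 : ∀ p : ℝ, |τ - s0.im| ≤ ‖(p : ℂ) + (τ - s0.im : ℝ) * Complex.I‖ := fun p => by
        simpa using Complex.abs_im_le_norm ((p : ℂ) + (τ - s0.im : ℝ) * Complex.I)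
      have a2 : ∀ p : ℝ, ‖1 / ((p : ℂ) + (τ - s0.im : ℝ) * Complex.I)‖ ≤ |τ - s0.im|⁻¹ :=
        fun p => by
          rw [one_div, norm_inv]
          exact inv_anti₀ (by linarith) (a1 p)
      have a3 : 1 ≤ ‖(σ : ℂ) + τ * Complex.I - s0‖ := e0 σ τ ▸ hτ.trans (a1 _)
      rw [e1 σ τ (norm_pos_iff.1 (by linarith))]
      refine norm_sub_le_of_le ?_ ?_
      · rw [norm_div]
        exact (div_le_self (norm_nonneg _) a3).trans (hbd σ τ h1 h2)
      · rw [norm_mul, two_mul |τ - s0.im|⁻¹]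
        exact mul_le_mul_of_nonneg_left (norm_sub_le_of_le (a2 _) (a2 _)) (norm_nonneg _))
  have va : ∫ u : ℝ, (a - s0.re) / ((a - s0.re) ^ 2 + u ^ 2) = -Real.pi := by
    rw [← (R17.ct_lor hα0).2, ← integral_neg]
    refine integral_congr_ae (Filter.Eventually.of_forall fun u => ?_)
    simp only [hα]
    ring
  rw [ja, jb, va, (R17.ct_lor (sub_pos.2 hb)).2] at key
  push_cast at key
  linear_combination -key

variable {K : Type} [Field K] [NumberField K] [Fld K] [Loc K] [Setup K]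

theorem sq_PP_le (ν : Tw K) {q : R K} (hq : q ≠ 0) {s : ℂ} (hs : 0 ≤ s.re) :
    ‖PP ν q s‖ ≤ ∑ e ∈ pdiv q, ‖mu e‖ := by
  refine (norm_sum_le _ _).trans (Finset.sum_le_sum fun e he => ?_)
  have h0 := ((mem_pdiv hq).1 he).1.ne_zero
  rw [norm_mul, norm_mul, norm_pow, ν.norm_v h0, one_pow, mul_one,
    Complex.norm_cpow_eq_rpow_re_of_pos (N_pos h0)]
  exact mul_le_of_le_one_right (norm_nonneg _)
    (Real.rpow_le_one_of_one_le_of_nonpos (one_le_N h0) (by simpa using hs))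

theorem sq_PP_diff (ν : Tw K) {q : R K} (hq : q ≠ 0) : Differentiable ℂ (PP ν q) :=
  Differentiable.fun_sum fun e he => (Differentiable.const_cpow (by fun_prop) (Or.inl
    (Complex.ofReal_ne_zero.2 (N_pos ((mem_pdiv hq).1 he).1.ne_zero).ne'))).const_mul _

theorem sq_dser (ν : Tw K) {q : R K} (hq : Prim q) {s : ℂ} (hs : 1 < (2 * s).re) :
    ∑' a : R K, (if Prim a ∧ IsCoprime a q then ν.v a ^ 2 * (N a : ℂ) ^ (-(2 * s)) else 0) =
      dser (ν ^ 2).v (2 * s) * PP ν q s := by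
  have hsum := summable_dser (a := fun n => ν.v n ^ 2)
    (fun n hn => by rw [norm_pow, ν.norm_v hn.ne_zero, one_pow]) hs
  have e1 : ∀ a : R K, (if Prim a ∧ IsCoprime a q then ν.v a ^ 2 * (N a : ℂ) ^ (-(2 * s)) else 0) =
      ∑ e ∈ pdiv q, mu e * if Prim a ∧ e ∣ a then ν.v a ^ 2 * (N a : ℂ) ^ (-(2 * s)) else 0 := by
    intro a
    by_cases ha : Prim a
    · simp only [ha, true_and, mul_ite, mul_zero]
      rw [← Finset.sum_filter, ← Finset.sum_mul, sum_mu_coprime hq]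
      split_ifs <;> simp
    · simp [ha]
  simp only [e1]
  have hs2 : ∀ e ∈ pdiv q, Summable fun a : R K =>
      mu e * if Prim a ∧ e ∣ a then ν.v a ^ 2 * (N a : ℂ) ^ (-(2 * s)) else 0 := fun e _ => by
    refine Summable.mul_left _ (hsum.of_norm_bounded fun a => ?_)
    by_cases h : Prim a ∧ e ∣ a
    · rw [if_pos h, if_pos h.1]
    · rw [if_neg h, norm_zero]
      exact norm_nonneg _
  rw [Summable.tsum_finsetSum hs2, PP, Finset.mul_sum]
  refine Finset.sum_congr rfl fun e he => ?_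
  have hp := ((mem_pdiv hq.ne_zero).1 he).1
  rw [tsum_mul_left, tsum_prim_dvd hp, dser, mul_assoc, mul_left_comm, ← tsum_mul_right]
  congr 1
  refine tsum_congr fun m => ?_
  split_ifs with hm
  · rw [ν.pow_v 2 hm.ne_zero, ν.v_mul, N_mul, Complex.ofReal_mul,
      Complex.mul_cpow_ofReal_nonneg (N_nonneg _) (N_nonneg _)]
    ring
  · rw [zero_mul]

theorem sq_cpow {n X : ℝ} (hn : 0 < n) (hX : 0 < X) (s : ℂ) :
    ((n ^ 2 / X : ℝ) : ℂ) ^ (-s) = (n : ℂ) ^ (-(2 * s)) * (X : ℂ) ^ s := by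
  rw [Complex.cpow_def_of_ne_zero (Complex.ofReal_ne_zero.2 (by positivity)),
    Complex.cpow_def_of_ne_zero (Complex.ofReal_ne_zero.2 hn.ne'),
    Complex.cpow_def_of_ne_zero (Complex.ofReal_ne_zero.2 hX.ne'), ← Complex.exp_add,
    ← Complex.ofReal_log (by positivity), ← Complex.ofReal_log hn.le, ← Complex.ofReal_log hX.le,
    Real.log_div (by positivity) hX.ne', Real.log_pow]
  congr 1
  push_cast
  ring

theorem sq_H : ∃ H : Tw K → ℂ → ℂ, (∀ ν, DifferentiableOn ℂ (H ν) {s | 0 < s.re}) ∧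
    (∀ σ : ℝ, 0 < σ → ∃ a : Tw K → ℝ, Summable a ∧ ∀ ν (s : ℂ), σ ≤ s.re → s.re ≤ 1 →
      ‖H ν s‖ ≤ a ν / (1 + s.im ^ 2)) ∧ (∀ ν, H ν (1 / 2) ≠ 0 → ν ^ 2 = 1) ∧
    ∀ b q0 q : R K, b ≠ 0 → q0 ≠ 0 → Prim q → ∀ T : ℝ, 0 < T →
      ∑' a : R K, (if Prim a ∧ IsCoprime a q then
          (Om (((b * a ^ 2 : R K) : K) / (q0 : K)) T : ℂ) else 0) =
        ∑' ν : Tw K, ν.v b * conj (ν.v q0) * ∫ τ : ℝ, H ν ((1 : ℝ) + τ * Complex.I) *
          ((N q0 * T / N b : ℝ) : ℂ) ^ ((1 : ℝ) + τ * Complex.I) * PP ν q ((1 : ℝ) + τ * Complex.I) /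
            ((1 : ℝ) + τ * Complex.I - 1 / 2) := by
  obtain ⟨𝒢, hd, hb, hG⟩ := mellin_hol (K := K)
  refine ⟨fun ν s => 𝒢 ν s * Ef (ν ^ 2).toH (2 * s) / 2, fun ν => ((hd ν).mul
    ((Ef_differentiable (ν ^ 2).toH_hChar).comp (by fun_prop)).differentiableOn).div_const 2,
    fun σ hσ => ?_, fun ν hν => ?_, fun b q0 q hb0 hq0 hq T hT => ?_⟩
  · obtain ⟨C, hC⟩ := Ef_growth (2 * σ) 2
    obtain ⟨a, ha, hb⟩ := hb σ 1 hσ (C * dd K)
    refine ⟨_, ha.mul_left ((C * (Loc.Q K ^ Setup.lev K : ℕ) * 2) ^ (C * dd K) *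
      (∏ v : Pl K, dl v) ^ C), fun ν s h1 h2 => ?_⟩
    have h3 := hC K _ _ _ (ν ^ 2).toH_hChar (2 * s) (by simpa using h1) (by simpa using h2)
    have hP : 0 ≤ (∏ v : Pl K, dl v) ^ C := pow_nonneg (zero_le_one.trans one_le_prod_dl') _
    have h4 : ‖Ef (ν ^ 2).toH (2 * s)‖ ≤ (C * (Loc.Q K ^ Setup.lev K : ℕ) * 2) ^ (C * dd K) *
        (∏ v : Pl K, dl v) ^ C * (1 + |s.im| + ν.sz) ^ (C * dd K) := by
      rw [mul_right_comm, ← mul_pow]
      refine h3.trans (mul_le_mul_of_nonneg_right (pow_le_pow_left₀ (by positivity) ?_ _) hP)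
      rw [mul_assoc _ 2]
      refine mul_le_mul_of_nonneg_left ?_ (by positivity)
      rw [Tw.pow_ξ, RCLike.norm_nsmul ℝ, Tw.sz]
      simp [abs_mul]
      linarith
    beta_reduce
    rw [norm_div, norm_mul, mul_div_assoc _ (a ν), Complex.norm_two]
    refine (half_le_self (by positivity)).trans ((mul_le_mul_of_nonneg_left h4 (norm_nonneg _)).trans ?_)
    rw [mul_left_comm]
    exact mul_le_mul_of_nonneg_left (hb ν s h1 h2) (by positivity)
  · by_contra h
    beta_reduce at hν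
    rw [show (2 : ℂ) * (1 / 2) = 1 by norm_num, Ef_one_eq_zero (ν ^ 2).toH_hChar
      (Tw.toH_eq_one0_iff.not.2 h)] at hν
    simp at hν
  have := countable_Tw (K := K)
  set X := N q0 * T / N b with hX
  have hX0 : 0 < X := div_pos (mul_pos (N_pos hq0) hT) (N_pos hb0)
  obtain ⟨a, ha, hb⟩ := hb 1 1 one_pos 0
  have h := w_swap (f := fun (n : R K) (ν : Tw K) (τ : ℝ) => 𝒢 ν ((1 : ℝ) + τ * Complex.I) *
      (ν.v b * conj (ν.v q0)) * (X : ℂ) ^ ((1 : ℝ) + τ * Complex.I) * if Prim n ∧ IsCoprime n q then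
        ν.v n ^ 2 * (N n : ℂ) ^ (-(2 * ((1 : ℝ) + τ * Complex.I))) else 0)
    ((summable_N_rpow (K := K) one_lt_two).mul_left X) ha
    (fun n ν => Continuous.aestronglyMeasurable (by
      refine (((wm_line (hd ν) one_pos).mul continuous_const).mul (Continuous.const_cpow (by fun_prop)
        (Or.inl (Complex.ofReal_ne_zero.2 hX0.ne')))).mul ?_
      split_ifs with hn
      · exact (Continuous.const_cpow (by fun_prop)
          (Or.inl (Complex.ofReal_ne_zero.2 (N_pos hn.1.ne_zero).ne'))).const_mul _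
      · exact continuous_const))
    (fun n ν τ => by
      have h1 : ‖𝒢 ν ((1 : ℝ) + τ * Complex.I)‖ ≤ a ν / (1 + τ ^ 2) := by
        simpa using hb ν ((1 : ℝ) + τ * Complex.I) (by simp) (by simp)
      rw [norm_mul, norm_mul, norm_mul, norm_mul, Complex.norm_conj, ν.norm_v hb0, ν.norm_v hq0,
        Complex.norm_cpow_eq_rpow_re_of_pos hX0, mul_one, mul_one, mul_assoc, mul_comm]
      refine mul_le_mul ?_ h1 (norm_nonneg _) (mul_nonneg hX0.le (by
        split_ifs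
        · exact Real.rpow_nonneg (N_nonneg _) _
        · exact le_rfl))
      refine mul_le_mul (by simp) ?_ (norm_nonneg _) hX0.le
      by_cases hn : Prim n
      · rw [if_pos hn]
        split_ifs
        · rw [norm_mul, norm_pow, ν.norm_v hn.ne_zero,
            Complex.norm_cpow_eq_rpow_re_of_pos (N_pos hn.ne_zero)]
          simp
        · rw [norm_zero]
          exact Real.rpow_nonneg (N_nonneg _) _
      · simp [hn])
  refine (tsum_congr fun n => ?_).trans (h.trans (tsum_congr fun ν => ?_))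
  · split_ifs with hn
    · have hn0 := hn.1.ne_zero
      rw [hG 1 one_pos _ (div_ne_zero (bc_ne (mul_ne_zero hb0 (pow_ne_zero 2 hn0))) (bc_ne hq0)) T hT,
        NK_div _ hq0, show N (b * n ^ 2) / N q0 / T = N n ^ 2 / X by
          rw [hX, N_mul, N_pow]; field_simp]
      simp only [sq_cpow (N_pos hn0) hX0, Tw.f_div, Tw.v_mul, Tw.v_pow]
      exact tsum_congr fun ν => integral_congr_ae (ae_of_all _ fun τ => by ring)
    · simp
  · rw [← integral_const_mul]
    refine integral_congr_ae (ae_of_all _ fun τ => ?_)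
    have hs : 1 < (2 * ((1 : ℝ) + τ * Complex.I)).re := by simp
    have hne : ((1 : ℝ) + τ * Complex.I - 1 / 2 : ℂ) ≠ 0 := fun h => by
      have := congrArg Complex.re h
      norm_num at this
    simp only [tsum_mul_left, sq_dser ν hq hs, Ef_eq (ν ^ 2).toH_hChar hs, Tw.dser_eq]
    rw [show (2 * ((1 : ℝ) + τ * Complex.I) - 1 : ℂ) = 2 * ((1 : ℝ) + τ * Complex.I - 1 / 2) by ring]
    generalize ((1 : ℝ) + τ * Complex.I - 1 / 2 : ℂ) = z at hne
    field_simp

theorem sq_hchar {ν : Tw K} (h : ν ^ 2 = 1) :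
    ν ∈ hchars K ∧ ∀ x, x ≠ 0 → ν.f x ^ 2 = 1 := by
  have h2 : ∀ x, x ≠ 0 → ν.f x ^ 2 = 1 := fun x hx => by
    have := congrArg (fun μ : Tw K => μ.f x) h
    simpa [sq, hx] using this
  refine ⟨mem_hchars.2 ⟨?_, fun x hx => by rw [show 6 = 2 * 3 from rfl, pow_mul, h2 x hx, one_pow]⟩, h2⟩
  have := congrArg Tw.ξ h
  rw [Tw.pow_ξ, Tw.one_ξ, two_nsmul] at this
  exact funext fun v => add_self_eq_zero.1 (congrFun this v)

theorem sqsum' : ∃ c : G K → ℂ, (∀ g h, c (g * h ^ 2) = c g) ∧ ∀ σ : ℝ, 0 < σ → σ < 1 / 2 →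
    ∃ w : Tw K → ℝ → ℂ, (∀ ν, Integrable (w ν)) ∧ Summable (fun ν : Tw K => ∫ τ : ℝ, ‖w ν τ‖) ∧
    ∀ b q0 q : R K, b ≠ 0 → q0 ≠ 0 → Prim q → ∀ T : ℝ, 0 < T →
      ∑' a : R K, (if Prim a ∧ IsCoprime a q then
          (Om (((b * a ^ 2 : R K) : K) / (q0 : K)) T : ℂ) else 0) =
        c (cl b / cl q0) * (Real.sqrt (N q0 * T / N b) : ℂ) * PP 1 q (1 / 2) +
        ∑' ν : Tw K, ∫ τ : ℝ, w ν τ * (ν.v b * conj (ν.v q0)) *
          ((N q0 * T / N b : ℝ) : ℂ) ^ (σ + τ * Complex.I) * PP ν q (σ + τ * Complex.I) := by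
  obtain ⟨H, hd, hb, h2, hS⟩ := sq_H (K := K)
  choose rep hrep hcl using clN_surj (K := K) (n := Setup.lev K)
  refine ⟨fun g => ∑' ν : Tw K, 2 * Real.pi * H ν (1 / 2) * ν.f (rep g),
    fun g h => tsum_congr fun ν => ?_, fun σ h0 h1 => ?_⟩
  · by_cases hν : H ν (1 / 2) = 0
    · simp [hν, -one_div]
    obtain ⟨h3, h4⟩ := sq_hchar (h2 ν hν)
    rw [hchar_clN h3 (hrep _) (mul_ne_zero (hrep g) (pow_ne_zero 2 (hrep h))) (by
      rw [clN_mul _ (hrep g) (pow_ne_zero 2 (hrep h)), clN_pow _ (hrep h), hcl, hcl, hcl]),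
      ν.mul, bch_f_pow, h4 _ (hrep h), mul_one]
  obtain ⟨a, ha, hb⟩ := hb σ h0
  have hne : ∀ τ : ℝ, 1 / 2 - σ ≤ ‖(σ + τ * Complex.I - 1 / 2 : ℂ)‖ := fun τ => by
    have := Complex.abs_re_le_norm (σ + τ * Complex.I - 1 / 2 : ℂ)
    refine le_trans ?_ this
    rw [abs_of_neg (by simp; linarith)]
    simp
  have hw : ∀ ν (τ : ℝ), ‖H ν (σ + τ * Complex.I) / (σ + τ * Complex.I - 1 / 2)‖ ≤
      a ν / (1 / 2 - σ) / (1 + τ ^ 2) := fun ν τ => by
    have h3 : ‖H ν (σ + τ * Complex.I)‖ ≤ a ν / (1 + τ ^ 2) := by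
      simpa using hb ν (σ + τ * Complex.I) (by simp) (by simp; linarith)
    rw [norm_div, div_right_comm]
    exact div_le_div₀ ((norm_nonneg _).trans h3) h3 (by linarith) (hne τ)
  have hwc : ∀ ν, Continuous fun τ : ℝ => H ν (σ + τ * Complex.I) / (σ + τ * Complex.I - 1 / 2) :=
    fun ν => (wm_line (hd ν) h0).div (by fun_prop) fun τ => norm_pos_iff.1 (by linarith [hne τ])
  have hI := fun ν => w_integrable (hwc ν).aestronglyMeasurable (hw ν)
  have hsw : Summable fun ν => ∫ τ : ℝ, ‖H ν (σ + τ * Complex.I) / (σ + τ * Complex.I - 1 / 2)‖ :=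
    ((ha.div_const _).mul_left Real.pi).of_nonneg_of_le
      (fun _ => integral_nonneg fun _ => norm_nonneg _) fun ν => (hI ν).2
  refine ⟨fun ν τ => H ν (σ + τ * Complex.I) / (σ + τ * Complex.I - 1 / 2), fun ν => (hI ν).1, hsw,
    fun b q0 q hb0 hq0 hq T hT => ?_⟩
  rw [hS b q0 q hb0 hq0 hq T hT]
  set X := N q0 * T / N b with hX
  have hX0 : 0 < X := div_pos (mul_pos (N_pos hq0) hT) (N_pos hb0)
  set M := (X ^ (- -(1 : ℝ)) + X ^ (- -σ)) * ∑ e ∈ pdiv q, ‖mu e‖ with hM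
  have hM1 : ∀ (ν : Tw K) (s : ℂ), σ ≤ s.re → s.re ≤ 1 → ‖(X : ℂ) ^ s * PP ν q s‖ ≤ M :=
    fun ν s h3 h4 => by
      rw [norm_mul, Complex.norm_cpow_eq_rpow_re_of_pos hX0]
      refine mul_le_mul ?_ (sq_PP_le ν hq.ne_zero (h0.le.trans h3)) (norm_nonneg _) (by positivity)
      simpa using wu_rpow_le (σ := -s.re) hX0 (neg_le_neg h4) (neg_le_neg h3)
  have key : ∀ ν : Tw K, ν.v b * conj (ν.v q0) * ∫ τ : ℝ, H ν ((1 : ℝ) + τ * Complex.I) *
      (X : ℂ) ^ ((1 : ℝ) + τ * Complex.I) * PP ν q ((1 : ℝ) + τ * Complex.I) /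
        ((1 : ℝ) + τ * Complex.I - 1 / 2) =
      2 * Real.pi * H ν (1 / 2) * ν.f (rep (cl b / cl q0)) * (Real.sqrt X : ℂ) * PP 1 q (1 / 2) +
      ∫ τ : ℝ, H ν (σ + τ * Complex.I) / (σ + τ * Complex.I - 1 / 2) * (ν.v b * conj (ν.v q0)) *
          (X : ℂ) ^ (σ + τ * Complex.I) * PP ν q (σ + τ * Complex.I) := fun ν => by
    rw [sq_shift_pole (G := fun s => H ν s * (X : ℂ) ^ s * PP ν q s) (s0 := 1 / 2) h0
      (by simpa using h1) (by norm_num) (((hd ν).mul (Differentiable.const_cpow differentiable_id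
        (Or.inl (Complex.ofReal_ne_zero.2 hX0.ne'))).differentiableOn).mul
        (sq_PP_diff ν hq.ne_zero).differentiableOn) (g := fun τ => a ν * M * (1 + τ ^ 2)⁻¹)
      (integrable_inv_one_add_sq.const_mul _) ?_ fun x τ h3 h4 => ?_, mul_add, ← integral_const_mul]
    · congr 1
      · by_cases hν : H ν (1 / 2) = 0
        · simp [hν, -one_div]
        obtain ⟨h3, h4⟩ := sq_hchar (h2 ν hν)
        have e1 : PP ν q (1 / 2) = PP 1 q (1 / 2) := Finset.sum_congr rfl fun e he => by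
          have he0 := ((mem_pdiv hq.ne_zero).1 he).1.ne_zero
          rw [Tw.one_v he0, one_pow, Tw.v, h4 _ (bc_ne he0)]
        rw [hchar_clN h3 (hrep _) (div_ne_zero (bc_ne hb0) (bc_ne hq0)) (by
          rw [hcl, div_eq_mul_inv (b : K), clN_mul _ (bc_ne hb0) (inv_ne_zero (bc_ne hq0)), clN_inv,
            div_eq_mul_inv]; rfl), Tw.f_div, e1, Real.sqrt_eq_rpow, Complex.ofReal_cpow hX0.le]
        push_cast
        ring
      · exact integral_congr_ae (ae_of_all _ fun τ => by ring)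
    · have : Filter.Tendsto (fun τ : ℝ => 1 + ‖τ‖ ^ 2) (Filter.cocompact ℝ) Filter.atTop :=
        Filter.tendsto_atTop_add_const_left _ _
          ((Filter.tendsto_pow_atTop two_ne_zero).comp (tendsto_norm_cocompact_atTop (E := ℝ)))
      simpa using this.inv_tendsto_atTop.const_mul (a ν * M)
    · have h5 : ‖H ν (x + τ * Complex.I)‖ ≤ a ν / (1 + τ ^ 2) := by
        simpa using hb ν (x + τ * Complex.I) (by simpa using h3) (by simpa using h4)
      rw [mul_assoc, norm_mul, mul_right_comm, ← div_eq_mul_inv]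
      exact mul_le_mul h5 (hM1 ν _ (by simpa using h3) (by simpa using h4)) (norm_nonneg _)
        ((norm_nonneg _).trans h5)
  have s1 : Summable fun ν : Tw K => 2 * Real.pi * H ν (1 / 2) * ν.f (rep (cl b / cl q0)) := by
    refine (ha.mul_left (2 * Real.pi)).of_norm_bounded fun ν => ?_
    rw [norm_mul, ν.norm _ (hrep _), mul_one, norm_mul, show (2 * Real.pi : ℂ) = (2 * Real.pi : ℝ) by
      push_cast; rfl, Complex.norm_real, Real.norm_of_nonneg Real.two_pi_pos.le]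
    refine mul_le_mul_of_nonneg_left ?_ Real.two_pi_pos.le
    simpa using hb ν (1 / 2) (by simpa using h1.le) (by norm_num)
  have s2 : Summable fun ν : Tw K => ∫ τ : ℝ, H ν (σ + τ * Complex.I) /
      (σ + τ * Complex.I - 1 / 2) * (ν.v b * conj (ν.v q0)) *
        (X : ℂ) ^ (σ + τ * Complex.I) * PP ν q (σ + τ * Complex.I) := by
    refine (hsw.mul_right M).of_norm_bounded fun ν => ?_
    rw [← integral_mul_const]
    refine norm_integral_le_of_norm_le ((hI ν).1.norm.mul_const M) (ae_of_all _ fun τ => ?_)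
    rw [mul_assoc, norm_mul, norm_mul, norm_mul (ν.v b), Complex.norm_conj, ν.norm_v hb0,
      ν.norm_v hq0, mul_one, mul_one]
    exact mul_le_mul_of_nonneg_left (hM1 ν _ (by simp) (by simp; linarith)) (norm_nonneg _)
  rw [tsum_congr key, ((s1.mul_right _).mul_right _).tsum_add s2, tsum_mul_right, tsum_mul_right]

end Crest.Agent.R312
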