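import Crest.Agent.R312.B3WBd
import Crest.Agent.R312.B3WPois
import Crest.Agent.R312.B3WSq

/-!
# R312 / B3W : the row weights: bounds, Poisson summation, Mellin expansion, square sums (head module, part B3)
-/

set_option autoImplicit false

noncomputable section

open scoped Classical ComplexConjugate NumberField
open MeasureTheory

namespace Crest.Agent.R312

variable {K : Type} [Field K] [NumberField K] [Fld K] [Loc K] [Setup K]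

instance : Countable (Tw K) := by
  exact countable_Tw

theorem Om_nonneg (y : K) (T : ℝ) : 0 ≤ Om y T := by
  exact Om_nonneg' y T

theorem wt_nonneg (d q : R K) (T : ℝ) : 0 ≤ wt d q T := by
  exact wt_nonneg' d q T

theorem Om_le {σ : ℝ} (hσ : 0 < σ) : ∃ C : ℝ, 0 ≤ C ∧ ∀ d q : R K, d ≠ 0 → q ≠ 0 → ∀ T : ℝ, 0 < T →
    Om ((d : K) / (q : K)) T ≤ C * (N d / (N q * T)) ^ (-σ) := by
  exact Om_le' hσ

theorem Om_ge : ∃ c : ℝ, 0 < c ∧ ∀ d : R K, d ≠ 0 → ∀ T : ℝ, N d ≤ T →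
    c ≤ Om ((d : K) / ((1 : R K) : K)) T := by
  exact Om_ge'

theorem summable_wt {q : R K} (hq : q ≠ 0) {T : ℝ} (hT : 0 < T) (j : ℕ) :
    Summable (fun d : R K => N d ^ j * wt d q T) := by
  exact summable_wt' hq hT j

theorem tsum_wt_le : ∃ C : ℝ, 0 ≤ C ∧ ∀ q : R K, q ≠ 0 → ∀ T : ℝ, 0 < T →
    ∑' d : R K, (if d = 0 then 0 else wt d q T) ≤ C * (N q * T) := by
  exact tsum_wt_le'

/-- **Poisson summation** for unit-invariant periodic functions -/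
theorem poisson_per {q : R K} (hq : q ≠ 0) {φ : R K → ℂ} (hφ : Per q φ)
    (hu : ∀ (u : (R K)ˣ) (x : R K), φ (u * x) = φ x) {T : ℝ} (hT : 0 < T) :
    ∑' k : R K, φ k * (wt k 1 T : ℂ) =
      ((T / N q : ℝ) : ℂ) * ∑' d : R K, gs q φ d * (wt d q T⁻¹ : ℂ) := by
  exact poisson_per' hq hφ hu hT

/-- **Mellin expansion** of the weight -/
theorem mellin_Om {σ : ℝ} (hσ : 0 < σ) : ∃ Γ : Tw K → ℝ → ℂ, (∀ ν, Continuous (Γ ν)) ∧
    (∀ B : ℕ, (∀ ν, Integrable (fun τ : ℝ => ‖Γ ν τ‖ * (1 + |τ| + ν.sz) ^ B)) ∧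
      Summable (fun ν : Tw K => ∫ τ : ℝ, ‖Γ ν τ‖ * (1 + |τ| + ν.sz) ^ B)) ∧
    ∀ d q : R K, d ≠ 0 → q ≠ 0 → ∀ T : ℝ, 0 < T →
      (Om ((d : K) / (q : K)) T : ℂ) = ∑' ν : Tw K, ∫ τ : ℝ, Γ ν τ * (ν.v d * conj (ν.v q)) *
        ((N d / (N q * T) : ℝ) : ℂ) ^ (-(σ + τ * Complex.I)) := by
  exact mellin_Om' hσ

/-- **Square sums** -/
theorem sqsum : ∃ c : G K → ℂ, (∀ g h, c (g * h ^ 2) = c g) ∧ ∀ σ : ℝ, 0 < σ → σ < 1 / 2 →
    ∃ w : Tw K → ℝ → ℂ, (∀ ν, Integrable (w ν)) ∧ Summable (fun ν : Tw K => ∫ τ : ℝ, ‖w ν τ‖) ∧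
    ∀ b q0 q : R K, b ≠ 0 → q0 ≠ 0 → Prim q → ∀ T : ℝ, 0 < T →
      ∑' a : R K, (if Prim a ∧ IsCoprime a q then
          (Om (((b * a ^ 2 : R K) : K) / (q0 : K)) T : ℂ) else 0) =
        c (cl b / cl q0) * (Real.sqrt (N q0 * T / N b) : ℂ) * PP 1 q (1 / 2) +
        ∑' ν : Tw K, ∫ τ : ℝ, w ν τ * (ν.v b * conj (ν.v q0)) *
          ((N q0 * T / N b : ℝ) : ℂ) ^ (σ + τ * Complex.I) * PP ν q (σ + τ * Complex.I) := by
  exact sqsum'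

end Crest.Agent.R312
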