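import Crest.Agent.R312.B0Basic2
import Crest.Agent.R312.B3WMel

/-!
# R312 / B3WBd : bounds for the weights
-/

set_option autoImplicit false
set_option linter.unusedSectionVars false

noncomputable section

open scoped Classical ComplexConjugate NumberField
open MeasureTheory

namespace Crest.Agent.R312

variable {K : Type} [Field K] [NumberField K] [Fld K] [Loc K] [Setup K]

theorem wb_integrable {f : ℝ → ℝ} {a : ℝ} (hc : Continuous f) (h0 : ∀ τ, 0 ≤ f τ)
    (hb : ∀ τ, f τ ≤ a / (1 + τ ^ 2)) : Integrable f ∧ ∫ τ, f τ ≤ a * Real.pi := by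
  have hi : Integrable fun τ : ℝ => a * (1 + τ ^ 2)⁻¹ := integrable_inv_one_add_sq.const_mul a
  have hf : Integrable f := hi.mono' hc.aestronglyMeasurable (Filter.Eventually.of_forall fun τ => by
    rw [Real.norm_of_nonneg (h0 τ), ← div_eq_mul_inv]; exact hb τ)
  refine ⟨hf, (integral_mono hf hi fun τ => ?_).trans (le_of_eq ?_)⟩
  · simpa [div_eq_mul_inv] using hb τ
  · rw [integral_const_mul, integral_univ_inv_one_add_sq]

theorem wb_rpow {a X σ : ℝ} (ha : 0 < a) (hX : 0 < X) : (a / X) ^ (-σ) = X ^ σ * a ^ (-σ) := by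
  rw [Real.div_rpow ha.le hX.le, Real.rpow_neg hX.le, div_inv_eq_mul, mul_comm]

theorem Om_nonneg' (y : K) (T : ℝ) : 0 ≤ Om y T :=
  tsum_nonneg fun u => by
    split_ifs
    · exact (gau_pos _ _).le
    · exact le_rfl

theorem wt_nonneg' (d q : R K) (T : ℝ) : 0 ≤ wt d q T := by
  unfold wt
  split_ifs
  · exact zero_le_one
  · exact Om_nonneg' _ _
  · exact le_rfl

/-- from `mellin_hol` (`Tw.f_div`, `NK_div`, `w_integrable`) -/
theorem mellin_Om' {σ : ℝ} (hσ : 0 < σ) : ∃ Γ : Tw K → ℝ → ℂ, (∀ ν, Continuous (Γ ν)) ∧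
    (∀ B : ℕ, (∀ ν, Integrable (fun τ : ℝ => ‖Γ ν τ‖ * (1 + |τ| + ν.sz) ^ B)) ∧
      Summable (fun ν : Tw K => ∫ τ : ℝ, ‖Γ ν τ‖ * (1 + |τ| + ν.sz) ^ B)) ∧
    ∀ d q : R K, d ≠ 0 → q ≠ 0 → ∀ T : ℝ, 0 < T →
      (Om ((d : K) / (q : K)) T : ℂ) = ∑' ν : Tw K, ∫ τ : ℝ, Γ ν τ * (ν.v d * conj (ν.v q)) *
        ((N d / (N q * T) : ℝ) : ℂ) ^ (-(σ + τ * Complex.I)) := by
  obtain ⟨𝒢, hd, hb, hM⟩ := mellin_hol (K := K)
  have hc : ∀ ν, Continuous fun τ : ℝ => 𝒢 ν (σ + τ * Complex.I) := fun ν =>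
    (hd ν).continuousOn.comp_continuous (by fun_prop) fun τ => by simpa using hσ
  refine ⟨fun ν τ => 𝒢 ν (σ + τ * Complex.I), hc, fun B => ?_, fun d q hd0 hq T hT => ?_⟩
  · obtain ⟨a, ha, hab⟩ := hb σ σ hσ B
    have key := fun ν : Tw K => wb_integrable (a := a ν)
      (f := fun τ : ℝ => ‖𝒢 ν (σ + τ * Complex.I)‖ * (1 + |τ| + ν.sz) ^ B)
      ((hc ν).norm.mul (by fun_prop))
      (fun τ => mul_nonneg (norm_nonneg _) (pow_nonneg (by have := ν.sz_nonneg; positivity) _))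
      fun τ => by simpa using hab ν (σ + τ * Complex.I) (by simp) (by simp)
    refine ⟨fun ν => (key ν).1, ?_⟩
    refine Summable.of_nonneg_of_le (fun ν => integral_nonneg fun τ => ?_) (fun ν => (key ν).2)
      (ha.mul_right Real.pi)
    exact mul_nonneg (norm_nonneg _) (pow_nonneg (by have := ν.sz_nonneg; positivity) _)
  · have hy : (d : K) / (q : K) ≠ 0 :=
      div_ne_zero (fun h => hd0 (Subtype.ext h)) fun h => hq (Subtype.ext h)
    rw [hM σ hσ _ hy T hT, NK_div d hq, div_div]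
    simp only [Tw.f_div]

/-- take norms in `mellin_Om'` (`B = 0`) -/
theorem Om_le' {σ : ℝ} (hσ : 0 < σ) : ∃ C : ℝ, 0 ≤ C ∧ ∀ d q : R K, d ≠ 0 → q ≠ 0 → ∀ T : ℝ, 0 < T →
    Om ((d : K) / (q : K)) T ≤ C * (N d / (N q * T)) ^ (-σ) := by
  obtain ⟨Γ, -, hB, hM⟩ := mellin_Om' (K := K) hσ
  obtain ⟨-, hs⟩ := hB 0
  simp only [pow_zero, mul_one] at hs
  refine ⟨∑' ν : Tw K, ∫ τ : ℝ, ‖Γ ν τ‖, tsum_nonneg fun ν => integral_nonneg fun τ => norm_nonneg _,
    fun d q hd hq T hT => ?_⟩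
  have hx : 0 < N d / (N q * T) := div_pos (N_pos hd) (mul_pos (N_pos hq) hT)
  have h1 : Om ((d : K) / (q : K)) T = ‖(Om ((d : K) / (q : K)) T : ℂ)‖ := by
    rw [Complex.norm_real, Real.norm_of_nonneg (Om_nonneg' _ _)]
  rw [h1, hM d q hd hq T hT]
  refine tsum_of_norm_bounded (hs.hasSum.mul_right _) fun ν => ?_
  refine (norm_integral_le_integral_norm _).trans (le_of_eq ?_)
  rw [← integral_mul_const]
  congr 1
  funext τ
  rw [norm_mul, norm_mul, norm_mul, Complex.norm_conj, ν.norm_v hd, ν.norm_v hq,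
    Complex.norm_cpow_eq_rpow_re_of_pos hx]
  simp

/-- `exists_reps 1`: `d = y u w`, so `u⁻¹ d = y w ∈ SInt` and `aN (y w) = aN y · N d / NK y ≤ C₁ N d`;
`exists_balanced` gives `ε` with `‖(ε y w)_v‖² ≤ e^C (C₁ T)^{1/d}`; one term of `Om` (`summable_Om`). -/
theorem Om_ge' : ∃ c : ℝ, 0 < c ∧ ∀ d : R K, d ≠ 0 → ∀ T : ℝ, N d ≤ T →
    c ≤ Om ((d : K) / ((1 : R K) : K)) T := by
  obtain ⟨S, hS0, hS⟩ := exists_reps (K := K) (le_refl 1)
  obtain ⟨C, hC⟩ := exists_balanced (K := K)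
  set C₁ : ℝ := ∑ y ∈ S, aN (y : K) / NK (y : K) with hC₁
  have hterm : ∀ y ∈ S, 0 ≤ aN (y : K) / NK (y : K) := fun y hy =>
    div_nonneg (aN_nonneg _) (NK_pos (by exact_mod_cast hS0 y hy)).le
  have hC₁0 : 0 ≤ C₁ := Finset.sum_nonneg hterm
  refine ⟨Real.exp (-(2 * Real.pi * ∑ v : Pl K, Real.exp C * C₁ ^ ((dd K : ℝ)⁻¹) / dl v)), Real.exp_pos _,
    fun d hd T hT => ?_⟩
  have hT0 : 0 < T := (N_pos hd).trans_le hT
  have hd' : (d : K) ≠ 0 := fun h => hd (Subtype.ext h)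
  obtain ⟨y, hy, u, w, hw, e⟩ := hS (d : K) hd'
  have hy0 : (y : K) ≠ 0 := by exact_mod_cast hS0 y hy
  have hW := hw.isW (le_refl 1)
  have hz0 : (y : K) * w ≠ 0 := mul_ne_zero hy0 hW.1
  have hNK : N d = NK (y : K) * aN w := by
    have h1 := NK_div d (one_ne_zero : (1 : R K) ≠ 0)
    rw [Subring.coe_one, div_one, N_one, div_one] at h1
    rw [← h1, e, NK_mul, NK_mul, NK_unit, mul_one, NK_of_isW hW]
  have hz : aN ((y : K) * w) ≤ C₁ * T := by
    have h1 : aN ((y : K) * w) = aN (y : K) / NK (y : K) * N d := by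
      rw [aN_mul, hNK]
      field_simp [(NK_pos hy0).ne']
    rw [h1]
    exact mul_le_mul (Finset.single_le_sum hterm hy) hT (N_nonneg _) hC₁0
  obtain ⟨ε, hε⟩ := hC _ hz0
  have hε0 : ((ε : 𝓞 K) : K) ≠ 0 := (isW_unit ε).1
  have hu : (((oU ε * u⁻¹ : (R K)ˣ) : R K) : K) * ((d : K) / ((1 : R K) : K)) =
      ((ε : 𝓞 K) : K) * ((y : K) * w) := by
    have h : (((u⁻¹ : (R K)ˣ) : R K) : K) * ((u : R K) : K) = 1 := by
      rw [← Subring.coe_mul, Units.inv_mul, Subring.coe_one]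
    rw [Units.val_mul, Subring.coe_mul, coe_oU, Subring.coe_one, div_one, e]
    linear_combination (((ε : 𝓞 K) : K) * ((y : K) * w)) * h
  have hy1 : (d : K) / ((1 : R K) : K) ≠ 0 := by rwa [Subring.coe_one, div_one]
  refine le_trans ?_ ((summable_Om hy1 hT0).le_tsum (oU ε * u⁻¹) fun j _ => ?_)
  · rw [hu, if_pos ((SInt.coe _).mul ((SInt.coe y).mul hW.2.1)), gau]
    refine Real.exp_le_exp.2 (neg_le_neg (mul_le_mul_of_nonneg_left (Finset.sum_le_sum fun v _ => ?_)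
      (by positivity)))
    have hp : 0 < T ^ ((dd K : ℝ)⁻¹) := Real.rpow_pos_of_pos hT0 _
    have h2 : ‖emb v (((ε : 𝓞 K) : K) * ((y : K) * w))‖ ^ 2 ≤
        Real.exp C * C₁ ^ ((dd K : ℝ)⁻¹) * T ^ ((dd K : ℝ)⁻¹) := by
      rw [← exp_lg (mul_ne_zero hε0 hz0), mul_assoc, ← Real.mul_rpow hC₁0 hT0.le]
      calc _ ≤ Real.exp (C + Real.log (aN ((y : K) * w)) * (dd K : ℝ)⁻¹) := by
            refine Real.exp_le_exp.2 ?_
            have := (abs_le.1 (hε v)).2
            rw [div_eq_mul_inv] at this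
            linarith
        _ = Real.exp C * aN ((y : K) * w) ^ ((dd K : ℝ)⁻¹) := by
            rw [Real.exp_add, Real.rpow_def_of_pos (aN_pos hz0)]
        _ ≤ _ := by
            refine mul_le_mul_of_nonneg_left ?_ (Real.exp_pos _).le
            exact Real.rpow_le_rpow (aN_nonneg _) hz (by positivity)
    rw [div_le_div_iff₀ (mul_pos (dl_pos v) hp) (dl_pos v)]
    calc _ ≤ Real.exp C * C₁ ^ ((dd K : ℝ)⁻¹) * T ^ ((dd K : ℝ)⁻¹) * dl v :=
          mul_le_mul_of_nonneg_right h2 (dl_pos v).le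
      _ = _ := by ring
  · split_ifs
    · exact (gau_pos _ _).le
    · exact le_rfl

/-- `Om_le'` with `σ = j + 2`, `summable_N_rpow` -/
theorem summable_wt' {q : R K} (hq : q ≠ 0) {T : ℝ} (hT : 0 < T) (j : ℕ) :
    Summable (fun d : R K => N d ^ j * wt d q T) := by
  obtain ⟨C, hC0, hC⟩ := Om_le' (K := K) (σ := (j : ℝ) + 2) (by positivity)
  have hX : 0 < N q * T := mul_pos (N_pos hq) hT
  have h1 : Summable fun d : R K => if d = 0 then (1 : ℝ) else 0 :=
    (hasSum_ite_eq (0 : R K) (1 : ℝ)).summable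
  have h2 := (summable_N_rpow (K := K) (σ := 2) one_lt_two).mul_left (C * (N q * T) ^ ((j : ℝ) + 2))
  refine Summable.of_nonneg_of_le (fun d => mul_nonneg (pow_nonneg (N_nonneg d) j) (wt_nonneg' _ _ _))
    (fun d => ?_) (h1.add h2)
  unfold wt
  by_cases hd : d = 0
  · subst hd
    have : ¬ Prim (0 : R K) := fun h => h.ne_zero rfl
    simp only [if_true, if_neg this, N_zero, mul_one, mul_zero, add_zero]
    exact pow_le_one₀ le_rfl zero_le_one
  · simp only [if_neg hd, zero_add]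
    split_ifs with hp
    · have hN := N_pos hd
      calc _ ≤ N d ^ j * (C * (N d / (N q * T)) ^ (-((j : ℝ) + 2))) :=
            mul_le_mul_of_nonneg_left (hC d q hd hq T hT) (pow_nonneg hN.le j)
        _ = _ := by
            rw [wb_rpow hN hX, ← Real.rpow_natCast,
              show N d ^ (-(2 : ℝ)) = N d ^ (j : ℝ) * N d ^ (-((j : ℝ) + 2)) by
                rw [← Real.rpow_add hN]; congr 1; ring]
            ring
    · simp

/-- `X = N q T`: `σ = 1/2` for `N d ≤ X` (`sum_ball_rpow`, `ball_eq_empty`), `σ = 2` for `N d > X`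
(`sum_tail_N_rpow`) -/
theorem tsum_wt_le' : ∃ C : ℝ, 0 ≤ C ∧ ∀ q : R K, q ≠ 0 → ∀ T : ℝ, 0 < T →
    ∑' d : R K, (if d = 0 then 0 else wt d q T) ≤ C * (N q * T) := by
  obtain ⟨C1, hC10, hC1⟩ := Om_le' (K := K) (σ := 1 / 2) (by norm_num)
  obtain ⟨C2, hC20, hC2⟩ := Om_le' (K := K) (σ := 2) (by norm_num)
  obtain ⟨C3, hC3⟩ := sum_ball_rpow (K := K) (σ := 1 / 2) (by norm_num)
  obtain ⟨C4, hC40, hC4⟩ := sum_tail_N_rpow (K := K) (σ := 2) one_lt_two
  refine ⟨C1 * |C3| + C2 * C4, by positivity, fun q hq T hT => ?_⟩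
  have hX : 0 < N q * T := mul_pos (N_pos hq) hT
  set X := N q * T with hXdef
  refine Real.tsum_le_of_sum_le (fun d => ?_) fun s => ?_
  · simp only [Pi.zero_apply]
    split_ifs
    · exact le_rfl
    · exact wt_nonneg' _ _ _
  have hle : ∀ d : R K, (if d = 0 then 0 else wt d q T) ≤
      C1 * X ^ (1 / 2 : ℝ) * (if d ∈ ball K X then N d ^ (-(1 / 2 : ℝ)) else 0) +
        C2 * X ^ (2 : ℝ) * (if Prim d ∧ X < N d then N d ^ (-(2 : ℝ)) else 0) := by
    intro d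
    have hN := N_nonneg d
    have g1 : 0 ≤ C1 * X ^ (1 / 2 : ℝ) * (if d ∈ ball K X then N d ^ (-(1 / 2 : ℝ)) else 0) := by
      split_ifs <;> positivity
    have g2 : 0 ≤ C2 * X ^ (2 : ℝ) * (if Prim d ∧ X < N d then N d ^ (-(2 : ℝ)) else 0) := by
      split_ifs <;> positivity
    by_cases hp : Prim d
    · have hd := hp.ne_zero
      rw [if_neg hd, wt, if_neg hd, if_pos hp]
      by_cases hdX : N d ≤ X
      · refine le_add_of_le_of_nonneg ?_ g2
        rw [if_pos (mem_ball.2 ⟨hp, hdX⟩), mul_assoc, ← wb_rpow (N_pos hd) hX]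
        exact hC1 d q hd hq T hT
      · refine le_add_of_nonneg_of_le g1 ?_
        rw [if_pos ⟨hp, not_le.1 hdX⟩, mul_assoc, ← wb_rpow (N_pos hd) hX]
        exact hC2 d q hd hq T hT
    · refine le_trans (le_of_eq ?_) (add_nonneg g1 g2)
      split_ifs with hd
      · rfl
      · rw [wt, if_neg hd, if_neg hp]
  refine (Finset.sum_le_sum fun d _ => hle d).trans ?_
  rw [Finset.sum_add_distrib, ← Finset.mul_sum, ← Finset.mul_sum, add_mul]
  refine add_le_add ?_ ?_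
  · have h1 : ∑ d ∈ s, (if d ∈ ball K X then N d ^ (-(1 / 2 : ℝ)) else 0) ≤ |C3| * X ^ (1 - 1 / 2 : ℝ) := by
      rw [← Finset.sum_filter]
      refine (Finset.sum_le_sum_of_subset_of_nonneg (t := ball K X) (fun d hd => (Finset.mem_filter.1 hd).2)
        fun d _ _ => Real.rpow_nonneg (N_nonneg d) _).trans ?_
      by_cases h : 1 ≤ X
      · exact (hC3 X h).trans (mul_le_mul_of_nonneg_right (le_abs_self _) (by positivity))
      · rw [ball_eq_empty (not_le.1 h), Finset.sum_empty]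
        positivity
    refine (mul_le_mul_of_nonneg_left h1 (by positivity)).trans (le_of_eq ?_)
    have : X ^ (1 / 2 : ℝ) * X ^ (1 - 1 / 2 : ℝ) = X := by
      rw [← Real.rpow_add hX]; norm_num
    linear_combination C1 * |C3| * this
  · refine (mul_le_mul_of_nonneg_left (hC4 X hX s) (by positivity)).trans (le_of_eq ?_)
    have : X ^ (2 : ℝ) * X ^ (1 - 2 : ℝ) = X := by
      rw [← Real.rpow_add hX]; norm_num
    linear_combination C2 * C4 * this

end Crest.Agent.R312
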