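import Crest.Agent.R312.B0Chars
import Crest.Agent.R312.B3Unit
import Crest.Agent.R312.B3WVal

/-!
# R312 / B3WTw : the unramified twists; `Tw K` is countable
-/

set_option autoImplicit false
set_option linter.unusedSectionVars false

noncomputable section

open scoped Classical ComplexConjugate NumberField
open MeasureTheory

namespace Crest.Agent.R312

variable {K : Type} [Field K] [NumberField K] [Fld K] [Loc K] [Setup K]

/-- unitary characters of a subgroup extend -/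
theorem wtw_extend {Γ : Type} [CommGroup Γ] (H : Subgroup Γ) (θ : H → ℂ)
    (hmul : ∀ a b, θ (a * b) = θ a * θ b) (hn : ∀ a, ‖θ a‖ = 1) :
    ∃ φ : Γ → ℂ, (∀ a b, φ (a * b) = φ a * φ b) ∧ (∀ a, ‖φ a‖ = 1) ∧ ∀ a : H, φ a = θ a := by
  let _ : DivisibleBy (Additive Circle) ℤ := divisibleByOfSMulRightSurj _ _ fun {n} hn z => by
    obtain ⟨t, ht⟩ := Circle.exp_surjective z.toMul
    refine ⟨Additive.ofMul (Circle.exp (t / n)), ?_⟩
    change Additive.ofMul (Circle.exp (t / n) ^ n) = z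
    rw [← Circle.exp_intCast_mul, mul_div_cancel₀ _ (Int.cast_ne_zero.2 hn), ht]
    rfl
  let θ' : H →* Circle := MonoidHom.mk' (fun a => ⟨θ a, mem_sphere_zero_iff_norm.2 (hn a)⟩)
    fun a b => Subtype.ext (hmul a b)
  obtain ⟨h, hh⟩ := (Module.Baer.of_divisible (Additive Circle)).extension_property_addMonoidHom
    (MonoidHom.toAdditive H.subtype) H.subtype_injective (MonoidHom.toAdditive θ')
  refine ⟨fun a => ((h (Additive.ofMul a)).toMul : Circle), fun a b => ?_,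
    fun a => Circle.norm_coe _, fun a => ?_⟩
  · simp only [ofMul_mul, map_add, toMul_add, Circle.coe_mul]
  · exact congrArg (fun z : Additive Circle => ((z.toMul : Circle) : ℂ))
      (DFunLike.congr_fun hh (Additive.ofMul a))

/-- twists from characters of `Kˣ` -/
theorem wtw_mk (φ : Kˣ → ℂ) (hmul : ∀ a b, φ (a * b) = φ a * φ b) (hn : ∀ a, ‖φ a‖ = 1)
    {ξ : Pl K → ℝ} (h0 : ∑ v, ξ v = 0)
    (h : ∀ (x : Kˣ) (u : (R K)ˣ) (w : K), IsW w → (x : K) = ((u : R K) : K) * w → φ x = ch ξ w) :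
    ∃ ν : Tw K, ν.ξ = ξ ∧ ∀ x : Kˣ, ν.f x = φ x := by
  refine ⟨{ f := fun x => if hx : x = 0 then 0 else φ (Units.mk0 x hx)
            ξ := ξ
            zero := dif_pos rfl
            one := ?_
            mul := fun x y => ?_
            norm := fun x hx => by rw [dif_neg hx, hn]
            unit := fun u => ?_
            ray := fun x hx => ?_
            sum_zero := h0 }, rfl, fun x => ?_⟩
  · rw [dif_neg one_ne_zero, h _ 1 1 IsW.one (by simp), ch_one]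
  · by_cases hx : x = 0
    · simp [hx]
    · by_cases hy : y = 0
      · simp [hy]
      · rw [dif_neg hx, dif_neg hy, dif_neg (mul_ne_zero hx hy), ← hmul, Units.mk0_mul]
  · rw [dif_neg (wv_unit_ne u), h _ u 1 IsW.one (by simp), ch_one]
  · rw [dif_neg (hx.ne_zero Setup.lev_pos), h _ 1 x (hx.isW Setup.lev_pos) (by simp)]
  · change (if hx : (x : K) = 0 then 0 else φ (Units.mk0 x hx)) = _
    rw [dif_neg x.ne_zero, Units.mk0_val]

theorem wtw_wd (m : UI K → ℤ) {u u' : (R K)ˣ} {w w' : K} (hw : IsW w) (hw' : IsW w')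
    (e : ((u : R K) : K) * w = ((u' : R K) : K) * w') : ch (xi m) w = ch (xi m) w' := by
  have h1 := wv_unit_ne u
  have h2 := hw'.1
  have h3 : (((u⁻¹ * u' : (R K)ˣ) : R K) : K) = w * w'⁻¹ := by
    rw [Units.val_mul, Subring.coe_mul, wv_unit_inv]
    field_simp
    linear_combination -e
  obtain ⟨ε, hε⟩ := exists_oU (u := u⁻¹ * u') (by rw [h3]; exact hw.mul hw'.inv)
  rw [← hε, coe_oU] at h3
  have h4 : w = ((ε : 𝓞 K) : K) * w' := by
    rw [h3]
    field_simp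
  rw [h4, ch_mul _ (un_ne ε) h2, ch_xi_unit, one_mul]

/-- Base point.  On `HS K` put `θ(u w) = ∑ ξ_v lg w v / 2π ∈ UnitAddCircle` (well defined by `exists_oU`,
`ch_xi_unit`), extend to `Kˣ` (`Module.Baer.of_divisible`, `extension_property_addMonoidHom`). -/
theorem exists_tw_base (m : UI K → ℤ) :
    ∃ ν : Tw K, ν.ξ = xi m ∧ ∀ w, IsW w → ν.f w = ch (xi m) w := by
  have hsp : ∀ x : HS K, ∃ w : K, ∃ u : (R K)ˣ, IsW w ∧ ((x : Kˣ) : K) = ((u : R K) : K) * w :=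
    fun x => let ⟨u, w, h⟩ := x.2; ⟨w, u, h⟩
  choose W U hW hU using hsp
  obtain ⟨φ, h1, h2, h3⟩ := wtw_extend (HS K) (fun x => ch (xi m) (W x)) (fun a b => by
    rw [← ch_mul _ (hW a).1 (hW b).1]
    refine wtw_wd m (u := U (a * b)) (u' := U a * U b) (hW _) ((hW a).mul (hW b)) ?_
    rw [← hU, Subgroup.coe_mul, Units.val_mul, hU, hU, Units.val_mul, Subring.coe_mul]
    ring) fun a => norm_ch _ _
  have h4 : ∀ (x : Kˣ) (u : (R K)ˣ) (w : K), IsW w → (x : K) = ((u : R K) : K) * w →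
      φ x = ch (xi m) w := fun x u w hw e =>
    (h3 ⟨x, u, w, hw, e⟩).trans (wtw_wd m (hW _) hw ((hU ⟨x, u, w, hw, e⟩).symm.trans e))
  obtain ⟨ν, a1, a2⟩ := wtw_mk φ h1 h2 (sum_xi m) h4
  exact ⟨ν, a1, fun w hw => (a2 (Units.mk0 w hw.1)).trans (h4 _ 1 w hw (by simp))⟩

theorem wtw_fourier {α : Type} [AddCommGroup α] [Fintype α] (F : α → ℂ) (g : α) :
    F g = ∑ ψ : AddChar α ℂ, ((Fintype.card α : ℂ)⁻¹ * ∑ a, F a * conj (ψ a)) * ψ g := by
  have hc' : (Fintype.card α : ℂ) ≠ 0 := by exact_mod_cast Fintype.card_ne_zero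
  have : ∀ ψ : AddChar α ℂ, ((Fintype.card α : ℂ)⁻¹ * ∑ a, F a * conj (ψ a)) * ψ g
      = ∑ a, (Fintype.card α : ℂ)⁻¹ * F a * ψ (g - a) := by
    intro ψ
    rw [Finset.mul_sum, Finset.sum_mul]
    refine Finset.sum_congr rfl (fun a _ => ?_)
    rw [sub_eq_add_neg, AddChar.map_add_eq_mul, AddChar.map_neg_eq_conj]
    ring
  simp only [this]
  rw [Finset.sum_comm]
  simp only [← Finset.mul_sum, AddChar.sum_apply_eq_ite, sub_eq_zero, mul_ite, mul_zero]
  rw [Finset.sum_ite_eq, if_pos (Finset.mem_univ _)]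
  field_simp

/-- `X` = characters of `C = Kˣ ⧸ HS K` (`AddChar (Additive C) ℂ`, `AddChar.sum_apply_eq_ite`),
`tw (m, χ) = ν₀(m) χ`. -/
theorem exists_tw_family : ∃ (X C : Type) (_ : Fintype X) (_ : Fintype C) (rep : C → K)
    (tw : (UI K → ℤ) × X → Tw K), (∀ c, rep c ≠ 0) ∧ Function.Injective tw ∧
    (∀ i, (tw i).ξ = xi i.1) ∧
    ∀ (m : UI K → ℤ) (Φ : K → ℂ), (∀ (u : (R K)ˣ) y, y ≠ 0 → Φ (((u : R K) : K) * y) = Φ y) →
      (∀ w y, IsW w → y ≠ 0 → Φ (w * y) = ch (xi m) w * Φ y) → ∀ y, y ≠ 0 →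
      Φ y = ∑ χ : X, ((Fintype.card C : ℂ)⁻¹ * ∑ c, Φ (rep c) * conj ((tw (m, χ)).f (rep c))) *
        (tw (m, χ)).f y := by
  obtain ⟨Γ, _, _, π, hπ, hker⟩ : ∃ (Γ : Type) (_ : CommGroup Γ) (_ : Finite Γ) (π : Kˣ →* Γ),
      Function.Surjective π ∧ ∀ x, π x = 1 ↔ x ∈ HS K :=
    ⟨Kˣ ⧸ HS K, inferInstance, inferInstance, QuotientGroup.mk' _, QuotientGroup.mk'_surjective _,
      fun x => QuotientGroup.eq_one_iff x⟩
  choose r hr using hπ
  let _ : Fintype (Additive Γ) := Fintype.ofFinite _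
  choose ν hν1 hν2 using exists_tw_base (K := K)
  have hθ : ∀ χ : AddChar (Additive Γ) ℂ, ∃ θ : Tw K, θ.ξ = 0 ∧
      ∀ x : Kˣ, θ.f x = χ (Additive.ofMul (π x)) := fun χ =>
    wtw_mk (fun x : Kˣ => χ (Additive.ofMul (π x))) (ξ := 0)
      (fun a b => by rw [map_mul, ofMul_mul, AddChar.map_add_eq_mul])
      (fun a => AddChar.norm_apply χ _) (by simp) fun x u w hw e => by
        rw [(hker x).2 ⟨u, w, hw, e⟩, ofMul_one, AddChar.map_zero_eq_one, ch_zero]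
  choose θ hθ1 hθ2 using hθ
  refine ⟨AddChar (Additive Γ) ℂ, Additive Γ, inferInstance, inferInstance,
    fun c => (r c.toMul : K), fun i => ν i.1 * θ i.2, fun c => Units.ne_zero _,
    ?_, fun i => by rw [Tw.mul_ξ, hν1, hθ1, add_zero], fun m Φ hu hw y hy => ?_⟩
  · rintro ⟨m, χ⟩ ⟨m', χ'⟩ e
    have e1 := congrArg Tw.ξ e
    simp only [Tw.mul_ξ, hν1, hθ1, add_zero] at e1
    obtain rfl := xi_injective e1
    have e2 : θ χ = θ χ' := mul_left_cancel e
    refine Prod.ext rfl (AddChar.ext _ _ fun c => ?_)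
    have e3 := hθ2 χ (r c.toMul)
    rw [e2, hθ2, hr] at e3
    exact e3.symm
  · obtain ⟨x, rfl⟩ : ∃ x : Kˣ, (x : K) = y := ⟨Units.mk0 y hy, rfl⟩
    have h1 := wtw_fourier (fun c : Additive Γ => Φ (r c.toMul : K) * conj ((ν m).f (r c.toMul : K)))
      (Additive.ofMul (π x))
    obtain ⟨u, w, a1, a2⟩ := (hker (r (π x) * x⁻¹)).1 (by rw [map_mul, map_inv, hr, mul_inv_cancel])
    have h2 : Φ x = Φ (r (π x) : K) * conj ((ν m).f (r (π x) : K)) * (ν m).f x := by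
      have e : (r (π x) : K) = ((u : R K) : K) * (w * x) := by
        rw [← mul_assoc, ← a2, ← Units.val_mul, inv_mul_cancel_right]
      have b1 : ch (xi m) w * conj (ch (xi m) w) = 1 := by
        rw [Complex.mul_conj', norm_ch]
        simp
      have b2 : (ν m).f x * conj ((ν m).f x) = 1 := by
        rw [Complex.mul_conj', (ν m).norm _ hy]
        simp
      rw [e, hu u _ (mul_ne_zero a1.1 hy), hw w _ a1 hy, (ν m).mul, (ν m).mul, (ν m).unit, one_mul,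
        hν2 m w a1, map_mul]
      linear_combination (-Φ x * ((ν m).f x * conj ((ν m).f x))) * b1 - Φ x * b2
    rw [h2]
    refine (congrArg (· * (ν m).f x) h1).trans ?_
    simp only [Finset.sum_mul]
    refine Finset.sum_congr rfl fun χ _ => ?_
    simp only [Tw.mul_f, hθ2, hr, ofMul_toMul, map_mul, mul_assoc]
    ring

/-- a power of every element lies in `U R^*` -/
theorem wtw_pow {n : ℕ} (hn : 1 ≤ n) {x : K} (hx : x ≠ 0) : ∃ k : ℕ, 0 < k ∧
    ∃ (u : (R K)ˣ) (w : K), InU n w ∧ x ^ k = ((u : R K) : K) * w := by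
  obtain ⟨S, h0, hS⟩ := exists_reps (K := K) hn
  choose y hy u w hw e using fun j : ℕ => hS (x ^ j) (pow_ne_zero j hx)
  obtain ⟨i, j, hij, h⟩ := S.finite_toSet.exists_lt_map_eq_of_forall_mem (f := y) hy
  refine ⟨j - i, by omega, (u i)⁻¹ * u j, w j / w i, (hw j).div hn (hw i), ?_⟩
  have k1 : (y i : K) ≠ 0 := by exact_mod_cast h0 _ (hy i)
  have k2 := wv_unit_ne (u i)
  have k3 := (hw i).ne_zero hn
  rw [pow_sub₀ _ hx hij.le, e i, e j, ← h, Units.val_mul, Subring.coe_mul, wv_unit_inv]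
  field_simp

theorem wtw_xi : (Set.range (Tw.ξ : Tw K → Pl K → ℝ)).Countable := by
  obtain ⟨I, hI⟩ : ∃ I : Ideal (𝓞 K), I = Ideal.span {((Loc.Q K : ℕ) : 𝓞 K) ^ Setup.lev K} :=
    ⟨_, rfl⟩
  have := Ideal.finiteQuotientOfFreeOfNeBot I (by
    rw [hI, Ne, Ideal.span_singleton_eq_bot]
    exact pow_ne_zero _ (Nat.cast_ne_zero.2 Loc.Q_ne))
  obtain ⟨k, hk⟩ : ∃ k, k = Nat.card (𝓞 K ⧸ I)ˣ := ⟨_, rfl⟩
  have hk0 : (k : ℝ) ≠ 0 := by
    rw [hk]
    exact_mod_cast Nat.card_pos.ne'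
  have h1 : ∀ ε : (𝓞 K)ˣ, InU (Setup.lev K) (((ε ^ k : (𝓞 K)ˣ) : 𝓞 K) : K) := fun ε => by
    refine InU.of_dvd ?_
    rw [← Ideal.mem_span_singleton, ← hI, ← Ideal.Quotient.eq, map_one]
    have e := congrArg Units.val
      (pow_card_eq_one' (x := Units.map (Ideal.Quotient.mk I).toMonoidHom ε))
    rw [← hk, ← map_pow] at e
    exact e
  refine (Set.countable_range fun m : UI K → ℤ => (k : ℝ)⁻¹ • xi m).mono ?_
  rintro _ ⟨ν, rfl⟩
  obtain ⟨m, hm⟩ := exists_xi (ξ := (ν ^ k).ξ) (ν ^ k).sum_zero fun ε => by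
    have e1 := ν.ray _ (h1 ε)
    rw [← coe_oU, ν.unit, coe_oU] at e1
    rw [e1, Tw.pow_ξ]
    unfold ch
    congr 3
    refine Finset.sum_congr rfl fun v _ => ?_
    have e2 := congrFun (lg_zpow ((ε : 𝓞 K) : K) (k : ℤ)) v
    rw [zpow_natCast] at e2
    push_cast
    rw [e2]
    simp only [Pi.smul_apply, nsmul_eq_mul, Int.cast_natCast, smul_eq_mul]
    ring
  refine ⟨m, ?_⟩
  simp only
  rw [← hm, Tw.pow_ξ, ← Nat.cast_smul_eq_nsmul ℝ, smul_smul, inv_mul_cancel₀ hk0, one_smul]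

theorem wtw_val {x : K} (hx : x ≠ 0) : (Set.range fun ν : Tw K => ν.f x).Countable := by
  obtain ⟨k, hk, u, w, hw, e⟩ := wtw_pow (Setup.lev_pos (K := K)) hx
  refine (wtw_xi.biUnion fun ξ _ =>
    (Polynomial.nthRootsFinset k (ch ξ w)).countable_toSet).mono ?_
  rintro _ ⟨ν, rfl⟩
  refine Set.mem_biUnion ⟨ν, rfl⟩ ((Polynomial.mem_nthRootsFinset hk _).2 ?_)
  rw [← bch_f_pow, e, ν.mul, ν.unit, one_mul, ν.ray w hw]

/-- With `exists_reps`: (1) a power `x^k`, `k ≥ 1`, of every `x ≠ 0` lies in `U R^*`; a twist is determined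
by `ξ` and its values on the finite set `S`, and `ν(y)^k = ch ξ w` leaves finitely many choices.
(2) every unit `ε` of `𝓞` has a power in `U` (`(𝓞/Q^lev)ˣ` is finite, `InU.of_dvd`), so `k ξ = xi m`
(`exists_xi`) for a fixed `k ≥ 1`. -/
theorem countable_Tw : Countable (Tw K) := by
  obtain ⟨S, h0, hS⟩ := exists_reps (K := K) (Setup.lev_pos (K := K))
  have h1 := (wtw_xi (K := K)).to_subtype
  have h2 : ∀ y : S, Countable (Set.range fun ν : Tw K => ν.f ((y : 𝓞 K) : K)) := fun y =>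
    (wtw_val (by exact_mod_cast h0 y.1 y.2)).to_subtype
  refine Function.Injective.countable (f := fun ν : Tw K =>
    ((⟨ν.ξ, ν, rfl⟩, fun y => ⟨ν.f ((y : 𝓞 K) : K), ν, rfl⟩) : Set.range (Tw.ξ : Tw K → Pl K → ℝ) ×
      ∀ y : S, Set.range fun ν : Tw K => ν.f ((y : 𝓞 K) : K))) fun ν ν' e => ?_
  have e1 : ν.ξ = ν'.ξ := congrArg (fun q => q.1.1) e
  refine Tw.ext (funext fun x => ?_) e1
  rcases eq_or_ne x 0 with rfl | hx
  · rw [ν.zero, ν'.zero]
  · obtain ⟨y, hy, u, w, hw, rfl⟩ := hS x hx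
    have e2 : ν.f (y : K) = ν'.f (y : K) := congrArg (fun q => (q.2 ⟨y, hy⟩).1) e
    rw [ν.mul, ν.mul, ν'.mul, ν'.mul, ν.unit, ν'.unit, ν.ray w hw, ν'.ray w hw, e1, e2]

end Crest.Agent.R312
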