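import Crest.Agent.R312.B4aStep

/-!
# R312 / B4aInd : the induction

Definitions and the dictionary R17 → R312 are in `B4aDefs.lean`.  Prefix helper lemmas with `b4aind_`.
Copy from `R17/FMoment_Ind`.
-/

set_option autoImplicit false

noncomputable section

open scoped Classical ComplexConjugate NumberField
open MeasureTheory

namespace Crest.Agent.R312.FM

variable {K : Type} [Field K] [NumberField K] [Fld K] [Loc K] [Setup K]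

theorem b4aind_mono {δ M M' : ℝ} {B : ℕ} {X : ℝ} (h : Bnd K δ M B X)
    (hM : M ≤ M') : Bnd K δ M' B X := by
  intro π hH D h1 h2 h3
  have hl := Real.rpow_nonneg π.len_pos.le δ
  have hs := π.one_le_s
  refine (h π hH D h1 h2 h3).trans ?_
  gcongr

theorem bnd_pow : ∃ c : ℕ, ∀ δ : ℝ, 0 < δ → δ ≤ 1 / 8 → ∀ j : ℕ,
    ∃ (C : ℝ) (B : ℕ), 1 ≤ C ∧ ∀ E Γ : ℝ, 1 ≤ E → 1 ≤ Γ → (Γ ^ (j + 1)) ^ δ ≤ E →
      Bnd K δ (C * E ^ (c * j) * Γ ^ (c + 2)) B (Γ ^ (j + 1)) := by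
  obtain ⟨c, hc⟩ := step (K := K)
  refine ⟨c, fun δ hδ hδ1 j => ?_⟩
  induction j with
  | zero =>
    obtain ⟨C, hC, h⟩ := short (K := K) hδ hδ1
    refine ⟨C, 0, hC, fun E Γ hE hG _ π _ D h1 h2 hD1 => ?_⟩
    have hl := Real.rpow_nonneg π.len_pos.le δ
    refine (h π D Γ hD1 hG (Or.inl (by simpa using h1))).trans ?_
    have : Γ ^ 2 ≤ Γ ^ (c + 2) := pow_le_pow_right₀ hG (by omega)
    simp only [mul_zero, pow_zero, mul_one]
    gcongr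
  | succ j ih =>
    obtain ⟨C, B, hC, h⟩ := ih
    obtain ⟨C', B', hC', h'⟩ := hc B δ hδ hδ1
    refine ⟨C' * (1 + C), B', one_le_mul_of_one_le_of_one_le hC' (by linarith),
      fun E Γ hE hG hGE => ?_⟩
    have hG0 : 0 < Γ := by linarith
    have h1 : (Γ ^ (j + 1)) ^ δ ≤ E :=
      (Real.rpow_le_rpow (by positivity) (pow_le_pow_right₀ hG (by omega)) hδ.le).trans hGE
    have h2 : Γ ^ (j + 1 + 1) / Γ = Γ ^ (j + 1) := by rw [pow_succ Γ (j + 1)]; field_simp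
    have hM : 1 ≤ C * E ^ (c * j) * Γ ^ (c + 2) :=
      one_le_mul_of_one_le_of_one_le (one_le_mul_of_one_le_of_one_le hC (one_le_pow₀ hE))
        (one_le_pow₀ hG)
    refine b4aind_mono (h' E Γ _ _ hE hG hM hGE (by rw [h2]; exact h E Γ hE hG h1)) ?_
    have h3 : Γ ^ c ≤ E ^ (c * j) * Γ ^ (c + 2) :=
      (pow_le_pow_right₀ hG (by omega)).trans
        (le_mul_of_one_le_left (by positivity) (one_le_pow₀ hE))
    calc C' * E ^ c * (Γ ^ c + C * E ^ (c * j) * Γ ^ (c + 2))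
        ≤ C' * E ^ c * (E ^ (c * j) * Γ ^ (c + 2) + C * E ^ (c * j) * Γ ^ (c + 2)) := by gcongr
      _ = _ := by ring

theorem final (A : ℝ) {ε : ℝ} (hε : 0 < ε) : ∃ (C : ℝ) (B : ℕ), ∀ Z : ℝ, 1 ≤ Z →
    ∀ π : Par K, π.H = 1 → ∀ D : ℝ, 1 ≤ D → D ≤ Z ^ A → π.len ≤ D →
      ∑ d ∈ ball K D, ‖π.F d‖ ^ 2 ≤ C * Z ^ ε * π.s ^ B * D := by
  obtain ⟨c, hc⟩ := bnd_pow (K := K)
  obtain ⟨A', hA'⟩ : ∃ A', A' = max A 1 := ⟨_, rfl⟩
  have hA1 : 1 ≤ A' := hA' ▸ le_max_right _ _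
  have hA2 : A ≤ A' := hA' ▸ le_max_left _ _
  obtain ⟨η, hη⟩ : ∃ η, η = ε / (3 * (c + 2)) := ⟨_, rfl⟩
  have hη0 : 0 < η := by rw [hη]; positivity
  have hη1 : η * (c + 2) = ε / 3 := by rw [hη]; field_simp
  obtain ⟨j, hj⟩ : ∃ j : ℕ, A' ≤ η * (j + 1) := by
    refine ⟨⌈A' / η⌉₊, ?_⟩
    have := Nat.le_ceil (A' / η)
    rw [div_le_iff₀ hη0] at this
    nlinarith
  obtain ⟨a, ha⟩ : ∃ a, a = η * (j + 1) + 1 := ⟨_, rfl⟩
  have ha1 : 1 ≤ a := by rw [ha]; nlinarith [(Nat.cast_nonneg j : (0 : ℝ) ≤ j)]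
  obtain ⟨w, hw⟩ : ∃ w, w = a * (c * j : ℕ) + A' := ⟨_, rfl⟩
  have hw0 : 0 < w := by rw [hw]; positivity
  obtain ⟨δ, hδ⟩ : ∃ δ, δ = min (1 / 8) (2 * ε / 3 / w) := ⟨_, rfl⟩
  have hδ0 : 0 < δ := by rw [hδ]; positivity
  have hδ1 : δ ≤ 1 / 8 := hδ ▸ min_le_left _ _
  have hδ2 : δ * w ≤ 2 * ε / 3 := by
    rw [← le_div_iff₀ hw0, hδ]; exact min_le_right _ _
  obtain ⟨C, B, hC, h⟩ := hc δ hδ0 hδ1 j
  obtain ⟨CB, hCB, hB⟩ := ball_le_Mo (K := K)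
  refine ⟨CB * C, B, fun Z hZ π hH D hD1 hD h2 => ?_⟩
  have hZ0 : 0 < Z := by linarith
  have hE : 1 ≤ Z ^ (δ * a) := Real.one_le_rpow hZ (by positivity)
  have hG : 1 ≤ Z ^ η := Real.one_le_rpow hZ hη0.le
  have e1 : (Z ^ η) ^ (j + 1) = Z ^ (η * (j + 1)) := by
    rw [← Real.rpow_natCast, ← Real.rpow_mul hZ0.le]; push_cast; rfl
  have hGE : ((Z ^ η) ^ (j + 1)) ^ δ ≤ Z ^ (δ * a) := by
    rw [e1, ← Real.rpow_mul hZ0.le]
    refine Real.rpow_le_rpow_of_exponent_le hZ ?_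
    rw [ha]; nlinarith
  have hl := π.len_pos
  have hs := π.one_le_s
  have hZA : Z ^ A ≤ Z ^ A' := Real.rpow_le_rpow_of_exponent_le hZ hA2
  have hlen : π.len ≤ Z ^ A' := h2.trans (hD.trans hZA)
  have k1 := h _ _ hE hG hGE π hH D
    (hlen.trans (by rw [e1]; exact Real.rpow_le_rpow_of_exponent_le hZ hj)) h2 hD1
  have k2 := hB π.al π.al_zero π.rapid D (by linarith)
  have k4 : π.len ^ δ ≤ Z ^ (A' * δ) := by
    refine (Real.rpow_le_rpow hl.le hlen hδ0.le).trans ?_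
    rw [← Real.rpow_mul hZ0.le]
  have k5 : (Z ^ (δ * a)) ^ (c * j) * (Z ^ η) ^ (c + 2) * Z ^ (A' * δ) ≤ Z ^ ε := by
    rw [← Real.rpow_natCast, ← Real.rpow_natCast, ← Real.rpow_mul hZ0.le, ← Real.rpow_mul hZ0.le,
      ← Real.rpow_add hZ0, ← Real.rpow_add hZ0]
    refine Real.rpow_le_rpow_of_exponent_le hZ ?_
    rw [hw] at hδ2
    push_cast at hδ2 ⊢
    nlinarith
  have hl' := Real.rpow_nonneg hl.le δ
  refine k2.trans ?_
  calc CB * Mo π.al D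
      ≤ CB * (C * (Z ^ (δ * a)) ^ (c * j) * (Z ^ η) ^ (c + 2) * π.s ^ B * D * Z ^ (A' * δ)) := by
        refine mul_le_mul_of_nonneg_left (k1.trans ?_) (by linarith)
        gcongr
    _ = CB * C * ((Z ^ (δ * a)) ^ (c * j) * (Z ^ η) ^ (c + 2) * Z ^ (A' * δ)) * π.s ^ B * D := by
        ring
    _ ≤ _ := by gcongr

end Crest.Agent.R312.FM
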