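import Crest.Agent.R312.B4T
import Crest.Agent.R312.B4aInd

/-!
# R312 / B4F : second moment of Möbius blocks (head module; port of `R17/TLS, PStep, Back, FMoment*` with `J = 0`)
-/

set_option autoImplicit false

noncomputable section

open scoped Classical ComplexConjugate NumberField
open MeasureTheory

namespace Crest.Agent.R312

variable {K : Type} [Field K] [NumberField K] [Fld K] [Loc K] [Setup K]

theorem fMoment (A : ℝ) {ε : ℝ} (hε : 0 < ε) : ∃ (C : ℝ) (B : ℕ), ∀ Z : ℝ, 1 ≤ Z →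
    ∀ (ν : Tw K) (D y t : ℝ), 1 ≤ D → D ≤ Z ^ A → Real.exp y ≤ D →
      ∑ d ∈ ball K D, ‖Mb ν d y t‖ ^ 2 ≤ C * Z ^ ε * (1 + |t| + ν.sz) ^ B * D := by
  obtain ⟨C, B, h⟩ := FM.final (K := K) A hε
  refine ⟨C, B, fun Z hZ ν D y t h1 h2 h3 => ?_⟩
  simp only [FM.Par.Mb_eq_F]
  exact h Z hZ ⟨ν, 1, y, t⟩ rfl D h1 h2 h3

end Crest.Agent.R312
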