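import Crest.Agent.R312.B4QStep

/-!
# R312 / B4Q : quadratic large sieve (head module; port of `R17/QLS*`)
-/

set_option autoImplicit false

noncomputable section

open scoped Classical ComplexConjugate NumberField
open MeasureTheory

namespace Crest.Agent.R312

variable {K : Type} [Field K] [NumberField K] [Fld K] [Loc K] [Setup K]

theorem qls (A : ℝ) {ε : ℝ} (hε : 0 < ε) : ∃ C, ∀ Z : ℝ, 3 ≤ Z → ∀ L X : ℝ, 1 ≤ L → L ≤ Z ^ A →
    1 ≤ X → X ≤ Z ^ A → ∀ a : R K → ℂ,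
    ∑ k ∈ (ball K L).filter Squarefree, ‖∑ b ∈ (ball K X).filter Squarefree, a b * qua k b‖ ^ 2 ≤
      C * Z ^ ε * (L + X) * ∑ b ∈ (ball K X).filter Squarefree, ‖a b‖ ^ 2 := by
  obtain ⟨C, hC0, hC⟩ := QL.LS_final (K := K) A hε
  refine ⟨C, fun Z hZ L X hL hLZ hX hXZ a => ?_⟩
  exact QL.Bd.transpose (hC Z hZ L X hL hLZ hX hXZ) (by positivity) a

end Crest.Agent.R312
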