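import Crest.Agent.R312.B4QSym

/-!
# R312 / B4QBil : bilinear forms (verbatim port of `R17/QLS_Bil` except `err_bound`)  (read the header of `B4QDefs` first).  Statements frozen; add lemmas freely.
-/

set_option autoImplicit false

noncomputable section

open scoped Classical ComplexConjugate NumberField
open MeasureTheory

namespace Crest.Agent.R312.QL

variable {K : Type} [Field K] [NumberField K] [Fld K] [Loc K] [Setup K]

theorem CF_congr {U : Finset (R K)} (α : (R K) → ℂ) {G G' : (R K) → (R K) → ℂ}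
    (h : ∀ k1 ∈ U, ∀ k2 ∈ U, IsCoprime k1 k2 → G k1 k2 = G' k1 k2) : CF U α G = CF U α G' := by
  unfold CF
  refine Finset.sum_congr rfl (fun k1 h1 => Finset.sum_congr rfl (fun k2 h2 => ?_))
  split_ifs with hc
  · rw [h k1 h1 k2 h2 hc]
  · rfl

theorem CF_comb (U : Finset (R K)) (α : (R K) → ℂ) (G1 G2 G3 G4 : (R K) → (R K) → ℂ) (x : ℂ) :
    CF U α (fun k1 k2 => x * G1 k1 k2 + x * G2 k1 k2 - G3 k1 k2 + G4 k1 k2) =
      x * CF U α G1 + x * CF U α G2 - CF U α G3 + CF U α G4 := by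
  unfold CF
  simp only [Finset.mul_sum, ← Finset.sum_add_distrib, ← Finset.sum_sub_distrib]
  refine Finset.sum_congr rfl (fun k1 _ => Finset.sum_congr rfl (fun k2 _ => ?_))
  split_ifs
  · ring
  · simp

theorem norm_CF_le {U : Finset (R K)} (α : (R K) → ℂ) {G : (R K) → (R K) → ℂ} {c : ℝ} (hc : 0 ≤ c)
    (h : ∀ k1 ∈ U, ∀ k2 ∈ U, IsCoprime k1 k2 → ‖G k1 k2‖ ≤ c) :
    ‖CF U α G‖ ≤ c * U.card * ∑ k ∈ U, ‖α k‖ ^ 2 := by
  unfold CF
  calc _ ≤ ∑ k1 ∈ U, ∑ k2 ∈ U, c * (‖α k1‖ * ‖α k2‖) := by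
        refine (norm_sum_le _ _).trans (Finset.sum_le_sum (fun k1 h1 =>
          (norm_sum_le _ _).trans (Finset.sum_le_sum (fun k2 h2 => ?_))))
        split_ifs with hk
        · rw [norm_mul, norm_mul, Complex.norm_conj, mul_comm c]
          exact mul_le_mul_of_nonneg_left (h k1 h1 k2 h2 hk) (by positivity)
        · rw [norm_zero]; positivity
    _ = c * (∑ k ∈ U, ‖α k‖) ^ 2 := by
        rw [pow_two, Finset.sum_mul_sum, Finset.mul_sum]
        simp only [Finset.mul_sum]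
    _ ≤ _ := by
        rw [mul_assoc]
        exact mul_le_mul_of_nonneg_left sq_sum_le_card_mul_sum_sq hc

theorem sum_dvd_le {U P : Finset (R K)} (hU : ∀ n ∈ U, n ≠ 0) (hP : ∀ r ∈ P, Prim r) {τ : ℝ}
    (hτ : ∀ n ∈ U, ((pdiv n).card : ℝ) ≤ τ) (f : (R K) → ℝ) (hf : ∀ n, 0 ≤ f n) :
    ∑ r ∈ P, ∑ n ∈ U, (if r ∣ n then f n else 0) ≤ τ * ∑ n ∈ U, f n := by
  rw [Finset.sum_comm, Finset.mul_sum]
  refine Finset.sum_le_sum (fun n hn => ?_)
  rw [← Finset.sum_filter, Finset.sum_const, nsmul_eq_mul]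
  refine mul_le_mul_of_nonneg_right (le_trans ?_ (hτ n hn)) (hf n)
  exact_mod_cast Finset.card_le_card (fun r hr => by
    rw [Finset.mem_filter] at hr
    exact (mem_pdiv (hU n hn)).2 ⟨hP r hr.1, hr.2⟩)

/-- removing the coprimality condition -/
theorem bil {Rw U : Finset (R K)} {ω : (R K) → ℝ} {k : (R K) → (R K) → ℂ} {D τ : ℝ} (hU : ∀ n ∈ U, Prim n)
    (hτ : ∀ n ∈ U, ((pdiv n).card : ℝ) ≤ τ) (hD : 0 ≤ D) (h : WB Rw ω U k D) (z : (R K) → ℂ)
    (hz : ∀ b ∈ Rw, ‖z b‖ ≤ ω b) (β γ : (R K) → ℂ) :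
    ‖∑ b ∈ Rw, z b * ∑ n1 ∈ U, ∑ n2 ∈ U,
      (if IsCoprime n1 n2 then (β n1 * k b n1) * (γ n2 * k b n2) else 0)‖ ≤
      D * τ * ((∑ n ∈ U, ‖β n‖ ^ 2 + ∑ n ∈ U, ‖γ n‖ ^ 2) / 2) := by
  set P := U.biUnion pdiv with hP
  have hPp : ∀ r ∈ P, Prim r := by
    intro r hr
    obtain ⟨n, hn, hr⟩ := Finset.mem_biUnion.1 hr
    exact ((mem_pdiv (hU n hn).ne_zero).1 hr).1
  set A : ((R K) → ℂ) → (R K) → (R K) → ℂ := fun β r b => ∑ n ∈ U, (if r ∣ n then β n else 0) * k b n with hA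
  have e1 : ∀ b, ∑ n1 ∈ U, ∑ n2 ∈ U,
      (if IsCoprime n1 n2 then (β n1 * k b n1) * (γ n2 * k b n2) else 0) =
      ∑ r ∈ P, mu r * (A β r b * A γ r b) := by
    intro b
    simp only [hA, Finset.sum_mul_sum]
    simp only [Finset.mul_sum]
    rw [Finset.sum_comm (s := P)]
    refine Finset.sum_congr rfl (fun n1 h1 => ?_)
    rw [Finset.sum_comm (s := P)]
    refine Finset.sum_congr rfl (fun n2 h2 => ?_)
    have h3 := sum_mu_coprime (hU n2 h2) n1
    have h4 : (pdiv n2).filter (fun e => e ∣ n1) = P.filter (fun r => r ∣ n1 ∧ r ∣ n2) := by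
      ext r
      simp only [Finset.mem_filter, mem_pdiv (hU n2 h2).ne_zero]
      constructor
      · rintro ⟨⟨a, b⟩, c⟩
        exact ⟨Finset.mem_biUnion.2 ⟨n2, h2, (mem_pdiv (hU n2 h2).ne_zero).2 ⟨a, b⟩⟩, c, b⟩
      · rintro ⟨a, b, c⟩
        exact ⟨⟨hPp r a, c⟩, b⟩
    rw [h4, Finset.sum_filter] at h3
    have : (if IsCoprime n1 n2 then (β n1 * k b n1) * (γ n2 * k b n2) else 0) =
        (if IsCoprime n1 n2 then 1 else 0) * ((β n1 * k b n1) * (γ n2 * k b n2)) := by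
      split_ifs <;> simp
    rw [this, ← h3, Finset.sum_mul]
    refine Finset.sum_congr rfl (fun r _ => ?_)
    by_cases a : r ∣ n1 <;> by_cases a' : r ∣ n2 <;> simp [a, a']
  have e2 : ∀ β : (R K) → ℂ, ∑ r ∈ P, ∑ b ∈ Rw, ω b * ‖A β r b‖ ^ 2 ≤ D * τ * ∑ n ∈ U, ‖β n‖ ^ 2 := by
    intro β
    calc _ ≤ ∑ r ∈ P, D * ∑ n ∈ U, (if r ∣ n then ‖β n‖ ^ 2 else 0) := by
          refine Finset.sum_le_sum (fun r _ => (h _).trans (le_of_eq ?_))
          congr 1
          refine Finset.sum_congr rfl (fun n _ => ?_)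
          split_ifs <;> simp
      _ ≤ _ := by
          rw [← Finset.mul_sum, mul_assoc]
          exact mul_le_mul_of_nonneg_left (sum_dvd_le (fun n hn => (hU n hn).ne_zero) hPp hτ _
            (fun n => by positivity)) hD
  simp_rw [e1]
  calc _ ≤ ∑ b ∈ Rw, ∑ r ∈ P, (ω b * ‖A β r b‖ ^ 2 + ω b * ‖A γ r b‖ ^ 2) / 2 := by
        refine (norm_sum_le _ _).trans (Finset.sum_le_sum (fun b hb => ?_))
        rw [Finset.mul_sum]
        refine (norm_sum_le _ _).trans (Finset.sum_le_sum (fun r _ => ?_))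
        rw [norm_mul, norm_mul, norm_mul]
        have h1 := hz b hb
        have h2 := norm_mu_le r
        have h3 : ‖A β r b‖ * ‖A γ r b‖ ≤ (‖A β r b‖ ^ 2 + ‖A γ r b‖ ^ 2) / 2 := by
          nlinarith [sq_nonneg (‖A β r b‖ - ‖A γ r b‖)]
        calc ‖z b‖ * (‖mu r‖ * (‖A β r b‖ * ‖A γ r b‖))
            ≤ ω b * (1 * ((‖A β r b‖ ^ 2 + ‖A γ r b‖ ^ 2) / 2)) := by
              refine mul_le_mul h1 (mul_le_mul h2 h3 (by positivity) (by positivity))
                (by positivity) ((norm_nonneg _).trans h1)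
          _ = _ := by ring
    _ = (∑ r ∈ P, ∑ b ∈ Rw, ω b * ‖A β r b‖ ^ 2 + ∑ r ∈ P, ∑ b ∈ Rw, ω b * ‖A γ r b‖ ^ 2) / 2 := by
        rw [Finset.sum_comm, ← Finset.sum_add_distrib, Finset.sum_div]
        refine Finset.sum_congr rfl (fun r _ => ?_)
        rw [← Finset.sum_add_distrib, Finset.sum_div]
    _ ≤ _ := by
        have := e2 β
        have := e2 γ
        linarith

/-- summation of the weight `N b ^ (-1/2)` by dyadic dissection -/
theorem dyadic_weight (f : (R K) → ℝ) (hf : ∀ b, 0 ≤ f b) {α β B' B0 : ℝ} (hα : 0 ≤ α) (hβ : 0 ≤ β)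
    (hB' : 0 < B') (hF : ∀ t, 0 ≤ t → t ≤ B0 → ∑ b ∈ SQ K t, f b ≤ α + β * t) (J : ℕ) :
    ∀ B, B' ≤ B → B ≤ B0 → B ≤ 4 ^ (J + 1) * B' →
      ∑ b ∈ SQ K B \ SQ K B', (Real.sqrt (N b))⁻¹ * f b ≤
        3 * α / Real.sqrt B' - 2 * α / Real.sqrt B + 4 * β * Real.sqrt B := by
  have hs' := Real.sqrt_pos.2 hB'
  have block : ∀ B1 B, 0 < B1 → 0 ≤ B → B ≤ B0 →
      ∑ b ∈ SQ K B \ SQ K B1, (Real.sqrt (N b))⁻¹ * f b ≤ (Real.sqrt B1)⁻¹ * (α + β * B) := by
    intro B1 B h1 hB0 hB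
    have := Real.sqrt_pos.2 h1
    calc _ ≤ ∑ b ∈ SQ K B \ SQ K B1, (Real.sqrt B1)⁻¹ * f b := by
          refine Finset.sum_le_sum (fun b hb => mul_le_mul_of_nonneg_right ?_ (hf b))
          rw [Finset.mem_sdiff, mem_SQ, mem_SQ] at hb
          have : B1 < N b := by
            by_contra hc
            exact hb.2 ⟨not_lt.1 hc, hb.1.2⟩
          exact inv_anti₀ (by positivity) (Real.sqrt_le_sqrt this.le)
      _ ≤ ∑ b ∈ SQ K B, (Real.sqrt B1)⁻¹ * f b :=
          Finset.sum_le_sum_of_subset_of_nonneg Finset.sdiff_subset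
            (fun b _ _ => mul_nonneg (by positivity) (hf b))
      _ ≤ _ := by
          rw [← Finset.mul_sum]
          exact mul_le_mul_of_nonneg_left (hF B hB0 hB) (by positivity)
  have base : ∀ B, B' ≤ B → B ≤ B0 → B ≤ 4 * B' →
      ∑ b ∈ SQ K B \ SQ K B', (Real.sqrt (N b))⁻¹ * f b ≤
        3 * α / Real.sqrt B' - 2 * α / Real.sqrt B + 4 * β * Real.sqrt B := by
    intro B h1 h2 h3
    refine (block B' B hB' (by linarith) h2).trans ?_
    have hB : 0 < B := by linarith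
    have hs := Real.sqrt_pos.2 hB
    have a1 : Real.sqrt B' ≤ Real.sqrt B := Real.sqrt_le_sqrt h1
    have a2 : Real.sqrt B ≤ 2 * Real.sqrt B' := by
      rw [show 2 * Real.sqrt B' = Real.sqrt (4 * B') by
        rw [Real.sqrt_mul (by norm_num), show (4 : ℝ) = 2 ^ 2 by norm_num, Real.sqrt_sq (by norm_num)]]
      exact Real.sqrt_le_sqrt h3
    have a3 := Real.mul_self_sqrt hB.le
    have a4 : α / Real.sqrt B ≤ α / Real.sqrt B' := div_le_div_of_nonneg_left hα hs' a1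
    have a5 : (Real.sqrt B')⁻¹ * B ≤ 2 * Real.sqrt B := by
      rw [inv_mul_le_iff₀ hs']; nlinarith
    have a6 : (Real.sqrt B')⁻¹ * (α + β * B) = α / Real.sqrt B' + β * ((Real.sqrt B')⁻¹ * B) := by
      ring
    rw [a6, mul_div_assoc, mul_div_assoc]
    nlinarith [mul_le_mul_of_nonneg_left a5 hβ, mul_nonneg hβ hs.le]
  induction J with
  | zero => intro B h1 h2 h3; exact base B h1 h2 (by simpa using h3)
  | succ J ih =>
    intro B h1 h2 h3
    by_cases h4 : B ≤ 4 * B'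
    · exact base B h1 h2 h4
    · have hB : 0 < B := by linarith
      have hs := Real.sqrt_pos.2 hB
      have i1 := ih (B / 4) (by linarith) (by linarith) (by rw [pow_succ] at h3; linarith)
      have i2 := block (B / 4) B (by linarith) hB.le h2
      have a1 : Real.sqrt (B / 4) = Real.sqrt B / 2 := by
        rw [Real.sqrt_div hB.le, show (4 : ℝ) = 2 ^ 2 by norm_num, Real.sqrt_sq (by norm_num)]
      have hsub : SQ K B \ SQ K B' = (SQ K B \ SQ K (B / 4)) ∪ (SQ K (B / 4) \ SQ K B') :=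
        (Finset.sdiff_union_sdiff_cancel (SQ_mono (by linarith)) (SQ_mono (by linarith))).symm
      have i3 := Finset.sum_union_inter (s₁ := SQ K B \ SQ K (B / 4)) (s₂ := SQ K (B / 4) \ SQ K B')
        (f := fun b => (Real.sqrt (N b))⁻¹ * f b)
      have i4 : 0 ≤ ∑ b ∈ (SQ K B \ SQ K (B / 4)) ∩ (SQ K (B / 4) \ SQ K B'),
          (Real.sqrt (N b))⁻¹ * f b :=
        Finset.sum_nonneg (fun b _ => mul_nonneg (by positivity) (hf b))
      rw [hsub]
      rw [a1] at i1 i2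
      have a3 := Real.mul_self_sqrt hB.le
      have a5 : (Real.sqrt B / 2)⁻¹ * (α + β * B) = 2 * α / Real.sqrt B + 2 * β * Real.sqrt B := by
        field_simp
        rw [Real.sq_sqrt hB.le, mul_comm β]
      have a6 : 2 * α / (Real.sqrt B / 2) = 2 * (2 * α / Real.sqrt B) := by field_simp
      rw [a5] at i2
      rw [a6] at i1
      linarith

theorem wb_sqrt {U : Finset (R K)} {α β B' B0 : ℝ} (hα : 0 ≤ α) (hβ : 0 ≤ β) (hB' : 0 < B')
    (hB : B' ≤ B0) (h : ∀ t, 0 ≤ t → t ≤ B0 → Bd (SQ K t) U qk (α + β * t)) :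
    WB (SQ K B0 \ SQ K B') (fun b => (Real.sqrt (N b))⁻¹) U qk
      (3 * α / Real.sqrt B' + 4 * β * Real.sqrt B0) := by
  intro a
  obtain ⟨J, hJ⟩ := pow_unbounded_of_one_lt (B0 / B') (show (1 : ℝ) < 4 by norm_num)
  have hS := sumsq_nonneg U a
  set S := ∑ n ∈ U, ‖a n‖ ^ 2
  have := dyadic_weight (fun b => ‖∑ n ∈ U, a n * qk b n‖ ^ 2) (fun b => by positivity)
    (α := α * S) (β := β * S) (B0 := B0) (by positivity) (by positivity) hB'
    (fun t h0 ht => (h t h0 ht a).trans (le_of_eq (by ring))) J B0 hB le_rfl (by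
      rw [div_lt_iff₀ hB'] at hJ
      rw [pow_succ]
      have : 0 < 4 ^ J * B' := by positivity
      linarith)
  refine this.trans ?_
  have : 0 ≤ 2 * (α * S) / Real.sqrt B0 := by positivity
  have e : (3 * α / Real.sqrt B' + 4 * β * Real.sqrt B0) * S =
      3 * (α * S) / Real.sqrt B' + 4 * (β * S) * Real.sqrt B0 := by ring
  linarith

end Crest.Agent.R312.QL
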