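import Crest.Agent.R312.B4QKer

/-!
# R312 / B4QId : Poisson summation and cancellation of the main terms (port of `R17/QLS_Id`, second half)  (read the header of `B4QDefs` first).  Statements frozen; add lemmas freely.
-/

set_option autoImplicit false

noncomputable section

open scoped Classical ComplexConjugate NumberField
open MeasureTheory

namespace Crest.Agent.R312.QL

variable {K : Type} [Field K] [NumberField K] [Fld K] [Loc K] [Setup K]

/-- `poisson_per` for `φ = qua (k1 k2)` (unit invariant by `qua_pair_unit`), `gs_qua`, `gam_pair`, `FS_split` -/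
theorem RS_poisson {k1 k2 : R K} (hs : Squarefree (k1 * k2)) (hu : ¬ IsUnit (k1 * k2)) (hc : cl k1 = cl k2)
    (B : ℝ) {M : ℝ} (hM : 0 < M) :
    RS (k1 * k2) 1 B M = ((M / Real.sqrt (N (k1 * k2)) : ℝ) : ℂ) *
      (KS (k1 * k2) (k1 * k2) B M⁻¹ + RS (k1 * k2) (k1 * k2) B M⁻¹) - KS (k1 * k2) 1 B M := by
  have h0 := hs.ne_zero
  have h1 := left_ne_zero_of_mul h0
  have h2 := right_ne_zero_of_mul h0
  have hN := N_pos h0
  rw [← FS_split h0 h0 hu B (by positivity), eq_sub_iff_add_eq', ← FS_split h0 one_ne_zero hu B hM,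
    poisson_per h0 (qua_isChar h0).per (fun u x => by rw [qua_mul h0, qua_pair_unit h1 h2 hc, one_mul]) hM,
    ← tsum_mul_left, ← tsum_mul_left]
  refine tsum_congr (fun d => ?_)
  rw [gs_qua h0 hs, gam_pair h1 h2 hc]
  have e2 : M / N (k1 * k2) * Real.sqrt (N (k1 * k2)) = M / Real.sqrt (N (k1 * k2)) := by
    have := Real.sqrt_pos.2 hN
    field_simp
    rw [Real.sq_sqrt hN.le]
  rw [← e2]
  push_cast
  ring

/-- As in R17 (without the factors `6`); the main terms cancel since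
`c (cl b / cl (k1 k2)) = c (cl b * ((cl k1)⁻¹)²) = c (cl b) = c (cl b / cl 1)` and
`(M/√N q) √(N q M⁻¹/N b) = √(N 1 * M/N b)`. -/
theorem RS_identity {c : G K → ℂ} (hcs : ∀ g h, c (g * h ^ 2) = c g) {σ1 σ2 : ℝ} {w1 w2 : Tw K → ℝ → ℂ}
    (h1 : SepP c σ1 w1) (h2 : SepP c σ2 w2) {k1 k2 : R K} (hp : Prim (k1 * k2))
    (hs : Squarefree (k1 * k2)) (hu : k1 * k2 ≠ 1) (hc : cl k1 = cl k2) {B B' : ℝ} (hB : B' ≤ B) {M : ℝ}
    (hM : 0 < M) :
    RS (k1 * k2) 1 B M =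
      M * ∑ b ∈ SQ K B', qua (k1 * k2) b * ((((Real.sqrt (N k1))⁻¹ * (Real.sqrt (N k2))⁻¹ : ℝ) : ℂ) *
        Ierr w1 σ1 (k1 * k2) (k1 * k2) b (M⁻¹ * (N k1 * N k2) / N b)) +
      M * ∑ b ∈ SQ K B \ SQ K B', qua (k1 * k2) b *
        ((((Real.sqrt (N k1))⁻¹ * (Real.sqrt (N k2))⁻¹ : ℝ) : ℂ) *
          Ierr w2 σ2 (k1 * k2) (k1 * k2) b (M⁻¹ * (N k1 * N k2) / N b)) -
      ∑ b ∈ SQ K B, qua (k1 * k2) b * Ierr w1 σ1 (k1 * k2) 1 b (M / N b) +
      ((M / Real.sqrt (N (k1 * k2)) : ℝ) : ℂ) * RS (k1 * k2) (k1 * k2) B M⁻¹ := by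
  have h0 := hs.ne_zero
  have a1 := left_ne_zero_of_mul h0
  have a2 := right_ne_zero_of_mul h0
  have hN := N_pos h0
  have hsq := Real.sqrt_pos.2 hN
  have hu' : ¬ IsUnit (k1 * k2) := fun h => hu (hp.eq_one_of_isUnit h)
  rw [RS_poisson hs hu' hc B hM, mul_add, add_sub_right_comm, KS_eq h0 h0 B (by positivity),
    KS_eq h0 one_ne_zero B hM, ← mul_inv, ← Real.sqrt_mul (N_nonneg _), ← N_mul, mul_comm M⁻¹]
  congr 1
  have hcl : ∀ g, c (g / cl (k1 * k2)) = c (g / cl 1) := fun g => by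
    rw [cl_mul a1 a2, ← hc, cl_one, div_one, ← hcs (g / (cl k1 * cl k1)) (cl k1), sq, div_mul_cancel]
  generalize k1 * k2 = q at *
  have hmain : ∀ b ∈ SQ K B, ((M / Real.sqrt (N q) : ℝ) : ℂ) * (Real.sqrt (N q * M⁻¹ / N b) : ℝ) =
      (Real.sqrt (M / N b) : ℝ) := by
    intro b hb
    have hb0 := N_pos (mem_SQ.1 hb).2.1.ne_zero
    rw [← Complex.ofReal_mul]
    congr 1
    symm
    rw [Real.sqrt_eq_iff_mul_self_eq (by positivity) (by positivity)]
    have a1 := Real.mul_self_sqrt hN.le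
    have a2 := Real.mul_self_sqrt (show 0 ≤ N q * M⁻¹ / N b by positivity)
    symm
    calc _ = M * M / (Real.sqrt (N q) * Real.sqrt (N q)) *
          (Real.sqrt (N q * M⁻¹ / N b) * Real.sqrt (N q * M⁻¹ / N b)) := by
          generalize Real.sqrt (N q * M⁻¹ / N b) = u
          generalize Real.sqrt (N q) = v
          ring
      _ = _ := by rw [a1, a2]; field_simp
  have hterm : ∀ {σ : ℝ} {w : Tw K → ℝ → ℂ}, SepP c σ w → ∀ b ∈ SQ K B,
      ((M / Real.sqrt (N q) : ℝ) : ℂ) * (qua q b * Tq b q q M⁻¹) - qua q b * Tq b 1 q M =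
      M * (qua q b * (((Real.sqrt (N q))⁻¹ : ℝ) * Ierr w σ q q b (N q * M⁻¹ / N b))) -
        qua q b * Ierr w1 σ1 q 1 b (M / N b) := by
    intro σ w h b hb
    have hb0 := (mem_SQ.1 hb).2.1.ne_zero
    rw [h.2 b q q hb0 h0 hp _ (by positivity), h1.2 b 1 q hb0 one_ne_zero hp M hM, N_one, one_mul,
      ← hmain b hb, hcl]
    push_cast
    ring
  rw [Finset.mul_sum, ← Finset.sum_sub_distrib, Finset.mul_sum, Finset.mul_sum,
    ← Finset.sum_sdiff (SQ_mono hB), ← Finset.sum_sdiff (SQ_mono hB)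
      (f := fun b => qua q b * Ierr w1 σ1 q 1 b (M / N b)),
    Finset.sum_congr rfl (fun b hb => hterm h2 b (Finset.mem_sdiff.1 hb).1),
    Finset.sum_congr rfl (fun b hb => hterm h1 b (SQ_mono hB hb)),
    Finset.sum_sub_distrib, Finset.sum_sub_distrib]
  ring

end Crest.Agent.R312.QL
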