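import Crest.Agent.R312.B4QErr
import Crest.Agent.R312.B4QId

/-!
# R312 / B4QCore : the estimate for one gcd (port of `R17/QLS_Core`; copy the `Par.*` lemmas)  (read the header of `B4QDefs` first).  Statements frozen; add lemmas freely.
-/

set_option autoImplicit false

noncomputable section

open scoped Classical ComplexConjugate NumberField
open MeasureTheory

namespace Crest.Agent.R312.QL

variable {K : Type} [Field K] [NumberField K] [Fld K] [Loc K] [Setup K]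

variable {σ T M B0 X Y D τ : ℝ} {U : Finset (R K)}

theorem Par.one_le_E (h : Par σ T M B0 X Y D τ U) : 1 ≤ T ^ σ :=
  Real.one_le_rpow (h.hM.trans h.hMT) h.hσ.le

theorem Par.B'_le (h : Par σ T M B0 X Y D τ U) : X ^ 2 / M ≤ B0 := by
  have := h.one_le_E
  have := h.hM
  have := h.h1
  rw [div_le_iff₀ (by linarith)]
  nlinarith [sq_nonneg X]

theorem Par.B0_pos (h : Par σ T M B0 X Y D τ U) : 0 < B0 := by
  have := h.hX
  have := h.hM
  exact lt_of_lt_of_le (by positivity) h.B'_le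

theorem Par.XM (h : Par σ T M B0 X Y D τ U) : X ≤ M := by
  have := h.hX; have := h.hY; have := h.h3; nlinarith

theorem Par.YB0 (h : Par σ T M B0 X Y D τ U) : Y * B0 ≤ M := by
  have := h.B0_pos; have := h.hY; have := h.h2
  nlinarith [mul_nonneg (mul_nonneg (show 0 ≤ Y by linarith) (show 0 ≤ Y - 1 by linarith))
    h.B0_pos.le]

theorem Par.B0M (h : Par σ T M B0 X Y D τ U) : B0 ≤ M := by
  have := h.B0_pos; have := h.hY; have := h.YB0; nlinarith

theorem Par.prim (h : Par σ T M B0 X Y D τ U) : ∀ n ∈ U, Prim n :=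
  fun _ hn => (mem_SQ.1 (h.hU hn)).2.1

theorem Par.bd (h : Par σ T M B0 X Y D τ U) {t : ℝ} (h0 : 0 ≤ t) (ht : t ≤ B0) :
    Bd (SQ K t) U qk (D * (X + Y * t)) := Bd.mono_cols (h.IH t h0 ht) h.hU

/-- `err_bound` with `e = id` -/
theorem err1 (h : Par σ T M B0 X Y D τ U) {w : Tw K → ℝ → ℂ} (hw : GW w) (α : R K → ℂ) :
    M * ‖CF U α (fun k1 k2 => ∑ b ∈ SQ K (X ^ 2 / M), qua (k1 * k2) b *
      ((((Real.sqrt (N k1))⁻¹ * (Real.sqrt (N k2))⁻¹ : ℝ) : ℂ) *
        Ierr w σ (k1 * k2) (k1 * k2) b (M⁻¹ * (N k1 * N k2) / N b)))‖ ≤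
      nW w * (4 * τ ^ 3 * (T ^ σ) ^ 2 * D * M * ∑ n ∈ U, ‖α n‖ ^ 2) := by
  have hM := h.hM; have hX := h.hX; have hY := h.hY; have hD := h.hD; have hτ := h.hτ
  have hE := h.one_le_E
  have hb := (h.bd (t := X ^ 2 / M) (by positivity) h.B'_le).wb (W := 1)
    (ω := fun b => (M⁻¹ / N b) ^ σ) zero_le_one (fun b hb => by
      have := one_le_N (mem_SQ.1 hb).2.1.ne_zero
      refine Real.rpow_le_one (by positivity) ?_ h.hσ.le
      rw [div_le_one (by positivity)]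
      exact (inv_le_one_of_one_le₀ hM).trans this)
  have := err_bound hw h.hσ.le (lm := M⁻¹) (by positivity) h.prim
    (fun b hb => (mem_SQ.1 hb).2.1.ne_zero) h.hdiv (by positivity) (by positivity)
    (fun n => (Real.sqrt (N n))⁻¹) N (fun n => n) (fun n _ => by positivity)
    (fun n hn => N_pos (h.prim n hn).ne_zero) (V := (Real.sqrt (X / 2))⁻¹ * T ^ σ)
    (fun n hn => mul_le_mul (inv_anti₀ (by positivity) (Real.sqrt_le_sqrt (h.hlow n hn).le))
      (Real.rpow_le_rpow (N_nonneg n) ((mem_SQ.1 (h.hU hn)).1.trans (h.XM.trans h.hMT)) h.hσ.le)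
      (by have := N_nonneg n; positivity) (by positivity)) hb α
  refine (mul_le_mul_of_nonneg_left this (by positivity)).trans ?_
  have hI : 0 ≤ nW w := nW_nonneg w
  have hS := sumsq_nonneg U α
  rw [mul_left_comm]
  refine mul_le_mul_of_nonneg_left ?_ hI
  rw [← mul_assoc]
  refine mul_le_mul_of_nonneg_right ?_ hS
  have e : M * (1 * (D * (X + Y * (X ^ 2 / M))) * τ ^ 3 * ((Real.sqrt (X / 2))⁻¹ * T ^ σ) ^ 2) =
      2 * τ ^ 3 * (T ^ σ) ^ 2 * D * (M + Y * X) := by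
    rw [mul_pow, inv_pow, Real.sq_sqrt (by positivity)]
    field_simp
  rw [e]
  have := h.h3
  have : 0 ≤ 2 * τ ^ 3 * (T ^ σ) ^ 2 * D := by positivity
  nlinarith

theorem err2 (h : Par σ T M B0 X Y D τ U) {w : Tw K → ℝ → ℂ} (hw : GW w) (α : R K → ℂ) :
    M * ‖CF U α (fun k1 k2 => ∑ b ∈ SQ K B0 \ SQ K (X ^ 2 / M), qua (k1 * k2) b *
      ((((Real.sqrt (N k1))⁻¹ * (Real.sqrt (N k2))⁻¹ : ℝ) : ℂ) *
        Ierr w (1 / 2 - σ) (k1 * k2) (k1 * k2) b (M⁻¹ * (N k1 * N k2) / N b)))‖ ≤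
      nW w * (7 * τ ^ 3 * (T ^ σ) ^ 2 * D * M * ∑ n ∈ U, ‖α n‖ ^ 2) := by
  have hM := h.hM; have hX := h.hX; have hY := h.hY; have hD := h.hD; have hτ := h.hτ
  have hE := h.one_le_E; have hB0 := h.B0_pos; have hσ2 := h.hσ2
  have hsM := Real.sqrt_pos.2 (show 0 < M by linarith)
  have hb0 := wb_sqrt (U := U) (α := D * X) (β := D * Y) (B' := X ^ 2 / M) (B0 := B0)
    (by positivity) (by positivity) (by positivity) h.B'_le
    (fun t h0 ht => (h.bd h0 ht).mono_D (le_of_eq (by ring)))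
  have hb := hb0.mono_w (W := (T ^ σ) ^ 2 * (Real.sqrt M)⁻¹)
    (ω' := fun b => (M⁻¹ / N b) ^ (1 / 2 - σ)) (by positivity) (fun b hb => by
      have hb' := mem_SQ.1 (Finset.mem_sdiff.1 hb).1
      have hN := N_pos hb'.2.1.ne_zero
      have e1 : (M⁻¹ / N b) ^ (1 / 2 - σ) =
          M ^ σ * N b ^ σ * ((Real.sqrt M)⁻¹ * (Real.sqrt (N b))⁻¹) := by
        rw [Real.rpow_sub (by positivity), ← Real.sqrt_eq_rpow, Real.sqrt_div (by positivity),
          Real.sqrt_inv, Real.div_rpow (by positivity) hN.le, Real.inv_rpow (by positivity)]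
        field_simp
      have a1 : M ^ σ ≤ T ^ σ := Real.rpow_le_rpow (by positivity) h.hMT h.hσ.le
      have a2 : N b ^ σ ≤ T ^ σ :=
        Real.rpow_le_rpow hN.le (hb'.1.trans (h.B0M.trans h.hMT)) h.hσ.le
      rw [e1, mul_assoc ((T ^ σ) ^ 2), pow_two]
      exact mul_le_mul_of_nonneg_right (mul_le_mul a1 a2 (by positivity) (by positivity))
        (by positivity))
  have := err_bound hw (σ := 1 / 2 - σ) (by linarith) (lm := M⁻¹) (by positivity) h.prim
    (fun b hb => (mem_SQ.1 (Finset.mem_sdiff.1 hb).1).2.1.ne_zero) h.hdiv (by positivity)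
    (by positivity) (fun n => (Real.sqrt (N n))⁻¹) N (fun n => n) (fun n _ => by positivity)
    (fun n hn => N_pos (h.prim n hn).ne_zero) (V := 1)
    (fun n hn => by
      have h1 := one_le_N (h.prim n hn).ne_zero
      have h2 : N n ^ (1 / 2 - σ) ≤ Real.sqrt (N n) := by
        rw [Real.sqrt_eq_rpow]
        exact Real.rpow_le_rpow_of_exponent_le h1 (by linarith [h.hσ])
      rw [inv_mul_le_iff₀ (by positivity)]
      linarith) hb α
  refine (mul_le_mul_of_nonneg_left this (by positivity)).trans ?_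
  have hI : 0 ≤ nW w := nW_nonneg w
  have hS := sumsq_nonneg U α
  rw [mul_left_comm]
  refine mul_le_mul_of_nonneg_left ?_ hI
  rw [← mul_assoc]
  refine mul_le_mul_of_nonneg_right ?_ hS
  have a1 : Real.sqrt (X ^ 2 / M) = X / Real.sqrt M := by
    rw [Real.sqrt_div (by positivity), Real.sqrt_sq hX.le]
  have a2 : Y * Real.sqrt B0 ≤ Real.sqrt M := by
    rw [← Real.sqrt_sq (show 0 ≤ Y by linarith), ← Real.sqrt_mul (by positivity)]
    exact Real.sqrt_le_sqrt h.h2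
  have a3 := Real.mul_self_sqrt (show 0 ≤ M by linarith)
  rw [a1]
  generalize Real.sqrt M = s at *
  generalize Real.sqrt B0 = r at *
  have e : M * ((T ^ σ) ^ 2 * s⁻¹ * (3 * (D * X) / (X / s) + 4 * (D * Y) * r) * τ ^ 3 * 1 ^ 2) =
      τ ^ 3 * (T ^ σ) ^ 2 * D * (3 * M + 4 * s * (Y * r)) := by
    rw [← a3]; field_simp
  rw [e]
  have : 0 ≤ τ ^ 3 * (T ^ σ) ^ 2 * D := by positivity
  have : s * (Y * r) ≤ M := by nlinarith
  nlinarith

/-- `err_bound` with `p = u = 1`, `e = fun _ => 1` -/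
theorem err3 (h : Par σ T M B0 X Y D τ U) {w : Tw K → ℝ → ℂ} (hw : GW w) (α : R K → ℂ) :
    ‖CF U α (fun k1 k2 => ∑ b ∈ SQ K B0, qua (k1 * k2) b * Ierr w σ (k1 * k2) 1 b (M / N b))‖ ≤
      nW w * (2 * τ ^ 3 * (T ^ σ) ^ 2 * D * M * ∑ n ∈ U, ‖α n‖ ^ 2) := by
  have hM := h.hM; have hX := h.hX; have hY := h.hY; have hD := h.hD; have hτ := h.hτ
  have hE := h.one_le_E; have hB0 := h.B0_pos
  have hb := (h.bd hB0.le le_rfl).wb (W := T ^ σ)
    (ω := fun b => (M / N b) ^ σ) (by positivity) (fun b hb => by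
      have := one_le_N (mem_SQ.1 hb).2.1.ne_zero
      exact Real.rpow_le_rpow (by positivity) ((div_le_self (by positivity) this).trans h.hMT)
        h.hσ.le)
  have := err_bound hw h.hσ.le (lm := M) (by positivity) h.prim
    (fun b hb => (mem_SQ.1 hb).2.1.ne_zero) h.hdiv (by positivity) (by positivity)
    (fun _ => 1) (fun _ => 1) (fun _ => 1) (fun n _ => by positivity)
    (fun n hn => one_pos) (V := 1) (fun n hn => by simp) hb α
  simp only [mul_one, Complex.ofReal_one, one_mul, one_pow] at this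
  refine this.trans ?_
  have hI : 0 ≤ nW w := nW_nonneg w
  refine mul_le_mul_of_nonneg_left (mul_le_mul_of_nonneg_right ?_ (sumsq_nonneg U α)) hI
  have := h.XM
  have := h.YB0
  calc T ^ σ * (D * (X + Y * B0)) * τ ^ 3 ≤ (T ^ σ) ^ 2 * (D * (2 * M)) * τ ^ 3 := by
        refine mul_le_mul_of_nonneg_right (mul_le_mul (by nlinarith)
          (mul_le_mul_of_nonneg_left (by linarith) (by positivity)) (by positivity)
          (by positivity)) (by positivity)
    _ = _ := by ring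

/-- `norm_CF_le`, `norm_RS_tail j` with `σ j ≥ 4`: `N q M⁻¹ ≤ X²/M ≤ X ≤ T`, `N q M⁻¹ / B0 ≤ T^{-σ}` (`Par.h1`), `M / √N q ≤ M ≤ T`,
`card U ≤ C X ≤ C T` (`card_SQ_le`); total `T · T² · T^{-4} · T`. -/
theorem err4 {σ : ℝ} (hσ : 0 < σ) : ∃ C : ℝ, 0 ≤ C ∧ ∀ (T M B0 X Y D τ : ℝ) (U : Finset (R K)),
    Par σ T M B0 X Y D τ U → ∀ α : R K → ℂ,
    ‖CF U α (fun k1 k2 => ((M / Real.sqrt (N (k1 * k2)) : ℝ) : ℂ) * RS (k1 * k2) (k1 * k2) B0 M⁻¹)‖ ≤
      C * ∑ n ∈ U, ‖α n‖ ^ 2 := by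
  obtain ⟨j, hj⟩ := exists_nat_ge (4 / σ)
  have hj' : 4 ≤ σ * j := by rw [div_le_iff₀ hσ] at hj; linarith
  obtain ⟨C, hC0, hC⟩ := norm_RS_tail (K := K) j
  obtain ⟨C1, hC1, hc⟩ := card_SQ_le (K := K)
  refine ⟨C * C1, by positivity, fun T M B0 X Y D τ U h α => ?_⟩
  have hM := h.hM; have hX := h.hX; have hE := h.one_le_E; have hB0 := h.B0_pos
  have hT : 1 ≤ T := h.hM.trans h.hMT
  have hXT : X ≤ T := h.XM.trans h.hMT
  have hTj : T ^ 4 ≤ (T ^ σ) ^ j := by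
    rw [← Real.rpow_natCast, ← Real.rpow_natCast, ← Real.rpow_mul (by positivity)]
    exact Real.rpow_le_rpow_of_exponent_le hT (by simpa using hj')
  refine (norm_CF_le α (c := C / T) (by positivity)
    (fun k1 h1 k2 h2 _ => ?_)).trans (mul_le_mul_of_nonneg_right ?_ (sumsq_nonneg U α))
  · have p1 := mem_SQ.1 (h.hU h1)
    have p2 := mem_SQ.1 (h.hU h2)
    have h0 := mul_ne_zero p1.2.1.ne_zero p2.2.1.ne_zero
    have hN : 1 ≤ N (k1 * k2) := one_le_N h0
    have hN2 : N (k1 * k2) ≤ X ^ 2 := by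
      rw [N_mul, pow_two]; exact mul_le_mul p1.1 p2.1 (N_nonneg _) hX.le
    have a1 := hC (k1 * k2) (k1 * k2) h0 h0 B0 M⁻¹ hB0 (by positivity)
    have a2 : N (k1 * k2) * M⁻¹ ≤ T := by
      rw [← div_eq_mul_inv, div_le_iff₀ (by positivity)]
      have := h.XM
      nlinarith
    have a3 : N (k1 * k2) * M⁻¹ / B0 ≤ (T ^ σ)⁻¹ := by
      rw [← div_eq_mul_inv, div_div, ← one_div, div_le_div_iff₀ (by positivity) (by positivity)]
      have := h.h1
      nlinarith [mul_le_mul_of_nonneg_left hN2 (show 0 ≤ T ^ σ by positivity)]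
    have a4 : (N (k1 * k2) * M⁻¹ / B0) ^ j ≤ (T ^ 4)⁻¹ :=
      (pow_le_pow_left₀ (by positivity) a3 j).trans (by
        rw [inv_pow]; exact inv_anti₀ (by positivity) hTj)
    have a5 : M / Real.sqrt (N (k1 * k2)) ≤ T :=
      (div_le_self (by positivity) (Real.one_le_sqrt.2 hN)).trans h.hMT
    rw [norm_mul, Complex.norm_real, Real.norm_of_nonneg (by positivity)]
    calc _ ≤ T * (C * T ^ 2 * (T ^ 4)⁻¹) :=
          mul_le_mul a5 (a1.trans (by gcongr)) (norm_nonneg _) (by positivity)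
      _ = C / T := by field_simp
  · have a1 : (U.card : ℝ) ≤ C1 * T :=
      (le_trans (by exact_mod_cast Finset.card_le_card h.hU) (hc X hX.le)).trans (by gcongr)
    calc _ ≤ C / T * (C1 * T) := by gcongr
      _ = C * C1 := by field_simp

/-- the estimate for one gcd (`sep`, `RS_identity`, `CF_comb`; the case `X < 2` by `norm_RS_le`, `card_SQ_le`) -/
theorem core {σ : ℝ} (hσ : 0 < σ) (hσ2 : σ < 1 / 2) : ∃ C : ℝ, 0 ≤ C ∧
    ∀ (T M B0 X Y D τ : ℝ) (U : Finset (R K)), Par σ T M B0 X Y D τ U →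
      (∀ k1 ∈ U, ∀ k2 ∈ U, cl k1 = cl k2) → ∀ α : R K → ℂ,
      ‖CF U α (fun k1 k2 => RS (k1 * k2) 1 B0 M)‖ ≤
        C * τ ^ 3 * (T ^ σ) ^ 2 * D * M * ∑ n ∈ U, ‖α n‖ ^ 2 := by
  obtain ⟨c, hcs, hc⟩ := sep (K := K)
  obtain ⟨w1, hw1⟩ := hc σ hσ hσ2
  obtain ⟨w2, hw2⟩ := hc (1 / 2 - σ) (by linarith) (by linarith)
  obtain ⟨C, hC0, hC⟩ := norm_RS_le (K := K)
  obtain ⟨C1, hC1, hcard⟩ := card_SQ_le (K := K)
  obtain ⟨C4, hC4, h4⟩ := err4 (K := K) hσ
  have hI1 := nW_nonneg w1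
  have hI2 := nW_nonneg w2
  refine ⟨2 * C * C1 + 6 * nW w1 + 7 * nW w2 + C4,
    by positivity, fun T M B0 X Y D τ U h hg α => ?_⟩
  have hM := h.hM; have hX := h.hX; have hD := h.hD; have hτ := h.hτ
  have hE := h.one_le_E
  have hS := sumsq_nonneg U α
  have hP : 1 ≤ τ ^ 3 * (T ^ σ) ^ 2 * D :=
    one_le_mul_of_one_le_of_one_le (one_le_mul_of_one_le_of_one_le (one_le_pow₀ hτ)
      (one_le_pow₀ hE)) hD
  set S := ∑ n ∈ U, ‖α n‖ ^ 2 with hSdef
  set Q := τ ^ 3 * (T ^ σ) ^ 2 * D * M * S with hQ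
  have hQ1 : M * S ≤ Q := by
    have : 0 ≤ M * S := by positivity
    calc M * S = 1 * (M * S) := by ring
      _ ≤ (τ ^ 3 * (T ^ σ) ^ 2 * D) * (M * S) := mul_le_mul_of_nonneg_right hP this
      _ = Q := by ring
  have hQ2 : S ≤ Q := le_trans (by nlinarith) hQ1
  have hQ0 : 0 ≤ Q := hS.trans hQ2
  have goal : ∀ x : ℝ, x ≤ (2 * C * C1 + 6 * nW w1 + 7 * nW w2 + C4) * Q →
      x ≤ (2 * C * C1 + 6 * nW w1 + 7 * nW w2 + C4) * τ ^ 3 * (T ^ σ) ^ 2 * D * M * S :=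
    fun x hx => hx.trans (le_of_eq (by rw [hQ]; ring))
  apply goal
  by_cases hX2 : X < 2
  · have a1 : (U.card : ℝ) ≤ C1 * 2 :=
      (le_trans (by exact_mod_cast Finset.card_le_card h.hU) (hcard X hX.le)).trans (by gcongr)
    refine (norm_CF_le α (c := C * M) (by positivity) (fun k1 h1 k2 h2 _ => by
      have := hC _ 1 (mul_ne_zero (h.prim k1 h1).ne_zero (h.prim k2 h2).ne_zero) one_ne_zero B0 M
        (by linarith)
      rwa [N_one, one_mul] at this)).trans ?_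
    calc C * M * U.card * S ≤ C * M * (C1 * 2) * S := by gcongr
      _ = 2 * C * C1 * (M * S) := by ring
      _ ≤ 2 * C * C1 * Q := by gcongr
      _ ≤ _ := by
          refine mul_le_mul_of_nonneg_right ?_ hQ0
          linarith
  · have hid := CF_congr α (U := U) (G := fun k1 k2 => RS (k1 * k2) 1 B0 M)
      (fun k1 h1 k2 h2 hc => by
        have p1 := mem_SQ.1 (h.hU h1)
        have p2 := mem_SQ.1 (h.hU h2)
        refine RS_identity (c := c) hcs hw1 hw2 (p1.2.1.mul p2.2.1)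
          (squarefree_mul_iff.2 ⟨hc.isRelPrime, p1.2.2, p2.2.2⟩) ?_ (hg k1 h1 k2 h2) h.B'_le
          (by linarith)
        intro h1'
        have := N_unit (IsUnit.of_mul_eq_one _ h1')
        have := h.hlow k1 h1
        linarith)
    rw [CF_comb] at hid
    have b1 := err1 h hw1.1 α
    have b2 := err2 h hw2.1 α
    have b3 := err3 h hw1.1 α
    have b4 := h4 T M B0 X Y D τ U h α
    have b5 := congrArg norm hid
    have b6 : ∀ x y z v : ℂ, ‖(M : ℂ) * x + M * y - z + v‖ ≤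
        M * ‖x‖ + M * ‖y‖ + ‖z‖ + ‖v‖ := by
      intro x y z v
      refine (norm_add_le _ _).trans (add_le_add ((norm_sub_le _ _).trans
        (add_le_add ((norm_add_le _ _).trans (le_of_eq ?_)) le_rfl)) le_rfl)
      rw [norm_mul, norm_mul, Complex.norm_real, Real.norm_of_nonneg (by linarith)]
    have b7 := b5.le.trans (b6 _ _ _ _)
    have e1 : ∀ k : ℝ, k * τ ^ 3 * (T ^ σ) ^ 2 * D * M * S = k * Q := fun k => by rw [hQ]; ring
    rw [← hSdef, e1] at b1 b2 b3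
    rw [← hSdef] at b4
    have b8 := mul_le_mul_of_nonneg_left hQ2 hC4
    nlinarith [mul_nonneg hI1 hQ0, mul_nonneg hI2 hQ0, mul_nonneg (mul_nonneg hC0 hC1) hQ0]

end Crest.Agent.R312.QL
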