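import Crest.Agent.R312.B3W

/-!
# R312 / B4QDefs : definitions for the quadratic large sieve (sub-lead helper51).  DO NOT EDIT.

Port of `R17/QLS_*` (read the header of `R17/QLS.lean`).  Dictionary: `O ↦ R K`, `a / h ↦ dv a h`; rows AND columns are
`SQ X` (primary squarefree; `PS` and the conditions `IsCoprime · 2` disappear, `n ≠ 0` is enough); classes mod `4` become
`cl n : G K`; `HH ↦ LS`; `Om (N m / X) ↦ wt m q0 T` (`q0 = 1, T = M` on the original side, `q0 = q, T = M⁻¹` on the dual side, so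
`X = N q0 * T`); the factor `6` disappears (`Ker` uses primary `x`); `∫ τ, w τ * …` becomes `SI w … = ∑' ν, ∫ τ, w ν τ * …`.
Chain: Defs → Sym → Ker → Id → Pos → Bil → Err → Core → Step → B4Q.
-/

set_option autoImplicit false

noncomputable section

open scoped Classical ComplexConjugate NumberField
open MeasureTheory

namespace Crest.Agent.R312.QL

section generic
variable {α : Type}

/-- weighted operator bound -/
def WB (R : Finset α) (ω : α → ℝ) (S : Finset α) (k : α → α → ℂ) (D : ℝ) : Prop :=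
  ∀ a : α → ℂ, ∑ b ∈ R, ω b * ‖∑ n ∈ S, a n * k b n‖ ^ 2 ≤ D * ∑ n ∈ S, ‖a n‖ ^ 2

/-- operator bound -/
def Bd (R S : Finset α) (k : α → α → ℂ) (D : ℝ) : Prop :=
  ∀ a : α → ℂ, ∑ b ∈ R, ‖∑ n ∈ S, a n * k b n‖ ^ 2 ≤ D * ∑ n ∈ S, ‖a n‖ ^ 2

theorem sumsq_nonneg (S : Finset α) (a : α → ℂ) : 0 ≤ ∑ n ∈ S, ‖a n‖ ^ 2 :=
  Finset.sum_nonneg (fun _ _ => by positivity)

theorem Bd.mono_D {R S : Finset α} {k : α → α → ℂ} {D D' : ℝ} (h : Bd R S k D) (hD : D ≤ D') :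
    Bd R S k D' := fun a =>
  (h a).trans (mul_le_mul_of_nonneg_right hD (sumsq_nonneg _ _))

theorem Bd.mono_rows {R R' S : Finset α} {k : α → α → ℂ} {D : ℝ} (h : Bd R S k D) (hR : R' ⊆ R) :
    Bd R' S k D := fun a =>
  le_trans (Finset.sum_le_sum_of_subset_of_nonneg hR (fun _ _ _ => by positivity)) (h a)

theorem WB.mono_cols {R S S' : Finset α} {ω : α → ℝ} {k : α → α → ℂ} {D : ℝ} (h : WB R ω S k D)
    (hS : S' ⊆ S) : WB R ω S' k D := by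
  intro a
  have := h (fun n => if n ∈ S' then a n else 0)
  have e1 : ∀ b, ∑ n ∈ S, (if n ∈ S' then a n else 0) * k b n = ∑ n ∈ S', a n * k b n := by
    intro b
    simp_rw [ite_mul, zero_mul]
    rw [← Finset.sum_filter, Finset.filter_mem_eq_inter, Finset.inter_eq_right.2 hS]
  have e2 : ∑ n ∈ S, ‖if n ∈ S' then a n else 0‖ ^ 2 = ∑ n ∈ S', ‖a n‖ ^ 2 := by
    have : ∀ n, ‖if n ∈ S' then a n else 0‖ ^ 2 = if n ∈ S' then ‖a n‖ ^ 2 else 0 := by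
      intro n; split_ifs <;> simp
    simp_rw [this]
    rw [← Finset.sum_filter, Finset.filter_mem_eq_inter, Finset.inter_eq_right.2 hS]
  simp_rw [e1, e2] at this
  exact this

theorem WB.mono_D {R S : Finset α} {ω : α → ℝ} {k : α → α → ℂ} {D D' : ℝ} (h : WB R ω S k D)
    (hD : D ≤ D') : WB R ω S k D' := fun a =>
  (h a).trans (mul_le_mul_of_nonneg_right hD (sumsq_nonneg _ _))

theorem bd_iff_wb {R S : Finset α} {k : α → α → ℂ} {D : ℝ} :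
    Bd R S k D ↔ WB R (fun _ => 1) S k D := by
  unfold Bd WB; simp only [one_mul]

theorem Bd.mono_cols {R S S' : Finset α} {k : α → α → ℂ} {D : ℝ} (h : Bd R S k D) (hS : S' ⊆ S) :
    Bd R S' k D := bd_iff_wb.2 ((bd_iff_wb.1 h).mono_cols hS)

theorem Bd.wb {R S : Finset α} {k : α → α → ℂ} {D W : ℝ} {ω : α → ℝ} (h : Bd R S k D)
    (hW : 0 ≤ W) (hω : ∀ b ∈ R, ω b ≤ W) : WB R ω S k (W * D) := by
  intro a
  calc ∑ b ∈ R, ω b * ‖∑ n ∈ S, a n * k b n‖ ^ 2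
      ≤ ∑ b ∈ R, W * ‖∑ n ∈ S, a n * k b n‖ ^ 2 :=
        Finset.sum_le_sum (fun b hb => mul_le_mul_of_nonneg_right (hω b hb) (by positivity))
    _ = W * ∑ b ∈ R, ‖∑ n ∈ S, a n * k b n‖ ^ 2 := by rw [Finset.mul_sum]
    _ ≤ W * (D * ∑ n ∈ S, ‖a n‖ ^ 2) := mul_le_mul_of_nonneg_left (h a) hW
    _ = _ := by ring

theorem WB.mono_w {R S : Finset α} {k : α → α → ℂ} {D W : ℝ} {ω ω' : α → ℝ} (h : WB R ω S k D)
    (hW : 0 ≤ W) (hω : ∀ b ∈ R, ω' b ≤ W * ω b) : WB R ω' S k (W * D) := by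
  intro a
  calc ∑ b ∈ R, ω' b * ‖∑ n ∈ S, a n * k b n‖ ^ 2
      ≤ ∑ b ∈ R, W * (ω b * ‖∑ n ∈ S, a n * k b n‖ ^ 2) :=
        Finset.sum_le_sum (fun b hb => by
          rw [← mul_assoc]; exact mul_le_mul_of_nonneg_right (hω b hb) (by positivity))
    _ = W * ∑ b ∈ R, ω b * ‖∑ n ∈ S, a n * k b n‖ ^ 2 := by rw [Finset.mul_sum]
    _ ≤ W * (D * ∑ n ∈ S, ‖a n‖ ^ 2) := mul_le_mul_of_nonneg_left (h a) hW
    _ = _ := by ring

/-- duality -/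
theorem Bd.transpose {R S : Finset α} {k : α → α → ℂ} {D : ℝ} (h : Bd R S k D) (hD : 0 ≤ D) :
    Bd S R (fun n b => k b n) D := by
  intro c
  set v : α → ℂ := fun n => ∑ b ∈ R, c b * k b n with hv
  set V : ℝ := ∑ n ∈ S, ‖v n‖ ^ 2 with hV
  have hV0 : 0 ≤ V := sumsq_nonneg _ _
  have h1 := h (fun n => conj (v n))
  simp only [Complex.norm_conj] at h1
  have h2 : (V : ℂ) = ∑ b ∈ R, c b * ∑ n ∈ S, conj (v n) * k b n := by
    simp_rw [Finset.mul_sum]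
    rw [Finset.sum_comm, hV]
    push_cast
    refine Finset.sum_congr rfl (fun n _ => ?_)
    rw [← Complex.conj_mul', hv]
    simp only
    rw [Finset.mul_sum]
    exact Finset.sum_congr rfl (fun b _ => by ring)
  have h3 : V ≤ ∑ b ∈ R, ‖c b‖ * ‖∑ n ∈ S, conj (v n) * k b n‖ := by
    calc V = ‖(V : ℂ)‖ := by rw [Complex.norm_real, Real.norm_of_nonneg hV0]
      _ ≤ _ := by
        rw [h2]
        exact (norm_sum_le _ _).trans (le_of_eq (Finset.sum_congr rfl (fun b _ => norm_mul _ _)))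
  have h4 := Finset.sum_mul_sq_le_sq_mul_sq R (fun b => ‖c b‖)
    (fun b => ‖∑ n ∈ S, conj (v n) * k b n‖)
  have hC := sumsq_nonneg R c
  have h5 : V ^ 2 ≤ (∑ b ∈ R, ‖c b‖ ^ 2) * (D * V) := by
    calc V ^ 2 ≤ (∑ b ∈ R, ‖c b‖ * ‖∑ n ∈ S, conj (v n) * k b n‖) ^ 2 :=
          pow_le_pow_left₀ hV0 h3 2
      _ ≤ _ := h4
      _ ≤ _ := mul_le_mul_of_nonneg_left h1 hC
  change V ≤ D * ∑ b ∈ R, ‖c b‖ ^ 2
  rcases hV0.eq_or_lt with h0 | h0
  · rw [← h0]; positivity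
  · nlinarith

/-- splitting the columns into fibres -/
theorem bd_of_fibres {R S : Finset α} {k : α → α → ℂ} {D : ℝ} {ι : Type*} [DecidableEq ι]
    (T : Finset ι) (φ : α → ι) (hφ : ∀ n ∈ S, φ n ∈ T)
    (h : ∀ t ∈ T, Bd R (S.filter (fun n => φ n = t)) k D) : Bd R S k (T.card * D) := by
  intro a
  have e1 : ∀ b, ∑ n ∈ S, a n * k b n =
      ∑ t ∈ T, ∑ n ∈ S.filter (fun n => φ n = t), a n * k b n := fun b =>
    (Finset.sum_fiberwise_of_maps_to hφ _).symm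
  have e2 : ∑ n ∈ S, ‖a n‖ ^ 2 = ∑ t ∈ T, ∑ n ∈ S.filter (fun n => φ n = t), ‖a n‖ ^ 2 :=
    (Finset.sum_fiberwise_of_maps_to hφ _).symm
  have e3 : ∀ b, ‖∑ n ∈ S, a n * k b n‖ ^ 2 ≤
      T.card * ∑ t ∈ T, ‖∑ n ∈ S.filter (fun n => φ n = t), a n * k b n‖ ^ 2 := by
    intro b
    rw [e1 b]
    calc _ ≤ (∑ t ∈ T, ‖∑ n ∈ S.filter (fun n => φ n = t), a n * k b n‖) ^ 2 :=
          pow_le_pow_left₀ (norm_nonneg _) (norm_sum_le _ _) 2
      _ ≤ _ := sq_sum_le_card_mul_sum_sq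
  calc ∑ b ∈ R, ‖∑ n ∈ S, a n * k b n‖ ^ 2
      ≤ ∑ b ∈ R, (T.card * ∑ t ∈ T, ‖∑ n ∈ S.filter (fun n => φ n = t), a n * k b n‖ ^ 2) :=
        Finset.sum_le_sum (fun b _ => e3 b)
    _ = T.card * ∑ t ∈ T, ∑ b ∈ R, ‖∑ n ∈ S.filter (fun n => φ n = t), a n * k b n‖ ^ 2 := by
        rw [← Finset.mul_sum, Finset.sum_comm]
    _ ≤ T.card * ∑ t ∈ T, D * ∑ n ∈ S.filter (fun n => φ n = t), ‖a n‖ ^ 2 :=
        mul_le_mul_of_nonneg_left (Finset.sum_le_sum (fun t ht => h t ht a)) (by positivity)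
    _ = _ := by rw [← Finset.mul_sum, e2]; ring

theorem sum_biUnion_le' {ι : Type*} (T : Finset ι) (t : ι → Finset α) (f : α → ℝ)
    (hf : ∀ b, 0 ≤ f b) : ∑ b ∈ T.biUnion t, f b ≤ ∑ i ∈ T, ∑ b ∈ t i, f b := by
  induction T using Finset.induction_on with
  | empty => simp
  | insert i T hi ih =>
    rw [Finset.biUnion_insert, Finset.sum_insert hi]
    have := Finset.sum_union_inter (s₁ := t i) (s₂ := T.biUnion t) (f := f)
    have h2 : 0 ≤ ∑ b ∈ t i ∩ T.biUnion t, f b := Finset.sum_nonneg (fun b _ => hf b)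
    linarith

end generic

variable {K : Type} [Field K] [NumberField K] [Fld K] [Loc K] [Setup K]

variable (K) in
/-- primary squarefree elements of norm `≤ X` -/
def SQ (X : ℝ) : Finset (R K) := (ball K X).filter Squarefree

/-- the kernel -/
def qk (b n : R K) : ℂ := qua n b

variable (K) in
/-- the large sieve bound with rows `SQ M`, columns `SQ X` -/
def LS (M X D : ℝ) : Prop := Bd (SQ K M) (SQ K X) qk D

/-- `m = b x²` with `b` primary squarefree of norm `≤ B`, `x` primary -/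
def Ker (B : ℝ) (m : R K) : Prop := ∃ b ∈ SQ K B, ∃ x : R K, Prim x ∧ m = b * x ^ 2

/-- `{k : h k ∈ U}` -/
def Ud (U : Finset (R K)) (h : R K) : Finset (R K) :=
  (U.filter (fun n => h ∣ n)).image (fun n => dv n h)

/-- the coprime bilinear form -/
def CF (U : Finset (R K)) (α : R K → ℂ) (G : R K → R K → ℂ) : ℂ :=
  ∑ k1 ∈ U, ∑ k2 ∈ U, if IsCoprime k1 k2 then α k1 * conj (α k2) * G k1 k2 else 0

/-- the part of the character sum with small squarefree kernel -/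
def KS (q q0 : R K) (B T : ℝ) : ℂ := ∑' m, if Ker B m then qua q m * (wt m q0 T : ℂ) else 0

/-- the part of the character sum with large squarefree kernel -/
def RS (q q0 : R K) (B T : ℝ) : ℂ :=
  ∑' m, if m ≠ 0 ∧ ¬ Ker B m then qua q m * (wt m q0 T : ℂ) else 0

/-- sum over squares coprime to `q` (left side of `sqsum`) -/
def Tq (b q0 q : R K) (T : ℝ) : ℂ :=
  ∑' a : R K, (if Prim a ∧ IsCoprime a q then
    (Om (((b * a ^ 2 : R K) : K) / (q0 : K)) T : ℂ) else 0)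

/-- `σ + iτ` -/
def sl (σ τ : ℝ) : ℂ := σ + τ * Complex.I

/-- admissible weights on `Tw K × ℝ` -/
def GW (w : Tw K → ℝ → ℂ) : Prop :=
  (∀ ν, Integrable (w ν)) ∧ Summable (fun ν : Tw K => ∫ τ : ℝ, ‖w ν τ‖)

/-- total mass of a weight -/
def nW (w : Tw K → ℝ → ℂ) : ℝ := ∑' ν : Tw K, ∫ τ : ℝ, ‖w ν τ‖

/-- sum-integral against a weight -/
def SI (w F : Tw K → ℝ → ℂ) : ℂ := ∑' ν : Tw K, ∫ τ : ℝ, w ν τ * F ν τ

/-- bounded continuous families -/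
def BC (F : Tw K → ℝ → ℂ) : Prop := (∀ ν, Continuous (F ν)) ∧ ∃ c : ℝ, ∀ ν τ, ‖F ν τ‖ ≤ c

/-- the error term of `sqsum` -/
def Ierr (w : Tw K → ℝ → ℂ) (σ : ℝ) (q q0 b : R K) (Υ : ℝ) : ℂ :=
  SI w fun ν τ => ν.v b * conj (ν.v q0) * (Υ : ℂ) ^ sl σ τ * PP ν q (sl σ τ)

/-- the separation property -/
def SepP (c : G K → ℂ) (σ : ℝ) (w : Tw K → ℝ → ℂ) : Prop :=
  GW w ∧ ∀ b q0 q : R K, b ≠ 0 → q0 ≠ 0 → Prim q → ∀ T : ℝ, 0 < T →
    Tq b q0 q T = c (cl b / cl q0) * (Real.sqrt (N q0 * T / N b) : ℂ) * PP 1 q (1 / 2) +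
      Ierr w σ q q0 b (N q0 * T / N b)

theorem sep : ∃ c : G K → ℂ, (∀ g h, c (g * h ^ 2) = c g) ∧ ∀ σ : ℝ, 0 < σ → σ < 1 / 2 →
    ∃ w : Tw K → ℝ → ℂ, SepP c σ w := by
  obtain ⟨c, h1, h2⟩ := sqsum (K := K)
  refine ⟨c, h1, fun σ a b => ?_⟩
  obtain ⟨w, w1, w2, w3⟩ := h2 σ a b
  refine ⟨w, ⟨w1, w2⟩, fun b q0 q hb h0 hq T hT => (w3 b q0 q hb h0 hq T hT).trans ?_⟩
  simp only [Ierr, SI, sl, mul_assoc]

theorem sl_re (σ τ : ℝ) : (sl σ τ).re = σ := by simp [sl]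

theorem continuous_sl (σ : ℝ) : Continuous (sl σ) := by unfold sl; fun_prop

theorem norm_cpow_sl {x : ℝ} (hx : 0 < x) (σ τ : ℝ) : ‖(x : ℂ) ^ sl σ τ‖ = x ^ σ := by
  rw [Complex.norm_cpow_eq_rpow_re_of_pos hx, sl_re]

theorem continuous_cpow_sl {x : ℝ} (hx : 0 < x) (σ : ℝ) :
    Continuous (fun τ => (x : ℂ) ^ sl σ τ) :=
  (continuous_sl σ).const_cpow (Or.inl (by exact_mod_cast hx.ne'))

theorem nW_nonneg (w : Tw K → ℝ → ℂ) : 0 ≤ nW w :=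
  tsum_nonneg fun _ => integral_nonneg fun _ => norm_nonneg _

theorem norm_int_le {w F : Tw K → ℝ → ℂ} (hw : GW w) {c : ℝ} (hc : ∀ ν τ, ‖F ν τ‖ ≤ c) (ν : Tw K) :
    ‖∫ τ : ℝ, w ν τ * F ν τ‖ ≤ (∫ τ : ℝ, ‖w ν τ‖) * c := by
  rw [← integral_mul_const]
  refine norm_integral_le_of_norm_le ((hw.1 ν).norm.mul_const _) (Filter.Eventually.of_forall fun τ => ?_)
  rw [norm_mul]
  exact mul_le_mul_of_nonneg_left (hc ν τ) (norm_nonneg _)

theorem norm_SI_le {w F : Tw K → ℝ → ℂ} (hw : GW w) {c : ℝ} (hc : ∀ ν τ, ‖F ν τ‖ ≤ c) :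
    ‖SI w F‖ ≤ nW w * c :=
  tsum_of_norm_bounded (hw.2.hasSum.mul_right c) (norm_int_le hw hc)

theorem SI_mul (w F : Tw K → ℝ → ℂ) (x : ℂ) : SI w (fun ν τ => x * F ν τ) = x * SI w F := by
  unfold SI
  rw [← tsum_mul_left]
  refine tsum_congr fun ν => ?_
  rw [← integral_const_mul]
  exact integral_congr_ae (Filter.Eventually.of_forall fun τ => by ring)

theorem BC.mul_left {F : Tw K → ℝ → ℂ} (h : BC F) (x : ℂ) : BC fun ν τ => x * F ν τ := by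
  obtain ⟨h1, c, hc⟩ := h
  exact ⟨fun ν => continuous_const.mul (h1 ν), ‖x‖ * c, fun ν τ => by
    rw [norm_mul]; exact mul_le_mul_of_nonneg_left (hc ν τ) (norm_nonneg _)⟩

theorem BC.sum {ι : Type*} (s : Finset ι) {F : ι → Tw K → ℝ → ℂ} (h : ∀ i ∈ s, BC (F i)) :
    BC fun ν τ => ∑ i ∈ s, F i ν τ := by
  choose! c hc using fun i hi => (h i hi).2
  exact ⟨fun ν => continuous_finsetSum _ fun i hi => (h i hi).1 ν, ∑ i ∈ s, c i, fun ν τ =>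
    (norm_sum_le _ _).trans (Finset.sum_le_sum fun i hi => hc i hi ν τ)⟩

theorem SI_sum {w : Tw K → ℝ → ℂ} (hw : GW w) {ι : Type*} (s : Finset ι) {F : ι → Tw K → ℝ → ℂ}
    (h : ∀ i ∈ s, BC (F i)) : SI w (fun ν τ => ∑ i ∈ s, F i ν τ) = ∑ i ∈ s, SI w (F i) := by
  unfold SI
  rw [← Summable.tsum_finsetSum fun i hi => ?_]
  · refine tsum_congr fun ν => ?_
    rw [← integral_finsetSum _ fun i hi => ?_]
    · exact integral_congr_ae (Filter.Eventually.of_forall fun τ => Finset.mul_sum _ _ _)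
    · obtain ⟨h1, c, hc⟩ := h i hi
      exact (hw.1 ν).mul_bdd (h1 ν).aestronglyMeasurable (Filter.Eventually.of_forall (hc ν))
  · obtain ⟨-, c, hc⟩ := h i hi
    exact Summable.of_norm_bounded (hw.2.mul_right c) (norm_int_le hw hc)

/-- the parameters of the main step -/
structure Par (σ T M B0 X Y D τ : ℝ) (U : Finset (R K)) : Prop where
  hσ : 0 < σ
  hσ2 : σ < 1 / 2
  hM : 1 ≤ M
  hMT : M ≤ T
  hY : 1 ≤ Y
  hD : 1 ≤ D
  hτ : 1 ≤ τ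
  hX : 0 < X
  h1 : T ^ σ * X ^ 2 ≤ M * B0
  h2 : Y ^ 2 * B0 ≤ M
  h3 : Y * X ≤ M
  hU : U ⊆ SQ K X
  hlow : ∀ n ∈ U, X / 2 < N n
  hdiv : ∀ n ∈ U, ((pdiv n).card : ℝ) ≤ τ
  IH : ∀ t, 0 ≤ t → t ≤ B0 → LS K t X (D * (X + Y * t))

end Crest.Agent.R312.QL
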