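import Crest.Agent.R312.B4QBil

/-!
# R312 / B4QErr : the bound for one error term (port of the `PP` lemmas of `R17/QLS_Sep` and of `err_bound`)  (read the header of `B4QDefs` first).  Statements frozen; add lemmas freely.
-/

set_option autoImplicit false

noncomputable section

open scoped Classical ComplexConjugate NumberField
open MeasureTheory

namespace Crest.Agent.R312.QL

variable {K : Type} [Field K] [NumberField K] [Fld K] [Loc K] [Setup K]

theorem norm_PP_le (ν : Tw K) (q : R K) {s : ℂ} (hs : 0 ≤ s.re) : ‖PP ν q s‖ ≤ (pdiv q).card := by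
  unfold PP
  refine (norm_sum_le _ _).trans ?_
  rw [Finset.card_eq_sum_ones]
  push_cast
  refine Finset.sum_le_sum (fun d hd => ?_)
  have hd0 : d ≠ 0 := (mem_ball.1 (Finset.mem_filter.1 hd).1).1.ne_zero
  rw [norm_mul, norm_mul, norm_pow, ν.norm_v hd0, one_pow, mul_one,
    Complex.norm_cpow_eq_rpow_re_of_pos (N_pos hd0)]
  refine mul_le_one₀ (norm_mu_le d) (by have := N_pos hd0; positivity) ?_
  exact Real.rpow_le_one_of_one_le_of_nonpos (one_le_N hd0) (by simp; linarith)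

theorem PP_mul (ν : Tw K) {a b : R K} (ha : a ≠ 0) (hb : b ≠ 0) (hab : IsCoprime a b) (s : ℂ) :
    PP ν (a * b) s = PP ν a s * PP ν b s := by
  unfold PP
  rw [sum_pdiv_mul ha hb hab, Finset.sum_mul_sum]
  refine Finset.sum_congr rfl (fun d hd => Finset.sum_congr rfl (fun e he => ?_))
  have hd' := (mem_pdiv ha).1 hd
  have he' := (mem_pdiv hb).1 he
  rw [mu_mul ((hab.of_isCoprime_of_dvd_left hd'.2).of_isCoprime_of_dvd_right he'.2), N_mul,
    Complex.ofReal_mul, Complex.mul_cpow_ofReal_nonneg (N_nonneg _) (N_nonneg _), ν.v_mul]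
  ring

theorem continuous_PP (ν : Tw K) (q : R K) (σ : ℝ) : Continuous (fun τ => PP ν q (sl σ τ)) := by
  unfold PP
  refine continuous_finsetSum _ (fun d hd => continuous_const.mul ?_)
  have hd0 : d ≠ 0 := (mem_ball.1 (Finset.mem_filter.1 hd).1).1.ne_zero
  exact ((continuous_sl σ).const_mul 2).neg.const_cpow
    (Or.inl (by exact_mod_cast (N_pos hd0).ne'))

theorem BC_Ierr {σ : ℝ} (hσ : 0 ≤ σ) (q q0 b : R K) {Υ : ℝ} (hΥ : 0 < Υ) :
    BC fun (ν : Tw K) τ => ν.v b * conj (ν.v q0) * (Υ : ℂ) ^ sl σ τ * PP ν q (sl σ τ) := by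
  refine ⟨fun ν => (continuous_const.mul (continuous_cpow_sl hΥ σ)).mul (continuous_PP ν q σ),
    1 * 1 * Υ ^ σ * (pdiv q).card, fun ν τ => ?_⟩
  rw [norm_mul, norm_mul, norm_mul, norm_cpow_sl hΥ, Complex.norm_conj]
  gcongr
  exacts [ν.norm_v_le _, ν.norm_v_le _, norm_PP_le ν q (by rw [sl_re]; exact hσ)]

/-- As in R17: by `SI_sum`, `SI_mul` (and `BC_Ierr`, `BC.mul_left`, `BC.sum`) the left side is `‖SI w F‖` with
`F ν t = ∑ b ∈ Rw, z b * ∑ n1, ∑ n2, if IsCoprime n1 n2 then (β n1 * qk b n1) * (γ n2 * qk b n2) else 0`,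
`z b = ν.v b * (lm / N b) ^ sl σ t`, `β n = α n * (p n * conj (ν.v (e n)) * u n ^ sl σ t * PP ν n (sl σ t))`, `γ` the same with
`conj (α n)`; `norm_SI_le` and `bil`. -/
theorem err_bound {Rw U : Finset (R K)} {w : Tw K → ℝ → ℂ} (hw : GW w) {σ D τ V lm : ℝ} (hσ : 0 ≤ σ)
    (hlm : 0 < lm) (hU : ∀ n ∈ U, Prim n) (hR : ∀ b ∈ Rw, b ≠ 0)
    (hτ : ∀ n ∈ U, ((pdiv n).card : ℝ) ≤ τ) (hτ0 : 0 ≤ τ) (hD : 0 ≤ D) (p u : R K → ℝ) (e : R K → R K)
    (hp : ∀ n ∈ U, 0 ≤ p n) (hu : ∀ n ∈ U, 0 < u n) (hV : ∀ n ∈ U, p n * u n ^ σ ≤ V)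
    (h : WB Rw (fun b => (lm / N b) ^ σ) U qk D) (α : R K → ℂ) :
    ‖CF U α (fun k1 k2 => ∑ b ∈ Rw, qua (k1 * k2) b *
      (((p k1 * p k2 : ℝ) : ℂ) * Ierr w σ (k1 * k2) (e k1 * e k2) b (lm * (u k1 * u k2) / N b)))‖ ≤
      nW w * (D * τ ^ 3 * V ^ 2 * ∑ n ∈ U, ‖α n‖ ^ 2) := by
  set F : R K → R K → R K → Tw K → ℝ → ℂ := fun k1 k2 b ν t =>
    (if IsCoprime k1 k2 then α k1 * conj (α k2) * (qua (k1 * k2) b * ((p k1 * p k2 : ℝ) : ℂ)) else 0) *
      (ν.v b * conj (ν.v (e k1 * e k2)) * ((lm * (u k1 * u k2) / N b : ℝ) : ℂ) ^ sl σ t *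
        PP ν (k1 * k2) (sl σ t)) with hF
  have hB : ∀ k1 ∈ U, ∀ k2 ∈ U, ∀ b ∈ Rw, BC (F k1 k2 b) := fun k1 h1 k2 h2 b hb => by
    have := hu k1 h1
    have := hu k2 h2
    have := N_pos (hR b hb)
    exact (BC_Ierr hσ _ _ _ (by positivity)).mul_left _
  have e1 : CF U α (fun k1 k2 => ∑ b ∈ Rw, qua (k1 * k2) b * (((p k1 * p k2 : ℝ) : ℂ) *
      Ierr w σ (k1 * k2) (e k1 * e k2) b (lm * (u k1 * u k2) / N b))) =
      SI w fun ν t => ∑ k1 ∈ U, ∑ k2 ∈ U, ∑ b ∈ Rw, F k1 k2 b ν t := by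
    unfold CF
    rw [SI_sum hw U fun k1 h1 => BC.sum _ fun k2 h2 => BC.sum _ fun b hb => hB k1 h1 k2 h2 b hb]
    refine Finset.sum_congr rfl (fun k1 h1 => ?_)
    rw [SI_sum hw U fun k2 h2 => BC.sum _ fun b hb => hB k1 h1 k2 h2 b hb]
    refine Finset.sum_congr rfl (fun k2 h2 => ?_)
    rw [SI_sum hw Rw fun b hb => hB k1 h1 k2 h2 b hb]
    simp only [hF, SI_mul]
    split_ifs
    · rw [Finset.mul_sum]
      refine Finset.sum_congr rfl (fun b _ => ?_)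
      rw [Ierr]
      ring
    · simp
  rw [e1]
  refine norm_SI_le hw fun ν t => ?_
  set f : R K → ℂ := fun n => (p n : ℂ) * ((u n : ℂ) ^ sl σ t * (conj (ν.v (e n)) * PP ν n (sl σ t)))
    with hf
  have e2 : ∑ k1 ∈ U, ∑ k2 ∈ U, ∑ b ∈ Rw, F k1 k2 b ν t =
      ∑ b ∈ Rw, ν.v b * ((lm / N b : ℝ) : ℂ) ^ sl σ t * ∑ n1 ∈ U, ∑ n2 ∈ U,
        (if IsCoprime n1 n2 then (α n1 * f n1 * qk b n1) * (conj (α n2) * f n2 * qk b n2) else 0) := by
    simp only [Finset.mul_sum]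
    rw [Finset.sum_comm (s := Rw)]
    refine Finset.sum_congr rfl (fun k1 h1 => ?_)
    rw [Finset.sum_comm (s := Rw)]
    refine Finset.sum_congr rfl (fun k2 h2 => Finset.sum_congr rfl (fun b hb => ?_))
    simp only [hF, hf]
    split_ifs with hc
    · have a1 := hu k1 h1
      have a2 := hu k2 h2
      have a3 := N_pos (hR b hb)
      have : lm * (u k1 * u k2) / N b = lm / N b * (u k1 * u k2) := by ring
      rw [this, Complex.ofReal_mul (lm / N b), Complex.mul_cpow_ofReal_nonneg (by positivity)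
        (by positivity), Complex.ofReal_mul (u k1),
        Complex.mul_cpow_ofReal_nonneg a1.le a2.le,
        PP_mul ν (hU k1 h1).ne_zero (hU k2 h2).ne_zero hc,
        qua_mul_left (hU k1 h1).ne_zero (hU k2 h2).ne_zero, ν.v_mul, map_mul]
      unfold qk
      push_cast
      ring
    · simp
  have e3 : ∀ n ∈ U, ‖f n‖ ≤ V * τ := by
    intro n hn
    rw [hf, norm_mul, norm_mul, norm_mul, norm_cpow_sl (hu n hn), Complex.norm_real,
      Real.norm_of_nonneg (hp n hn), ← mul_assoc, Complex.norm_conj]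
    have a1 := hp n hn
    have a2 := hu n hn
    exact mul_le_mul (hV n hn) ((mul_le_of_le_one_left (norm_nonneg _) (ν.norm_v_le _)).trans
      ((norm_PP_le ν n (by rw [sl_re]; exact hσ)).trans (hτ n hn)))
      (by positivity) (le_trans (by positivity) (hV n hn))
  have e4 : ∀ β : R K → ℂ, (∀ n, ‖β n‖ = ‖α n‖) →
      ∑ n ∈ U, ‖β n * f n‖ ^ 2 ≤ (V * τ) ^ 2 * ∑ n ∈ U, ‖α n‖ ^ 2 := fun β hβ => by
    rw [Finset.mul_sum]
    refine Finset.sum_le_sum (fun n hn => ?_)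
    rw [norm_mul, mul_pow, mul_comm, hβ]
    exact mul_le_mul_of_nonneg_right (pow_le_pow_left₀ (norm_nonneg _) (e3 n hn) 2) (by positivity)
  rw [e2]
  refine (bil hU hτ hD h _ (fun b hb => ?_) _ _).trans ?_
  · have := N_pos (hR b hb)
    rw [norm_mul, norm_cpow_sl (by positivity), ν.norm_v (hR b hb), one_mul]
  · have := e4 α fun _ => rfl
    have := e4 (fun n => conj (α n)) fun _ => Complex.norm_conj _
    calc _ ≤ D * τ * ((V * τ) ^ 2 * ∑ n ∈ U, ‖α n‖ ^ 2) :=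
          mul_le_mul_of_nonneg_left (by linarith) (by positivity)
      _ = _ := by ring

end Crest.Agent.R312.QL
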