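import Crest.Agent.R312.B4QSym

/-!
# R312 / B4QKer : elements with small squarefree kernel (port of `R17/QLS_Ker`, first half of `QLS_Id`)  (read the header of `B4QDefs` first).  Statements frozen; add lemmas freely.
-/

set_option autoImplicit false

noncomputable section

open scoped Classical ComplexConjugate NumberField
open MeasureTheory

namespace Crest.Agent.R312.QL

variable {K : Type} [Field K] [NumberField K] [Fld K] [Loc K] [Setup K]

theorem Ker.prim {B : ℝ} {m : R K} (h : Ker B m) : Prim m := by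
  obtain ⟨b, hb, x, hx, rfl⟩ := h
  exact (mem_SQ.1 hb).2.1.mul (hx.pow 2)

theorem qk_exists {m : R K} (hm : m ≠ 0) : ∃ b x : R K, x ^ 2 * b = m ∧ Squarefree b := by
  induction h : nm m using Nat.strong_induction_on generalizing m with
  | _ k ih =>
    by_cases hs : Squarefree m
    · exact ⟨m, 1, by simp, hs⟩
    · unfold Squarefree at hs
      push Not at hs
      obtain ⟨x, ⟨m', rfl⟩, hx⟩ := hs
      have hm' : m' ≠ 0 := by rintro rfl; simp at hm
      have hx0 : x ≠ 0 := by rintro rfl; simp at hm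
      have h1 : nm x ≠ 1 := fun h => hx (isUnit_iff_nm.2 h)
      have h2 := nm_pos hx0
      have h3 := nm_pos hm'
      obtain ⟨b, y, hb, hb'⟩ := ih (nm m') (by
        rw [← h, nm_mul, nm_mul]
        have : 2 ≤ nm x := by omega
        nlinarith [Nat.mul_le_mul this this]) hm' rfl
      exact ⟨b, x * y, by rw [← hb]; ring, hb'⟩

/-- every primary `m` is `b x²`, `b` squarefree, both primary (`exists_sq_mul_squarefree`, move units by `Setup.prim_ex`) -/
theorem ker_of_le {B : ℝ} {m : R K} (hm : Prim m) (h : N m ≤ B) : Ker B m := by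
  obtain ⟨b, x, hbx, hb⟩ := qk_exists hm.ne_zero
  have hx : x ≠ 0 := by rintro rfl; apply hm.ne_zero; rw [← hbx]; simp
  obtain ⟨u, x', hu, hx', rfl⟩ := exists_eq_unit_prim hx
  have e : m = x' ^ 2 * (b * u ^ 2) := by rw [← hbx]; ring
  have hp : Prim (b * u ^ 2) := Prim.of_mul_left (e ▸ hm) (hx'.pow 2)
  refine ⟨b * u ^ 2, mem_SQ.2 ⟨?_, hp, ?_⟩, x', hx', by rw [e]; ring⟩
  · exact (N_le_of_dvd hm.ne_zero ⟨x' ^ 2, by rw [e]; ring⟩).trans h
  · exact (Associated.squarefree_iff (associated_mul_unit_right _ _ (hu.pow 2))).1 hb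

theorem not_ker {B : ℝ} {m : R K} (hm : Squarefree m) (h : B < N m) : ¬ Ker B m := by
  rintro ⟨b, hb, x, hx, rfl⟩
  have hu : IsUnit x := hm x ⟨b, by ring⟩
  rw [N_mul, N_pow, N_unit hu] at h
  have := (mem_SQ.1 hb).1
  linarith

theorem qk_sq_dvd {b b' x x' : R K} (hb' : Squarefree b') (hx' : x' ≠ 0)
    (h : b * x ^ 2 = b' * x' ^ 2) : x ∣ x' := by
  obtain ⟨y, y', d, hc, rfl, rfl⟩ := UniqueFactorizationMonoid.exists_reduced_factors' x x' hx'
  have hd : d ≠ 0 := by rintro rfl; simp at hx'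
  have h1 : b * y ^ 2 = b' * y' ^ 2 := by
    apply mul_left_cancel₀ (pow_ne_zero 2 hd)
    linear_combination h
  have h2 : y ^ 2 ∣ b' :=
    (hc.pow (m := 2) (n := 2)).dvd_of_dvd_mul_right ⟨b, by rw [← h1]; ring⟩
  have hu : IsUnit y := hb' y (by rwa [← pow_two])
  exact mul_dvd_mul_left d hu.dvd

theorem qk_uniq {b b' x x' : R K} (hb : Squarefree b) (hb' : Squarefree b') (hx : Prim x)
    (hx' : Prim x') (h : b * x ^ 2 = b' * x' ^ 2) : b = b' ∧ x = x' := by
  have e : x = x' := hx.dvd_antisymm hx' (qk_sq_dvd hb' hx'.ne_zero h) (qk_sq_dvd hb hx.ne_zero h.symm)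
  subst e
  exact ⟨mul_right_cancel₀ (pow_ne_zero 2 hx.ne_zero) h, rfl⟩

/-- `(b, x) ↦ b x²` is injective on `SQ B × Prim` (R17 `sq_dvd_of_eq`, `Setup.prim_uniq`) with image `Ker B`.  E.g. write
`if Ker B m then F m else 0 = ∑ b ∈ SQ B, if ∃ x, Prim x ∧ m = b x² then F m else 0`, `Summable.tsum_finsetSum`, and
`Function.Injective.tsum_eq`/`tsum_eq_tsum_of_ne_zero_bij` for each `b`. -/
theorem tsum_ker (B : ℝ) {F : R K → ℂ} (hF : Summable F) :
    ∑' m, (if Ker B m then F m else 0) =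
      ∑ b ∈ SQ K B, ∑' x : R K, (if Prim x then F (b * x ^ 2) else 0) := by
  have h1 : ∀ m, (if Ker B m then F m else 0) =
      ∑ b ∈ SQ K B, if ∃ x, Prim x ∧ m = b * x ^ 2 then F m else 0 := by
    intro m
    split_ifs with h
    · obtain ⟨b, hb, x, hx, rfl⟩ := h
      rw [Finset.sum_eq_single_of_mem b hb, if_pos ⟨x, hx, rfl⟩]
      intro b' hb' hne
      refine if_neg ?_
      rintro ⟨x', hx', e⟩
      exact hne (qk_uniq (mem_SQ.1 hb).2.2 (mem_SQ.1 hb').2.2 hx hx' e).1.symm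
    · exact (Finset.sum_eq_zero fun b hb => if_neg fun ⟨x, hx, e⟩ => h ⟨b, hb, x, hx, e⟩).symm
  simp_rw [h1]
  rw [Summable.tsum_finsetSum fun b _ => ?_]
  · refine Finset.sum_congr rfl fun b hb => ?_
    have hb' := (mem_SQ.1 hb).2.2
    refine tsum_eq_tsum_of_ne_zero_bij (fun x => b * x.1 ^ 2) ?_ ?_ ?_
    · intro x y e
      have hx : Prim x.1 := by by_contra hc; exact x.2 (if_neg hc)
      have hy : Prim y.1 := by by_contra hc; exact y.2 (if_neg hc)
      exact Subtype.ext (qk_uniq hb' hb' hx hy e).2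
    · intro m hm
      have hm' : ∃ x, Prim x ∧ m = b * x ^ 2 := by by_contra hc; exact hm (if_neg hc)
      obtain ⟨x, hx, rfl⟩ := hm'
      refine ⟨⟨x, ?_⟩, rfl⟩
      simp only [Function.mem_support] at hm ⊢
      rw [if_pos ⟨x, hx, rfl⟩] at hm
      rwa [if_pos hx]
    · intro x
      have hx : Prim x.1 := by by_contra hc; exact x.2 (if_neg hc)
      rw [if_pos ⟨x.1, hx, rfl⟩, if_pos hx]
  · refine Summable.of_norm_bounded hF.norm fun m => ?_
    split_ifs
    · exact le_rfl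
    · simp

theorem norm_quawt_le {q : R K} (hq : q ≠ 0) (m q0 : R K) (T : ℝ) :
    ‖qua q m * (wt m q0 T : ℂ)‖ ≤ wt m q0 T := by
  rw [norm_mul, Complex.norm_real, Real.norm_of_nonneg (wt_nonneg _ _ _)]
  exact mul_le_of_le_one_left (wt_nonneg _ _ _) (norm_qua_le hq m)

theorem qk_summable {q0 : R K} (h0 : q0 ≠ 0) {T : ℝ} (hT : 0 < T) :
    Summable fun m : R K => wt m q0 T := by
  simpa using summable_wt h0 hT 0

/-- `summable_wt` with `j = 0` -/
theorem summable_ite {q q0 : R K} (hq : q ≠ 0) (h0 : q0 ≠ 0) (P : R K → Prop) [DecidablePred P] {T : ℝ}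
    (hT : 0 < T) : Summable (fun m => if P m then qua q m * (wt m q0 T : ℂ) else 0) := by
  refine Summable.of_norm_bounded (qk_summable h0 hT) fun m => ?_
  split_ifs
  · exact norm_quawt_le hq _ _ _
  · simpa using wt_nonneg _ _ _

/-- `tsum_ker`, `qua_mul`, `qua_sq`; `wt (b x²) q0 T = Om ..` as `b x²` is primary -/
theorem KS_eq {q q0 : R K} (hq : q ≠ 0) (h0 : q0 ≠ 0) (B : ℝ) {T : ℝ} (hT : 0 < T) :
    KS q q0 B T = ∑ b ∈ SQ K B, qua q b * Tq b q0 q T := by
  unfold KS
  rw [tsum_ker B (F := fun m => qua q m * (wt m q0 T : ℂ))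
    (Summable.of_norm_bounded (qk_summable h0 hT) fun m => norm_quawt_le hq _ _ _)]
  refine Finset.sum_congr rfl fun b hb => ?_
  unfold Tq
  rw [← tsum_mul_left]
  refine tsum_congr fun x => ?_
  by_cases hx : Prim x
  · have hp : Prim (b * x ^ 2) := (mem_SQ.1 hb).2.1.mul (hx.pow 2)
    rw [if_pos hx, wt, if_neg hp.ne_zero, if_pos hp, qua_mul hq, pow_two x, qua_mul hq, ← pow_two,
      qua_sq hq, ← pow_two]
    by_cases hc : IsCoprime x q <;> simp [hx, hc]
  · simp [hx]

theorem FS_split {q q0 : R K} (hq : q ≠ 0) (h0 : q0 ≠ 0) (hu : ¬ IsUnit q) (B : ℝ) {T : ℝ} (hT : 0 < T) :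
    ∑' m, qua q m * (wt m q0 T : ℂ) = KS q q0 B T + RS q q0 B T := by
  unfold KS RS
  rw [← Summable.tsum_add (summable_ite hq h0 _ hT) (summable_ite hq h0 _ hT)]
  refine tsum_congr fun m => ?_
  by_cases hm : m = 0
  · subst hm
    have : qua q 0 = 0 := ((qua_isChar hq).zero_iff 0).2 (by rwa [isCoprime_zero_left])
    simp [this]
  · by_cases hk : Ker B m <;> simp [hm, hk]

/-- `tsum_wt_le` -/
theorem norm_RS_le : ∃ C : ℝ, 0 ≤ C ∧ ∀ q q0 : R K, q ≠ 0 → q0 ≠ 0 → ∀ B T : ℝ, 0 < T →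
    ‖RS q q0 B T‖ ≤ C * (N q0 * T) := by
  obtain ⟨C, h0, hC⟩ := tsum_wt_le (K := K)
  refine ⟨C, h0, fun q q0 hq hq0 B T hT => le_trans ?_ (hC q0 hq0 T hT)⟩
  have hs : Summable fun d : R K => if d = 0 then 0 else wt d q0 T := by
    refine Summable.of_nonneg_of_le (fun k => ?_) (fun k => ?_) (qk_summable hq0 hT)
    · split_ifs; exacts [le_rfl, wt_nonneg _ _ _]
    · split_ifs; exacts [wt_nonneg _ _ _, le_rfl]
  refine tsum_of_norm_bounded hs.hasSum fun m => ?_
  by_cases hm : m = 0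
  · simp [hm]
  · simp only [hm, if_false]
    split_ifs
    · exact norm_quawt_le hq _ _ _
    · simpa using wt_nonneg _ _ _

/-- Only primary `m` with `N m > B` contribute (`ker_of_le`); `Om_le` with `σ = j + 2` gives
`wt ≤ C (N q0 T)^{j+2} N m^{-j-2} ≤ C (N q0 T)^{j+2} B^{-j} N m^{-2}`, and `∑_{m primary} N m^{-2} < ∞`. -/
theorem norm_RS_tail (j : ℕ) : ∃ C : ℝ, 0 ≤ C ∧ ∀ q q0 : R K, q ≠ 0 → q0 ≠ 0 → ∀ B T : ℝ, 0 < B → 0 < T →
    ‖RS q q0 B T‖ ≤ C * (N q0 * T) ^ 2 * (N q0 * T / B) ^ j := by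
  obtain ⟨C, h0, hC⟩ := Om_le (K := K) (σ := (j + 2 : ℕ)) (by positivity)
  have hs := summable_N_rpow (K := K) (σ := 2) (by norm_num)
  set S := ∑' n : R K, if Prim n then N n ^ (-2 : ℝ) else 0 with hS
  have hS0 : 0 ≤ S := tsum_nonneg fun n => by
    split_ifs; exacts [Real.rpow_nonneg (N_nonneg _) _, le_rfl]
  refine ⟨C * S, by positivity, fun q q0 hq hq0 B T hB hT => ?_⟩
  have hX : 0 < N q0 * T := mul_pos (N_pos hq0) hT
  set X := N q0 * T
  calc ‖RS q q0 B T‖ ≤ (C * X ^ 2 * (X / B) ^ j) * S := by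
        refine tsum_of_norm_bounded (hs.hasSum.mul_left _) fun m => ?_
        have hnn : 0 ≤ C * X ^ 2 * (X / B) ^ j * if Prim m then N m ^ (-2 : ℝ) else 0 := by
          refine mul_nonneg (by positivity) ?_
          split_ifs; exacts [Real.rpow_nonneg (N_nonneg _) _, le_rfl]
        by_cases h : m ≠ 0 ∧ ¬ Ker B m
        · rw [if_pos h]
          refine (norm_quawt_le hq _ _ _).trans ?_
          rw [wt, if_neg h.1]
          by_cases hp : Prim m
          · rw [if_pos hp, if_pos hp]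
            have hN := N_pos h.1
            have hB' : B < N m := by
              by_contra hc
              exact h.2 (ker_of_le hp (not_lt.1 hc))
            refine (hC m q0 h.1 hq0 T hT).trans ?_
            rw [Real.rpow_neg (by positivity), Real.rpow_natCast, ← inv_pow, inv_div,
              Real.rpow_neg hN.le, Real.rpow_two, pow_add, mul_assoc, mul_assoc]
            refine mul_le_mul_of_nonneg_left ?_ h0
            have : (X / N m) ^ j ≤ (X / B) ^ j := by gcongr
            calc (X / N m) ^ j * (X / N m) ^ 2 ≤ (X / B) ^ j * (X / N m) ^ 2 := by gcongr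
              _ = _ := by field_simp
          · rw [if_neg hp]; exact hnn
        · rw [if_neg h, norm_zero]; exact hnn
    _ = _ := by ring

end Crest.Agent.R312.QL
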