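import Crest.Agent.R312.B4QKer

/-!
# R312 / B4QPos : gcd decomposition and positivity (port of `R17/QLS_Pos`, same proofs with `dv`)  (read the header of `B4QDefs` first).  Statements frozen; add lemmas freely.
-/

set_option autoImplicit false

noncomputable section

open scoped Classical ComplexConjugate NumberField
open MeasureTheory

namespace Crest.Agent.R312.QL

variable {K : Type} [Field K] [NumberField K] [Fld K] [Loc K] [Setup K]

theorem mem_Ud {U : Finset (R K)} {h k : R K} (hh : h ≠ 0) : k ∈ Ud U h ↔ h * k ∈ U := by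
  unfold Ud
  simp only [Finset.mem_image, Finset.mem_filter]
  constructor
  · rintro ⟨n, ⟨hn, hd⟩, rfl⟩
    rwa [mul_dv hd]
  · intro hk
    exact ⟨h * k, ⟨hk, dvd_mul_right _ _⟩, dv_mul_left hh _⟩

theorem sum_Ud {β : Type*} [AddCommMonoid β] (U : Finset (R K)) {h : R K} (hh : h ≠ 0)
    (F : R K → R K → β) :
    ∑ k ∈ Ud U h, F (h * k) k = ∑ n ∈ U, if h ∣ n then F n (dv n h) else 0 := by
  unfold Ud
  rw [Finset.sum_image, ← Finset.sum_filter]
  · refine Finset.sum_congr rfl (fun n hn => ?_)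
    rw [mul_dv (Finset.mem_filter.1 hn).2]
  · intro x hx y hy hxy
    have hx' := (Finset.mem_filter.1 hx).2
    have hy' := (Finset.mem_filter.1 hy).2
    rw [← mul_dv hx', ← mul_dv hy']
    exact congrArg _ hxy

theorem SQ_of_mul {X : ℝ} {h k : R K} (hh : Prim h) (hk : h * k ∈ SQ K X) : k ∈ SQ K (X / N h) := by
  rw [mem_SQ] at hk ⊢
  refine ⟨?_, hk.2.1.of_mul_left hh, hk.2.2.of_mul_right⟩
  rw [le_div_iff₀ (N_pos hh.ne_zero), mul_comm, ← N_mul]; exact hk.1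

theorem SQ_of_dvd {X : ℝ} {h n : R K} (hh : Prim h) (hn : n ∈ SQ K X) (hd : h ∣ n) : h ∈ SQ K X := by
  rw [mem_SQ] at hn ⊢
  exact ⟨(N_le_of_dvd hn.2.1.ne_zero hd).trans hn.1, hh, hn.2.2.squarefree_of_dvd hd⟩

theorem exists_unique_h {g m : R K} (hg : Prim g) (hs : Squarefree g) :
    ∃ h0, (Prim h0 ∧ h0 ∣ m ∧ h0 ∣ g ∧ IsCoprime m (dv g h0)) ∧
      ∀ h, Prim h → h ∣ m → h ∣ g → IsCoprime m (dv g h) → h = h0 := by
  obtain ⟨d0, hp, a2, a1, hgcd⟩ := exists_prim_gcd' hg m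
  have key : ∀ h h' : R K, Prim h → Prim h' → h ∣ m → h ∣ g → h' ∣ g → IsCoprime m (dv g h') →
      h ∣ h' := by
    intro h h' _ hh' h1 h2 h3 h4
    rw [← mul_dv h3] at h2
    exact (h4.of_isCoprime_of_dvd_left h1).dvd_of_dvd_mul_right h2
  have a3 : IsCoprime m (dv g d0) := by
    rw [← isRelPrime_iff_isCoprime]
    intro d hd hd'
    have e := mul_dv a2
    have hdg : d ∣ g := by rw [← e]; exact hd'.mul_left _
    have h5 : d ∣ d0 := hgcd d hdg hd
    exact hs d (by rw [← e]; exact mul_dvd_mul h5 hd')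
  refine ⟨d0, ⟨hp, a1, a2, a3⟩, fun h hh h1 h2 h3 => ?_⟩
  exact hh.eq_of_associated hp (associated_of_dvd_dvd (key _ _ hh hp h1 h2 a2 a3)
    (key _ _ hp hh a1 a2 h2 h3))

theorem pointwise {X : ℝ} {n1 n2 : R K} (h1 : n1 ∈ SQ K X) (h2 : n2 ∈ SQ K X) (m : R K) :
    ∑ h ∈ SQ K X, (if h ∣ m ∧ h ∣ n1 ∧ h ∣ n2 then qua (dv n1 h) m * qua (dv n2 h) m else 0) =
    ∑ g ∈ SQ K X, (if g ∣ n1 ∧ g ∣ n2 ∧ IsCoprime (dv n1 g) (dv n2 g) then
      qua (dv n1 g * dv n2 g) m else 0) := by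
  have p1 := mem_SQ.1 h1
  have p2 := mem_SQ.1 h2
  obtain ⟨g, k1, k2, hg, hk1, hk2, rfl, rfl, hc⟩ := exists_prim_gcd p1.2.1 p2.2.1
  have hgP : g ∈ SQ K X := SQ_of_dvd hg h1 (dvd_mul_right _ _)
  have hg' := mem_SQ.1 hgP
  have hdg : ∀ h, h ∣ g * k1 → h ∣ g * k2 → h ∣ g := by
    intro h a b
    obtain ⟨u, v, huv⟩ := hc
    have : g = u * (g * k1) + v * (g * k2) := by linear_combination (-g) * huv
    rw [this]; exact dvd_add (a.mul_left _) (b.mul_left _)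
  have hdiv : ∀ h k : R K, h ≠ 0 → h ∣ g → dv (g * k) h = dv g h * k := by
    rintro h k hh ⟨e, rfl⟩
    rw [mul_assoc, dv_mul_left hh, dv_mul_left hh]
  have rhs : ∑ g' ∈ SQ K X, (if g' ∣ g * k1 ∧ g' ∣ g * k2 ∧ IsCoprime (dv (g * k1) g') (dv (g * k2) g') then
      qua (dv (g * k1) g' * dv (g * k2) g') m else 0) = qua (k1 * k2) m := by
    rw [Finset.sum_eq_single_of_mem g hgP]
    · rw [dv_mul_left hg.ne_zero, dv_mul_left hg.ne_zero,
        if_pos ⟨dvd_mul_right _ _, dvd_mul_right _ _, hc⟩]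
    · intro g' hg'P hne
      rw [if_neg]
      rintro ⟨a, b, c⟩
      have hp' := (mem_SQ.1 hg'P).2.1
      have hd := hdg g' a b
      rw [hdiv g' k1 hp'.ne_zero hd, hdiv g' k2 hp'.ne_zero hd] at c
      have hu : IsUnit (dv g g') := c.isUnit_of_dvd' (dvd_mul_right _ _) (dvd_mul_right _ _)
      have := (hg.dv hp' hd).eq_one_of_isUnit hu
      apply hne
      rw [← mul_dv hd, this, mul_one]
  rw [rhs]
  obtain ⟨h0, ⟨q1, q2, q3, q4⟩, huniq⟩ := exists_unique_h (m := m) hg hg'.2.2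
  have hval : ∀ h, Prim h → h ∣ g → qua (dv (g * k1) h) m * qua (dv (g * k2) h) m =
      if IsCoprime m (dv g h) then qua (k1 * k2) m else 0 := by
    intro h hh hd
    have hp := hg.dv hh hd
    rw [hdiv h k1 hh.ne_zero hd, hdiv h k2 hh.ne_zero hd, qua_mul_left hp.ne_zero hk1.ne_zero,
      qua_mul_left hp.ne_zero hk2.ne_zero, qua_mul_left hk1.ne_zero hk2.ne_zero]
    have := qua_sq hp.ne_zero m
    split_ifs at this ⊢
    · linear_combination (qua k1 m * qua k2 m) * this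
    · linear_combination (qua k1 m * qua k2 m) * this
  rw [Finset.sum_eq_single_of_mem h0 (SQ_of_dvd q1 hgP q3)]
  · rw [if_pos ⟨q2, q3.mul_right _, q3.mul_right _⟩, hval h0 q1 q3, if_pos q4]
  · intro h hP hne
    have hp := (mem_SQ.1 hP).2.1
    split_ifs with hc'
    · have hd := hdg h hc'.2.1 hc'.2.2
      rw [hval h hp hd, if_neg]
      intro hc''
      exact hne (huniq h hp hc'.1 hd hc'')
    · rfl

theorem Phi_eq {X : ℝ} {U : Finset (R K)} (hU : U ⊆ SQ K X) (a : R K → ℂ) (m : R K) :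
    ∑ g ∈ SQ K X, CF (Ud U g) (fun k => a (g * k)) (fun k1 k2 => qua (k1 * k2) m) =
      ((∑ h ∈ SQ K X, (if h ∣ m then ‖∑ k ∈ Ud U h, a (h * k) * qua k m‖ ^ 2 else 0) : ℝ) : ℂ) := by
  have lhs : ∀ g ∈ SQ K X, CF (Ud U g) (fun k => a (g * k)) (fun k1 k2 => qua (k1 * k2) m) =
      ∑ n1 ∈ U, ∑ n2 ∈ U, a n1 * conj (a n2) *
        (if g ∣ n1 ∧ g ∣ n2 ∧ IsCoprime (dv n1 g) (dv n2 g) then qua (dv n1 g * dv n2 g) m else 0) := by
    intro g hg
    have hg0 := (mem_SQ.1 hg).2.1.ne_zero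
    unfold CF
    rw [sum_Ud U hg0 (fun n1 k1 => ∑ k2 ∈ Ud U g,
      if IsCoprime k1 k2 then a n1 * conj (a (g * k2)) * qua (k1 * k2) m else 0)]
    refine Finset.sum_congr rfl (fun n1 _ => ?_)
    by_cases h1 : g ∣ n1
    · rw [if_pos h1, sum_Ud U hg0 (fun n2 k2 =>
        if IsCoprime (dv n1 g) k2 then a n1 * conj (a n2) * qua (dv n1 g * k2) m else 0)]
      refine Finset.sum_congr rfl (fun n2 _ => ?_)
      by_cases h2 : g ∣ n2 <;> by_cases h3 : IsCoprime (dv n1 g) (dv n2 g) <;> simp [h1, h2, h3]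
    · simp [h1]
  have rhs : ∀ h ∈ SQ K X, (((if h ∣ m then ‖∑ k ∈ Ud U h, a (h * k) * qua k m‖ ^ 2 else 0) : ℝ) : ℂ) =
      ∑ n1 ∈ U, ∑ n2 ∈ U, a n1 * conj (a n2) *
        (if h ∣ m ∧ h ∣ n1 ∧ h ∣ n2 then qua (dv n1 h) m * qua (dv n2 h) m else 0) := by
    intro h hh
    have hp := (mem_SQ.1 hh).2.1
    by_cases hm : h ∣ m
    · rw [if_pos hm]
      push_cast
      rw [← Complex.mul_conj', sum_Ud U hp.ne_zero (fun n k => a n * qua k m), map_sum,
        Finset.sum_mul_sum]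
      refine Finset.sum_congr rfl (fun n1 _ => Finset.sum_congr rfl (fun n2 hn2 => ?_))
      by_cases h1 : h ∣ n1 <;> by_cases h2 : h ∣ n2 <;> simp only [hm, h1, h2, if_true, if_false,
        and_false, and_true, map_zero, mul_zero, zero_mul]
      have hodd : dv n2 h ≠ 0 := ((mem_SQ.1 (hU hn2)).2.1.dv hp h2).ne_zero
      rw [map_mul, conj_qua hodd]; ring
    · simp [hm]
  rw [Complex.ofReal_sum, Finset.sum_congr rfl lhs, Finset.sum_congr rfl rhs, Finset.sum_comm,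
    Finset.sum_comm (s := SQ K X)]
  refine Finset.sum_congr rfl (fun n1 hn1 => ?_)
  rw [Finset.sum_comm, Finset.sum_comm (s := SQ K X)]
  refine Finset.sum_congr rfl (fun n2 hn2 => ?_)
  rw [← Finset.mul_sum, ← Finset.mul_sum, pointwise (hU hn1) (hU hn2) m]

/-- R17 `exists_unique_h`, `pointwise`, `Phi_eq`, `sq_le_Phi` -/
theorem sq_le_Phi {X : ℝ} (hX : 1 ≤ X) {U : Finset (R K)} (hU : U ⊆ SQ K X) (a : R K → ℂ) (m : R K) :
    ‖∑ n ∈ U, a n * qua n m‖ ^ 2 ≤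
      (∑ g ∈ SQ K X, CF (Ud U g) (fun k => a (g * k)) (fun k1 k2 => qua (k1 * k2) m)).re := by
  rw [Phi_eq hU, Complex.ofReal_re]
  have h1 : (1 : R K) ∈ SQ K X :=
    mem_SQ.2 ⟨by simpa using hX, Prim.one, squarefree_one⟩
  refine le_trans (le_of_eq ?_) (Finset.single_le_sum (f := fun h =>
    if h ∣ m then ‖∑ k ∈ Ud U h, a (h * k) * qua k m‖ ^ 2 else 0) (fun h _ => ?_) h1)
  · have : Ud U 1 = U := by ext k; rw [mem_Ud one_ne_zero, one_mul]
    simp [this]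
  · split_ifs; exacts [by positivity, le_rfl]

/-- R17 `pos_main` with the weight `wt m 1 M`; `Om_ge` gives `c ≤ wt b 1 M` for `b ∈ SQ M`, take `C = 1/c` -/
theorem pos_main : ∃ C : ℝ, 0 ≤ C ∧ ∀ X : ℝ, 1 ≤ X → ∀ U : Finset (R K), U ⊆ SQ K X →
    ∀ (a : R K → ℂ) (B M : ℝ), 0 < M →
    ∑ b ∈ SQ K M \ SQ K B, ‖∑ n ∈ U, a n * qk b n‖ ^ 2 ≤ C *
      ∑ g ∈ SQ K X, ‖CF (Ud U g) (fun k => a (g * k)) (fun k1 k2 => RS (k1 * k2) 1 B M)‖ := by
  obtain ⟨c, hc0, hc⟩ := Om_ge (K := K)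
  refine ⟨c⁻¹, by positivity, fun X hX U hU a B M hM => ?_⟩
  have hw : Summable fun m : R K => wt m 1 M := by
    simpa using summable_wt (K := K) one_ne_zero hM 0
  set f : R K → ℝ := fun m => if m ≠ 0 ∧ ¬ Ker B m then ‖∑ n ∈ U, a n * qua n m‖ ^ 2 else 0 with hf
  have hf0 : ∀ m, 0 ≤ f m := fun m => by
    simp only [hf]; split_ifs; exacts [by positivity, le_rfl]
  have hfb : ∀ m, f m ≤ (∑ n ∈ U, ‖a n‖) ^ 2 := fun m => by
    simp only [hf]
    split_ifs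
    · refine pow_le_pow_left₀ (norm_nonneg _) ((norm_sum_le _ _).trans
        (Finset.sum_le_sum (fun n hn => ?_))) 2
      rw [norm_mul]
      exact mul_le_of_le_one_right (norm_nonneg _) (norm_qua_le (mem_SQ.1 (hU hn)).2.1.ne_zero _)
    · positivity
  have hs : Summable (fun m => wt m 1 M * f m) :=
    Summable.of_nonneg_of_le (fun m => mul_nonneg (wt_nonneg _ _ _) (hf0 m))
      (fun m => mul_le_mul_of_nonneg_left (hfb m) (wt_nonneg _ _ _)) (hw.mul_right _)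
  -- the complex series
  set t : R K → R K → R K → R K → ℂ := fun g k1 k2 m => if IsCoprime k1 k2 then
    a (g * k1) * conj (a (g * k2)) *
      (if m ≠ 0 ∧ ¬ Ker B m then qua (k1 * k2) m * (wt m 1 M : ℂ) else 0) else 0 with ht
  have hodd : ∀ g ∈ SQ K X, ∀ k ∈ Ud U g, k ≠ 0 := by
    intro g hg k hk
    have hp := (mem_SQ.1 hg).2.1
    exact (mem_SQ.1 (SQ_of_mul hp (hU ((mem_Ud hp.ne_zero).1 hk)))).2.1.ne_zero
  have hsum : HasSum (fun m => ∑ g ∈ SQ K X, ∑ k1 ∈ Ud U g, ∑ k2 ∈ Ud U g, t g k1 k2 m)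
      (∑ g ∈ SQ K X, CF (Ud U g) (fun k => a (g * k)) (fun k1 k2 => RS (k1 * k2) 1 B M)) := by
    refine hasSum_sum (fun g hg => hasSum_sum (fun k1 h1 => hasSum_sum (fun k2 h2 => ?_)))
    simp only [ht]
    split_ifs
    · exact (summable_ite (mul_ne_zero (hodd g hg k1 h1) (hodd g hg k2 h2)) one_ne_zero _ hM).hasSum.mul_left _
    · exact hasSum_zero
  have hre := Complex.hasSum_re hsum
  have hle : ∀ m, wt m 1 M * f m ≤
      (∑ g ∈ SQ K X, ∑ k1 ∈ Ud U g, ∑ k2 ∈ Ud U g, t g k1 k2 m).re := by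
    intro m
    by_cases hm : m ≠ 0 ∧ ¬ Ker B m
    · have : ∑ g ∈ SQ K X, ∑ k1 ∈ Ud U g, ∑ k2 ∈ Ud U g, t g k1 k2 m = (wt m 1 M : ℂ) *
          ∑ g ∈ SQ K X, CF (Ud U g) (fun k => a (g * k)) (fun k1 k2 => qua (k1 * k2) m) := by
        unfold CF
        simp only [Finset.mul_sum]
        refine Finset.sum_congr rfl (fun g _ => Finset.sum_congr rfl (fun k1 _ =>
          Finset.sum_congr rfl (fun k2 _ => ?_)))
        simp only [ht, if_pos hm]
        split_ifs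
        · ring
        · simp
      rw [this, Complex.re_ofReal_mul]
      simp only [hf, if_pos hm]
      exact mul_le_mul_of_nonneg_left (sq_le_Phi hX hU a m) (wt_nonneg _ _ _)
    · simp only [hf, ht, if_neg hm]
      simp
  calc ∑ b ∈ SQ K M \ SQ K B, ‖∑ n ∈ U, a n * qk b n‖ ^ 2
        ≤ ∑ b ∈ SQ K M \ SQ K B, c⁻¹ * (wt b 1 M * f b) := by
        refine Finset.sum_le_sum (fun b hb => ?_)
        rw [Finset.mem_sdiff, mem_SQ, mem_SQ] at hb
        have : B < N b := by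
          by_contra hc
          exact hb.2 ⟨not_lt.1 hc, hb.1.2⟩
        have h0 := hb.1.2.1.ne_zero
        have h1 : c ≤ wt b 1 M := by
          rw [wt, if_neg h0, if_pos hb.1.2.1]
          exact hc b h0 M hb.1.1
        have h2 : ‖∑ n ∈ U, a n * qk b n‖ ^ 2 = f b := by
          simp only [hf, if_pos (And.intro h0 (not_ker hb.1.2.2 this))]
          rfl
        rw [h2, le_inv_mul_iff₀ hc0]
        exact mul_le_mul_of_nonneg_right h1 (hf0 b)
    _ ≤ c⁻¹ * ∑' m, wt m 1 M * f m := by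
        rw [← Finset.mul_sum]
        exact mul_le_mul_of_nonneg_left
          (hs.sum_le_tsum _ fun m _ => mul_nonneg (wt_nonneg _ _ _) (hf0 m)) (by positivity)
    _ ≤ _ := by
        refine mul_le_mul_of_nonneg_left ?_ (by positivity)
        refine (hasSum_le hle hs.hasSum hre).trans ?_
        exact (Complex.re_le_norm _).trans (norm_sum_le _ _)

end Crest.Agent.R312.QL
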