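import Crest.Agent.R312.B4QCore
import Crest.Agent.R312.B4QPos

/-!
# R312 / B4QStep : the recursion step and its iteration (port of `R17/QLS_Step`)  (read the header of `B4QDefs` first).  Statements frozen; add lemmas freely.
-/

set_option autoImplicit false

noncomputable section

open scoped Classical ComplexConjugate NumberField
open MeasureTheory

namespace Crest.Agent.R312.QL

variable {K : Type} [Field K] [NumberField K] [Fld K] [Loc K] [Setup K]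

/-- the step for one dyadic block in one class mod `4` -/
theorem step_class {σ : ℝ} (hσ : 0 < σ) (hσ2 : σ < 1 / 2) : ∃ C : ℝ, 0 ≤ C ∧
    ∀ (T L M X X1 Y D : ℝ) (U : Finset (R K)), 1 ≤ Y → 1 ≤ D → 1 ≤ X1 → X1 ≤ X →
      X * Y * T ^ σ ≤ M → M ≤ T → 1 ≤ T → X ≤ L * Y →
      (∀ t X', 0 ≤ t → t ≤ L → t ≤ X → 0 ≤ X' → X' ≤ X → LS K t X' (D * (X' + Y * t))) →
      U ⊆ SQ K X1 → (∀ n ∈ U, X1 / 2 < N n) → (∀ n1 ∈ U, ∀ n2 ∈ U, cl n1 = cl n2) →
      Bd (SQ K M) U qk (C * (T ^ σ) ^ 6 * D * M) := by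
  obtain ⟨C, hC0, hC⟩ := core (K := K) hσ hσ2
  obtain ⟨Cτ, hCτ⟩ := card_pdiv_le (K := K) hσ
  obtain ⟨Cp, hCp, hpos⟩ := pos_main (K := K)
  set C1 := max Cτ 1 with hC1
  have hC11 : 1 ≤ C1 := le_max_right _ _
  refine ⟨2 + Cp * C * C1 ^ 4, by positivity, ?_⟩
  intro T L M X X1 Y D U hY hD hX1 hX1X hM hMT hT hL IH hU hlow h4 a
  have hE : 1 ≤ T ^ σ := Real.one_le_rpow hT hσ.le
  set E := T ^ σ with hEdef
  have hX : 1 ≤ X := hX1.trans hX1X
  have hXY : X * Y ≤ M := le_trans (le_mul_of_one_le_right (by positivity) hE) hM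
  have hXM : X ≤ M := le_trans (le_mul_of_one_le_right (by positivity) hY) hXY
  have hM1 : 1 ≤ M := hX.trans hXM
  set B0 := E * X ^ 2 / M with hB0
  have hB0Y : B0 * Y ≤ X := by
    rw [hB0, div_mul_eq_mul_div, div_le_iff₀ (by positivity)]
    nlinarith
  have hB00 : 0 < B0 := by positivity
  have hB0L : B0 ≤ L := le_of_mul_le_mul_right (hB0Y.trans hL) (by positivity)
  have hB0X : B0 ≤ X := le_trans (le_mul_of_one_le_right hB00.le hY) hB0Y
  have hY2 : Y ^ 2 * B0 ≤ M := by nlinarith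
  have hτ : ∀ n : (R K), n ≠ 0 → N n ≤ T → ((pdiv n).card : ℝ) ≤ C1 * E := by
    intro n hn hnT
    have := N_pos hn
    exact (hCτ n hn).trans (mul_le_mul (le_max_left _ _) (Real.rpow_le_rpow (N_nonneg n) hnT hσ.le)
      (by positivity) (by positivity))
  have hUT : ∀ n ∈ U, N n ≤ T := fun n hn =>
    (mem_SQ.1 (hU hn)).1.trans (hX1X.trans (hXM.trans hMT))
  have hS := sumsq_nonneg U a
  have part1 : ∑ b ∈ SQ K B0, ‖∑ n ∈ U, a n * qk b n‖ ^ 2 ≤ 2 * D * M * ∑ n ∈ U, ‖a n‖ ^ 2 := by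
    refine (Bd.mono_cols (IH B0 X hB00.le hB0L hB0X (by positivity) le_rfl)
      (hU.trans (SQ_mono hX1X)) a).trans (mul_le_mul_of_nonneg_right ?_ hS)
    nlinarith
  have hg : ∀ g ∈ SQ K X1, ‖CF (Ud U g) (fun k => a (g * k)) (fun k1 k2 => RS (k1 * k2) 1 B0 M)‖ ≤
      C * (C1 * E) ^ 3 * E ^ 2 * D * M * ∑ n ∈ U, (if g ∣ n then ‖a n‖ ^ 2 else 0) := by
    intro g hg
    have hg' := mem_SQ.1 hg
    have hg0 := hg'.2.1.ne_zero
    have hN := one_le_N hg0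
    have hXg : X1 / N g ≤ X := (div_le_self (by positivity) hN).trans hX1X
    rw [← sum_Ud U hg0 (fun n _ => ‖a n‖ ^ 2)]
    refine hC T M B0 (X1 / N g) Y D (C1 * E) (Ud U g) ⟨hσ, hσ2, hM1, hMT, hY, hD,
      one_le_mul_of_one_le_of_one_le hC11 hE, by positivity, ?_, hY2, ?_, ?_, ?_, ?_, ?_⟩ ?_ _
    · rw [hB0, mul_div_cancel₀ _ (by positivity)]
      exact mul_le_mul_of_nonneg_left (pow_le_pow_left₀ (by positivity) hXg 2) (by positivity)
    · nlinarith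
    · exact fun k hk => SQ_of_mul hg'.2.1 (hU ((mem_Ud hg0).1 hk))
    · intro k hk
      have := hlow _ ((mem_Ud hg0).1 hk)
      rw [N_mul] at this
      rw [div_right_comm, div_lt_iff₀ (by positivity)]
      linarith
    · intro k hk
      have hk' := (mem_Ud hg0).1 hk
      have hk0 : k ≠ 0 := (mem_SQ.1 (SQ_of_mul hg'.2.1 (hU hk'))).2.1.ne_zero
      exact hτ k hk0 ((N_le_of_dvd (mul_ne_zero hg0 hk0) (dvd_mul_left _ _)).trans (hUT _ hk'))
    · intro t h0 ht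
      exact IH t _ h0 (ht.trans hB0L) (ht.trans hB0X) (by positivity) hXg
    · intro k1 h1 k2 h2
      have h1' := (mem_Ud hg0).1 h1
      have h2' := (mem_Ud hg0).1 h2
      have := h4 _ h1' _ h2'
      rw [cl_mul hg0 (right_ne_zero_of_mul (mem_SQ.1 (hU h1')).2.1.ne_zero),
        cl_mul hg0 (right_ne_zero_of_mul (mem_SQ.1 (hU h2')).2.1.ne_zero)] at this
      rw [← inv_mul_cancel_left (cl g) (cl k1), this, inv_mul_cancel_left]
  have part2 : ∑ b ∈ SQ K M \ SQ K B0, ‖∑ n ∈ U, a n * qk b n‖ ^ 2 ≤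
      Cp * C * C1 ^ 4 * E ^ 6 * D * M * ∑ n ∈ U, ‖a n‖ ^ 2 := by
    refine (hpos X1 hX1 U hU a B0 M (by positivity)).trans ?_
    have h1 := Finset.sum_le_sum hg
    rw [← Finset.mul_sum] at h1
    have h2 := sum_dvd_le (U := U) (P := SQ K X1) (fun n hn => (mem_SQ.1 (hU hn)).2.1.ne_zero)
      (fun r hr => (mem_SQ.1 hr).2.1) (τ := C1 * E)
      (fun n hn => hτ n (mem_SQ.1 (hU hn)).2.1.ne_zero (hUT n hn)) (fun n => ‖a n‖ ^ 2)
      (fun n => by positivity)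
    calc _ ≤ Cp * (C * (C1 * E) ^ 3 * E ^ 2 * D * M * (C1 * E * ∑ n ∈ U, ‖a n‖ ^ 2)) :=
          mul_le_mul_of_nonneg_left (h1.trans (mul_le_mul_of_nonneg_left h2 (by positivity)))
            hCp
      _ = _ := by ring
  rw [← Finset.sum_sdiff (SQ_mono (hB0X.trans hXM))]
  have hE6 : 1 ≤ E ^ 6 := one_le_pow₀ hE
  have : 2 * D * M * ∑ n ∈ U, ‖a n‖ ^ 2 ≤ 2 * E ^ 6 * D * M * ∑ n ∈ U, ‖a n‖ ^ 2 := by
    gcongr; linarith
  linarith

theorem clog_bounds {n : (R K)} (hn : n ≠ 0) :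
    N n ≤ 2 ^ Nat.clog 2 (nm n) ∧ (2 : ℝ) ^ Nat.clog 2 (nm n) / 2 < N n := by
  unfold N
  constructor
  · exact_mod_cast Nat.le_pow_clog one_lt_two (nm n)
  · have h0 := nm_pos hn
    rcases Nat.lt_or_ge 1 (nm n) with h | h
    · have h1 := Nat.pow_pred_clog_lt_self one_lt_two h
      have h2 := Nat.clog_pos one_lt_two h
      obtain ⟨j, hj⟩ : ∃ j, Nat.clog 2 (nm n) = j + 1 := ⟨_, (Nat.succ_pred_eq_of_pos h2).symm⟩
      rw [hj] at h1 ⊢
      have h3 : (2 : ℝ) ^ j < nm n := by exact_mod_cast h1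
      rw [pow_succ]; linarith
    · have : nm n = 1 := by omega
      rw [this]; norm_num

/-- the recursion step -/
theorem step {σ : ℝ} (hσ : 0 < σ) (hσ2 : σ < 1 / 2) : ∃ C : ℝ, 0 ≤ C ∧
    ∀ (T L M X Y D : ℝ), 1 ≤ Y → 1 ≤ D → 1 ≤ X → X * Y * T ^ σ ≤ M → M ≤ T → 1 ≤ T → X ≤ L * Y →
      (∀ t X', 0 ≤ t → t ≤ L → t ≤ X → 0 ≤ X' → X' ≤ X → LS K t X' (D * (X' + Y * t))) →
      LS K M X (C * (T ^ σ) ^ 7 * D * M) := by
  obtain ⟨C, hC0, hC⟩ := step_class (K := K) hσ hσ2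
  refine ⟨(2 + 2 / σ) * Fintype.card (G K) * C, by positivity, ?_⟩
  intro T L M X Y D hY hD hX hM hMT hT hL IH
  have hE : 1 ≤ T ^ σ := Real.one_le_rpow hT hσ.le
  have hXM : X ≤ M := le_trans (le_trans (le_mul_of_one_le_right (by positivity) hY)
    (le_mul_of_one_le_right (by positivity) hE)) hM
  set J := ⌊(1 + 2 / σ) * T ^ σ⌋₊ with hJ
  have h1 := bd_of_fibres (R := SQ K M) (S := SQ K X) (k := qk) (D := C * (T ^ σ) ^ 6 * D * M)
    (Finset.range (J + 1) ×ˢ Finset.univ) (fun n => (Nat.clog 2 (nm n), cl n)) (fun n hn => by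
      refine Finset.mem_product.2 ⟨Finset.mem_range.2 (Nat.lt_succ_of_le (Nat.le_floor ?_)), Finset.mem_univ _⟩
      have hn' := mem_SQ.1 hn
      have a1 := (clog_bounds hn'.2.1.ne_zero).2
      generalize Nat.clog 2 (nm n) = j at a1 ⊢
      have a2 : (2 : ℝ) ^ j ≤ 2 * T := by linarith [hn'.1]
      have a3 := Real.log_le_log (by positivity) a2
      rw [Real.log_pow, Real.log_mul (by norm_num) (by positivity)] at a3
      have a4 : σ * Real.log T ≤ T ^ σ := by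
        rw [← Real.log_rpow (by positivity)]
        exact (Real.log_le_sub_one_of_pos (by positivity)).trans (by linarith)
      have a5 := Real.log_two_gt_d9
      have a6 : 0 ≤ Real.log T := Real.log_nonneg hT
      have a7 : (j : ℝ) ≤ 1 + 2 * Real.log T := by
        by_contra hc
        push Not at hc
        nlinarith
      have a8 : 2 * Real.log T ≤ 2 / σ * T ^ σ := by
        rw [div_mul_eq_mul_div, le_div_iff₀ hσ]; linarith
      change (j : ℝ) ≤ _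
      linarith)
    (fun p _ => by
      refine hC T L M X (min X (2 ^ p.1)) Y D _ hY hD (le_min hX (one_le_pow₀ (by norm_num)))
        (min_le_left _ _) hM hMT hT hL IH ?_ ?_ ?_
      · intro n hn
        rw [Finset.mem_filter, mem_SQ] at hn
        refine mem_SQ.2 ⟨le_min hn.1.1 ?_, hn.1.2⟩
        rw [← hn.2]
        exact (clog_bounds hn.1.2.1.ne_zero).1
      · intro n hn
        rw [Finset.mem_filter, mem_SQ] at hn
        have := (clog_bounds hn.1.2.1.ne_zero).2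
        rw [← hn.2]
        linarith [min_le_right X (2 ^ Nat.clog 2 (nm n))]
      · intro n1 h1 n2 h2
        exact congrArg Prod.snd ((Finset.mem_filter.1 h1).2.trans (Finset.mem_filter.1 h2).2.symm))
  refine h1.mono_D ?_
  rw [Finset.card_product, Finset.card_range, Finset.card_univ]
  push_cast
  have a1 : (J : ℝ) ≤ (1 + 2 / σ) * T ^ σ := Nat.floor_le (by positivity)
  have a2 : (J : ℝ) + 1 ≤ (2 + 2 / σ) * T ^ σ := by linarith
  have hM0 : 0 ≤ M := by linarith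
  calc _ ≤ (2 + 2 / σ) * T ^ σ * Fintype.card (G K) * (C * (T ^ σ) ^ 6 * D * M) := by gcongr
    _ = _ := by ring

variable (K) in
/-- the induction hypothesis -/
def PI (T0 Y L D : ℝ) : Prop :=
  ∀ t X, 0 ≤ t → t ≤ L → t ≤ T0 → 0 ≤ X → X ≤ T0 → LS K t X (D * (X + Y * t))

theorem iterate {σ : ℝ} (hσ : 0 < σ) (hσ2 : σ < 1 / 2) : ∃ C : ℝ, 1 ≤ C ∧
    ∀ T0 Y : ℝ, 1 ≤ T0 → 1 ≤ Y → ∀ J : ℕ,
      PI K T0 Y (Y ^ J / 2) ((C * (((T0 * Y) ^ 2) ^ σ) ^ 8) ^ J) := by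
  obtain ⟨C, hC0, hC⟩ := step (K := K) hσ hσ2
  obtain ⟨C0, hC01, hsym⟩ := LS_symm (K := K)
  refine ⟨C0 * C + 1, by nlinarith, fun T0 Y hT0 hY J => ?_⟩
  have hTY : 1 ≤ T0 * Y := one_le_mul_of_one_le_of_one_le hT0 hY
  set T := (T0 * Y) ^ 2 with hTdef
  have hT : 1 ≤ T := one_le_pow₀ hTY
  have hE : 1 ≤ T ^ σ := Real.one_le_rpow hT hσ.le
  have hE2 : T ^ σ ≤ T0 * Y := by
    calc T ^ σ ≤ T ^ (1 / 2 : ℝ) := Real.rpow_le_rpow_of_exponent_le hT hσ2.le
      _ = T0 * Y := by rw [← Real.sqrt_eq_rpow, Real.sqrt_sq (by positivity)]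
  have hF : 1 ≤ (C0 * C + 1) * (T ^ σ) ^ 8 :=
    one_le_mul_of_one_le_of_one_le (by nlinarith) (one_le_pow₀ hE)
  induction J with
  | zero =>
    intro t X h0 ht _ hX _
    exact LS_small (by simp at ht; linarith) (by positivity)
  | succ J ih =>
    intro t X h0 ht htT hX hXT
    set D := ((C0 * C + 1) * (T ^ σ) ^ 8) ^ J with hDdef
    have hD : 1 ≤ D := one_le_pow₀ hF
    by_cases ht1 : t < 1
    · exact LS_small ht1 (by positivity)
    push Not at ht1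
    have hmax : max X (t * Y * T ^ σ) ≤ T := by
      refine max_le (hXT.trans ?_) ?_
      · rw [hTdef]; nlinarith
      · exact (mul_le_mul (mul_le_mul_of_nonneg_right htT (by positivity)) hE2 (by positivity)
          (by positivity)).trans (le_of_eq (by rw [hTdef]; ring))
    have h1 := hC T (Y ^ J / 2) (max X (t * Y * T ^ σ)) t Y D hY hD ht1 (le_max_right _ _) hmax hT
      (by rw [pow_succ] at ht; linarith)
      (fun s X' a1 a2 a3 a4 a5 => ih s X' a1 a2 (a3.trans htT) a4 (a5.trans htT))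
    have hm0 : 0 ≤ max X (t * Y * T ^ σ) := hX.trans (le_max_left _ _)
    have h2 := hsym X t _ (by positivity) (h1.mono (le_max_left _ _) le_rfl le_rfl)
    refine h2.mono le_rfl le_rfl ?_
    have h3 : max X (t * Y * T ^ σ) ≤ T ^ σ * (X + Y * t) := by
      refine max_le ?_ ?_
      · nlinarith [mul_nonneg (show 0 ≤ Y by linarith) h0]
      · nlinarith [mul_nonneg (show 0 ≤ T ^ σ by linarith) hX]
    calc C0 * (C * (T ^ σ) ^ 7 * D * max X (t * Y * T ^ σ))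
        ≤ C0 * (C * (T ^ σ) ^ 7 * D * (T ^ σ * (X + Y * t))) := by gcongr
      _ = C0 * C * ((T ^ σ) ^ 8 * D * (X + Y * t)) := by ring
      _ ≤ (C0 * C + 1) * ((T ^ σ) ^ 8 * D * (X + Y * t)) := by gcongr; linarith
      _ = _ := by rw [pow_succ _ J, ← hDdef]; ring

theorem LS_final (A : ℝ) {ε : ℝ} (hε : 0 < ε) : ∃ C : ℝ, 0 ≤ C ∧ ∀ Z : ℝ, 3 ≤ Z → ∀ L X : ℝ,
    1 ≤ L → L ≤ Z ^ A → 1 ≤ X → X ≤ Z ^ A → LS K X L (C * Z ^ ε * (L + X)) := by
  set A' := max A 0 with hA'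
  have hA0 : 0 ≤ A' := le_max_right _ _
  obtain ⟨J, hJ⟩ := exists_nat_ge ((A' + 1) / (ε / 2))
  have hJ' : A' + 1 ≤ ε / 2 * J := by rw [div_le_iff₀ (by positivity)] at hJ; linarith
  set σ := min (1 / 4) (ε / (32 * (J + 1) * (A' + ε / 2))) with hσdef
  have hσ : 0 < σ := lt_min (by norm_num) (by positivity)
  have hσ2 : σ < 1 / 2 := (min_le_left _ _).trans_lt (by norm_num)
  have hσ3 : (A' + ε / 2) * 2 * σ * 8 * J ≤ ε / 2 := by
    have a1 : σ ≤ ε / (32 * (J + 1) * (A' + ε / 2)) := min_le_right _ _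
    rw [le_div_iff₀ (by positivity)] at a1
    have : 0 ≤ σ * (A' + ε / 2) := by positivity
    nlinarith
  obtain ⟨C, hC1, hC⟩ := iterate (K := K) hσ hσ2
  refine ⟨C ^ J, by positivity, fun Z hZ L X hK hKZ hX hXZ => ?_⟩
  have hZ1 : 1 ≤ Z := by linarith
  have hZA : Z ^ A ≤ Z ^ A' := Real.rpow_le_rpow_of_exponent_le hZ1 (le_max_left _ _)
  have hY : 1 ≤ Z ^ (ε / 2) := Real.one_le_rpow hZ1 (by positivity)
  have h1 := hC (Z ^ A') (Z ^ (ε / 2)) (Real.one_le_rpow hZ1 hA0) hY J X L (by linarith) (by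
    refine (hXZ.trans hZA).trans ?_
    rw [← Real.rpow_natCast, ← Real.rpow_mul (by positivity)]
    have a1 : Z ^ (A' + 1) ≤ Z ^ (ε / 2 * J) := Real.rpow_le_rpow_of_exponent_le hZ1 hJ'
    rw [Real.rpow_add (by positivity), Real.rpow_one] at a1
    have : 0 ≤ Z ^ A' := by positivity
    nlinarith) (hXZ.trans hZA) (by linarith) (hKZ.trans hZA)
  refine h1.mono le_rfl le_rfl ?_
  have e1 : ((((Z ^ A' * Z ^ (ε / 2)) ^ 2) ^ σ) ^ 8) ^ J = Z ^ ((A' + ε / 2) * 2 * σ * 8 * J) := by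
    rw [← Real.rpow_add (by positivity), Real.rpow_mul (by positivity) _ (J : ℝ),
      Real.rpow_mul (by positivity) _ (8 : ℝ), Real.rpow_mul (by positivity) _ σ,
      Real.rpow_mul (by positivity) _ (2 : ℝ), Real.rpow_natCast]
    norm_cast
  have e2 : Z ^ ε = Z ^ (ε / 2) * Z ^ (ε / 2) := by
    rw [← Real.rpow_add (by positivity)]; congr 1; ring
  rw [mul_pow, e1, e2]
  have a1 := Real.rpow_le_rpow_of_exponent_le hZ1 hσ3
  have a2 : L + Z ^ (ε / 2) * X ≤ Z ^ (ε / 2) * (L + X) := by nlinarith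
  calc _ ≤ C ^ J * Z ^ (ε / 2) * (Z ^ (ε / 2) * (L + X)) := by gcongr
    _ = _ := by ring

end Crest.Agent.R312.QL
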