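import Crest.Agent.R312.B4QDefs
import Crest.Agent.R312.B0Api

/-!
# R312 / B4QSym : basic facts, symmetry (port of `R17/QLS_Defs`, second half)  (read the header of `B4QDefs` first).  Statements frozen; add lemmas freely.
-/

set_option autoImplicit false

noncomputable section

open scoped Classical ComplexConjugate NumberField
open MeasureTheory

namespace Crest.Agent.R312.QL

variable {K : Type} [Field K] [NumberField K] [Fld K] [Loc K] [Setup K]

theorem mem_SQ {X : ℝ} {k : R K} : k ∈ SQ K X ↔ N k ≤ X ∧ Prim k ∧ Squarefree k := by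
  rw [SQ, Finset.mem_filter, mem_ball]
  tauto

theorem SQ_mono {X Y : ℝ} (h : X ≤ Y) : SQ K X ⊆ SQ K Y := by
  exact Finset.filter_subset_filter _ (ball_mono h)

theorem card_SQ_le : ∃ C : ℝ, 0 ≤ C ∧ ∀ X : ℝ, 0 ≤ X → ((SQ K X).card : ℝ) ≤ C * X := by
  obtain ⟨C, h0, hC⟩ := card_ball_le (K := K)
  exact ⟨C, h0, fun X hX => le_trans (by exact_mod_cast Finset.card_filter_le _ _) (hC X hX)⟩

theorem LS.mono {M X D M' X' D' : ℝ} (h : LS K M X D) (hM : M' ≤ M) (hX : X' ≤ X) (hD : D ≤ D') :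
    LS K M' X' D' := by
  exact ((Bd.mono_rows h (SQ_mono hM)).mono_cols (SQ_mono hX)).mono_D hD

theorem LS_small {t X D : ℝ} (ht : t < 1) (hD : 0 ≤ D) : LS K t X D := by
  intro a
  rw [SQ, ball_eq_empty ht, Finset.filter_empty, Finset.sum_empty]
  exact mul_nonneg hD (sumsq_nonneg _ _)

theorem qua_isChar {n : R K} (hn : n ≠ 0) : IsChar n (qua n) := by
  exact R312.qua_isChar hn

theorem qua_mul {n : R K} (hn : n ≠ 0) (a b : R K) : qua n (a * b) = qua n a * qua n b := by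
  exact (qua_isChar hn).mul a b

theorem qua_sq {n : R K} (hn : n ≠ 0) (d : R K) :
    qua n d ^ 2 = if IsCoprime d n then 1 else 0 := by
  exact sym_pow_eq (k := 2) (Or.inl rfl) hn d

theorem norm_qua_le {n : R K} (hn : n ≠ 0) (d : R K) : ‖qua n d‖ ≤ 1 := by
  exact norm_sym_le (k := 2) (Or.inl rfl) hn d

theorem qua_mul_left {a b : R K} (ha : a ≠ 0) (hb : b ≠ 0) (d : R K) :
    qua (a * b) d = qua a d * qua b d := by
  exact sym_mul_left 2 ha hb d

theorem qua_one (d : R K) : qua 1 d = 1 := by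
  exact sym_one 2 d

theorem conj_qua' {n : R K} (hn : n ≠ 0) (d : R K) : conj (qua n d) = qua n d := by
  exact conj_qua hn d

/-- `qua = chi ^ 3` and sextic reciprocity `chi a b = sg a b * chi b a`, `sg a b = HH (cl a) (cl b)`; take `s g h = HH g h ^ 3` -/
theorem qua_rec' : ∃ s : G K → G K → ℂ, (∀ g h, ‖s g h‖ ≤ 1) ∧
    ∀ a b : R K, a ≠ 0 → b ≠ 0 → qua a b = s (cl a) (cl b) * qua b a := by
  exact ⟨fun g h => HH g h ^ 3, fun g h => by rw [norm_pow, norm_HH, one_pow], fun a b ha hb => qua_rec ha hb⟩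

/-- `cl (k1 k2) = cl (k1²)`, `gam` is a class function, `gam (1 * 1 * k1²) = gam 1 = 1` (`Setup.gam_cls`) -/
theorem gam_pair {k1 k2 : R K} (h1 : k1 ≠ 0) (h2 : k2 ≠ 0) (h : cl k1 = cl k2) : gam (k1 * k2) = 1 := by
  rw [gam_congr (mul_ne_zero h1 h2) (pow_ne_zero 2 h1) (by rw [cl_mul h1 h2, cl_pow h1, ← h, sq]),
    gam_sq_class h1]

/-- `qua k u = s (cl k) (cl u) * qua u k = s (cl k) (cl u)` depends only on `cl k` (`qua_rec'`), and `qua k1 u ^ 2 = 1` -/
theorem qua_pair_unit {k1 k2 : R K} (h1 : k1 ≠ 0) (h2 : k2 ≠ 0) (h : cl k1 = cl k2) (u : (R K)ˣ) :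
    qua (k1 * k2) u = 1 := by
  have h3 : qua k2 u = qua k1 u := by
    rw [← chi_cube h1, ← chi_cube h2, chi_unit_congr h1 h2 h u.isUnit]
  rw [qua_mul_left h1 h2, h3, ← sq, qua_sq h1, if_pos ⟨↑u⁻¹, 0, by simp⟩]

/-- Symmetry (R17 `HH_symm`, much shorter here).  `Bd.transpose`; split the rows `b ∈ SQ M` along `cl b = g`
(`Finset.sum_fiberwise_of_maps_to`, `G K` is finite); on a fibre `qua n b = s (cl n) g * qua b n`, so apply the transposed bound to
`a n * s (cl n) g`. -/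
theorem LS_symm : ∃ C0 : ℝ, 1 ≤ C0 ∧ ∀ X M D : ℝ, 0 ≤ D → LS K X M D → LS K M X (C0 * D) := by
  obtain ⟨s, hs, hr⟩ := qua_rec' (K := K)
  refine ⟨Fintype.card (G K), by exact_mod_cast Fintype.card_pos, fun X M D hD h a => ?_⟩
  have ht := Bd.transpose h hD
  rw [← Finset.sum_fiberwise (SQ K M) cl, mul_assoc, ← nsmul_eq_mul, ← Finset.card_univ]
  refine Finset.sum_le_card_nsmul _ _ _ fun g _ => ?_
  calc _ = ∑ b ∈ (SQ K M).filter (fun b => cl b = g), ‖∑ n ∈ SQ K X, a n * s (cl n) g * qk n b‖ ^ 2 := by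
        refine Finset.sum_congr rfl fun b hb => ?_
        obtain ⟨h1, h2⟩ := Finset.mem_filter.1 hb
        congr 2
        refine Finset.sum_congr rfl fun n hn => ?_
        rw [qk, qk, hr n b (mem_SQ.1 hn).2.1.ne_zero (mem_SQ.1 h1).2.1.ne_zero, h2, mul_assoc]
    _ ≤ _ := Finset.sum_le_sum_of_subset_of_nonneg (Finset.filter_subset _ _) fun _ _ _ => by positivity
    _ ≤ _ := ht _
    _ ≤ _ := by
        refine mul_le_mul_of_nonneg_left (Finset.sum_le_sum fun n _ => ?_) hD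
        refine pow_le_pow_left₀ (norm_nonneg _) ?_ 2
        rw [norm_mul]
        exact mul_le_of_le_one_right (norm_nonneg _) (hs _ _)

end Crest.Agent.R312.QL
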