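import Crest.Agent.R312.B4TRow

/-!
# R312 / B4T : mean square of theta blocks (head module; port of `R17/ThetaNorm*` without marks)
-/

set_option autoImplicit false

noncomputable section

open scoped Classical ComplexConjugate NumberField
open MeasureTheory

namespace Crest.Agent.R312

variable {K : Type} [Field K] [NumberField K] [Fld K] [Loc K] [Setup K]

theorem thetaNorm (A : ℝ) {ε : ℝ} (hε : 0 < ε) : ∃ (C : ℝ) (B : ℕ), ∀ Z : ℝ, 3 ≤ Z →
    ∀ (ν : Tw K) (L y t : ℝ), 1 ≤ L → L ≤ Z ^ A → |y| ≤ A * Real.log Z →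
      ∑ k ∈ ball K L, ‖Fth ν k y t‖ ^ 2 ≤
        C * Z ^ ε * (1 + |t| + ν.sz) ^ B * (L + L ^ 2 / Real.exp y) := by
  obtain ⟨C, B, h0, hC⟩ := TN.prim_rows (K := K) A hε
  refine ⟨Fintype.card (G K) * C, B, fun Z hZ ν L y t hL hLZ hy => ?_⟩
  rw [← Finset.sum_fiberwise (ball K L) cl, mul_assoc, mul_assoc, mul_assoc, ← nsmul_eq_mul,
    ← Finset.card_univ]
  refine Finset.sum_le_card_nsmul _ _ _ fun g _ => ?_
  obtain ⟨θ, h1, h2⟩ := TN.Fth_eq g
  have h3 : (ν * θ).sz = ν.sz := by rw [Tw.sz, Tw.mul_ξ, h1, add_zero, Tw.sz]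
  rw [← mul_assoc, ← mul_assoc, ← h3]
  refine le_trans ?_ (hC Z hZ (ν * θ) L y t hL hLZ hy)
  rw [Finset.sum_congr rfl fun k hk => by
    rw [h2 ν k (mem_ball.1 (Finset.mem_filter.1 hk).1).1 (Finset.mem_filter.1 hk).2]]
  exact Finset.sum_le_sum_of_subset_of_nonneg (Finset.filter_subset _ _) fun _ _ _ => by positivity

end Crest.Agent.R312
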