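import Crest.Agent.R312.B4TDefs

/-!
# R312 / B4TAux : general inequalities (port of `R17/ThetaNorm_Aux`)  (read the header of `B4TDefs` first).  Statements frozen; add lemmas freely.
-/

set_option autoImplicit false

noncomputable section

open scoped Classical ComplexConjugate NumberField
open MeasureTheory

namespace Crest.Agent.R312.TN

variable {K : Type} [Field K] [NumberField K] [Fld K] [Loc K] [Setup K]

theorem pow_primes_Z (A : ℝ) {ε : ℝ} (hε : 0 < ε) : ∃ C, 0 ≤ C ∧ ∀ Z : ℝ, 3 ≤ Z → ∀ n : R K, n ≠ 0 →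
    N n ≤ Z ^ A → (4 : ℝ) ^ ((pdiv n).filter Prime).card ≤ C * Z ^ ε := by
  obtain ⟨C, hC⟩ := pow_card_primes_le (K := K) 4 (ε := ε / (|A| + 1)) (by positivity)
  refine ⟨|C|, abs_nonneg _, fun Z hZ n hn h => (hC n hn).trans ?_⟩
  exact mul_le_mul (le_abs_self _) (R17.TN.aux_rpow hε hZ (N_nonneg _) h)
    (Real.rpow_nonneg (N_nonneg _) _) (abs_nonneg _)

theorem sum_inv_Z (A : ℝ) {ε : ℝ} (hε : 0 < ε) : ∃ C, 0 ≤ C ∧ ∀ Z : ℝ, 3 ≤ Z → ∀ S : Finset (R K),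
    (∀ n ∈ S, Prim n ∧ N n ≤ Z ^ A) → ∑ n ∈ S, (N n)⁻¹ ≤ C * Z ^ ε := by
  obtain ⟨C, hC⟩ := sum_ball_inv (K := K)
  refine ⟨|C| * (1 + |A| / ε), by positivity, fun Z hZ S hS => ?_⟩
  obtain ⟨a1, a2⟩ := R17.TN.aux_log hε hZ
  have h1 : S ⊆ ball K (Z ^ |A|) := fun n hn =>
    mem_ball.2 ⟨(hS n hn).1, (hS n hn).2.trans (R17.TN.aux_abs hZ)⟩
  have h2 := hC (Z ^ |A|) (Real.one_le_rpow (by linarith) (abs_nonneg _))
  rw [Real.log_rpow (by linarith)] at h2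
  have h3 : 0 ≤ Real.log Z := Real.log_nonneg (by linarith)
  refine (Finset.sum_le_sum_of_subset_of_nonneg h1 fun n _ _ => inv_nonneg.2 (N_nonneg n)).trans
    (h2.trans ?_)
  calc C * (1 + |A| * Real.log Z) ≤ |C| * (Z ^ ε + |A| * (Z ^ ε / ε)) := by
        refine mul_le_mul (le_abs_self _) (by gcongr) (by positivity) (abs_nonneg _)
    _ = _ := by ring

/-- `sum_powerful_le` -/
theorem sum_pw_Z (A : ℝ) {ε : ℝ} (hε : 0 < ε) : ∃ C, 0 ≤ C ∧ ∀ Z : ℝ, 3 ≤ Z → ∀ S : Finset (R K),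
    (∀ n ∈ S, Prim n ∧ N n ≤ Z ^ A ∧ Pw n) → ∑ n ∈ S, (Real.sqrt (N n))⁻¹ ≤ C * Z ^ ε := by
  obtain ⟨C, hC⟩ := sum_powerful_le (K := K) (ε := ε / (|A| + 1)) (by positivity)
  refine ⟨|C|, abs_nonneg _, fun Z hZ S hS => ?_⟩
  have h1 : (1 : ℝ) ≤ Z ^ |A| := Real.one_le_rpow (by linarith) (abs_nonneg _)
  have h2 := hC (Z ^ |A|) h1 S fun f hf =>
    ⟨(hS f hf).1, (hS f hf).2.1.trans (R17.TN.aux_abs hZ), (hS f hf).2.2⟩
  have h3 := R17.TN.aux_rpow (A := |A|) hε hZ (by linarith : 0 ≤ Z ^ |A|) le_rfl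
  rw [abs_abs] at h3
  refine le_trans (le_of_eq (Finset.sum_congr rfl fun n _ => ?_)) (h2.trans ?_)
  · rw [Real.rpow_neg (N_nonneg _), Real.sqrt_eq_rpow]
  · exact mul_le_mul (le_abs_self _) h3 (by positivity) (abs_nonneg _)

/-- `sum_ball_rpow` with `σ = 1/2` (the ball is empty for `X < 1`) -/
theorem sum_inv_sqrt : ∃ C, 0 ≤ C ∧ ∀ X : ℝ, ∑ n ∈ ball K X, (Real.sqrt (N n))⁻¹ ≤ C * Real.sqrt X := by
  obtain ⟨C, hC⟩ := sum_ball_rpow (K := K) (σ := 1 / 2) (by norm_num)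
  refine ⟨|C|, abs_nonneg _, fun X => ?_⟩
  rcases lt_or_ge X 1 with h | h
  · rw [ball_eq_empty h, Finset.sum_empty]; positivity
  · refine le_trans (le_of_eq (Finset.sum_congr rfl fun n _ => ?_)) ((hC X h).trans ?_)
    · rw [Real.rpow_neg (N_nonneg _), Real.sqrt_eq_rpow]
    · rw [Real.sqrt_eq_rpow, show (1 : ℝ) - 1 / 2 = 1 / 2 by norm_num]
      exact mul_le_mul_of_nonneg_right (le_abs_self _) (by positivity)

theorem dy_spec {n : R K} (hn : n ≠ 0) : (2 : ℝ) ^ dy n ≤ N n ∧ N n ≤ 2 * 2 ^ dy n := by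
  have h1 := Nat.pow_log_le_self 2 (nm_pos hn).ne'
  have h2 := (Nat.lt_pow_succ_log_self (by norm_num : 1 < 2) (nm n)).le
  rw [pow_succ'] at h2
  unfold dy N
  exact ⟨by exact_mod_cast h1, by exact_mod_cast h2⟩

theorem dy_Z (A : ℝ) {ε : ℝ} (hε : 0 < ε) : ∃ C, 0 ≤ C ∧ ∀ Z : ℝ, 3 ≤ Z → ∃ J : ℕ,
    (J : ℝ) ≤ C * Z ^ ε ∧ ∀ n : R K, n ≠ 0 → N n ≤ Z ^ A → dy n < J := by
  refine ⟨2 * |A| / ε + 1, by positivity, fun Z hZ => ⟨⌊2 * |A| / ε * Z ^ ε⌋₊ + 1, ?_, fun n hn h => ?_⟩⟩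
  · obtain ⟨-, a2⟩ := R17.TN.aux_log hε hZ
    have := Nat.floor_le (by positivity : 0 ≤ 2 * |A| / ε * Z ^ ε)
    push_cast
    linarith
  · obtain ⟨a1, -⟩ := R17.TN.aux_log hε hZ
    refine Nat.lt_succ_of_le (Nat.le_floor ?_)
    have h1 := Real.log_le_log (by positivity) ((dy_spec hn).1.trans (h.trans (R17.TN.aux_abs hZ)))
    rw [Real.log_pow, Real.log_rpow (by linarith)] at h1
    have h2 := mul_le_mul_of_nonneg_left a1 (abs_nonneg A)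
    have h3 := Real.log_two_gt_d9
    have h4 : (0 : ℝ) ≤ dy n := Nat.cast_nonneg _
    have h5 : 2 * |A| / ε * Z ^ ε = 2 * (|A| * (Z ^ ε / ε)) := by ring
    nlinarith

/-- R17 `tau_ne_zero`, `tau_eq`, `norm_g3` (file `RecKey`) -/
theorem tau_shape {n : R K} (hn : Prim n) (h : tau n ≠ 0) :
    ∃ m c, Prim m ∧ Squarefree m ∧ Prim c ∧ n = m * c ^ 3 ∧ ‖tau n‖ ≤ Real.sqrt (N c) := by
  obtain ⟨m, c, hm, hs, hc, e⟩ := tau_ne_zero hn h
  exact ⟨m, c, hm, hs, hc, e, by rw [e, rkey_norm_tau hm hs hc]⟩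

theorem norm_tau_le_sqrt {n : R K} (hn : Prim n) : ‖tau n‖ ≤ Real.sqrt (N n) := by
  rw [Real.sqrt_eq_rpow]
  exact (norm_tau_le hn).trans (Real.rpow_le_rpow_of_exponent_le (one_le_N hn.ne_zero) (by norm_num))

/-- linearity of `pb` on twisted theta coefficients (`blks_sum`, `blks_smul`; `‖tt m‖ ≤ N m`, `‖angN m‖ ≤ 1`) -/
theorem pb_tt_sum {ι : Type*} (s : Finset ι) (c : ι → ℂ) (f : ι → R K → ℂ)
    (hf : ∀ i ∈ s, ∃ C, ∀ m, ‖f i m‖ ≤ C) (y t : ℝ) :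
    pb (fun m => tt m * ∑ i ∈ s, c i * f i m) y t =
      ∑ i ∈ s, c i * pb (fun m => tt m * f i m) y t := by
  have h1 : ∀ i ∈ s, PolyBd (fun n => c i * (tt n * f i n)) := by
    intro i hi
    obtain ⟨C, hC⟩ := hf i hi
    refine ⟨‖c i‖ * C, 1, fun n hn => ?_⟩
    rw [norm_mul, norm_mul, mul_assoc, pow_one, mul_comm C]
    refine mul_le_mul_of_nonneg_left (mul_le_mul ((norm_tt_le hn).trans ?_) (hC n) (norm_nonneg _)
      (N_nonneg _)) (norm_nonneg _)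
    calc N n ^ (1 / 6 : ℝ) ≤ N n ^ (1 : ℝ) :=
          Real.rpow_le_rpow_of_exponent_le (one_le_N hn.ne_zero) (by norm_num)
      _ = N n := Real.rpow_one _
  have h2 : (fun m => tt m * ∑ i ∈ s, c i * f i m) = fun n => ∑ i ∈ s, c i * (tt n * f i n) := by
    funext n
    rw [Finset.mul_sum]
    exact Finset.sum_congr rfl fun i _ => by ring
  unfold pb
  rw [h2, blks_sum s h1]
  exact Finset.sum_congr rfl fun i _ => blks_smul _ _ _ _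

end Crest.Agent.R312.TN
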