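import Crest.Agent.R312.B4TDual

/-!
# R312 / B4TBox : dyadic boxes (port of `R17/ThetaNorm_Sep, Box, Boxes`)  (read the header of `B4TDefs` first).  Statements frozen; add lemmas freely.
-/

set_option autoImplicit false

noncomputable section

open scoped Classical ComplexConjugate NumberField
open MeasureTheory

namespace Crest.Agent.R312.TN

variable {K : Type} [Field K] [NumberField K] [Fld K] [Loc K] [Setup K]

theorem b4tb_exp {x : ℝ} (hx : 0 < x) : Real.exp (-Real.log x / 2) = (Real.sqrt x)⁻¹ := by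
  rw [Real.sqrt_eq_rpow, Real.rpow_def_of_pos hx, ← Real.exp_neg]
  congr 1
  ring

theorem b4tb_sq (a b : ℝ) : (a + b) ^ 2 ≤ 2 * a ^ 2 + 2 * b ^ 2 := by nlinarith [sq_nonneg (a - b)]

theorem b4tb_scalar {x L : ℝ} (hx : 0 < x) (hL : 0 < L) (s τ d : ℝ) :
    (x : ℂ) ^ (-(1 / 2 : ℂ)) * (Real.exp ((Real.log x + s - 2 * d) / 4) : ℝ) *
        Complex.exp (τ * (Real.log x + s - 2 * d : ℝ) * Complex.I) =
      ((Real.exp (s / 4) / Real.sqrt L : ℝ) : ℂ) *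
        (((Real.sqrt L * Real.exp (-d / 2) : ℝ) : ℂ) * Complex.exp ((τ * (s - 2 * d) : ℝ) * Complex.I)) *
        (((Real.exp (-Real.log x / 4) : ℝ) : ℂ) * Complex.exp ((τ * Real.log x : ℝ) * Complex.I)) := by
  have hL' : ((Real.sqrt L : ℝ) : ℂ) ≠ 0 := by exact_mod_cast (Real.sqrt_pos.2 hL).ne'
  rw [Complex.cpow_def_of_ne_zero (by exact_mod_cast hx.ne'), ← Complex.ofReal_log hx.le]
  generalize Real.log x = a
  have e2 : Complex.exp (a * (-(1 / 2 : ℂ))) * Complex.exp ((a + s - 2 * d) / 4) *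
      Complex.exp (τ * (a + s - 2 * d) * Complex.I) =
      Complex.exp (s / 4) * (Complex.exp (-d / 2) * Complex.exp (τ * (s - 2 * d) * Complex.I)) *
        (Complex.exp (-a / 4) * Complex.exp (τ * a * Complex.I)) := by
    simp only [← Complex.exp_add]
    congr 1
    ring
  push_cast
  rw [e2]
  field_simp

/-- With `u = log N n + s - 2 log N k`: `N n^{-1/2} e^{u/4} = N n^{-1/4} e^{s/4} (N k)^{-1/2}`.  So the `k`-th sum is
`∫ κ τ * F k τ`, `F k τ = e^{s/4} (N k)^{-1/2} e^{iτ(s - 2 log N k)} ∑_n g τ n * qua k n`,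
`g τ n = v n * N n^{-1/4} * b n τ * e^{iτ log N n}` (`integral_finsetSum`); `R17.TN.mink_int`. -/
theorem sep {P : ℝ} {Pj : ℕ → ℝ} {𝒦 : R K → ℝ → ℂ} (h : KH P Pj 𝒦) {v : R K → ℂ} {D : ℝ}
    (hv : ∀ n, ‖v n‖ ≤ D) (Rw : Finset (R K)) {K₁ X Bd : ℝ} (s : ℝ) (hK : 0 < K₁) (hR : ∀ k ∈ Rw, K₁ ≤ N k)
    (hB : ∀ u : R K → ℂ, (∀ n ∈ ball K X, ‖u n‖ ^ 2 ≤ D ^ 2 * ‖tau n‖ ^ 2 * (Real.sqrt (N n))⁻¹) →
      ∑ k ∈ Rw, ‖∑ n ∈ ball K X, u n * qua k n‖ ^ 2 ≤ Bd) :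
    ∑ k ∈ Rw, ‖∑ n ∈ ball K X, ph 𝒦 v s k n‖ ^ 2 ≤ P ^ 2 * (Real.exp (s / 2) / K₁) * Bd := by
  obtain ⟨κ, b, hκ, hP, hbc, hb, h𝒦⟩ := h.rep
  set g : ℝ → R K → ℂ := fun τ n => v n * b n τ * ((Real.exp (-Real.log (N n) / 4) : ℝ) *
    Complex.exp ((τ * Real.log (N n) : ℝ) * Complex.I)) with hg
  set F : R K → ℝ → ℂ := fun k τ =>
    ((Real.sqrt K₁ * Real.exp (-Real.log (N k) / 2) : ℝ) *
      Complex.exp ((τ * (s - 2 * Real.log (N k)) : ℝ) * Complex.I)) *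
      ∑ n ∈ ball K X, g τ n * qua k n with hF
  have hFc : ∀ k, Continuous (F k) := by
    intro k
    refine Continuous.mul (by fun_prop) (continuous_finsetSum _ fun n _ =>
      Continuous.mul ?_ continuous_const)
    have := hbc n
    simp only [hg]
    fun_prop
  have hFb : ∀ τ, ∑ k ∈ Rw, ‖F k τ‖ ^ 2 ≤ Bd := by
    intro τ
    refine le_trans (Finset.sum_le_sum fun k hk => ?_) (hB (g τ) fun n hn => ?_)
    · refine pow_le_pow_left₀ (norm_nonneg _) ?_ 2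
      have h1 := hR k hk
      simp only [hF]
      rw [norm_mul, norm_mul, Complex.norm_exp_ofReal_mul_I, mul_one, Complex.norm_real,
        Real.norm_of_nonneg (by positivity), b4tb_exp (hK.trans_le h1), ← div_eq_mul_inv]
      exact mul_le_of_le_one_left (norm_nonneg _)
        (div_le_one_of_le₀ (Real.sqrt_le_sqrt h1) (Real.sqrt_nonneg _))
    · have hp := N_pos (mem_ball.1 hn).1.ne_zero
      simp only [hg]
      rw [norm_mul, norm_mul, norm_mul, Complex.norm_exp_ofReal_mul_I, mul_one, Complex.norm_real,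
        Real.norm_of_nonneg (by positivity), mul_pow, mul_pow, ← b4tb_exp hp, ← Real.exp_nat_mul,
        show ((2 : ℕ) : ℝ) * (-Real.log (N n) / 4) = -Real.log (N n) / 2 by push_cast; ring]
      gcongr
      exacts [hv n, hb n τ]
  have hint : ∀ (n : R K) (u : ℝ),
      Integrable fun τ : ℝ => κ τ * b n τ * Complex.exp (τ * u * Complex.I) := by
    intro n u
    simp only [mul_assoc (κ _)]
    have := hbc n
    refine hκ.mul_bdd (c := ‖tau n‖) (Continuous.aestronglyMeasurable (by fun_prop))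
      (Filter.Eventually.of_forall fun τ => ?_)
    rw [norm_mul, ← Complex.ofReal_mul, Complex.norm_exp_ofReal_mul_I, mul_one]
    exact hb n τ
  have key : ∀ k ∈ Rw, ∑ n ∈ ball K X, ph 𝒦 v s k n =
      ((Real.exp (s / 4) / Real.sqrt K₁ : ℝ) : ℂ) * ∫ τ, κ τ * F k τ := by
    intro k hk
    have e1 : ∀ n ∈ ball K X, ph 𝒦 v s k n =
        ∫ τ : ℝ, (v n * qua k n * (N n : ℂ) ^ (-(1 / 2 : ℂ)) *
          (Real.exp ((Real.log (N n) + s - 2 * Real.log (N k)) / 4) : ℝ)) *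
          (κ τ * b n τ * Complex.exp (τ * (Real.log (N n) + s - 2 * Real.log (N k) : ℝ) *
            Complex.I)) := by
      intro n _
      rw [integral_const_mul, ph, h𝒦]
      ring
    rw [Finset.sum_congr rfl e1, ← integral_finsetSum _ fun n _ => (hint _ _).const_mul _,
      ← integral_const_mul]
    refine integral_congr_ae (Filter.Eventually.of_forall fun τ => ?_)
    simp only [hF, Finset.mul_sum]
    refine Finset.sum_congr rfl fun n hn => ?_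
    have h1 := b4tb_scalar (N_pos (mem_ball.1 hn).1.ne_zero) hK s τ (Real.log (N k))
    simp only [hg]
    linear_combination (v n * qua k n * κ τ * b n τ) * h1
  have h2 := R17.TN.mink_int Rw κ hκ hP F hFc hFb
  calc _ = ∑ k ∈ Rw, Real.exp (s / 2) / K₁ * ‖∫ τ, κ τ * F k τ‖ ^ 2 := by
        refine Finset.sum_congr rfl fun k hk => ?_
        rw [key k hk, norm_mul, mul_pow, Complex.norm_real, Real.norm_eq_abs, sq_abs, div_pow,
          Real.sq_sqrt hK.le, ← Real.exp_nat_mul]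
        congr 3
        push_cast
        ring
    _ ≤ Real.exp (s / 2) / K₁ * (P ^ 2 * Bd) := by
        rw [← Finset.mul_sum]
        exact mul_le_mul_of_nonneg_left h2 (by positivity)
    _ = _ := by ring

/-- The `n`-th term has norm `≤ D Pj (N k² e^{-s})^j N n^{-j}` (`norm_tau_le_sqrt`); for `N n > X`,
`N n^{-j} ≤ X^{2-j} N n^{-2}`, and `∑_{n primary} N n^{-2} < ∞`. -/
theorem tail : ∃ C, 0 ≤ C ∧ ∀ (j : ℕ), 2 ≤ j → ∀ (P : ℝ) (Pj : ℕ → ℝ) (𝒦 : R K → ℝ → ℂ), KH P Pj 𝒦 →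
    ∀ (v : R K → ℂ) (D : ℝ), (∀ n, ‖v n‖ ≤ D) → ∀ (s X : ℝ) (k : R K), k ≠ 0 → 0 < X →
    ‖Phi 𝒦 v s k - ∑ n ∈ ball K X, ph 𝒦 v s k n‖ ≤
      C * D * Pj j * (N k ^ 2 / Real.exp s / X) ^ j * X ^ 2 := by
  have hs := summable_N_rpow (K := K) (σ := 2) one_lt_two
  have hnn : ∀ n : R K, 0 ≤ if Prim n then N n ^ (-(2 : ℝ)) else 0 := fun n => by
    split_ifs
    exacts [Real.rpow_nonneg (N_nonneg _) _, le_rfl]
  refine ⟨∑' n : R K, if Prim n then N n ^ (-(2 : ℝ)) else 0, tsum_nonneg hnn,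
    fun j hj P Pj 𝒦 h v D hv s X k hk hX => ?_⟩
  obtain ⟨i, rfl⟩ : ∃ i, j = i + 2 := ⟨j - 2, by omega⟩
  have hD : 0 ≤ D := (norm_nonneg _).trans (hv 0)
  have hPj := h.nn (i + 2)
  have hz := N_pos hk
  set G : R K → ℂ := fun n => if Prim n ∧ X < N n then ph 𝒦 v s k n else 0 with hG
  set T := N k ^ 2 / Real.exp s with hT
  have hT0 : 0 ≤ T := by positivity
  have hb : ∀ n, ‖G n‖ ≤ D * Pj (i + 2) * (T / X) ^ (i + 2) * X ^ 2 *
      if Prim n then N n ^ (-(2 : ℝ)) else 0 := by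
    intro n
    simp only [hG]
    by_cases hn : Prim n ∧ X < N n
    swap
    · rw [if_neg hn, norm_zero]
      exact mul_nonneg (by positivity) (hnn n)
    rw [if_pos hn, if_pos hn.1]
    have hp := N_pos hn.1.ne_zero
    have e1 : ‖(N n : ℂ) ^ (-(1 / 2 : ℂ))‖ = (Real.sqrt (N n))⁻¹ := by
      rw [Complex.norm_cpow_eq_rpow_re_of_pos hp, Real.sqrt_eq_rpow, ← Real.rpow_neg hp.le]
      congr 1
      simp
    have e2 : Real.exp (-(((i + 2 : ℕ) : ℝ) * (Real.log (N n) + s - 2 * Real.log (N k)))) =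
        (T / N n) ^ (i + 2) := by
      rw [← mul_neg, Real.exp_nat_mul]
      congr 1
      rw [neg_sub, Real.exp_sub, Real.exp_add, Real.exp_log hp, two_mul, Real.exp_add,
        Real.exp_log hz, hT]
      field_simp
    have hsq : 0 < Real.sqrt (N n) := Real.sqrt_pos.2 hp
    have h1 := h.dec (i + 2) n (Real.log (N n) + s - 2 * Real.log (N k))
    rw [e2] at h1
    have h2 : ‖qua k n‖ ≤ 1 := norm_sym_le (k := 2) (by simp) hk n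
    have h3 := norm_tau_le_sqrt hn.1
    have h4 : (T / N n) ^ i ≤ (T / X) ^ i := by
      have := hn.2.le
      gcongr
    unfold ph
    rw [norm_mul, norm_mul, norm_mul, e1, Real.rpow_neg hp.le, Real.rpow_two]
    calc _ ≤ D * 1 * (Real.sqrt (N n))⁻¹ * (Pj (i + 2) * Real.sqrt (N n) * (T / N n) ^ (i + 2)) := by
          refine mul_le_mul ?_ (h1.trans ?_) (norm_nonneg _) (by positivity)
          · gcongr
            exact hv n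
          · gcongr
      _ = D * Pj (i + 2) * ((T / N n) ^ i * (T / N n) ^ 2) := by
          rw [← pow_add]
          field_simp
      _ ≤ D * Pj (i + 2) * ((T / X) ^ i * (T / N n) ^ 2) := by gcongr
      _ = _ := by
          rw [pow_add]
          field_simp
  have hGs : Summable G := Summable.of_norm_bounded (hs.mul_left _) hb
  have hsplit : ∀ n, (if Prim n then ph 𝒦 v s k n else 0) =
      G n + if n ∈ ball K X then ph 𝒦 v s k n else 0 := by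
    intro n
    simp only [hG, mem_ball]
    by_cases h1 : Prim n <;> by_cases h2 : X < N n
    · simp [h1, h2, not_le.2 h2]
    · simp [h1, h2, not_lt.1 h2]
    · simp [h1]
    · simp [h1]
  have hfin : HasSum (fun n => if n ∈ ball K X then ph 𝒦 v s k n else 0)
      (∑ n ∈ ball K X, ph 𝒦 v s k n) := by
    rw [← Finset.sum_congr rfl fun n (hn : n ∈ ball K X) => if_pos (e := (0 : ℂ)) hn]
    exact hasSum_sum_of_ne_finset_zero fun n hn => if_neg hn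
  unfold Phi
  rw [tsum_congr hsplit, hGs.tsum_add hfin.summable, hfin.tsum_eq, add_sub_cancel_right]
  refine (tsum_of_norm_bounded (hs.hasSum.mul_left _) hb).trans (le_of_eq ?_)
  ring

set_option maxHeartbeats 400000 in
/-- `A ≥ 0`; `M = K₁²/e^s ≤ Z^{3A}`, `δ = min (ε/4) 1`, `W = Z^δ`, `X = 4 M W ≤ Z^{3A+3}`; `j ≥ 2` with `j δ ≥ 6A + 6`.
`Phi k = main k + rest k`.  Main: `sep` with `dual_norm (3A+3)` (`L = 2K₁`): `e^{s/2}/K₁ = M^{-1/2}`,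
`M^{-1/2} (2K₁ + X) √X ≤ 8 W² (K₁ + M)`.  Rest: `tail`, `N k²/e^s/X ≤ 1/W`, `X² ≤ W^j`, `card Rw ≤ 2 C K₁` (`QL.card_SQ_le`). -/
theorem box (A : ℝ) {ε : ℝ} (hε : 0 < ε) : ∃ (C : ℝ) (j : ℕ), 0 ≤ C ∧ ∀ Z : ℝ, 3 ≤ Z →
    ∀ (P : ℝ) (Pj : ℕ → ℝ) (𝒦 : R K → ℝ → ℂ), KH P Pj 𝒦 → ∀ (v : R K → ℂ) (D : ℝ), (∀ n, ‖v n‖ ≤ D) →
    ∀ (Rw : Finset (R K)) (K₁ s : ℝ), Rw ⊆ QL.SQ K (2 * K₁) → (∀ k ∈ Rw, K₁ ≤ N k) → 1 ≤ K₁ → K₁ ≤ Z ^ A →
    |s| ≤ A * Real.log Z →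
    ∑ k ∈ Rw, ‖Phi 𝒦 v s k‖ ^ 2 ≤ C * Z ^ ε * D ^ 2 * (P ^ 2 + Pj j ^ 2) * (K₁ + K₁ ^ 2 / Real.exp s) := by
  obtain ⟨C3, hC30, hC3⟩ := dual_norm (K := K) (3 * A + 3) (half_pos hε)
  obtain ⟨Ct, hCt0, hCt⟩ := tail (K := K)
  obtain ⟨Cc, hCc0, hCc⟩ := QL.card_SQ_le (K := K)
  obtain ⟨δ, hδ⟩ : ∃ δ, δ = min (ε / 4) 1 := ⟨_, rfl⟩
  have hδ0 : 0 < δ := by rw [hδ]; exact lt_min (by positivity) one_pos
  obtain ⟨j0, hj0⟩ := exists_nat_ge ((6 * A + 6) / δ)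
  have hjδ : 6 * A + 6 ≤ δ * (j0 + 2 : ℕ) := by
    rw [div_le_iff₀ hδ0] at hj0
    push_cast
    nlinarith
  refine ⟨16 * C3 + 4 * Cc * Ct ^ 2, j0 + 2, by positivity,
    fun Z hZ P Pj 𝒦 h v D hv Rw K₁ s hR hRK hK1 hK2 hs => ?_⟩
  obtain ⟨j, hj⟩ : ∃ j, j = j0 + 2 := ⟨_, rfl⟩
  rw [← hj] at hjδ ⊢
  have hD : 0 ≤ D := (norm_nonneg _).trans (hv 0)
  have hPj := h.nn j
  have hZ0 : 0 < Z := by linarith
  have hZ1 : 1 ≤ Z := by linarith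
  have hK0 : 0 < K₁ := by linarith
  obtain ⟨Q, hQ⟩ : ∃ Q, Q = Z ^ A := ⟨_, rfl⟩
  rw [← hQ] at hK2
  have hQ1 : 1 ≤ Q := le_trans hK1 hK2
  obtain ⟨W, hW⟩ : ∃ W, W = Z ^ δ := ⟨_, rfl⟩
  have hW1 : 1 ≤ W := by rw [hW]; exact Real.one_le_rpow hZ1 hδ0.le
  have hWZ : W ≤ Z := by
    have := Real.rpow_le_rpow_of_exponent_le hZ1 (min_le_right (ε / 4) 1)
    rwa [Real.rpow_one, ← hδ, ← hW] at this
  have hW2 : W ^ 2 ≤ Z ^ (ε / 2) := by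
    rw [hW, ← Real.rpow_natCast, ← Real.rpow_mul hZ0.le]
    refine Real.rpow_le_rpow_of_exponent_le hZ1 ?_
    have := min_le_left (ε / 4) 1
    push_cast
    linarith
  obtain ⟨M, hM⟩ : ∃ M, M = K₁ ^ 2 / Real.exp s := ⟨_, rfl⟩
  rw [← hM]
  have hM0 : 0 < M := by rw [hM]; positivity
  have hes : (Real.exp s)⁻¹ ≤ Q := by
    rw [← Real.exp_neg, hQ, Real.rpow_def_of_pos hZ0]
    refine Real.exp_le_exp.mpr ?_
    have := neg_le_abs s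
    linarith
  have hMQ : M ≤ Q ^ 3 := by
    rw [hM, div_eq_mul_inv]
    calc _ ≤ Q ^ 2 * Q := by gcongr
      _ = _ := by ring
  have hZ3 : Z ^ (3 * A + 3) = Q ^ 3 * Z ^ 3 := by
    rw [Real.rpow_add hZ0, mul_comm 3 A, Real.rpow_mul hZ0.le, ← hQ]
    norm_cast
  have hZ6 : Z ^ (6 * A + 6) = (Q ^ 3 * Z ^ 3) ^ 2 := by
    rw [Real.rpow_add hZ0, mul_comm 6 A, Real.rpow_mul hZ0.le, ← hQ]
    norm_cast
    ring
  have hZ4 : 4 ≤ Z ^ 2 := le_trans (by norm_num) (pow_le_pow_left₀ (by norm_num) hZ 2)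
  have hX0 : 0 < 4 * M * W := by positivity
  have hX : 4 * M * W ≤ Q ^ 3 * Z ^ 3 := by
    calc _ ≤ Z ^ 2 * Q ^ 3 * Z := by gcongr
      _ = _ := by ring
  have hK3 : 2 * K₁ ≤ Q ^ 3 * Z ^ 3 := by
    have a1 : Q ≤ Q ^ 3 := le_self_pow₀ hQ1 (by norm_num)
    have a2 : Z ≤ Z ^ 3 := le_self_pow₀ hZ1 (by norm_num)
    calc 2 * K₁ ≤ Z ^ 3 * Q ^ 3 := by gcongr <;> linarith
      _ = _ := by ring
  have hWj : (4 * M * W) ^ 2 ≤ W ^ j := by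
    refine le_trans (pow_le_pow_left₀ hX0.le hX 2) ?_
    rw [← hZ6, hW, ← Real.rpow_natCast, ← Real.rpow_mul hZ0.le]
    exact Real.rpow_le_rpow_of_exponent_le hZ1 hjδ
  have hmain := sep h hv Rw (X := 4 * M * W)
    (Bd := C3 * Z ^ (ε / 2) * D ^ 2 * ((2 * K₁ + 4 * M * W) * Real.sqrt (4 * M * W))) s hK0 hRK
    (fun u hu => le_trans (Finset.sum_le_sum_of_subset_of_nonneg hR fun _ _ _ => sq_nonneg _)
      (hC3 Z hZ (2 * K₁) (4 * M * W) (by linarith) (by rw [hZ3]; exact hK3) hX0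
        (by rw [hZ3]; exact hX) u D hu))
  have hsq : Real.exp (s / 2) / K₁ * Real.sqrt (4 * M * W) ≤ 2 * W := by
    refine abs_le_of_sq_le_sq' ?_ (by positivity) |>.2
    rw [mul_pow, Real.sq_sqrt hX0.le, div_pow, ← Real.exp_nat_mul,
      show ((2 : ℕ) : ℝ) * (s / 2) = s by push_cast; ring, hM]
    calc _ = 4 * W := by field_simp
      _ ≤ 4 * W ^ 2 := mul_le_mul_of_nonneg_left (le_self_pow₀ hW1 two_ne_zero) (by norm_num)
      _ = _ := by ring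
  have hZε : 1 ≤ Z ^ ε := Real.one_le_rpow hZ1 hε.le
  have hZε2 : Z ^ (ε / 2) * Z ^ (ε / 2) = Z ^ ε := by
    rw [← Real.rpow_add hZ0, add_halves]
  have hZe0 : 0 ≤ Z ^ (ε / 2) := by positivity
  have hmain2 : ∑ k ∈ Rw, ‖∑ n ∈ ball K (4 * M * W), ph 𝒦 v s k n‖ ^ 2 ≤
      8 * C3 * (Z ^ ε * D ^ 2 * (P ^ 2 + Pj j ^ 2) * (K₁ + M)) := by
    refine le_trans hmain ?_
    have h1 : 2 * K₁ + 4 * M * W ≤ 4 * W * (K₁ + M) := by
      have := le_mul_of_one_le_left hK0.le hW1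
      linarith
    have h2 : P ^ 2 ≤ P ^ 2 + Pj j ^ 2 := le_add_of_nonneg_right (sq_nonneg _)
    calc _ = P ^ 2 * (C3 * Z ^ (ε / 2) * D ^ 2) * ((2 * K₁ + 4 * M * W) *
          (Real.exp (s / 2) / K₁ * Real.sqrt (4 * M * W))) := by ring
      _ ≤ P ^ 2 * (C3 * Z ^ (ε / 2) * D ^ 2) * (4 * W * (K₁ + M) * (2 * W)) := by gcongr
      _ = 8 * C3 * (Z ^ (ε / 2) * W ^ 2 * D ^ 2 * P ^ 2 * (K₁ + M)) := by ring
      _ ≤ 8 * C3 * (Z ^ (ε / 2) * Z ^ (ε / 2) * D ^ 2 * (P ^ 2 + Pj j ^ 2) * (K₁ + M)) := by gcongr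
      _ = _ := by rw [hZε2]
  have hrest : ∀ k ∈ Rw, ‖Phi 𝒦 v s k - ∑ n ∈ ball K (4 * M * W), ph 𝒦 v s k n‖ ≤ Ct * D * Pj j := by
    intro k hk
    obtain ⟨k1, k2, -⟩ := QL.mem_SQ.1 (hR hk)
    refine le_trans (hCt j (by omega) P Pj 𝒦 h v D hv s _ k k2.ne_zero hX0) ?_
    have hNk := N_nonneg k
    have h1 : N k ^ 2 / Real.exp s / (4 * M * W) ≤ W⁻¹ := by
      calc _ ≤ (2 * K₁) ^ 2 / Real.exp s / (4 * M * W) := by gcongr
        _ = _ := by rw [hM]; field_simp; ring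
    calc _ ≤ Ct * D * Pj j * W⁻¹ ^ j * W ^ j := by gcongr
      _ = _ := by rw [mul_assoc, ← mul_pow, inv_mul_cancel₀ (by linarith), one_pow, mul_one]
  have hcard : (Rw.card : ℝ) ≤ Cc * (2 * K₁) :=
    le_trans (by exact_mod_cast Finset.card_le_card hR) (hCc _ (by linarith))
  have hrest2 : ∑ k ∈ Rw, ‖Phi 𝒦 v s k - ∑ n ∈ ball K (4 * M * W), ph 𝒦 v s k n‖ ^ 2 ≤
      2 * Cc * Ct ^ 2 * (Z ^ ε * D ^ 2 * (P ^ 2 + Pj j ^ 2) * (K₁ + M)) := by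
    refine le_trans (Finset.sum_le_card_nsmul _ _ ((Ct * D * Pj j) ^ 2)
      fun k hk => pow_le_pow_left₀ (norm_nonneg _) (hrest k hk) 2) ?_
    rw [nsmul_eq_mul]
    have h2 : Pj j ^ 2 ≤ P ^ 2 + Pj j ^ 2 := le_add_of_nonneg_left (sq_nonneg _)
    have h3 : K₁ ≤ K₁ + M := le_add_of_nonneg_right hM0.le
    calc _ ≤ Cc * (2 * K₁) * (Ct * D * Pj j) ^ 2 := by gcongr
      _ = 2 * Cc * Ct ^ 2 * (1 * D ^ 2 * Pj j ^ 2 * K₁) := by ring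
      _ ≤ _ := by gcongr
  have hsplit : ∑ k ∈ Rw, ‖Phi 𝒦 v s k‖ ^ 2 ≤
      2 * ∑ k ∈ Rw, ‖∑ n ∈ ball K (4 * M * W), ph 𝒦 v s k n‖ ^ 2 +
        2 * ∑ k ∈ Rw, ‖Phi 𝒦 v s k - ∑ n ∈ ball K (4 * M * W), ph 𝒦 v s k n‖ ^ 2 := by
    rw [Finset.mul_sum, Finset.mul_sum, ← Finset.sum_add_distrib]
    refine Finset.sum_le_sum fun k _ => ?_
    have h1 := norm_le_norm_add_norm_sub' (Phi 𝒦 v s k) (∑ n ∈ ball K (4 * M * W), ph 𝒦 v s k n)
    refine le_trans (pow_le_pow_left₀ (norm_nonneg _) h1 2) ?_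
    exact b4tb_sq _ _
  refine le_trans hsplit ?_
  calc _ ≤ 2 * (8 * C3 * (Z ^ ε * D ^ 2 * (P ^ 2 + Pj j ^ 2) * (K₁ + M))) +
        2 * (2 * Cc * Ct ^ 2 * (Z ^ ε * D ^ 2 * (P ^ 2 + Pj j ^ 2) * (K₁ + M))) := by gcongr
    _ = _ := by ring

/-- split the rows along `dy k` (`dy_Z`, `dy_spec`); a non-empty box has `K₁ = 2^i ≤ L` -/
theorem boxes (A : ℝ) {ε : ℝ} (hε : 0 < ε) : ∃ (C : ℝ) (j : ℕ), 0 ≤ C ∧ ∀ Z : ℝ, 3 ≤ Z →
    ∀ (P : ℝ) (Pj : ℕ → ℝ) (𝒦 : R K → ℝ → ℂ), KH P Pj 𝒦 → ∀ (v : R K → ℂ) (D : ℝ), (∀ n, ‖v n‖ ≤ D) →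
    ∀ (Rw : Finset (R K)) (L s : ℝ), Rw ⊆ QL.SQ K L → L ≤ Z ^ A → 1 ≤ L → |s| ≤ A * Real.log Z →
    ∑ k ∈ Rw, ‖Phi 𝒦 v s k‖ ^ 2 ≤ C * Z ^ ε * D ^ 2 * (P ^ 2 + Pj j ^ 2) * (L + L ^ 2 / Real.exp s) := by
  obtain ⟨Cb, j, hCb, hbox⟩ := box (K := K) A (half_pos hε)
  obtain ⟨Cd, hCd, hdy⟩ := dy_Z (K := K) A (half_pos hε)
  refine ⟨Cd * Cb, j, by positivity, ?_⟩
  intro Z hZ P Pj 𝒦 h v D hv Rw L s hR hL hL1 hs
  obtain ⟨J, hJ, hJ'⟩ := hdy Z hZ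
  have hZ0 : (0 : ℝ) < Z := by linarith
  have hZe : 0 ≤ Z ^ (ε / 2) := Real.rpow_nonneg hZ0.le _
  obtain ⟨B0, hB0⟩ : ∃ B0, B0 = Cb * Z ^ (ε / 2) * D ^ 2 * (P ^ 2 + Pj j ^ 2) *
      (L + L ^ 2 / Real.exp s) := ⟨_, rfl⟩
  have hB00 : 0 ≤ B0 := by rw [hB0]; positivity
  have h1 : ∀ i : ℕ, ∑ k ∈ Rw.filter fun k => dy k = i, ‖Phi 𝒦 v s k‖ ^ 2 ≤ B0 := by
    intro i
    rcases (Rw.filter fun k => dy k = i).eq_empty_or_nonempty with h' | ⟨k, hk⟩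
    · rw [h', Finset.sum_empty]; exact hB00
    have a1 : (Rw.filter fun k => dy k = i) ⊆ QL.SQ K (2 * 2 ^ i) := fun l hl => by
      obtain ⟨b1, rfl⟩ := Finset.mem_filter.1 hl
      obtain ⟨-, b2, b3⟩ := QL.mem_SQ.1 (hR b1)
      exact QL.mem_SQ.2 ⟨(dy_spec b2.ne_zero).2, b2, b3⟩
    have a2 : ∀ l ∈ Rw.filter fun k => dy k = i, (2 : ℝ) ^ i ≤ N l := fun l hl => by
      obtain ⟨b1, rfl⟩ := Finset.mem_filter.1 hl
      exact (dy_spec (QL.mem_SQ.1 (hR b1)).2.1.ne_zero).1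
    have hi : (2 : ℝ) ^ i ≤ L := (a2 k hk).trans (QL.mem_SQ.1 (hR (Finset.mem_filter.1 hk).1)).1
    refine (hbox Z hZ P Pj 𝒦 h v D hv _ (2 ^ i) s a1 a2 (one_le_pow₀ one_le_two) (hi.trans hL)
      hs).trans ?_
    rw [hB0]
    gcongr
  rw [← Finset.sum_fiberwise_of_maps_to (s := Rw) (t := Finset.range J) (g := dy)
    (fun k hk => Finset.mem_range.2 (hJ' k (QL.mem_SQ.1 (hR hk)).2.1.ne_zero
      ((QL.mem_SQ.1 (hR hk)).1.trans hL)))]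
  refine (Finset.sum_le_sum fun i _ => h1 i).trans ?_
  rw [Finset.sum_const, Finset.card_range, nsmul_eq_mul]
  have hZε2 : Z ^ (ε / 2) * Z ^ (ε / 2) = Z ^ ε := by
    rw [← Real.rpow_add hZ0, add_halves]
  calc (J : ℝ) * B0 ≤ Cd * Z ^ (ε / 2) * B0 := by gcongr
    _ = _ := by rw [hB0, ← hZε2]; ring

end Crest.Agent.R312.TN
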