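import Crest.Agent.R312.B4QSym
import Crest.Agent.R17.ThetaNorm_Aux

/-!
# R312 / B4TDefs : definitions for `thetaNorm` (sub-lead helper51).  DO NOT EDIT.

Port of `R17/ThetaNorm*` WITHOUT marks (`S = {1}`, `L = 1`), with `O ↦ R K`, `φ ↦ ν.v`, `Sq6 R K ↦ Rw ⊆ QL.SQ K L`; the conditions
`IsCoprime · 6`, `IsCoprime · Q0` disappear (`n ≠ 0` is enough).  The generic lemmas `mink`, `mink_int`, `nonneg_of_le_rpow`,
`aux_rpow`, `aux_log`, `aux_abs` of `Crest.Agent.R17.TN` are imported (use them as `R17.TN.mink` etc.).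
`Fth ν k = F1 (ν θ) k` (reciprocity, `θ ∈ hchars` depends on `cl k`); `k = k' r`, `k'` squarefree, `r` powerful;
`conj χ_r = ∑ c_i gs ρ_i ω_i` (`Expn`); `Hs k' = ∑_{i ∈ I} A_i(k') Phi_i(k')` (Voronoi); dyadic `N k' ~ K₁`, dual length
`M = K₁²/e^s`, main part `N n ≤ X = 4 M Z^δ` by `qls` (`n = m c³`, Minkowski over `c`), tail by the decay of the kernel.
Chain: Defs → Aux → Dual → Box → (Split, Exp) → Row → B4T.
-/

set_option autoImplicit false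

noncomputable section

open scoped Classical ComplexConjugate NumberField
open MeasureTheory

namespace Crest.Agent.R312.TN

variable {K : Type} [Field K] [NumberField K] [Fld K] [Loc K] [Setup K]

/-- the principal character modulo `e` -/
def one1 (e : R K) : R K → ℂ := fun x => if IsCoprime x e then 1 else 0

/-- powerful elements -/
def Pw (r : R K) : Prop := ∀ p, Prime p → p ∣ r → p ^ 2 ∣ r

/-- dyadic index: `2 ^ dy n ≤ N n < 2 ^ (dy n + 1)` for `n ≠ 0` -/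
def dy (n : R K) : ℕ := Nat.log 2 (nm n)

/-- trivial on the units of trivial class -/
def UT (ω : R K → ℂ) : Prop := ∀ u : (R K)ˣ, cl (u : R K) = 1 → ω u = 1

/-- the properties of one Voronoi kernel -/
structure KH (P : ℝ) (Pj : ℕ → ℝ) (𝒦 : R K → ℝ → ℂ) : Prop where
  rep : ∃ (κ : ℝ → ℂ) (b : R K → ℝ → ℂ), Integrable κ ∧ (∫ τ, ‖κ τ‖) ≤ P ∧ (∀ n, Continuous (b n)) ∧
    (∀ n τ, ‖b n τ‖ ≤ ‖tau n‖) ∧
    ∀ n u, 𝒦 n u = Real.exp (u / 4) * ∫ τ : ℝ, κ τ * b n τ * Complex.exp (τ * u * Complex.I)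
  nn : ∀ j, 0 ≤ Pj j
  dec : ∀ (j : ℕ) n u, ‖𝒦 n u‖ ≤ Pj j * ‖tau n‖ * Real.exp (-(j * u))

/-- the Voronoi identity (verbatim from `voronoi`) -/
def VorId {I : Type} [Fintype I] (𝒦 : I → R K → ℝ → ℂ) (ν : Tw K) (t : ℝ) : Prop :=
  ∀ c1 : R K, Prim c1 → ∀ ψ : R K → ℂ, IsChar c1 ψ → UT ψ →
    ∃ ω : I → ℂ, (∀ i, ‖ω i‖ ≤ 1) ∧ ∀ y : ℝ,
      pb (fun m => tt m * ν.v m * gs c1 ψ m) y t =
        ∑ i, ω i * ∑' n : R K, if Prim n then
          gs c1 (dual c1 ψ) n * (N n : ℂ) ^ (-(1 / 2 : ℂ)) *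
            𝒦 i n (Real.log (N n) + y - 2 * Real.log (N c1)) else 0

/-- one term of the dual sum -/
def ph (𝒦 : R K → ℝ → ℂ) (v : R K → ℂ) (s : ℝ) (k n : R K) : ℂ :=
  v n * qua k n * (N n : ℂ) ^ (-(1 / 2 : ℂ)) * 𝒦 n (Real.log (N n) + s - 2 * Real.log (N k))

/-- the dual sum -/
def Phi (𝒦 : R K → ℝ → ℂ) (v : R K → ℂ) (s : ℝ) (k : R K) : ℂ :=
  ∑' n : R K, if Prim n then ph 𝒦 v s k n else 0

/-- squarefree row `k` and an extra factor `f` -/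
def Hs (ν : Tw K) (f : R K → ℂ) (y t : ℝ) (k : R K) : ℂ :=
  pb (fun m => tt m * ν.v m * (conj (chi k m) * f m)) y t

/-- the row `k` after reciprocity -/
def F1 (ν : Tw K) (y t : ℝ) (k : R K) : ℂ := pb (fun m => tt m * ν.v m * conj (chi k m)) y t

/-- `f` is a combination of Gauss sums of characters `ω i` modulo `ρ i`, `ρ i ^ 2 ∣ r`, whose dual
Gauss sums have total weight `≤ W` -/
def Expn (r : R K) (f : R K → ℂ) (W : ℝ) : Prop :=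
  ∃ (ι : Type) (s : Finset ι) (c : ι → ℂ) (ρ : ι → R K) (ω : ι → R K → ℂ) (D : ι → ℝ),
    (∀ i ∈ s, Prim (ρ i) ∧ ρ i ^ 2 ∣ r ∧ IsChar (ρ i) (ω i) ∧ UT (ω i) ∧
      ∀ n, ‖gs (ρ i) (dual (ρ i) (ω i)) n‖ ≤ D i) ∧
    (∀ m, f m = ∑ i ∈ s, c i * gs (ρ i) (ω i) m) ∧ ∑ i ∈ s, ‖c i‖ * D i ≤ W

end Crest.Agent.R312.TN
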