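import Crest.Agent.R312.B4TAux
import Crest.Agent.R312.B4Q

/-!
# R312 / B4TDual : the dual norm (replaces `R17/ThetaNorm_WQ, H, Dual1-3`)  (read the header of `B4TDefs` first).  Statements frozen; add lemmas freely.
-/

set_option autoImplicit false

noncomputable section

open scoped Classical ComplexConjugate NumberField
open MeasureTheory

namespace Crest.Agent.R312.TN

variable {K : Type} [Field K] [NumberField K] [Fld K] [Loc K] [Setup K]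

/-- `qls` with `X = Y` (if `Y < 1` the set is empty; replace the constant by its absolute value) and `sum_inv_sqrt`:
`∑_{m ∈ SQ Y} ‖a m‖² ≤ t² ∑ N m^{-1/2} ≤ C t² √Y`. -/
theorem dual1 (A : ℝ) {ε : ℝ} (hε : 0 < ε) : ∃ C, 0 ≤ C ∧ ∀ Z : ℝ, 3 ≤ Z → ∀ L Y : ℝ, 1 ≤ L → L ≤ Z ^ A →
    0 < Y → Y ≤ Z ^ A → ∀ (a : R K → ℂ) (t : ℝ),
    (∀ m ∈ QL.SQ K Y, ‖a m‖ ^ 2 ≤ t ^ 2 * (Real.sqrt (N m))⁻¹) →
    ∑ k ∈ QL.SQ K L, ‖∑ m ∈ QL.SQ K Y, a m * qua k m‖ ^ 2 ≤ C * Z ^ ε * t ^ 2 * ((L + Y) * Real.sqrt Y) := by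
  obtain ⟨C, hC⟩ := qls (K := K) A hε
  obtain ⟨C1, h0, h1⟩ := sum_inv_sqrt (K := K)
  refine ⟨|C| * C1, by positivity, fun Z hZ L Y hL hLZ hY hYZ a t ha => ?_⟩
  have hZ0 : 0 ≤ Z ^ ε := by positivity
  rcases lt_or_ge Y 1 with h | h
  · rw [QL.SQ, QL.SQ, ball_eq_empty h]
    simp only [Finset.filter_empty, Finset.sum_empty, norm_zero, zero_pow two_ne_zero, Finset.sum_const_zero]
    positivity
  refine (hC Z hZ L Y hL hLZ h hYZ a).trans ?_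
  have h2 : ∑ m ∈ QL.SQ K Y, ‖a m‖ ^ 2 ≤ t ^ 2 * (C1 * Real.sqrt Y) := by
    refine (Finset.sum_le_sum ha).trans ?_
    rw [← Finset.mul_sum]
    refine mul_le_mul_of_nonneg_left (le_trans ?_ (h1 Y)) (sq_nonneg t)
    exact Finset.sum_le_sum_of_subset_of_nonneg (Finset.filter_subset _ _) fun _ _ _ => by positivity
  calc _ ≤ |C| * Z ^ ε * (L + Y) * (t ^ 2 * (C1 * Real.sqrt Y)) := by
        gcongr
        · exact le_abs_self C
        · exact h2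
    _ = _ := by ring

theorem dual_reindex (X : ℝ) (f : R K → ℂ) (hf : ∀ n ∈ ball K X, tau n = 0 → f n = 0) :
    ∑ n ∈ ball K X, f n = ∑ c ∈ ball K X, ∑ m ∈ QL.SQ K (X / N c ^ 3), f (m * c ^ 3) := by
  rw [Finset.sum_sigma']
  symm
  refine Finset.sum_bij_ne_zero (fun p _ _ => p.2 * p.1 ^ 3) (fun p hp _ => ?_)
    (fun p hp _ q hq _ h => ?_) (fun n hn h => ?_) fun _ _ _ => rfl
  · obtain ⟨h1, h2⟩ := Finset.mem_sigma.1 hp
    obtain ⟨h3, h4, -⟩ := QL.mem_SQ.1 h2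
    have h5 := (mem_ball.1 h1).1
    have := N_pos h5.ne_zero
    exact mem_ball.2 ⟨h4.mul (h5.pow 3), by rwa [N_mul, N_pow, ← le_div_iff₀ (by positivity)]⟩
  · obtain ⟨c, m⟩ := p
    obtain ⟨d, m'⟩ := q
    obtain ⟨h1, h2⟩ := Finset.mem_sigma.1 hp
    obtain ⟨h3, h4⟩ := Finset.mem_sigma.1 hq
    obtain ⟨a, ha, e1, e2⟩ := rkey_cube (mem_ball.1 h1).1 (mem_ball.1 h3).1 (QL.mem_SQ.1 h4).2.2 h
    obtain rfl : a = 1 := ha.eq_one_of_isUnit ((QL.mem_SQ.1 h2).2.2 a ⟨m' * a, by rw [e2]; ring⟩)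
    simp only [mul_one, one_pow] at e1 e2
    subst e1 e2
    rfl
  · obtain ⟨h1, h2⟩ := mem_ball.1 hn
    obtain ⟨m, c, hm, hs, hc, rfl⟩ := tau_ne_zero h1 fun h0 => h (hf n hn h0)
    have := N_pos hc.ne_zero
    refine ⟨⟨c, m⟩, Finset.mem_sigma.2 ⟨mem_ball.2 ⟨hc, (N_le_of_dvd h1.ne_zero ⟨m * c ^ 2, by ring⟩).trans h2⟩,
      QL.mem_SQ.2 ⟨?_, hm, hs⟩⟩, h, rfl⟩
    rwa [le_div_iff₀ (by positivity), ← N_pow, ← N_mul]

/-- Terms with `tau n = 0` vanish.  For the others choose `(m n, c n)` by `tau_shape` and split the `n`-sum along the fibres of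
`c` (`Finset.sum_fiberwise_of_maps_to`, `c n ∈ ball X`).  On the fibre of `c`: `n = m c³`, `m ∈ SQ (X / N c³)`,
`qua k n = qua k c ^ 3 * qua k m` (`‖qua k c‖ ≤ 1`), the fibre sum is `∑_{m ∈ SQ (X/N c³)} a m * qua k m` with
`a m = if m c³ ∈ fibre then u (m c³) else 0`, `‖a m‖² ≤ D² N c (N m N c³)^{-1/2}`; `dual1` with `t² = D² (N c)^{-1/2}`, `Y = X/N c³`
gives `≤ (N c)⁻¹ ^ 2 · C Z^ε' D² (L + X) √X`.  `R17.TN.mink` with `w c = (N c)⁻¹`, `sum_inv_Z`. -/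
theorem dual_norm (A : ℝ) {ε : ℝ} (hε : 0 < ε) : ∃ C, 0 ≤ C ∧ ∀ Z : ℝ, 3 ≤ Z → ∀ L X : ℝ, 1 ≤ L →
    L ≤ Z ^ A → 0 < X → X ≤ Z ^ A → ∀ (u : R K → ℂ) (D : ℝ),
    (∀ n ∈ ball K X, ‖u n‖ ^ 2 ≤ D ^ 2 * ‖tau n‖ ^ 2 * (Real.sqrt (N n))⁻¹) →
    ∑ k ∈ QL.SQ K L, ‖∑ n ∈ ball K X, u n * qua k n‖ ^ 2 ≤
      C * Z ^ ε * D ^ 2 * ((L + X) * Real.sqrt X) := by
  obtain ⟨C, h0, hC⟩ := dual1 (K := K) A (half_pos hε)
  obtain ⟨C1, h1, hC1⟩ := sum_inv_Z (K := K) A (ε := ε / 4) (by positivity)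
  refine ⟨C1 ^ 2 * C, by positivity, fun Z hZ L X hL hLZ hX hXZ u D hu => ?_⟩
  have hZ0 : 0 < Z := by linarith
  rw [Finset.sum_congr rfl fun k _ => by
    rw [dual_reindex X (fun n => u n * qua k n) fun n hn h => by
      have := hu n hn
      rw [h, norm_zero, zero_pow two_ne_zero, mul_zero, zero_mul] at this
      rw [norm_eq_zero.1 (pow_eq_zero_iff two_ne_zero |>.1 (le_antisymm this (sq_nonneg _))), zero_mul]]]
  refine (R17.TN.mink _ _ _ (fun c => (N c)⁻¹) (C * Z ^ (ε / 2) * D ^ 2 * ((L + X) * Real.sqrt X))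
    (fun c _ => inv_nonneg.2 (N_nonneg c)) (by positivity) fun c hc => ?_).trans ?_
  · obtain ⟨hc1, hc2⟩ := mem_ball.1 hc
    have n1 := one_le_N hc1.ne_zero
    have hY : X / N c ^ 3 ≤ X := div_le_self hX.le (one_le_pow₀ n1)
    have hs : 0 < Real.sqrt (N c) := Real.sqrt_pos.2 (by linarith)
    have h2 := hC Z hZ L (X / N c ^ 3) hL hLZ (by positivity) (hY.trans hXZ) (fun m => u (m * c ^ 3))
      (D / Real.sqrt (Real.sqrt (N c))) fun m hm => by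
        obtain ⟨h3, h4, h5⟩ := QL.mem_SQ.1 hm
        refine (hu _ (mem_ball.2 ⟨h4.mul (hc1.pow 3), by
          rwa [N_mul, N_pow, ← le_div_iff₀ (by positivity)]⟩)).trans_eq ?_
        rw [rkey_norm_tau h4 h5 hc1, N_mul, N_pow, Real.sqrt_mul (N_nonneg m), div_pow, Real.sq_sqrt hs.le,
          show N c ^ 3 = (Real.sqrt (N c) ^ 3) ^ 2 by
            rw [← pow_mul, mul_comm, pow_mul, Real.sq_sqrt (N_nonneg c)], Real.sqrt_sq (by positivity)]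
        field_simp
    refine le_trans (Finset.sum_le_sum fun k hk => ?_) (h2.trans ?_)
    · have hk0 := (QL.mem_SQ.1 hk).2.1.ne_zero
      simp only [QL.qua_mul hk0, ← mul_assoc, ← Finset.sum_mul]
      rw [norm_mul]
      exact pow_le_pow_left₀ (by positivity)
        (mul_le_of_le_one_right (norm_nonneg _) (QL.norm_qua_le hk0 _)) 2
    · rw [div_pow, Real.sq_sqrt hs.le, Real.sqrt_div hX.le,
        show N c ^ 3 = (Real.sqrt (N c) ^ 3) ^ 2 by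
          rw [← pow_mul, mul_comm, pow_mul, Real.sq_sqrt (N_nonneg c)], Real.sqrt_sq (by positivity)]
      calc _ ≤ C * Z ^ (ε / 2) * (D ^ 2 / Real.sqrt (N c)) *
            ((L + X) * (Real.sqrt X / Real.sqrt (N c) ^ 3)) := by
            gcongr
            exact div_le_self hX.le (one_le_pow₀ (one_le_pow₀ (Real.one_le_sqrt.2 n1)))
        _ = ((Real.sqrt (N c) ^ 2)⁻¹) ^ 2 * (C * Z ^ (ε / 2) * D ^ 2 * ((L + X) * Real.sqrt X)) := by
            field_simp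
        _ = _ := by rw [Real.sq_sqrt (N_nonneg c)]
  · have h4 := pow_le_pow_left₀ (Finset.sum_nonneg fun i _ => inv_nonneg.2 (N_nonneg i))
      (hC1 Z hZ (ball K X) fun i hi => (mem_ball.1 hi).imp_right fun h => h.trans hXZ) 2
    refine (mul_le_mul_of_nonneg_right h4 (by positivity)).trans_eq ?_
    have h5 : Z ^ ε = (Z ^ (ε / 4)) ^ 2 * Z ^ (ε / 2) := by
      rw [← Real.rpow_natCast, ← Real.rpow_mul hZ0.le, ← Real.rpow_add hZ0]
      congr 1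
      push_cast
      ring
    rw [h5]
    ring

end Crest.Agent.R312.TN
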