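import Crest.Agent.R312.B4TSplit

/-!
# R312 / B4TExp : additive expansion of `conj χ_r` (port of `R17/ThetaNorm_Exp`; no case `v % 6 = 4` needed)  (read the header of `B4TDefs` first).  Statements frozen; add lemmas freely.
-/

set_option autoImplicit false

noncomputable section

open scoped Classical ComplexConjugate NumberField
open MeasureTheory

namespace Crest.Agent.R312.TN

variable {K : Type} [Field K] [NumberField K] [Fld K] [Loc K] [Setup K]

theorem Expn.mono {r : R K} {f : R K → ℂ} {W W' : ℝ} (h : Expn r f W) (hW : W ≤ W') : Expn r f W' := by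
  obtain ⟨ι, s, c, ρ, ω, D, h1, h2, h3⟩ := h
  exact ⟨ι, s, c, ρ, ω, D, h1, h2, h3.trans hW⟩

theorem Expn.nonneg {r : R K} {f : R K → ℂ} {W : ℝ} (h : Expn r f W) : 0 ≤ W := by
  obtain ⟨ι, s, c, ρ, ω, D, h1, _, h3⟩ := h
  exact le_trans (Finset.sum_nonneg (fun i hi => mul_nonneg (norm_nonneg _)
    ((norm_nonneg _).trans ((h1 i hi).2.2.2.2 0)))) h3

theorem exp_isChar_one : IsChar (1 : R K) (fun _ => (1 : ℂ)) :=
  ⟨rfl, fun _ _ => (one_mul _).symm, fun _ _ => rfl, fun n => by simp [isCoprime_one_right]⟩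

theorem exp_dual_one (n : R K) : ‖gs 1 (dual 1 (fun _ => 1)) n‖ ≤ 1 := by
  rw [(s3_unit isUnit_one (isChar_dual one_ne_zero exp_isChar_one) n).2, norm_one]

theorem expn_one : Expn (1 : R K) (fun _ => 1) 1 := by
  refine ⟨Unit, {()}, fun _ => 1, fun _ => 1, fun _ _ => 1, fun _ => 1,
    fun _ _ => ⟨Prim.one, by simp, exp_isChar_one, fun _ _ => rfl, exp_dual_one⟩, fun m => ?_, by simp⟩
  simp [(s3_unit isUnit_one exp_isChar_one m).2]

theorem Expn.mul {r r' : R K} {f f' : R K → ℂ} {W W' : ℝ} (h : Expn r f W) (h' : Expn r' f' W')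
    (hc : IsCoprime r r') : Expn (r * r') (fun m => f m * f' m) (W * W') := by
  have hW := h.nonneg
  obtain ⟨ι, s, c, ρ, ω, D, h1, h2, h3⟩ := h
  obtain ⟨ι', s', c', ρ', ω', D', h1', h2', h3'⟩ := h'
  have hcop : ∀ i ∈ s, ∀ j ∈ s', IsCoprime (ρ i) (ρ' j) := fun i hi j hj =>
    (hc.of_isCoprime_of_dvd_left ((dvd_pow_self _ two_ne_zero).trans (h1 i hi).2.1)
      ).of_isCoprime_of_dvd_right ((dvd_pow_self _ two_ne_zero).trans (h1' j hj).2.1)
  have hn1 : ∀ i ∈ s, ∀ j ∈ s', ‖ω i (ρ' j) * ω' j (ρ i)‖ = 1 := fun i hi j hj => by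
    rw [norm_mul, (h1 i hi).2.2.1.norm_eq_one (h1 i hi).1.ne_zero (hcop i hi j hj).symm,
      (h1' j hj).2.2.1.norm_eq_one (h1' j hj).1.ne_zero (hcop i hi j hj), mul_one]
  refine ⟨ι × ι', s ×ˢ s', fun p => c p.1 * c' p.2 * (ω p.1 (ρ' p.2) * ω' p.2 (ρ p.1))⁻¹,
    fun p => ρ p.1 * ρ' p.2, fun p x => ω p.1 x * ω' p.2 x, fun p => D p.1 * D' p.2, ?_, ?_, ?_⟩
  · rintro ⟨i, j⟩ hp
    obtain ⟨hi, hj⟩ := Finset.mem_product.1 hp
    obtain ⟨a1, a2, a3, a5, a4⟩ := h1 i hi
    obtain ⟨b1, b2, b3, b5, b4⟩ := h1' j hj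
    refine ⟨a1.mul b1, by rw [mul_pow]; exact mul_dvd_mul a2 b2, a3.mul_moduli b3,
      fun u hu => by simp only; rw [a5 u hu, b5 u hu, mul_one], fun n => ?_⟩
    have e : dual (ρ i * ρ' j) (fun x => ω i x * ω' j x) =
        fun x => dual (ρ i) (ω i) x * dual (ρ' j) (ω' j) x := by
      funext x
      unfold dual cub
      rw [sym_mul_left 3 a1.ne_zero b1.ne_zero, map_mul, map_mul]
      ring
    have d1 := isChar_dual a1.ne_zero a3
    have d2 := isChar_dual b1.ne_zero b3
    simp only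
    rw [e, gs_mul a1.ne_zero b1.ne_zero (hcop i hi j hj) d1 d2, norm_mul, norm_mul, norm_mul,
      d1.norm_eq_one a1.ne_zero (hcop i hi j hj).symm, d2.norm_eq_one b1.ne_zero (hcop i hi j hj),
      one_mul, one_mul]
    exact mul_le_mul (a4 n) (b4 n) (norm_nonneg _) ((norm_nonneg _).trans (a4 n))
  · intro m
    beta_reduce
    rw [h2 m, h2' m, Finset.sum_mul_sum, Finset.sum_product]
    refine Finset.sum_congr rfl (fun i hi => Finset.sum_congr rfl (fun j hj => ?_))
    have hne : ω i (ρ' j) * ω' j (ρ i) ≠ 0 := by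
      intro h0
      have := hn1 i hi j hj
      rw [h0, norm_zero] at this
      exact zero_ne_one this
    simp only
    rw [gs_mul (h1 i hi).1.ne_zero (h1' j hj).1.ne_zero (hcop i hi j hj) (h1 i hi).2.2.1
      (h1' j hj).2.2.1]
    generalize ω i (ρ' j) * ω' j (ρ i) = u at hne
    field_simp
  · rw [Finset.sum_product]
    calc _ = (∑ i ∈ s, ‖c i‖ * D i) * ∑ j ∈ s', ‖c' j‖ * D' j := by
          rw [Finset.sum_mul_sum]
          refine Finset.sum_congr rfl (fun i hi => Finset.sum_congr rfl (fun j hj => ?_))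
          simp only
          rw [norm_mul, norm_inv, hn1 i hi j hj, norm_mul]
          ring
      _ ≤ _ := mul_le_mul h3 h3' (Finset.sum_nonneg (fun j hj => mul_nonneg (norm_nonneg _)
          ((norm_nonneg _).trans ((h1' j hj).2.2.2.2 0)))) hW

/-- Always use the trivial bound `D = N p` (`norm_gs_le`).  `6 ∤ v`: one term `ω = χ_p^v`, `c = (gs p ω 1)⁻¹`, weight `√N p`.
`6 ∣ v`: `conj χ_p^v = 1_{p ∤ m} = (1 - 1/N p) gs 1 1 m - (1/N p) gs p (one1 p) m` (`gs_prime_princ`), weight `≤ 2`.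
`√N p ≤ √√(N p^v)` as `v ≥ 2`. -/
theorem expn_prime_pow {p : R K} (hp : Prime p) (hp' : Prim p) {v : ℕ} (hv : 2 ≤ v) :
    Expn (p ^ v) (fun m => conj (chi (p ^ v) m)) (2 * Real.sqrt (Real.sqrt (N (p ^ v)))) := by
  have hp0 := hp.ne_zero
  have hω : IsChar p (fun x => chi p x ^ v) := (chi_isChar hp0).pow_char (by omega)
  have hu : UT (fun x => chi p x ^ v) := fun u hu => by simp only; rw [UT_chi hp0 u hu, one_pow]
  have hD := norm_gs_le hp0 ((isChar_dual hp0 hω).norm_le hp0)
  have hN := N_pos hp0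
  have hN1 := one_le_N hp0
  have hs := Real.sqrt_pos.2 hN
  have hss := Real.mul_self_sqrt hN.le
  have hs1 : 1 ≤ Real.sqrt (N p) := Real.one_le_sqrt.2 hN1
  have hpv : p ^ 2 ∣ p ^ v := pow_dvd_pow p hv
  have hle : Real.sqrt (N p) ≤ Real.sqrt (Real.sqrt (N (p ^ v))) := by
    refine Real.sqrt_le_sqrt (Real.le_sqrt_of_sq_le ?_)
    rw [N_pow]
    exact pow_le_pow_right₀ hN1 hv
  have hchi : ∀ m, chi (p ^ v) m = chi p m ^ v := fun m => sym_pow_left 6 hp0 v m
  by_cases h0 : 6 ∣ v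
  · have hval : ∀ m, chi p m ^ v = if IsCoprime m p then 1 else 0 := by
      intro m
      obtain ⟨j, rfl⟩ := h0
      have := sym_pow_eq (k := 6) (by simp) hp0 m
      rw [pow_mul, chi, this]
      split_ifs
      · exact one_pow _
      · exact zero_pow (by omega)
    have hnp : ¬ NonPrinc p (fun x => chi p x ^ v) := by
      rintro ⟨n, hn, hn'⟩
      exact hn' (by simp only; rw [hval, if_pos hn])
    refine ⟨Bool, Finset.univ, fun b => cond b (1 - (N p : ℂ)⁻¹) (-(N p : ℂ)⁻¹),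
      fun b => cond b 1 p, fun b => cond b (fun _ => 1) (fun x => chi p x ^ v),
      fun b => cond b 1 (N p), ?_, fun m => ?_, ?_⟩
    · rintro (_ | _) _
      · exact ⟨hp', hpv, hω, hu, hD⟩
      · exact ⟨Prim.one, by simp, exp_isChar_one, fun _ _ => rfl, exp_dual_one⟩
    · have hN' : (N p : ℂ) ≠ 0 := by exact_mod_cast hN.ne'
      simp only [Fintype.sum_bool, cond_true, cond_false]
      rw [(s3_unit isUnit_one exp_isChar_one m).2, gs_prime_princ hp hω hnp, hchi, hval]
      by_cases hm : p ∣ m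
      · rw [if_pos hm, if_neg (fun hc => hp.not_isUnit (hc.isUnit_of_dvd' hm dvd_rfl))]
        field_simp
        simp
      · rw [if_neg hm, if_pos (hp.irreducible.coprime_iff_not_dvd.2 hm).symm]
        simp
    · simp only [Fintype.sum_bool, cond_true, cond_false]
      have a1 : ‖1 - (N p : ℂ)⁻¹‖ ≤ 1 := by
        have : 1 - (N p : ℂ)⁻¹ = ((1 - (N p)⁻¹ : ℝ) : ℂ) := by push_cast; rfl
        have b1 : (N p)⁻¹ ≤ 1 := inv_le_one_of_one_le₀ hN1
        have b2 : 0 ≤ (N p)⁻¹ := by positivity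
        rw [this, Complex.norm_real, Real.norm_of_nonneg (by linarith)]
        linarith
      have a2 : ‖-(N p : ℂ)⁻¹‖ * N p = 1 := by
        rw [norm_neg, norm_inv, Complex.norm_real, Real.norm_of_nonneg hN.le, inv_mul_cancel₀ hN.ne']
      linarith
  · have hg := norm_gs_chi_pow hp0 hp.squarefree h0
    have hg0 : gs p (fun x => chi p x ^ v) 1 ≠ 0 := by
      intro h
      rw [h, norm_zero] at hg
      exact hs.ne hg
    refine ⟨Unit, {()}, fun _ => (gs p (fun x => chi p x ^ v) 1)⁻¹, fun _ => p,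
      fun _ x => chi p x ^ v, fun _ => N p, fun _ _ => ⟨hp', hpv, hω, hu, hD⟩, fun m => ?_, ?_⟩
    · beta_reduce
      rw [Finset.sum_singleton, gs_chi_pow hp0 hp.squarefree h0 m, hchi]
      field_simp
    · rw [Finset.sum_singleton, norm_inv, hg, inv_mul_le_iff₀ hs]
      nlinarith

/-- Strong induction on `nm r`: `r = p^v r₁`, `p` a primary prime, `p ∤ r₁`, `v ≥ 2`, `r₁` primary and powerful;
`insert p ((pdiv r₁).filter Prime) ⊆ (pdiv r).filter Prime`. -/
theorem expn {r : R K} (hr : Prim r) (hw : Pw r) :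
    Expn r (fun m => conj (chi r m)) (2 ^ ((pdiv r).filter Prime).card * Real.sqrt (Real.sqrt (N r))) := by
  induction h : nm r using Nat.strong_induction_on generalizing r with
  | _ k ih =>
    by_cases h1 : r = 1
    · subst h1
      have : (fun m => conj (chi (1 : R K) m)) = fun _ => (1 : ℂ) := by
        funext m; rw [chi, sym_one, map_one]
      rw [this]
      refine expn_one.mono ?_
      rw [N_unit isUnit_one, Real.sqrt_one, Real.sqrt_one, mul_one]
      exact one_le_pow₀ (by norm_num)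
    obtain ⟨p, hp, hp', hpr⟩ := hr.exists_prime_dvd h1
    obtain ⟨v, r1, hnd, rfl⟩ := WfDvdMonoid.max_power_factor hr.ne_zero hp.irreducible
    have hcop : IsCoprime p r1 := hp.irreducible.coprime_iff_not_dvd.2 hnd
    have hr1 : Prim r1 := hr.of_mul_left (hp'.pow v)
    have hv : 2 ≤ v := by
      have := (hcop.pow_left (m := 2)).dvd_of_dvd_mul_right (hw p hp hpr)
      exact (pow_dvd_pow_iff hp.ne_zero hp.not_isUnit).1 this
    have hw1 : Pw r1 := by
      intro q hq hq1
      have hqp : IsCoprime q p := by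
        rw [hq.irreducible.coprime_iff_not_dvd]
        intro hd
        exact hq.not_isUnit (hcop.isUnit_of_dvd' hd hq1)
      exact (hqp.pow (m := 2) (n := v)).dvd_of_dvd_mul_left (hw q hq (hq1.mul_left _))
    have hlt : nm r1 < k := by
      have a1 : (2 : ℝ) ≤ N p := Prime.two_le_N hp
      have a2 := N_pos hr1.ne_zero
      have a3 : N p ≤ N p ^ v := le_self_pow₀ (by linarith) (by omega)
      have : N r1 < N (p ^ v * r1) := by rw [N_mul, N_pow]; nlinarith
      rw [← h]
      unfold N at this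
      exact_mod_cast this
    have hE := (expn_prime_pow hp hp' hv).mul (ih _ hlt hr1 hw1 rfl) (hcop.pow_left (m := v))
    have hf : (fun m => conj (chi (p ^ v * r1) m)) =
        fun m => conj (chi (p ^ v) m) * conj (chi r1 m) := by
      funext m
      rw [chi, sym_mul_left 6 (pow_ne_zero _ hp.ne_zero) hr1.ne_zero, map_mul]
      rfl
    have hcard : ((pdiv r1).filter Prime).card + 1 ≤ ((pdiv (p ^ v * r1)).filter Prime).card := by
      rw [← Finset.card_insert_of_notMem (a := p) (by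
        rw [Finset.mem_filter, mem_pdiv hr1.ne_zero]
        exact fun hc => hnd hc.1.2)]
      refine Finset.card_le_card (fun q hq => ?_)
      rw [Finset.mem_filter, mem_pdiv hr.ne_zero]
      rcases Finset.mem_insert.1 hq with rfl | hq
      · exact ⟨⟨hp', hpr⟩, hp⟩
      · rw [Finset.mem_filter, mem_pdiv hr1.ne_zero] at hq
        exact ⟨⟨hq.1.1, hq.1.2.mul_left _⟩, hq.2⟩
    have hpow : (2 : ℝ) * 2 ^ ((pdiv r1).filter Prime).card ≤
        2 ^ ((pdiv (p ^ v * r1)).filter Prime).card := by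
      rw [← pow_succ']
      exact pow_le_pow_right₀ (by norm_num) hcard
    rw [hf]
    refine hE.mono ?_
    rw [N_mul, Real.sqrt_mul (N_nonneg _), Real.sqrt_mul (Real.sqrt_nonneg _)]
    calc _ = 2 * 2 ^ ((pdiv r1).filter Prime).card *
          (Real.sqrt (Real.sqrt (N (p ^ v))) * Real.sqrt (Real.sqrt (N r1))) := by ring
      _ ≤ _ := mul_le_mul_of_nonneg_right hpow (by positivity)

end Crest.Agent.R312.TN
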