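import Crest.Agent.R312.B5C9

/-!
# R312 / B5Main : the cubic theta function and its Voronoi formula (head module of part B5)
-/

set_option autoImplicit false

noncomputable section

open scoped Classical ComplexConjugate NumberField
open MeasureTheory

namespace Crest.Agent.R312

variable {K : Type} [Field K] [NumberField K] [Fld K] [Loc K] [Setup K]

/-- **Voronoi summation for the cubic theta function.** -/
theorem voronoi : ∃ (I : Type) (_ : Fintype I) (C : ℝ) (B : ℕ) (Cj : ℕ → ℝ) (Bj : ℕ → ℕ),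
    ∀ (ν : Tw K) (t : ℝ), ∃ (κ : ℝ → ℂ) (b : I → R K → ℝ → ℂ) (𝒦 : I → R K → ℝ → ℂ),
      Integrable κ ∧ (∫ τ, ‖κ τ‖) ≤ C * (1 + |t| + ν.sz) ^ B ∧
      (∀ i n, Continuous (b i n)) ∧ (∀ i n τ, ‖b i n τ‖ ≤ ‖tau n‖) ∧
      (∀ i n u, 𝒦 i n u =
        Real.exp (u / 4) * ∫ τ : ℝ, κ τ * b i n τ * Complex.exp (τ * u * Complex.I)) ∧
      (∀ (j : ℕ) i n u, ‖𝒦 i n u‖ ≤
        Cj j * (1 + |t| + ν.sz) ^ Bj j * ‖tau n‖ * Real.exp (-(j * u))) ∧
      ∀ c1 : R K, Prim c1 → ∀ ψ : R K → ℂ, IsChar c1 ψ →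
        (∀ u : (R K)ˣ, cl (u : R K) = 1 → ψ u = 1) →
        ∃ ω : I → ℂ, (∀ i, ‖ω i‖ ≤ 1) ∧ ∀ y : ℝ,
          pb (fun m => tt m * ν.v m * gs c1 ψ m) y t =
            ∑ i, ω i * ∑' n : R K, if Prim n then
              gs c1 (dual c1 ψ) n * (N n : ℂ) ^ (-(1 / 2 : ℂ)) *
                𝒦 i n (Real.log (N n) + y - 2 * Real.log (N c1)) else 0 := by
  obtain ⟨I, hI, β, hβ, h⟩ := Th.total_fe (K := K)
  exact ⟨I, hI, Th.package hβ h⟩

end Crest.Agent.R312
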