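import Crest.Agent.R312.B4TBox
import Crest.Agent.R312.B4TExp
import Crest.Agent.R312.B5Main

/-!
# R312 / B4TRow : assembly (port of `R17/ThetaNorm_Hs, Row, Prim`)  (read the header of `B4TDefs` first).  Statements frozen; add lemmas freely.
-/

set_option autoImplicit false

noncomputable section

open scoped Classical ComplexConjugate NumberField
open MeasureTheory

namespace Crest.Agent.R312.TN

variable {K : Type} [Field K] [NumberField K] [Fld K] [Loc K] [Setup K]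

/-- `voronoi` gives `KH (C p^B) (fun j => |Cj j| p^(Bj j)) (𝒦 i)` (`p = 1 + |t| + ν.sz ≥ 1`) and `VorId`; `vor_split` for each `k`;
`R17.TN.mink` over `i : I` with `w = 1`; `boxes (3A)` with `s = y - 2 log N ρ`, `L²/e^s = L² N ρ²/e^y`. -/
theorem hs_bound (A : ℝ) {ε : ℝ} (hε : 0 < ε) : ∃ (C : ℝ) (B : ℕ), 0 ≤ C ∧ ∀ Z : ℝ, 3 ≤ Z →
    ∀ (ν : Tw K) (ρ : R K) (ω : R K → ℂ) (D : ℝ), Prim ρ → IsChar ρ ω → UT ω → N ρ ≤ Z ^ A →
    (∀ n, ‖gs ρ (dual ρ ω) n‖ ≤ D) → ∀ (Rw : Finset (R K)) (L y t : ℝ), Rw ⊆ QL.SQ K L →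
    (∀ k ∈ Rw, IsCoprime k ρ) → 1 ≤ L → L ≤ Z ^ A → |y| ≤ A * Real.log Z →
    ∑ k ∈ Rw, ‖Hs ν (gs ρ ω) y t k‖ ^ 2 ≤
      C * Z ^ ε * (1 + |t| + ν.sz) ^ B * D ^ 2 * (L + L ^ 2 * N ρ ^ 2 / Real.exp y) := by
  obtain ⟨I, _, C₀, B₀, Cj, Bj, hV⟩ := voronoi (K := K)
  obtain ⟨C, j, hC, hbox⟩ := boxes (K := K) (3 * A) hε
  refine ⟨(Fintype.card I : ℝ) ^ 2 * C * (C₀ ^ 2 + Cj j ^ 2), 2 * (B₀ + Bj j), by positivity,
    fun Z hZ ν ρ ω D hρ hω hu hρZ hD Rw L y t hR hc hL hLZ hy => ?_⟩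
  obtain ⟨κ, b, 𝒦, k1, k2, k3, k4, k5, k6, k7⟩ := hV ν t
  have hp : 1 ≤ 1 + |t| + ν.sz := by linarith [abs_nonneg t, ν.sz_nonneg]
  generalize 1 + |t| + ν.sz = p at *
  have hK : ∀ i, KH (C₀ * p ^ B₀) (fun j => |Cj j| * p ^ Bj j) (𝒦 i) := fun i =>
    ⟨⟨κ, b i, k1, k2, k3 i, k4 i, k5 i⟩, fun j => by positivity, fun j n u => (k6 j i n u).trans (by
      gcongr; exact le_abs_self _)⟩
  have hvor : VorId 𝒦 ν t := k7
  choose! a ha1 ha2 using fun k (hk : k ∈ Rw) =>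
    vor_split hvor hρ hω hu (QL.mem_SQ.1 (hR hk)).2.1 (QL.mem_SQ.1 (hR hk)).2.2 (hc k hk) y
  have hA := R17.TN.nonneg_of_le_rpow hZ hL hLZ
  have r1 := one_le_N hρ.ne_zero
  have r0 := Real.log_nonneg r1
  have hlog : Real.log (N ρ) ≤ A * Real.log Z :=
    (Real.log_le_log (by linarith) hρZ).trans_eq (Real.log_rpow (by linarith) _)
  have hZA : Z ^ A ≤ Z ^ (3 * A) := Real.rpow_le_rpow_of_exponent_le (by linarith) (by linarith)
  have hs1 : |y - 2 * Real.log (N ρ)| ≤ 3 * A * Real.log Z := by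
    rw [abs_le] at hy ⊢
    constructor <;> linarith
  have e : L ^ 2 / Real.exp (y - 2 * Real.log (N ρ)) = L ^ 2 * N ρ ^ 2 / Real.exp y := by
    rw [Real.exp_sub, two_mul, Real.exp_add, Real.exp_log (by linarith)]
    field_simp
  have z0 : 0 ≤ Z ^ ε := by positivity
  have c0 : 0 ≤ L + L ^ 2 * N ρ ^ 2 / Real.exp y := by positivity
  rw [Finset.sum_congr rfl fun k hk => by rw [ha2 k hk]]
  refine (R17.TN.mink Finset.univ Rw (fun i k => a k i * Phi (𝒦 i) (gs ρ (dual ρ ω))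
    (y - 2 * Real.log (N ρ)) k) (fun _ => 1) (C * Z ^ ε * D ^ 2 *
      ((C₀ * p ^ B₀) ^ 2 + (|Cj j| * p ^ Bj j) ^ 2) * (L + L ^ 2 * N ρ ^ 2 / Real.exp y))
    (fun _ _ => zero_le_one) (by positivity) fun i _ => ?_).trans ?_
  · have h1 := hbox Z hZ _ _ _ (hK i) _ D hD Rw L _ hR (hLZ.trans hZA) hL hs1
    rw [e] at h1
    rw [one_pow, one_mul]
    refine le_trans (Finset.sum_le_sum fun k hk => pow_le_pow_left₀ (norm_nonneg _) ?_ 2) h1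
    rw [norm_mul]
    exact mul_le_of_le_one_left (norm_nonneg _) (ha1 k hk i)
  · have h2 : (C₀ * p ^ B₀) ^ 2 + (|Cj j| * p ^ Bj j) ^ 2 ≤ (C₀ ^ 2 + Cj j ^ 2) * p ^ (2 * (B₀ + Bj j)) := by
      rw [mul_pow, mul_pow, sq_abs, add_mul, ← pow_mul, ← pow_mul]
      exact add_le_add
        (mul_le_mul_of_nonneg_left (pow_le_pow_right₀ hp (by omega)) (sq_nonneg _))
        (mul_le_mul_of_nonneg_left (pow_le_pow_right₀ hp (by omega)) (sq_nonneg _))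
    simp only [Finset.sum_const, nsmul_eq_mul, mul_one, Finset.card_univ]
    generalize L + L ^ 2 * N ρ ^ 2 / Real.exp y = c at c0 ⊢
    calc _ ≤ (Fintype.card I : ℝ) ^ 2 * (C * Z ^ ε * D ^ 2 *
          ((C₀ ^ 2 + Cj j ^ 2) * p ^ (2 * (B₀ + Bj j))) * c) := by gcongr
      _ = _ := by ring

theorem row_expand {ι : Type} (s : Finset ι) (c : ι → ℂ) (ρ : ι → R K) (ω : ι → R K → ℂ) (ν : Tw K)
    {r k : R K} (hr0 : r ≠ 0) (hk0 : k ≠ 0) (hρ : ∀ i ∈ s, ρ i ≠ 0 ∧ IsChar (ρ i) (ω i))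
    (hf : ∀ m, conj (chi r m) = ∑ i ∈ s, c i * gs (ρ i) (ω i) m) (y t : ℝ) :
    F1 ν y t (k * r) = ∑ i ∈ s, c i * Hs ν (gs (ρ i) (ω i)) y t k := by
  unfold F1 Hs
  have e : (fun m => tt m * ν.v m * conj (chi (k * r) m)) = fun m => tt m *
      ∑ i ∈ s, c i * (ν.v m * (conj (chi k m) * gs (ρ i) (ω i) m)) := by
    funext m
    have : chi (k * r) m = chi k m * chi r m := sym_mul_left 6 hk0 hr0 m
    rw [this, map_mul, hf, Finset.mul_sum, Finset.mul_sum, Finset.mul_sum]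
    exact Finset.sum_congr rfl fun i _ => by ring
  rw [e, pb_tt_sum]
  · simp only [mul_assoc]
  · intro i hi
    refine ⟨N (ρ i), fun m => ?_⟩
    have h1 := (chi_isChar hk0).norm_le hk0 m
    have h2 := norm_gs_le (hρ i hi).1 ((hρ i hi).2.norm_le (hρ i hi).1) m
    rw [norm_mul, norm_mul, RCLike.norm_conj]
    calc ‖ν.v m‖ * (‖chi k m‖ * ‖gs (ρ i) (ω i) m‖) ≤ 1 * (1 * N (ρ i)) := by
          gcongr
          exact ν.norm_v_le m
      _ = _ := by ring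

/-- `F1 (k r) = ∑ i, c i * Hs ν (gs (ρ i) (ω i)) y t k` (`pb_tt_sum`); `hs_bound` with `L / N r`, `N (ρ i)² ≤ N r`;
`mink` with `w i = ‖c i‖ * D i`. -/
theorem row (A : ℝ) {ε : ℝ} (hε : 0 < ε) : ∃ (C : ℝ) (B : ℕ), 0 ≤ C ∧ ∀ Z : ℝ, 3 ≤ Z →
    ∀ (ν : Tw K) (r : R K) (W : ℝ), Prim r → Expn r (fun m => conj (chi r m)) W →
    ∀ (Rw : Finset (R K)) (L y t : ℝ), Rw ⊆ QL.SQ K (L / N r) → (∀ k ∈ Rw, IsCoprime k r) → N r ≤ L →
    L ≤ Z ^ A → |y| ≤ A * Real.log Z →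
    ∑ k ∈ Rw, ‖F1 ν y t (k * r)‖ ^ 2 ≤
      C * Z ^ ε * (1 + |t| + ν.sz) ^ B * W ^ 2 * (N r)⁻¹ * (L + L ^ 2 / Real.exp y) := by
  obtain ⟨C, B, hC, h⟩ := hs_bound (K := K) A hε
  refine ⟨C, B, hC, fun Z hZ ν r W hr hE Rw L y t hR hRc hrL hL hy => ?_⟩
  obtain ⟨ι, s, c, ρ, ω, D, h1, h2, h4⟩ := hE
  have hr0 := hr.ne_zero
  have hN1 := one_le_N hr0
  have hN0 : 0 < N r := N_pos hr0
  have hL0 : 0 ≤ L := by linarith
  have hD : ∀ i ∈ s, 0 ≤ D i := fun i hi => (norm_nonneg _).trans ((h1 i hi).2.2.2.2 0)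
  set T := C * Z ^ ε * (1 + |t| + ν.sz) ^ B with hT
  have hT0 : 0 ≤ T := by
    have := ν.sz_nonneg
    have : 0 ≤ Z := by linarith
    positivity
  set U := (N r)⁻¹ * (L + L ^ 2 / Real.exp y) with hU
  have hU0 : 0 ≤ U := by positivity
  have key := R17.TN.mink s Rw (fun i k => c i * Hs ν (gs (ρ i) (ω i)) y t k)
    (fun i => ‖c i‖ * D i) (T * U) (fun i hi => mul_nonneg (norm_nonneg _) (hD i hi))
    (mul_nonneg hT0 hU0) fun i hi => by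
      obtain ⟨e1, e2, e3, e3', e4⟩ := h1 i hi
      have e5 : ρ i ∣ r := (dvd_pow_self _ two_ne_zero).trans e2
      have e6 := h Z hZ ν (ρ i) (ω i) (D i) e1 e3 e3' ((N_le_of_dvd hr0 e5).trans (hrL.trans hL)) e4 Rw
        (L / N r) y t hR (fun k hk => (hRc k hk).of_isCoprime_of_dvd_right e5)
        ((one_le_div hN0).2 hrL) ((div_le_self hL0 hN1).trans hL) hy
      have e8 : N (ρ i) ^ 2 ≤ N r := (N_pow (ρ i) 2).symm.trans_le (N_le_of_dvd hr0 e2)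
      have e7 : L / N r + (L / N r) ^ 2 * N (ρ i) ^ 2 / Real.exp y ≤ U := by
        calc _ ≤ L / N r + (L / N r) ^ 2 * N r / Real.exp y := by gcongr
          _ = U := by rw [hU]; field_simp
      simp only [norm_mul, mul_pow]
      rw [← Finset.mul_sum, mul_assoc]
      refine mul_le_mul_of_nonneg_left (e6.trans ?_) (sq_nonneg _)
      calc T * D i ^ 2 * _ ≤ T * D i ^ 2 * U := mul_le_mul_of_nonneg_left e7 (by positivity)
        _ = _ := by ring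
  rw [Finset.sum_congr rfl fun k hk => by
    rw [row_expand s c ρ ω ν hr0 (QL.mem_SQ.1 (hR hk)).2.1.ne_zero
      (fun i hi => ⟨(h1 i hi).1.ne_zero, (h1 i hi).2.2.1⟩) h2]]
  refine key.trans ?_
  have h5 : 0 ≤ ∑ i ∈ s, ‖c i‖ * D i :=
    Finset.sum_nonneg fun i hi => mul_nonneg (norm_nonneg _) (hD i hi)
  calc (∑ i ∈ s, ‖c i‖ * D i) ^ 2 * (T * U) ≤ W ^ 2 * (T * U) := by gcongr
    _ = _ := by rw [hU]; ring

/-- `k = s(k) r(k)` (`exists_sqfree_powerful`), fibres of `r`; `expn`, `row` with `W² = 4^ω √N r`, `pow_primes_Z`, `sum_pw_Z` -/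
theorem prim_rows (A : ℝ) {ε : ℝ} (hε : 0 < ε) : ∃ (C : ℝ) (B : ℕ), 0 ≤ C ∧ ∀ Z : ℝ, 3 ≤ Z →
    ∀ (ν : Tw K) (L y t : ℝ), 1 ≤ L → L ≤ Z ^ A → |y| ≤ A * Real.log Z →
    ∑ k ∈ ball K L, ‖F1 ν y t k‖ ^ 2 ≤ C * Z ^ ε * (1 + |t| + ν.sz) ^ B * (L + L ^ 2 / Real.exp y) := by
  have hε3 : 0 < ε / 3 := by positivity
  obtain ⟨C1, B, hC1, hrow⟩ := row (K := K) A hε3
  obtain ⟨C2, hC2, hpp⟩ := pow_primes_Z (K := K) A hε3
  obtain ⟨C3, hC3, hr4⟩ := sum_pw_Z (K := K) A hε3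
  refine ⟨C1 * C2 * C3, B, by positivity, fun Z hZ ν L y t hL hLZ hy => ?_⟩
  have hdec : ∀ k, k ∈ ball K L → ∃ s f, Prim s ∧ Prim f ∧ Squarefree s ∧ IsCoprime s f ∧ Pw f ∧
      k = s * f := fun k hk => exists_sqfree_powerful (mem_ball.1 hk).1
  choose! s r hs hr hsq hcop hpw hk using hdec
  have hrL : ∀ k ∈ ball K L, N (r k) ≤ L := fun k hk' =>
    (N_le_of_dvd (mem_ball.1 hk').1.ne_zero (Dvd.intro_left _ (hk k hk').symm)).trans (mem_ball.1 hk').2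
  have hZ0 : 0 < Z := by linarith
  have hsz := ν.sz_nonneg
  set M : ℝ := C1 * Z ^ (ε / 3) * (1 + |t| + ν.sz) ^ B * (C2 * Z ^ (ε / 3)) *
    (L + L ^ 2 / Real.exp y) with hMdef
  have hM0 : 0 ≤ M := by positivity
  have key : ∀ x ∈ (ball K L).image r, ∑ k ∈ (ball K L).filter (fun k => r k = x), ‖F1 ν y t k‖ ^ 2 ≤
      M * (Real.sqrt (N x))⁻¹ := by
    intro x hx
    obtain ⟨k₀, hk₀, rfl⟩ := Finset.mem_image.1 hx
    have hx0 := (hr k₀ hk₀).ne_zero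
    have e : ∑ k ∈ (ball K L).filter (fun k => r k = r k₀), ‖F1 ν y t k‖ ^ 2 =
        ∑ k ∈ ((ball K L).filter (fun k => r k = r k₀)).image s, ‖F1 ν y t (k * r k₀)‖ ^ 2 := by
      rw [Finset.sum_image]
      · refine Finset.sum_congr rfl fun k hk' => ?_
        obtain ⟨a1, a2⟩ := Finset.mem_filter.1 hk'
        rw [← a2, ← hk k a1]
      · intro k hk1 k' hk2 e
        obtain ⟨a1, a2⟩ := Finset.mem_filter.1 hk1
        obtain ⟨b1, b2⟩ := Finset.mem_filter.1 hk2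
        rw [hk k a1, hk k' b1, e, a2, b2]
    rw [e]
    refine (hrow Z hZ ν (r k₀) _ (hr k₀ hk₀) (expn (hr k₀ hk₀) (hpw k₀ hk₀)) _ L y t ?_ ?_
      (hrL k₀ hk₀) hLZ hy).trans ?_
    · intro l hl
      obtain ⟨k, hk', rfl⟩ := Finset.mem_image.1 hl
      obtain ⟨a1, a2⟩ := Finset.mem_filter.1 hk'
      refine QL.mem_SQ.2 ⟨?_, hs k a1, hsq k a1⟩
      rw [le_div_iff₀ (N_pos hx0), ← a2, ← N_mul, ← hk k a1]
      exact (mem_ball.1 a1).2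
    · intro l hl
      obtain ⟨k, hk', rfl⟩ := Finset.mem_image.1 hl
      obtain ⟨a1, a2⟩ := Finset.mem_filter.1 hk'
      exact a2 ▸ hcop k a1
    · have h4 := hpp Z hZ (r k₀) hx0 ((hrL k₀ hk₀).trans hLZ)
      have e2 : ((2 : ℝ) ^ ((pdiv (r k₀)).filter Prime).card *
          Real.sqrt (Real.sqrt (N (r k₀)))) ^ 2 =
          4 ^ ((pdiv (r k₀)).filter Prime).card * Real.sqrt (N (r k₀)) := by
        rw [mul_pow, Real.sq_sqrt (Real.sqrt_nonneg _), ← pow_mul, mul_comm _ 2, pow_mul]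
        norm_num
      have a1 := N_pos hx0
      have e3 : Real.sqrt (N (r k₀)) * (N (r k₀))⁻¹ = (Real.sqrt (N (r k₀)))⁻¹ := by
        have := Real.sqrt_pos.2 a1
        field_simp
        exact Real.sq_sqrt a1.le
      rw [e2, hMdef, ← e3]
      calc _ ≤ C1 * Z ^ (ε / 3) * (1 + |t| + ν.sz) ^ B * (C2 * Z ^ (ε / 3) * Real.sqrt (N (r k₀))) *
            (N (r k₀))⁻¹ * (L + L ^ 2 / Real.exp y) := by gcongr
        _ = _ := by ring
  rw [← Finset.sum_fiberwise_of_maps_to (g := r) (t := (ball K L).image r)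
    (fun k hk' => Finset.mem_image_of_mem r hk')]
  refine (Finset.sum_le_sum key).trans ?_
  rw [← Finset.mul_sum]
  have h5 := hr4 Z hZ ((ball K L).image r) fun x hx => by
    obtain ⟨k₀, hk₀, rfl⟩ := Finset.mem_image.1 hx
    exact ⟨hr k₀ hk₀, (hrL k₀ hk₀).trans hLZ, hpw k₀ hk₀⟩
  refine (mul_le_mul_of_nonneg_left h5 hM0).trans (le_of_eq ?_)
  rw [hMdef, show Z ^ ε = Z ^ (ε / 3) * Z ^ (ε / 3) * Z ^ (ε / 3) by
    rw [← Real.rpow_add hZ0, ← Real.rpow_add hZ0]; congr 1; ring]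
  ring

/-- reciprocity: `conj (chi m k) = conj (HH (cl m) g) * conj (chi k m)` for `cl k = g`, and `m ↦ conj (HH (cl m) g)` is `θ.v` on primary `m`
for some `θ ∈ hchars` (`exists_hchar`), `θ.ξ = 0` -/
theorem Fth_eq (g : G K) : ∃ θ : Tw K, θ.ξ = 0 ∧ ∀ (ν : Tw K) (k : R K), Prim k → cl k = g → ∀ y t : ℝ,
    Fth ν k y t = F1 (ν * θ) y t k := by
  obtain ⟨θ, hθ, h⟩ := exists_hchar (φ := fun x => conj (HH x g)) (by rw [HH_one_left, map_one])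
    (fun a b => by rw [HH_mul_left, map_mul])
  refine ⟨θ, (mem_hchars.1 hθ).1, fun ν k hk hg y t => pb_congr (fun m hm => ?_) y t⟩
  have e : (ν * θ).v m = ν.v m * θ.v m := rfl
  rw [chi_rec hm.ne_zero hk.ne_zero, map_mul, e, h m hm, sg, hg]
  ring

end Crest.Agent.R312.TN
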