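import Crest.Agent.R312.B4TAux

/-!
# R312 / B4TSplit : splitting the Gauss sums (port of `R17/ThetaNorm_Split` with `l = 1`)  (read the header of `B4TDefs` first).  Statements frozen; add lemmas freely.
-/

set_option autoImplicit false

noncomputable section

open scoped Classical ComplexConjugate NumberField
open MeasureTheory

namespace Crest.Agent.R312.TN

variable {K : Type} [Field K] [NumberField K] [Fld K] [Loc K] [Setup K]

theorem isChar_one1 (e : R K) : IsChar e (one1 e) := by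
  exact s3_princ e

theorem isChar_dual {ρ : R K} {ω : R K → ℂ} (hρ : ρ ≠ 0) (hω : IsChar ρ ω) : IsChar ρ (dual ρ ω) := by
  exact hω.conj.mul_char (cub_isChar hρ).conj

/-- `chi k u = sg k u = HH (cl k) 1 = 1` -/
theorem UT_chi {k : R K} (hk : k ≠ 0) : UT (chi k) := by
  exact fun u hu => chi_unit_of_cl hk u.isUnit hu

/-- `gs_mul`, `gs_chi_pow` with `j = 1` -/
theorem gs_split {k ρ : R K} {ω : R K → ℂ} (hks : Squarefree k) (hρ : ρ ≠ 0) (hω : IsChar ρ ω)
    (hkρ : IsCoprime k ρ) (m : R K) :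
    gs (k * ρ) (fun x => chi k x * ω x) m =
      (chi k ρ * ω k * gs k (chi k) 1) * (conj (chi k m) * gs ρ ω m) := by
  have hk := hks.ne_zero
  have h2 := gs_mul hk hρ hkρ (chi_isChar hk) hω m
  have h3 := gs_chi_pow hk hks (j := 1) (by norm_num) m
  simp only [pow_one] at h3
  rw [h2]
  change _ * _ * gs k (fun x => chi k x) m * _ = _
  rw [h3]
  change _ = _ * _ * gs k (fun x => chi k x) 1 * _
  ring

/-- `dual (k ρ) (χ_k ω) = qua k · dual ρ ω` pointwise (`cub = χ²`, `qua = χ³`, `conj_qua'`); `gs_mul`, `gs_chi_pow` with `j = 3` -/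
theorem gs_split_dual {k ρ : R K} {ω : R K → ℂ} (hks : Squarefree k) (hρ : ρ ≠ 0) (hω : IsChar ρ ω)
    (hkρ : IsCoprime k ρ) (n : R K) :
    gs (k * ρ) (dual (k * ρ) (fun x => chi k x * ω x)) n =
      (qua k ρ * dual ρ ω k * gs k (qua k) 1) * (gs ρ (dual ρ ω) n * qua k n) := by
  have hk := hks.ne_zero
  have e : dual (k * ρ) (fun x => chi k x * ω x) = fun x => qua k x * dual ρ ω x := by
    funext x
    have e1 : cub (k * ρ) x = cub k x * cub ρ x := sym_mul_left 3 hk hρ x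
    have e2 : conj (chi k x) * conj (cub k x) = qua k x := by
      rw [← map_mul, ← chi_sq hk, ← pow_succ', chi_cube hk, conj_qua hk]
    rw [dual, dual, e1, ← e2]
    simp only [map_mul]
    ring
  rw [e, gs_mul hk hρ hkρ (qua_isChar hk) (isChar_dual hρ hω) n, gs_qua hk hks n, gs_qua hk hks 1,
    (qua_isChar hk).one]
  ring

/-- `VorId` for `c1 = k ρ`, `ψ = χ_k ω`; `A i = ω i * (qua k ρ * dual ρ ω k * gs k (qua k) 1) / (chi k ρ * ω k * gs k (chi k) 1)`, the
numerator has norm `≤ √N k`, the denominator `= √N k` (`norm_gs_chi_pow`); `blks_smul`, `tsum_mul_left`, `log N (k ρ) = log N k + log N ρ`. -/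
theorem vor_split {I : Type} [Fintype I] {𝒦 : I → R K → ℝ → ℂ} {ν : Tw K} {t : ℝ} (h : VorId 𝒦 ν t)
    {k ρ : R K} {ω : R K → ℂ} (hρ : Prim ρ) (hω : IsChar ρ ω) (hu : UT ω) (hk : Prim k) (hks : Squarefree k)
    (hkρ : IsCoprime k ρ) (y : ℝ) : ∃ A : I → ℂ, (∀ i, ‖A i‖ ≤ 1) ∧
      Hs ν (gs ρ ω) y t k = ∑ i, A i * Phi (𝒦 i) (gs ρ (dual ρ ω)) (y - 2 * Real.log (N ρ)) k := by
  have hk0 := hk.ne_zero
  have hρ0 := hρ.ne_zero
  have hs : 0 < Real.sqrt (N k) := Real.sqrt_pos.2 (N_pos hk0)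
  obtain ⟨w, hw, hV⟩ := h (k * ρ) (hk.mul hρ) _ ((chi_isChar hk0).mul_moduli hω)
    (fun u hu' => by rw [UT_chi hk0 u hu', hu u hu', mul_one])
  have ha : ‖chi k ρ * ω k * gs k (chi k) 1‖ = Real.sqrt (N k) := by
    have h3 := norm_gs_chi_pow hk0 hks (j := 1) (by norm_num)
    simp only [pow_one] at h3
    rw [norm_mul, norm_mul, (chi_isChar hk0).norm_eq_one hk0 hkρ.symm, hω.norm_eq_one hρ0 hkρ,
      one_mul, one_mul]
    exact h3
  have hb : ‖qua k ρ * dual ρ ω k * gs k (qua k) 1‖ ≤ Real.sqrt (N k) := by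
    rw [gs_qua hk0 hks 1, (qua_isChar hk0).one, one_mul, norm_mul, norm_mul, norm_mul, norm_gam hk0,
      mul_one, Complex.norm_real, Real.norm_of_nonneg hs.le]
    exact mul_le_of_le_one_left hs.le (mul_le_one₀ ((qua_isChar hk0).norm_le hk0 ρ) (norm_nonneg _)
      ((isChar_dual hρ0 hω).norm_le hρ0 k))
  have ha0 : chi k ρ * ω k * gs k (chi k) 1 ≠ 0 := by
    rw [← norm_pos_iff, ha]; exact hs
  set a := chi k ρ * ω k * gs k (chi k) 1 with ha'
  set b := qua k ρ * dual ρ ω k * gs k (qua k) 1 with hb'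
  refine ⟨fun i => w i * (b / a), fun i => ?_, ?_⟩
  · rw [norm_mul, norm_div, ha]
    exact mul_le_one₀ (hw i) (by positivity) ((div_le_one hs).2 hb)
  have e1 : pb (fun m => tt m * ν.v m * gs (k * ρ) (fun x => chi k x * ω x) m) y t =
      a * Hs ν (gs ρ ω) y t k := by
    unfold Hs pb
    rw [← blks_smul]
    congr 1
    funext m
    rw [gs_split hks hρ0 hω hkρ m]
    ring
  have e2 : ∀ i, (∑' n : R K, if Prim n then
      gs (k * ρ) (dual (k * ρ) fun x => chi k x * ω x) n * (N n : ℂ) ^ (-(1 / 2 : ℂ)) *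
        𝒦 i n (Real.log (N n) + y - 2 * Real.log (N (k * ρ))) else 0) =
      b * Phi (𝒦 i) (gs ρ (dual ρ ω)) (y - 2 * Real.log (N ρ)) k := by
    intro i
    unfold Phi ph
    rw [← tsum_mul_left]
    refine tsum_congr fun n => ?_
    split_ifs
    · rw [gs_split_dual hks hρ0 hω hkρ n, N_mul, Real.log_mul (N_pos hk0).ne' (N_pos hρ0).ne',
        show Real.log (N n) + y - 2 * (Real.log (N k) + Real.log (N ρ)) =
          Real.log (N n) + (y - 2 * Real.log (N ρ)) - 2 * Real.log (N k) by ring]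
      ring
    · rw [mul_zero]
  have e3 := hV y
  rw [e1] at e3
  simp only [e2] at e3
  rw [← mul_right_inj' ha0, e3, Finset.mul_sum]
  refine Finset.sum_congr rfl fun i _ => ?_
  field_simp

end Crest.Agent.R312.TN
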