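import Crest.Agent.R312.B4aTLS

/-!
# R312 / B4aAl : operations on standard sequences, trivial bounds, the short case

Definitions and the dictionary R17 → R312 are in `B4aDefs.lean`.  Prefix helper lemmas with `b4aal_`.
Copy from `R17/FMoment_Al`, `FMoment_Triv`, `FMoment_Link` (`W = gw`, no marks).
-/

set_option autoImplicit false

noncomputable section

open scoped Classical ComplexConjugate NumberField
open MeasureTheory

namespace Crest.Agent.R312.FM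

variable {K : Type} [Field K] [NumberField K] [Fld K] [Loc K] [Setup K]

namespace Par

variable {π : Par K}

theorem len_pos (π : Par K) : 0 < π.len := Real.exp_pos _

theorem one_le_s (π : Par K) : 1 ≤ π.s := by
  have := π.ν.sz_nonneg
  have := abs_nonneg π.t
  unfold s
  linarith

theorem len_cut (π : Par K) {g : R K} (hg : g ≠ 0) : (π.cut g).len = π.len / N g := by
  rw [← Real.exp_log (N_pos hg), len, len, ← Real.exp_sub]
  rfl

theorem len_dil (π : Par K) {g : R K} (hg : g ≠ 0) : (π.dil g).len = π.len / N g := by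
  rw [← Real.exp_log (N_pos hg), len, len, ← Real.exp_sub]
  rfl

theorem len_drop (π : Par K) {g : R K} (hg : g ≠ 0) : (π.drop g).len = π.len / N g := by
  rw [← Real.exp_log (N_pos hg), len, len, ← Real.exp_sub]
  rfl

theorem len_shift_le (π : Par K) {x : ℝ} (hx : x ≤ 0) (τ : ℝ) : (π.shift x τ).len ≤ π.len := by
  exact Real.exp_le_exp.2 (show π.y + x / 2 ≤ π.y by linarith)

/-- `e^{1/4} ≤ 2` -/
theorem le_len_shift (π : Par K) {x : ℝ} (hx : -(1 / 2) ≤ x) (τ : ℝ) :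
    π.len ≤ 2 * (π.shift x τ).len := by
  have h1 := Real.add_one_le_exp (x / 2)
  have e : (π.shift x τ).len = Real.exp (x / 2) * π.len := by
    simp only [len, Par.shift, Real.exp_add]
    ring
  rw [e]
  nlinarith [π.len_pos]

theorem s_tw (π : Par K) {θ : Tw K} (hθ : θ ∈ hchars K) : (π.tw θ).s = π.s := by
  simp only [s, tw, Tw.sz, Tw.mul_ξ, (mem_hchars.1 hθ).1, add_zero]

theorem s_shift_tw (π : Par K) (x τ : ℝ) (ν : Tw K) :
    ((π.shift x τ).tw ν).s ≤ π.s * (1 + |τ| + ν.sz) := by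
  have h1 := π.ν.sz_mul_le ν
  have h2 : |π.t - τ| ≤ |π.t| + |τ| := abs_sub _ _
  have h3 : 0 ≤ (|π.t| + π.ν.sz) * (|τ| + ν.sz) :=
    mul_nonneg (add_nonneg (abs_nonneg _) π.ν.sz_nonneg) (add_nonneg (abs_nonneg _) ν.sz_nonneg)
  simp only [s, tw, shift]
  linarith

theorem supp {n : R K} (hn : π.al n ≠ 0) : Prim n ∧ Squarefree n ∧ IsCoprime n π.H := by
  obtain ⟨h1, h2⟩ := ite_ne_right_iff.1 hn
  simp only [ne_eq, mul_eq_zero, not_or] at h2
  exact ⟨h1.1, not_not.1 (mt mu_eq_zero h2.1.1.1), h1.2⟩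

theorem suppSq (π : Par K) : SuppSq π.al := by
  exact fun _ hn => ⟨(supp hn).1, (supp hn).2.1⟩

theorem al_zero (π : Par K) : π.al 0 = 0 := supp_zero π.suppSq

theorem b4aal_norm {n : R K} (hn : n ≠ 0) (t : ℝ) {a : ℂ} (ha : ‖a‖ ≤ 1) :
    ‖a * (N n : ℂ) ^ (-(1 / 2 + t * Complex.I) : ℂ)‖ ≤ N n ^ (-(1 / 2 : ℝ)) := by
  refine (norm_mul_le _ _).trans ((mul_le_of_le_one_left (norm_nonneg _) ha).trans_eq ?_)
  rw [Complex.norm_cpow_eq_rpow_re_of_pos (N_pos hn)]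
  simp

theorem b4aal_one {a b : ℂ} (ha : ‖a‖ ≤ 1) (hb : ‖b‖ ≤ 1) : ‖a * b‖ ≤ 1 :=
  (norm_mul_le _ _).trans (mul_le_one₀ ha (norm_nonneg _) hb)

theorem norm_al_le (π : Par K) (n : R K) :
    ‖π.al n‖ ≤ if Prim n then N n ^ (-(1 / 2 : ℝ)) * gw (Real.log (N n) - π.y) else 0 := by
  unfold al
  by_cases hn : Prim n ∧ IsCoprime n π.H
  · rw [if_pos hn, if_pos hn.1, norm_mul, Complex.norm_real, Real.norm_of_nonneg (gw_pos _).le]
    exact mul_le_mul_of_nonneg_right (b4aal_norm hn.1.ne_zero _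
      (b4aal_one (norm_mu_le n) (π.ν.norm_v_le n))) (gw_pos _).le
  · rw [if_neg hn, norm_zero]
    exact bl1_nonneg _ _ _

theorem norm_cf_le (π : Par K) {g : R K} (hg : g ≠ 0) : ‖π.cf g‖ ^ 2 ≤ (N g)⁻¹ := by
  unfold cf
  split_ifs with hn
  · refine (pow_le_pow_left₀ (norm_nonneg _) (b4aal_norm hg _
      (b4aal_one (norm_mu_le g) (π.ν.norm_v_le g))) 2).trans (le_of_eq ?_)
    rw [← Real.rpow_natCast, ← Real.rpow_mul (N_nonneg g), ← Real.rpow_neg_one]
    norm_num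
  · rw [norm_zero, zero_pow two_ne_zero]
    exact inv_nonneg.2 (N_nonneg g)

/-- `μ(g m) = μ(g) μ(m) 1_{(m,g)=1}`; `Prim (g m) ↔ Prim m` -/
theorem al_dil (π : Par K) {g : R K} (hg : Prim g) (m : R K) :
    π.al (g * m) = π.cf g * (π.dil g).al m := by
  by_cases hc : IsCoprime g π.H ∧ Prim m ∧ IsCoprime m (π.H * g)
  · obtain ⟨h1, h2, h3⟩ := hc
    rw [al, if_pos ⟨hg.mul h2, h1.mul_left h3.of_mul_right_left⟩,
      mu_mul h3.of_mul_right_right.symm, π.ν.v_mul, N_mul_cpow, cf, if_pos h1, al, if_pos ⟨h2, h3⟩,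
      N_mul, Real.log_mul (N_pos hg.ne_zero).ne' (N_pos h2.ne_zero).ne']
    simp only [Par.dil]
    rw [show Real.log (N g) + Real.log (N m) - π.y = Real.log (N m) - (π.y - Real.log (N g)) by ring]
    ring
  · have e : π.cf g * (π.dil g).al m = 0 := by
      rcases not_and_or.1 hc with hc | hc
      · rw [cf, if_neg hc, zero_mul]
      · exact mul_eq_zero_of_right _ (if_neg hc)
    rw [e]
    by_contra h0
    obtain ⟨h1, h2, h3⟩ := supp h0
    exact hc ⟨h3.of_mul_left_left, h1.of_mul_left hg, h3.of_mul_left_right.mul_right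
      (IsRelPrime.of_squarefree_mul h2).isCoprime.symm⟩

theorem al_tw (π : Par K) (ν : Tw K) (n : R K) : (π.tw ν).al n = π.al n * ν.v n := by
  by_cases hn : Prim n ∧ IsCoprime n π.H
  · rw [al, al, if_pos hn, if_pos (show Prim n ∧ IsCoprime n (π.tw ν).H from hn)]
    simp only [tw, Tw.v, Tw.mul_f]
    ring
  · rw [al, al, if_neg hn, if_neg (show ¬ (Prim n ∧ IsCoprime n (π.tw ν).H) from hn), zero_mul]

/-- `exp_mul_gw` -/
theorem al_shift (π : Par K) (x τ : ℝ) (n : R K) :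
    π.al n * (N n : ℂ) ^ ((x : ℂ) + τ * Complex.I) =
      ((Real.exp (x ^ 2 / 4) * π.len ^ x : ℝ) : ℂ) * (π.shift x τ).al n := by
  by_cases hn : Prim n ∧ IsCoprime n π.H
  · rw [al, al, if_pos hn, if_pos (show Prim n ∧ IsCoprime n (π.shift x τ).H from hn)]
    simp only [Par.shift]
    have hp := N_pos hn.1.ne_zero
    have e : (Real.exp (x * Real.log (N n)) : ℂ) * (gw (Real.log (N n) - π.y) : ℂ) =
        ((Real.exp (x ^ 2 / 4) * π.len ^ x : ℝ) : ℂ) *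
          (gw (Real.log (N n) - (π.y + x / 2)) : ℂ) := by
      rw [← Complex.ofReal_mul, ← Complex.ofReal_mul, exp_mul_gw, len, ← Real.exp_mul,
        ← Real.exp_add]
      congr 3
      ring
    have e2 : (N n : ℂ) ^ (-(1 / 2 + π.t * Complex.I)) * (N n : ℂ) ^ ((x : ℂ) + τ * Complex.I) =
        (N n : ℂ) ^ (-(1 / 2 + (π.t - τ : ℝ) * Complex.I)) * Real.exp (x * Real.log (N n)) := by
      rw [mul_comm x, ← Real.rpow_def_of_pos hp, Complex.ofReal_cpow hp.le,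
        ← Complex.cpow_add _ _ (by exact_mod_cast hp.ne'),
        ← Complex.cpow_add _ _ (by exact_mod_cast hp.ne')]
      congr 1
      push_cast
      ring
    linear_combination mu n * π.ν.v n * (gw (Real.log (N n) - π.y) : ℂ) * e2 +
      mu n * π.ν.v n * (N n : ℂ) ^ (-(1 / 2 + (π.t - τ : ℝ) * Complex.I)) * e
  · rw [al, al, if_neg hn, if_neg (show ¬ (Prim n ∧ IsCoprime n (π.shift x τ).H) from hn),
      zero_mul, mul_zero]

/-- primes dividing the row `ρ` do not matter -/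
theorem al_relax {π' : Par K} (hν : π.ν = π'.ν) (hy : π.y = π'.y) (ht : π.t = π'.t) {ρ : R K}
    (hH : ∀ p, Prime p → ¬ p ∣ ρ → (p ∣ π.H ↔ p ∣ π'.H)) (n : R K) :
    π.al n * chi n ρ = π'.al n * chi n ρ := by
  by_cases hn : IsCoprime n ρ
  · have h1 : ∀ p, Prime p → p ∣ n → ¬ p ∣ ρ := fun p hp h1 h2 =>
      hp.not_isUnit (hn.isUnit_of_dvd' h1 h2)
    have h2 : ∀ {H H' : R K}, (∀ p, Prime p → ¬ p ∣ ρ → p ∣ H' → p ∣ H) → Prim n ∧ IsCoprime n H →
        Prim n ∧ IsCoprime n H' := fun e hc => ⟨hc.1, isCoprime_of_prime_dvd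
      (fun e => hc.1.ne_zero e.1) fun p hp h2 h3 =>
        hp.not_isUnit (hc.2.isUnit_of_dvd' h2 (e p hp (h1 p hp h2) h3))⟩
    rw [al, al, ← hν, ← hy, ← ht, if_congr ⟨h2 fun p hp e => (hH p hp e).2,
      h2 fun p hp e => (hH p hp e).1⟩ rfl rfl]
  · have key : ∀ π : Par K, π.al n * chi n ρ = 0 := fun π =>
      mul_eq_zero.2 (or_iff_not_imp_left.2 fun h0 =>
        ((chi_isChar (supp h0).1.ne_zero).zero_iff ρ).2 fun e => hn e.symm)
    rw [key, key]

theorem b4aal_al_le (π : Par K) (x : ℝ) (n : R K) : ‖π.al n‖ * N n ^ x ≤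
    if Prim n then N n ^ (x - 1 / 2) * gw (Real.log (N n) - π.y) else 0 := by
  have h := π.norm_al_le n
  split_ifs at h ⊢ with hn
  · rw [sub_eq_add_neg x, Real.rpow_add (N_pos hn.ne_zero), mul_comm, mul_assoc]
    exact mul_le_mul_of_nonneg_left h (Real.rpow_nonneg (N_nonneg _) _)
  · rw [norm_le_zero_iff.1 h, norm_zero, zero_mul]

theorem rapid (π : Par K) : Rapid π.al := by
  intro j
  refine Summable.of_nonneg_of_le (fun n => mul_nonneg (norm_nonneg _) (pow_nonneg (N_nonneg _) _))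
    (fun n => ?_) (summable_gw_rpow (j - 1 / 2) π.y)
  rw [← Real.rpow_natCast]
  exact b4aal_al_le π j n

theorem summable_mul (π : Par K) {u : R K → ℂ} (hu : ∀ m, Prim m → Squarefree m → ‖u m‖ ≤ 1) :
    Summable (fun m => π.al m * u m) := by
  refine Summable.of_norm_bounded (rapid_summable π.rapid) fun m => ?_
  by_cases h0 : π.al m = 0
  · simp [h0]
  · rw [norm_mul]
    exact mul_le_of_le_one_right (norm_nonneg _) (hu m (supp h0).1 (supp h0).2.1)

theorem F_eq_pb (π : Par K) (d : R K) : π.F d = pb (π.sq d) π.y π.t := by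
  unfold F pb blks
  refine tsum_congr fun n => ?_
  unfold al sq
  by_cases h1 : Prim n <;> by_cases h2 : IsCoprime n π.H
  · rw [if_pos ⟨h1, h2⟩, if_pos h1, if_pos h2]
    ring
  all_goals simp [h1, h2]

theorem polyBd_sq (π : Par K) (d : R K) : PolyBd (π.sq d) := by
  refine ⟨1, 0, fun n hn => ?_⟩
  rw [pow_zero, mul_one, sq]
  split_ifs
  · exact b4aal_one (b4aal_one (norm_mu_le n) (π.ν.norm_v_le n)) (norm_chi_le hn.ne_zero d)
  · simp

theorem Mb_eq_F (ν : Tw K) (d : R K) (y t : ℝ) : Mb ν d y t = (⟨ν, 1, y, t⟩ : Par K).F d := by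
  rw [F_eq_pb, Mb]
  congr 1
  funext m
  simp [sq, isCoprime_one_right]

end Par

theorem b4aal_tsum (x : ℝ) : ∃ C, 0 ≤ C ∧ ∀ π : Par K,
    ∑' n : R K, (if Prim n then N n ^ x * gw (Real.log (N n) - π.y) else 0) ≤ C * π.len ^ (x + 1) := by
  obtain ⟨C, hC⟩ := tsum_gw_rpow (K := K) x
  refine ⟨max C 0, le_max_right _ _, fun π => (hC π.y).trans ?_⟩
  rw [Par.len, ← Real.exp_mul, mul_comm π.y]
  exact mul_le_mul_of_nonneg_right (le_max_left _ _) (Real.exp_pos _).le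

/-- `tsum_gw_rpow` with `x = j - 1/2` -/
theorem mom_al (j : ℕ) : ∃ C, 0 ≤ C ∧ ∀ π : Par K, mom π.al j ≤ C * π.len ^ ((j : ℝ) + 1 / 2) := by
  obtain ⟨C, hC0, hC⟩ := b4aal_tsum (K := K) ((j : ℝ) - 1 / 2)
  refine ⟨C, hC0, fun π => ?_⟩
  have h2 := hC π
  rw [show (j : ℝ) - 1 / 2 + 1 = j + 1 / 2 by ring] at h2
  refine le_trans (Summable.tsum_le_tsum (fun n => ?_) (π.rapid j) (summable_gw_rpow _ _)) h2
  rw [← Real.rpow_natCast]
  exact Par.b4aal_al_le π j n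

/-- `N n^{-1} gw² ≤ N n^{-1+δ} gw`, `tsum_gw_rpow` with `x = -1 + δ` -/
theorem l2_al {δ : ℝ} (hδ : 0 < δ) : ∃ C, 0 ≤ C ∧ ∀ π : Par K,
    ∑' n, ‖π.al n‖ ^ 2 ≤ C * π.len ^ δ := by
  obtain ⟨C, hC0, hC⟩ := b4aal_tsum (K := K) (-1 + δ)
  refine ⟨C, hC0, fun π => ?_⟩
  have h2 := hC π
  rw [show -1 + δ + 1 = δ by ring] at h2
  refine le_trans (Summable.tsum_le_tsum (fun n => ?_) (rapid_summable_sq π.rapid)
    (summable_gw_rpow _ _)) h2
  have a2 := π.norm_al_le n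
  split_ifs at a2 ⊢ with hn
  · have hp := N_pos hn.ne_zero
    have a1 : gw (Real.log (N n) - π.y) ≤ N n ^ δ :=
      (gw_le_one _).trans (Real.one_le_rpow (one_le_N hn.ne_zero) hδ.le)
    have a3 : N n ^ (-1 + δ) = N n ^ (-(1 / 2 : ℝ)) * N n ^ (-(1 / 2 : ℝ)) * N n ^ δ := by
      rw [← Real.rpow_add hp, ← Real.rpow_add hp]
      congr 1
      ring
    have a4 := Real.rpow_nonneg (N_nonneg n) (-(1 / 2 : ℝ))
    have hs0 := (gw_pos (Real.log (N n) - π.y)).le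
    generalize gw (Real.log (N n) - π.y) = s at *
    calc _ ≤ (N n ^ (-(1 / 2 : ℝ)) * s) ^ 2 := pow_le_pow_left₀ (norm_nonneg _) a2 2
      _ = N n ^ (-(1 / 2 : ℝ)) * N n ^ (-(1 / 2 : ℝ)) * s * s := by ring
      _ ≤ N n ^ (-(1 / 2 : ℝ)) * N n ^ (-(1 / 2 : ℝ)) * s * N n ^ δ := by gcongr
      _ = _ := by
        rw [a3]
        ring
  · rw [norm_le_zero_iff.1 a2]
    simp

/-- Port of `R17.FM.short`: `tls`, `l2_al`, `∑ ‖al n‖ √N n ≤ C len` (`tsum_gw_rpow` with `x = 0`). -/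
theorem short {δ : ℝ} (hδ : 0 < δ) (hδ1 : δ ≤ 1 / 8) : ∃ C, 1 ≤ C ∧
    ∀ (π : Par K) (D X : ℝ), 1 ≤ D → 1 ≤ X →
      (π.len ≤ X ∨ π.len ^ 2 ≤ D) → Mo π.al D ≤ C * X ^ 2 * D * π.len ^ δ := by
  obtain ⟨C0, hm, hC0⟩ := tls (K := K)
  obtain ⟨C1, hC10, hC1⟩ := l2_al (K := K) hδ
  obtain ⟨C2, hC20, hC2⟩ := b4aal_tsum (K := K) (1 / 2 - 1 / 2)
  refine ⟨C0 * (2 * C1 + C2 ^ 2) + 1, le_add_of_nonneg_left (by positivity),
    fun π D G hD hG hl => ?_⟩
  have h1 := hC0 π.al π.suppSq π.rapid D (by linarith)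
  have h2 := hC1 π
  have h3 := summable_gw_rpow (K := K) (1 / 2 - 1 / 2) π.y
  have h4 := hC2 π
  have hl0 := π.len_pos
  have h5 : ∑' n, ‖π.al n‖ * Real.sqrt (N n) ≤ C2 * π.len := by
    rw [show (1 : ℝ) / 2 - 1 / 2 + 1 = 1 by ring, Real.rpow_one] at h4
    have b : ∀ n, ‖π.al n‖ * Real.sqrt (N n) ≤ if Prim n then
        N n ^ ((1 : ℝ) / 2 - 1 / 2) * gw (Real.log (N n) - π.y) else 0 := fun n => by
      rw [Real.sqrt_eq_rpow]
      exact Par.b4aal_al_le π (1 / 2) n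
    exact le_trans (Summable.tsum_le_tsum b
      (Summable.of_nonneg_of_le (fun n => by positivity) b h3) h3) h4
  have hp : 0 < π.len ^ δ := Real.rpow_pos_of_pos hl0 _
  have hG2 : 1 ≤ G ^ 2 := one_le_pow₀ hG
  have hGD : 1 ≤ G ^ 2 * D := one_le_mul_of_one_le_of_one_le hG2 hD
  have h6 : π.len ^ 2 ≤ G ^ 2 * D * π.len ^ δ := by
    rcases le_total π.len 1 with h7 | h7
    · have h8 : π.len ^ 2 ≤ π.len ^ δ := by
        rw [← Real.rpow_two]
        exact Real.rpow_le_rpow_of_exponent_ge hl0 h7 (by linarith)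
      exact le_trans h8 (le_mul_of_one_le_left hp.le hGD)
    · have h8 : π.len ^ 2 ≤ G ^ 2 * D := by
        rcases hl with h9 | h9
        · exact le_trans (pow_le_pow_left₀ hl0.le h9 2) (le_mul_of_one_le_right (by positivity) hD)
        · exact le_trans h9 (le_mul_of_one_le_left (by linarith) hG2)
      exact le_trans h8 (le_mul_of_one_le_right (by positivity) (Real.one_le_rpow h7 hδ.le))
  have p1 : 0 ≤ ∑' n, ‖π.al n‖ ^ 2 := tsum_nonneg fun n => by positivity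
  have p2 : 0 ≤ ∑' n, ‖π.al n‖ * Real.sqrt (N n) := tsum_nonneg fun n => by positivity
  have h7 : (1 + D) * ∑' n, ‖π.al n‖ ^ 2 ≤ 2 * C1 * (G ^ 2 * D * π.len ^ δ) := by
    calc _ ≤ (2 * (G ^ 2 * D)) * (C1 * π.len ^ δ) := by
          refine mul_le_mul ?_ h2 p1 (by positivity)
          have := le_mul_of_one_le_left (zero_le_one.trans hD) hG2
          linarith
      _ = _ := by ring
  have h8 : (∑' n, ‖π.al n‖ * Real.sqrt (N n)) ^ 2 ≤ C2 ^ 2 * (G ^ 2 * D * π.len ^ δ) := by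
    refine le_trans (pow_le_pow_left₀ p2 h5 2) ?_
    rw [mul_pow]
    gcongr
  refine le_trans h1 ?_
  calc _ ≤ C0 * (2 * C1 * (G ^ 2 * D * π.len ^ δ) + C2 ^ 2 * (G ^ 2 * D * π.len ^ δ)) := by
        gcongr
    _ = C0 * (2 * C1 + C2 ^ 2) * (G ^ 2 * D * π.len ^ δ) := by ring
    _ ≤ (C0 * (2 * C1 + C2 ^ 2) + 1) * (G ^ 2 * D * π.len ^ δ) := by
        gcongr
        linarith
    _ = _ := by ring

end Crest.Agent.R312.FM
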