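import Crest.Agent.R312.B4aIG

/-!
# R312 / B4aBack1 : tools for the backward step

Definitions and the dictionary R17 → R312 are in `B4aDefs.lean`.  Prefix helper lemmas with `b4aback1_`.
Copy from `R17/Back` lines 1–265 (`al ↦ bal`; `supp` is in `R17/BackAux`).
-/

set_option autoImplicit false

noncomputable section

open scoped Classical ComplexConjugate NumberField
open MeasureTheory

namespace Crest.Agent.R312.FM

variable {K : Type} [Field K] [NumberField K] [Fld K] [Loc K] [Setup K]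

theorem norm_bal {β : R K → ℂ} (hs : SuppSq β) (m : R K) : ‖bal β m‖ = ‖β m‖ := by
  by_cases h : β m = 0
  · simp [bal, h]
  · obtain ⟨h1, h2⟩ := hs _ h
    rw [bal, Complex.norm_conj, norm_mul, norm_gt h1.ne_zero h2, mul_one]

theorem norm_tsum_bal (β : R K → ℂ) (k : R K) :
    ‖∑' m, β m * gt m * conj (chi m k)‖ = ‖∑' m, bal β m * chi m k‖ := by
  rw [← Complex.norm_conj, Complex.conj_tsum]
  congr 1
  refine tsum_congr fun m => ?_
  rw [map_mul, Complex.conj_conj]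
  rfl

theorem b4aback1_supp {β : R K → ℂ} (hs : SuppSq β) {a m : R K} (ha : Prim a) (h : β (a * m) ≠ 0) :
    Prim m ∧ Squarefree a ∧ Squarefree m ∧ IsCoprime a m := by
  obtain ⟨h1, h2⟩ := hs _ h
  exact ⟨h1.of_mul_left ha, h2.of_mul_left, h2.of_mul_right,
    (IsRelPrime.of_squarefree_mul h2).isCoprime⟩

theorem b4aback1_conj (n : R K) (σ τ : ℝ) :
    conj ((N n : ℂ) ^ (-(1 / 2 : ℂ) + σ + (-τ : ℝ) * Complex.I)) =
      (N n : ℂ) ^ (-(1 / 2 : ℂ) + σ + τ * Complex.I) := by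
  have h : (N n : ℂ).arg ≠ Real.pi := by
    rw [Complex.arg_ofReal_of_nonneg (N_nonneg n)]
    exact Real.pi_pos.ne
  have h1 := Complex.cpow_conj (N n : ℂ) (-(1 / 2 : ℂ) + σ + (-τ : ℝ) * Complex.I) h
  rw [Complex.conj_ofReal] at h1
  rw [← h1]
  congr 1
  have h2 : conj (2 : ℂ) = 2 := Complex.conj_ofNat 2
  simp [h2]

/-- Port of `R17.Bk.norm_Tsum`; `gt_mul (g r) m` (note: `sg` is not symmetric). -/
theorem norm_Tsum_bal {β : R K → ℂ} (hs : SuppSq β) {g r : R K} (hg : Prim g) (hr : Prim r)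
    (hsq : Squarefree (g * r)) {θ : Tw K} (hθ : ∀ n, Prim n → θ.v n = sg (g * r) n) (ν : Tw K)
    (d : R K) (σ τ : ℝ) :
    ‖Tsum (fun m => bal β (g * m)) ν r d σ τ‖ = ‖Bsum β (ν⁻¹ * θ) g r (d * g ^ 2) σ (-τ)‖ := by
  have hP := (hg.mul hr).ne_zero
  have h1 : Tsum (fun m => bal β (g * m)) ν r d σ τ =
      conj (gt (g * r)) * conj (Bsum β (ν⁻¹ * θ) g r (d * g ^ 2) σ (-τ)) := by
    rw [Tsum, Bsum, Complex.conj_tsum, ← tsum_mul_left]
    refine tsum_congr fun m => ?_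
    rw [← mul_assoc g r m]
    by_cases hm : β (g * r * m) = 0
    · simp [bal, hm]
    obtain ⟨h2, -, h3, h4⟩ := b4aback1_supp hs (hg.mul hr) hm
    have h5 := chi_isChar h2.ne_zero
    have e1 : gt m * conj (gt m) = 1 := mul_conj_of_norm (norm_gt h2.ne_zero h3)
    have e2 : chi m r * conj (chi m r) = 1 :=
      mul_conj_of_norm (h5.norm_eq_one h2.ne_zero h4.of_mul_left_right)
    rw [bal, gt_mul hP h2.ne_zero h4]
    simp only [map_mul, map_pow, b4aback1_conj, Complex.conj_conj, h5.mul, IsChar_pow h5,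
      Tw.mul_v, Tw.inv_v, hθ m h2]
    linear_combination (conj (β (g * r * m)) * conj (gt (g * r)) * conj (sg (g * r) m) *
      (N (r * m) : ℂ) ^ (-(1 / 2 : ℂ) + σ + τ * Complex.I) * ν.v m * conj (chi m d) *
      conj (chi m g) ^ 2) * ((chi m r * conj (chi m r)) ^ 2 * e1 +
        (chi m r * conj (chi m r) + 1) * e2)
  rw [h1, norm_mul, Complex.norm_conj, Complex.norm_conj, norm_gt hP hsq, one_mul]

/-- `exists_hchar_sg'`, `IG_mul`, `IG_inv`, `IG_neg` (if all `β (g r m)` vanish both sides are `0`) -/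
theorem T_eq_B {β : R K → ℂ} (hs : SuppSq β) {g r : R K} (hg : Prim g) (hr : Prim r)
    (σ L : ℝ) (T : Finset (R K)) :
    IG σ (fun ν τ => ∑ d ∈ T, (L * N d) ^ (-σ) * ‖Tsum (fun m => bal β (g * m)) ν r d σ τ‖ ^ 2) =
      IG σ (fun ν τ => ∑ d ∈ T, (L * N d) ^ (-σ) * ‖Bsum β ν g r (d * g ^ 2) σ τ‖ ^ 2) := by
  by_cases h0 : ∀ m, β (g * r * m) = 0
  · simp [Tsum, Bsum, bal, ← mul_assoc, h0]
  push Not at h0
  obtain ⟨m0, hm0⟩ := h0
  obtain ⟨-, hsq, -, -⟩ := b4aback1_supp hs (hg.mul hr) hm0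
  obtain ⟨θ, hθ, hθ'⟩ := exists_hchar_sg' (g * r)
  simp only [norm_Tsum_bal hs hg hr hsq hθ']
  exact (IG_neg σ fun ν τ => ∑ d ∈ T, (L * N d) ^ (-σ) *
    ‖Bsum β (ν⁻¹ * θ) g r (d * g ^ 2) σ τ‖ ^ 2).trans ((IG_inv σ fun ν τ => ∑ d ∈ T,
      (L * N d) ^ (-σ) * ‖Bsum β (ν * θ) g r (d * g ^ 2) σ τ‖ ^ 2).trans (IG_mul σ (fun ν τ => ∑ d ∈ T,
        (L * N d) ^ (-σ) * ‖Bsum β ν g r (d * g ^ 2) σ τ‖ ^ 2) hθ))

theorem b4aback1_dil {β : R K → ℂ} (hr : Rapid β) {a : R K} (ha : a ≠ 0) (j : ℕ) :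
    Summable (fun m => ‖β (a * m)‖ * N (a * m) ^ j) ∧
      ∑' m, ‖β (a * m)‖ * N (a * m) ^ j ≤ mom β j :=
  ⟨(hr j).comp_injective (mul_right_injective₀ ha),
    tsum_comp_le_tsum_of_inj (hr j) (fun n => mul_nonneg (norm_nonneg _) (pow_nonneg (N_nonneg n) j))
      (mul_right_injective₀ ha)⟩

theorem norm_Bsum_le {β : R K → ℂ} (hs : SuppSq β) (hβ : Rapid β) {g r : R K}
    (hg : Prim g) (hr : Prim r) (ν : Tw K) (d : R K) {σ : ℝ} (hσ : σ ≤ 1) (τ : ℝ) :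
    ‖Bsum β ν g r d σ τ‖ ≤ (N r)⁻¹ * mom β 2 := by
  obtain ⟨h1, h2⟩ := b4aback1_dil hβ (hg.mul hr).ne_zero 2
  have hr0 := N_pos hr.ne_zero
  refine le_trans ?_ (mul_le_mul_of_nonneg_left h2 (inv_nonneg.2 hr0.le))
  rw [← tsum_mul_left]
  refine tsum_of_norm_bounded (h1.mul_left _).hasSum fun m => ?_
  by_cases hm : β (g * r * m) = 0
  · simp [hm]
  obtain ⟨h3, -, -, -⟩ := b4aback1_supp hs (hg.mul hr) hm
  have p1 := one_le_N hg.ne_zero
  have p2 := one_le_N hr.ne_zero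
  have p3 := one_le_N h3.ne_zero
  have e1 : ‖(N (r * m) : ℂ) ^ (-(1 / 2 : ℂ) + σ + τ * Complex.I)‖ ≤ N (r * m) :=
    norm_N_cpow_le (hr.mul h3).ne_zero (by simp; linarith)
  have e2 : N (r * m) ≤ (N r)⁻¹ * N (g * r * m) ^ 2 := by
    rw [← div_eq_inv_mul, le_div_iff₀ hr0, N_mul, N_mul, N_mul]
    have a1 : N r * N m ≤ N g * N r * N m := by nlinarith [mul_pos hr0 (zero_lt_one.trans_le p3)]
    have a2 : N r ≤ N g * N r * N m := by nlinarith
    rw [sq]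
    exact mul_le_mul a1 a2 hr0.le (by positivity)
  rw [norm_mul, norm_mul, norm_mul]
  calc ‖β (g * r * m)‖ * ‖(N (r * m) : ℂ) ^ (-(1 / 2 : ℂ) + σ + τ * Complex.I)‖ * ‖ν.v m‖ * ‖chi m d‖
      ≤ ‖β (g * r * m)‖ * ((N r)⁻¹ * N (g * r * m) ^ 2) * 1 * 1 := by
        gcongr
        · exact e1.trans e2
        · exact ν.norm_v_le m
        · exact norm_chi_le h3.ne_zero d
    _ = _ := by ring

theorem Bx_nonneg (β : R K → ℂ) (σ : ℝ) {L : ℝ} (hL : 0 < L) (U : ℝ) (x : R K × R K) :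
    0 ≤ Bx β σ L U x := by
  unfold Bx
  split_ifs
  · exact IG_nonneg σ fun ν τ => Finset.sum_nonneg fun d _ =>
      mul_nonneg (Real.rpow_nonneg (mul_nonneg hL.le (N_nonneg d)) _) (sq_nonneg _)
  · exact le_rfl

/-- majorant `1_{g ∈ ball U} · C W · 1_{Prim r} N r^{-2}` (`IG_le_const`, `norm_Bsum_le`) -/
theorem summable_Bx {β : R K → ℂ} (hs : SuppSq β) (hβ : Rapid β) {σ : ℝ} (hσ : 0 < σ)
    (hσ1 : σ ≤ 1) {L U : ℝ} (hL : 0 < L) (hU : 0 < U) : Summable (Bx β σ L U) := by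
  obtain ⟨C, hC, hI⟩ := IG_le_const (K := K) hσ
  have hw : ∀ d : R K, 0 ≤ (L * N d) ^ (-σ) := fun d =>
    Real.rpow_nonneg (mul_nonneg hL.le (N_nonneg d)) _
  obtain ⟨W, hW⟩ : ∃ W : ℝ, W = (∑ d ∈ ball K U, (L * N d) ^ (-σ)) * mom β 2 ^ 2 := ⟨_, rfl⟩
  have hW0 : 0 ≤ W := hW ▸ mul_nonneg (Finset.sum_nonneg fun d _ => hw d) (sq_nonneg _)
  have h1 : Summable fun g : R K => if g ∈ ball K U then (1 : ℝ) else 0 :=
    summable_of_ne_finset_zero (s := ball K U) fun g hg => if_neg hg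
  have h2 : Summable fun r : R K => C * W * (if Prim r then N r ^ (-2 : ℝ) else 0) :=
    (summable_N_rpow one_lt_two).mul_left _
  have h3 : ∀ r : R K, 0 ≤ C * W * (if Prim r then N r ^ (-2 : ℝ) else 0) := fun r => by
    have := N_nonneg r
    positivity
  refine Summable.of_nonneg_of_le (Bx_nonneg β σ hL U) (fun x => ?_)
    (h1.mul_of_nonneg h2 (fun g => by dsimp only; split_ifs <;> simp) h3)
  obtain ⟨g, r⟩ := x
  unfold Bx
  dsimp only
  by_cases h4 : Prim g ∧ Prim r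
  swap
  · rw [if_neg h4]
    exact mul_nonneg (by positivity) (h3 r)
  have p1 := one_le_N h4.1.ne_zero
  rw [if_pos h4, if_pos h4.2]
  split_ifs with h5
  · rw [one_mul, mul_assoc]
    refine hI _ _ (fun ν τ => Finset.sum_nonneg fun d _ => mul_nonneg (hw d) (sq_nonneg _))
      fun ν τ => ?_
    rw [hW, mul_assoc, Finset.sum_mul]
    refine le_trans (Finset.sum_le_sum fun d _ => mul_le_mul_of_nonneg_left ?_ (hw d))
      (Finset.sum_le_sum_of_subset_of_nonneg (fun d hd => mem_ball.2 ⟨(mem_ball.1 hd).1,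
        (mem_ball.1 hd).2.trans (div_le_self hU.le (one_le_pow₀ p1))⟩)
        fun d _ _ => mul_nonneg (hw d) (mul_nonneg (sq_nonneg _) (Real.rpow_nonneg (N_nonneg r) _)))
    refine (pow_le_pow_left₀ (norm_nonneg _)
      (norm_Bsum_le hs hβ h4.1 h4.2 ν _ hσ1 τ) 2).trans (le_of_eq ?_)
    rw [mul_pow, inv_pow, mul_comm, Real.rpow_neg (N_nonneg r), Real.rpow_two]
  · have p2 : U < N g := by
      by_contra h
      exact h5 (mem_ball.2 ⟨h4.1, not_lt.1 h⟩)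
    have p3 : U / N g ^ 2 < 1 := by
      rw [div_lt_one (by positivity)]
      nlinarith
    have p4 : ball K (U / N g ^ 2) = ∅ := Finset.eq_empty_of_forall_notMem fun d hd => by
      linarith [(mem_ball.1 hd).2, one_le_N (mem_ball.1 hd).1.ne_zero]
    simp [p4, IG]

theorem b4aback1_mom {β : R K → ℂ} (hs : SuppSq β) (hβ : Rapid β) {g : R K} (hg : g ≠ 0)
    (j : ℕ) : N g ^ j * mom (fun m => bal β (g * m)) j ≤ mom β (j + 1) := by
  refine le_trans ?_ (b4aback1_dil hβ hg (j + 1)).2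
  have h1 : N g ^ j * mom (fun m => bal β (g * m)) j = ∑' m, ‖β (g * m)‖ * N (g * m) ^ j := by
    rw [mom, ← tsum_mul_left]
    refine tsum_congr fun m => ?_
    rw [norm_bal hs, N_mul, mul_pow]
    ring
  rw [h1]
  refine Summable.tsum_le_tsum (fun m => ?_) (b4aback1_dil hβ hg j).1
    (b4aback1_dil hβ hg (j + 1)).1
  by_cases hm : β (g * m) = 0
  · simp [hm]
  · exact mul_le_mul_of_nonneg_left
      (pow_le_pow_right₀ (one_le_N (hs _ hm).1.ne_zero) (Nat.le_succ j)) (norm_nonneg _)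

theorem tail_le {β : R K → ℂ} (hs : SuppSq β) (hβ : Rapid β) {g : R K} (hg : g ≠ 0)
    (j : ℕ) {L U : ℝ} (hL : 0 < L) (hU : 0 < U) :
    L * (U / N g ^ 2) * ((L * (U / N g ^ 2)) ^ j)⁻¹ * mom (fun m => bal β (g * m)) j ^ 2 ≤
      L * U * ((L * U) ^ j)⁻¹ * mom β (j + 1) ^ 2 * (N g ^ 2)⁻¹ := by
  have p := N_pos hg
  have h1 := pow_le_pow_left₀ (mul_nonneg (pow_nonneg p.le j) (mom_nonneg _ j))
    (b4aback1_mom hs hβ hg j) 2
  calc L * (U / N g ^ 2) * ((L * (U / N g ^ 2)) ^ j)⁻¹ * mom (fun m => bal β (g * m)) j ^ 2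
      = L * U * ((L * U) ^ j)⁻¹ * (N g ^ j * mom (fun m => bal β (g * m)) j) ^ 2 * (N g ^ 2)⁻¹ := by
        rw [← mul_div_assoc, div_pow, ← pow_mul, mul_comm 2 j, pow_mul]
        field_simp
    _ ≤ _ := by gcongr

end Crest.Agent.R312.FM
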