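import Crest.Agent.R312.B4aGcd1

/-!
# R312 / B4aGcd2 : gcd decomposition of second moments

Definitions and the dictionary R17 → R312 are in `B4aDefs.lean`.  Prefix helper lemmas with `b4agcd2_`.
Copy from `R17/TLS` lines 715–938.
-/

set_option autoImplicit false

noncomputable section

open scoped Classical ComplexConjugate NumberField
open MeasureTheory

namespace Crest.Agent.R312.FM

variable {K : Type} [Field K] [NumberField K] [Fld K] [Loc K] [Setup K]

variable {α : R K → ℂ}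

theorem b4agcd2_PQ0 (α : R K → ℂ) (g d : R K) : 0 ≤ PQ α g d := sq_nonneg _

theorem b4agcd2_wn {D : ℝ} (hD : 0 < D) : Summable (fun d : R K => ‖(wt d 1 D : ℂ)‖) := by
  simpa only [norm_wt] using summable_wt1 (K := K) hD

/-- second moment of the dilate -/
def b4agcd2_MM (α : R K → ℂ) (D : ℝ) (q : R K) : ℝ := ∑' d : R K, wt d 1 D * PQ α q d

/-- the Möbius-weighted second moment -/
def b4agcd2_YY (α : R K → ℂ) (D : ℝ) (r q : R K) : ℂ :=
  ∑' d : R K, (wt d 1 D : ℂ) * (gcf r d * (PQ α q d : ℂ))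

variable {D : ℝ}

theorem b4agcd2_summ_MM (hs : SuppSq α) (hα : Rapid α) (hD : 0 < D) (q : R K) :
    Summable (fun d : R K => wt d 1 D * PQ α q d) :=
  Summable.of_nonneg_of_le (fun _ => mul_nonneg (wt_nonneg _ _ _) (b4agcd2_PQ0 _ _ _))
    (fun d => mul_le_mul_of_nonneg_left (PQ_le hs hα q d) (wt_nonneg _ _ _))
    ((summable_wt1 hD).mul_right _)

theorem b4agcd2_MM_nonneg (α : R K → ℂ) (D : ℝ) (q : R K) : 0 ≤ b4agcd2_MM α D q :=
  tsum_nonneg fun _ => mul_nonneg (wt_nonneg _ _ _) (b4agcd2_PQ0 _ _ _)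

theorem b4agcd2_summable_MM (hs : SuppSq α) (hα : Rapid α) (hD : 0 < D) :
    Summable (fun q => if Prim q then N q * b4agcd2_MM α D q else 0) := by
  refine Summable.of_nonneg_of_le (fun q => ?_)
    (fun q => ?_) ((summable_sA hs hα).mul_left (∑' d : R K, wt d 1 D))
  · split_ifs
    · exact mul_nonneg (N_nonneg _) (b4agcd2_MM_nonneg _ _ _)
    · exact le_rfl
  split_ifs
  · rw [mul_left_comm]
    refine mul_le_mul_of_nonneg_left ?_ (N_nonneg _)
    rw [← tsum_mul_right]
    exact Summable.tsum_le_tsum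
      (fun d => mul_le_mul_of_nonneg_left (PQ_le hs hα q d) (wt_nonneg _ _ _))
      (b4agcd2_summ_MM hs hα hD q) ((summable_wt1 hD).mul_right _)
  · rw [mul_zero]

theorem b4agcd2_norm_YY_term (α : R K → ℂ) (D : ℝ) (r q d : R K) :
    ‖(wt d 1 D : ℂ) * (gcf r d * (PQ α q d : ℂ))‖ ≤ wt d 1 D * PQ α q d := by
  rw [norm_mul, norm_wt, norm_mul, Complex.norm_real, Real.norm_eq_abs,
    abs_of_nonneg (b4agcd2_PQ0 _ _ _)]
  exact mul_le_mul_of_nonneg_left (mul_le_of_le_one_left (b4agcd2_PQ0 _ _ _) (norm_gcf_le r d))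
    (wt_nonneg _ _ _)

theorem b4agcd2_norm_YY_le (hs : SuppSq α) (hα : Rapid α) (hD : 0 < D) (r q : R K) :
    ‖b4agcd2_YY α D r q‖ ≤ b4agcd2_MM α D q :=
  tsum_of_norm_bounded (b4agcd2_summ_MM hs hα hD q).hasSum fun d => b4agcd2_norm_YY_term α D r q d

theorem b4agcd2_summ_fibre {b : R K → ℝ} (hb0 : ∀ q, 0 ≤ b q) 
    (hb : Summable (fun q => if Prim q then N q * b q else 0)) :
    Summable (fun p : R K × R K => if Prim p.1 ∧ Prim p.2 then b (p.1 * p.2) else 0) :=
  (conv_sum (fun _ q => b q) hb fun _ q _ => by rw [Real.norm_eq_abs, abs_of_nonneg (hb0 q)]).1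

theorem b4agcd2_Qform_eq (hs : SuppSq α) (hα : Rapid α) (hD : 0 < D) {g : R K} (hg : Prim g) :
    Qform (fun m => α (g * m)) D = ∑' r, if Prim r then b4agcd2_YY α D r (g * r) else 0 := by
  have hb := (b4agcd2_summ_fibre (fun q => sq_nonneg (sA α q)) (summable_sA hs hα)).prod_factor g
  simp only [hg, true_and] at hb
  unfold Qform
  simp only [inner_eq hs hα hg]
  rw [fub (b4agcd2_wn hD) hb]
  · refine tsum_congr fun r => ?_
    split_ifs
    · rfl
    · simp
  · intro r d
    split_ifs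
    · rw [norm_mul, Complex.norm_real, Real.norm_eq_abs, abs_of_nonneg (b4agcd2_PQ0 _ _ _)]
      exact le_trans (mul_le_of_le_one_left (b4agcd2_PQ0 _ _ _) (norm_gcf_le r d)) (PQ_le hs hα _ d)
    · simp

theorem b4agcd2_norm_Qform_le (hs : SuppSq α) (hα : Rapid α) (hD : 0 < D) {g : R K} (hg : Prim g) :
    ‖Qform (fun m => α (g * m)) D‖ ≤ ∑' r, if Prim g ∧ Prim r then b4agcd2_MM α D (g * r) else 0 := by
  have hb := (b4agcd2_summ_fibre (b4agcd2_MM_nonneg α D) (b4agcd2_summable_MM hs hα hD)).prod_factor g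
  rw [b4agcd2_Qform_eq hs hα hD hg]
  refine tsum_of_norm_bounded hb.hasSum fun r => ?_
  by_cases hr : Prim r
  · rw [if_pos hr, if_pos ⟨hg, hr⟩]
    exact b4agcd2_norm_YY_le hs hα hD r _
  · rw [if_neg hr, if_neg fun h => hr h.2, norm_zero]

theorem b4agcd2_summable_Qform (hs : SuppSq α) (hα : Rapid α) (hD : 0 < D) :
    Summable (fun g : R K => if Prim g then ‖Qform (fun m => α (g * m)) D‖ else 0) := by
  refine Summable.of_nonneg_of_le (fun g => ?_) (fun g => ?_)
    (b4agcd2_summ_fibre (b4agcd2_MM_nonneg α D) (b4agcd2_summable_MM hs hα hD)).prod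
  · split_ifs
    · exact norm_nonneg _
    · exact le_rfl
  · by_cases hg : Prim g
    · rw [if_pos hg]
      exact b4agcd2_norm_Qform_le hs hα hD hg
    · simp [hg]

theorem b4agcd2_sum_YY (hs : SuppSq α) (hα : Rapid α) (hD : 0 < D) (q : R K) :
    ∑ r ∈ pdiv q, b4agcd2_YY α D r q =
      ∑' d : R K, (wt d 1 D : ℂ) * ((∑ r ∈ pdiv q, gcf r d) * (PQ α q d : ℂ)) := by
  unfold b4agcd2_YY
  rw [← Summable.tsum_finsetSum fun r _ =>
    Summable.of_norm_bounded (b4agcd2_summ_MM hs hα hD q) fun d => b4agcd2_norm_YY_term α D r q d]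
  refine tsum_congr fun d => ?_
  rw [Finset.sum_mul, Finset.mul_sum]

theorem b4agcd2_re_sum_YY_nonneg (hs : SuppSq α) (hα : Rapid α) (hD : 0 < D) {q : R K} (hG : Prim q) :
    0 ≤ (∑ r ∈ pdiv q, b4agcd2_YY α D r q).re := by
  choose x hx0 hx using sum_gcf hG
  have h : ∑ r ∈ pdiv q, b4agcd2_YY α D r q = ((∑' d : R K, wt d 1 D * (x d * PQ α q d) : ℝ) : ℂ) := by
    rw [b4agcd2_sum_YY hs hα hD, Complex.ofReal_tsum]
    refine tsum_congr fun d => ?_
    rw [hx]
    push_cast
    rfl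
  rw [h, Complex.ofReal_re]
  exact tsum_nonneg fun d => mul_nonneg (wt_nonneg _ _ _) (mul_nonneg (hx0 d) (b4agcd2_PQ0 _ _ _))

theorem b4agcd2_re_sum_YY_one (α : R K → ℂ) (D : ℝ) :
    (∑ r ∈ pdiv 1, b4agcd2_YY α D r 1).re = ∑' d : R K, wt d 1 D * ‖∑' n, α n * chi n d‖ ^ 2 := by
  have h : ∑ r ∈ pdiv 1, b4agcd2_YY α D r 1 =
      ((∑' d : R K, wt d 1 D * ‖∑' n, α n * chi n d‖ ^ 2 : ℝ) : ℂ) := by
    rw [pdiv_one, Finset.sum_singleton, b4agcd2_YY, Complex.ofReal_tsum]
    refine tsum_congr fun d => ?_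
    simp [gcf, PQ, mu_one, isCoprime_one_right]
  rw [h, Complex.ofReal_re]

/-- Port of `R17.gcd_split` (`MM α D g = Mo (α (g ·)) D`, `YY`, `Qform_eq`, `norm_Qform_le`, …; all
majorants only on primary `g`). -/
theorem gcd_split {α : R K → ℂ} (hs : SuppSq α) (hα : Rapid α) {D : ℝ} (hD : 0 < D) :
    Summable (fun g : R K => if Prim g then ‖Qform (fun m => α (g * m)) D‖ else 0) ∧
    Mo α D ≤ ∑' g : R K, if Prim g then ‖Qform (fun m => α (g * m)) D‖ else 0 := by
  have hQ := b4agcd2_summable_Qform hs hα hD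
  refine ⟨hQ, ?_⟩
  obtain ⟨h1, h2, h3⟩ := conv_sum (b4agcd2_YY α D) (b4agcd2_summable_MM hs hα hD)
    fun r q _ => b4agcd2_norm_YY_le hs hα hD r q
  have h4 : ∑' g : R K, (if Prim g then Qform (fun m => α (g * m)) D else 0) =
      ∑' q, if Prim q then ∑ r ∈ pdiv q, b4agcd2_YY α D r q else 0 := by
    rw [← h3, h1.tsum_prod, ← Summable.tsum_comm (f := fun r g : R K =>
      if Prim r ∧ Prim g then b4agcd2_YY α D r (r * g) else 0) h1]
    refine tsum_congr fun g => ?_
    by_cases hg : Prim g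
    · rw [if_pos hg, b4agcd2_Qform_eq hs hα hD hg]
      refine tsum_congr fun r => ?_
      simp only [hg, and_true, mul_comm]
    · simp [hg]
  have h5 : ‖∑' g : R K, (if Prim g then Qform (fun m => α (g * m)) D else 0)‖ ≤
      ∑' g : R K, if Prim g then ‖Qform (fun m => α (g * m)) D‖ else 0 := by
    refine tsum_of_norm_bounded hQ.hasSum fun g => ?_
    split_ifs
    · exact le_rfl
    · simp
  refine le_trans ?_ (le_trans (Complex.re_le_norm _) h5)
  rw [h4, Complex.re_tsum h2, Mo, ← b4agcd2_re_sum_YY_one α D]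
  have h6 := (Complex.hasSum_re h2.hasSum).summable.le_tsum 1 fun q _ => by
    split_ifs with hG
    · exact b4agcd2_re_sum_YY_nonneg hs hα hD hG
    · simp
  rwa [if_pos Prim.one] at h6

/-- Port of `R17.gcd_large`. -/
theorem gcd_large {α : R K → ℂ} (hs : SuppSq α) (hα : Rapid α) {D : ℝ} (hD : 0 < D) (G0 : ℝ) :
    ∑' g : R K, (if Prim g ∧ G0 < N g then ‖Qform (fun m => α (g * m)) D‖ else 0) ≤
      ∑' g : R K, if Prim g ∧ G0 < N g then nd g * Mo (fun m => α (g * m)) D else 0 := by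
  have hM := b4agcd2_summable_MM hs hα hD
  obtain ⟨h1, h2, h3⟩ := conv_sum (fun g q => if G0 < N g then b4agcd2_MM α D q else 0) hM
    (fun g q _ => by
      split_ifs
      · rw [Real.norm_eq_abs, abs_of_nonneg (b4agcd2_MM_nonneg _ _ _)]
      · simpa using b4agcd2_MM_nonneg α D q)
  have hQ : Summable (fun g : R K =>
      if Prim g ∧ G0 < N g then ‖Qform (fun m => α (g * m)) D‖ else 0) := by
    refine Summable.of_nonneg_of_le (fun g => ?_) (fun g => ?_) (b4agcd2_summable_Qform hs hα hD)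
    · split_ifs
      · exact norm_nonneg _
      · exact le_rfl
    · by_cases h : Prim g ∧ G0 < N g
      · rw [if_pos h, if_pos h.1]
      · rw [if_neg h]
        split_ifs
        · exact norm_nonneg _
        · exact le_rfl
  have hR : Summable (fun q : R K =>
      if Prim q ∧ G0 < N q then ((pdiv q).card : ℝ) * b4agcd2_MM α D q else 0) := by
    refine Summable.of_nonneg_of_le (fun q => ?_) (fun q => ?_) hM
    · split_ifs
      · exact mul_nonneg (Nat.cast_nonneg _) (b4agcd2_MM_nonneg _ _ _)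
      · exact le_rfl
    · by_cases h : Prim q ∧ G0 < N q
      · rw [if_pos h, if_pos h.1]
        exact mul_le_mul_of_nonneg_right (nd_le_N q) (b4agcd2_MM_nonneg _ _ _)
      · rw [if_neg h]
        split_ifs
        · exact mul_nonneg (N_nonneg _) (b4agcd2_MM_nonneg _ _ _)
        · exact le_rfl
  refine le_trans (Summable.tsum_le_tsum (fun g => ?_) hQ h1.prod) ?_
  · by_cases h : Prim g ∧ G0 < N g
    · rw [if_pos h]
      simp only [h.2, if_true]
      exact b4agcd2_norm_Qform_le hs hα hD h.1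
    · rw [if_neg h]
      refine tsum_nonneg fun r => ?_
      dsimp only
      split_ifs
      · exact b4agcd2_MM_nonneg _ _ _
      · exact le_rfl
      · exact le_rfl
  · rw [← h1.tsum_prod, h3]
    refine Summable.tsum_le_tsum (fun q => ?_) h2 hR
    by_cases hG : Prim q
    · rw [if_pos hG]
      by_cases h0 : G0 < N q
      · rw [if_pos ⟨hG, h0⟩]
        show _ ≤ ((pdiv q).card : ℝ) * b4agcd2_MM α D q
        rw [← nsmul_eq_mul]
        refine Finset.sum_le_card_nsmul _ _ _ fun g _ => ?_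
        split_ifs
        · exact le_rfl
        · exact b4agcd2_MM_nonneg _ _ _
      · rw [if_neg fun h => h0 h.2]
        refine le_of_eq (Finset.sum_eq_zero fun g hg => if_neg fun h => h0 ?_)
        exact lt_of_lt_of_le h (N_le_of_dvd hG.ne_zero ((mem_pdiv hG.ne_zero).mp hg).2)
    · rw [if_neg hG, if_neg fun h => hG h.1]

end Crest.Agent.R312.FM
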