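import Crest.Agent.R312.B4aPS2

/-!
# R312 / B4aPS3 : the Poisson step

Definitions and the dictionary R17 → R312 are in `B4aDefs.lean`.  Prefix helper lemmas with `b4aps3_`.
Copy from `R17/PStep` lines 215–435.
-/

set_option autoImplicit false

noncomputable section

open scoped Classical ComplexConjugate NumberField
open MeasureTheory

namespace Crest.Agent.R312.FM

variable {K : Type} [Field K] [NumberField K] [Fld K] [Loc K] [Setup K]

/-- Port of `R17.ps_mid`; for summability use `norm_psK_le` (majorant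
`1_{Prim r} N r^{-2} · ‖α a‖ N a³ · ‖α b‖ N b`). -/
theorem ps_mid {α : R K → ℂ} (hs : SuppSq α) (hα : Rapid α) {D : ℝ} (hD : 0 < D)
    {k : R K} (hk : k ≠ 0) {B : R K → ℝ} (hB : Summable fun r => if Prim r then B r else 0)
    (h : ∀ r, Prim r → ‖∑' p : R K × R K,
      if r ∣ p.1 ∧ r ∣ p.2 then α p.1 * conj (α p.2) * psK D p.1 p.2 k else 0‖ ≤ B r) :
    ‖∑' p : R K × R K, (if IsCoprime p.1 p.2 then α p.1 * conj (α p.2) else 0) *
      psK D p.1 p.2 k‖ ≤ ∑' r, if Prim r then B r else 0 := by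
  obtain ⟨C, hC0, hC⟩ := norm_psK_le (K := K)
  set f : R K → R K × R K → ℂ := fun r p => if Prim r then mu r *
    (if r ∣ p.1 ∧ r ∣ p.2 then α p.1 * conj (α p.2) * psK D p.1 p.2 k else 0) else 0 with hf
  have hW : 0 ≤ C * (D * N k)⁻¹ := mul_nonneg hC0 (inv_nonneg.2 (mul_nonneg hD.le (N_nonneg _)))
  have sf : Summable (Function.uncurry f) := by
    have n0 : ∀ j : ℕ, (0 : R K → ℝ) ≤ fun m => ‖α m‖ * N m ^ j := fun j m =>
      mul_nonneg (norm_nonneg _) (pow_nonneg (N_nonneg _) _)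
    have n1 : (0 : R K → ℝ) ≤ fun r => if Prim r then N r ^ (-2 : ℝ) else 0 := fun r => by
      show 0 ≤ if Prim r then N r ^ (-2 : ℝ) else 0
      split_ifs
      · exact Real.rpow_nonneg (N_nonneg _) _
      · exact le_rfl
    refine Summable.of_norm_bounded (((summable_N_rpow (σ := 2) (by norm_num)).mul_of_nonneg
      ((hα 3).mul_of_nonneg (hα 1) (n0 3) (n0 1)) n1
      fun p => mul_nonneg (n0 3 _) (n0 1 _)).mul_left (C * (D * N k)⁻¹)) ?_
    rintro ⟨r, a, b⟩
    have z := mul_nonneg hW (mul_nonneg (n1 r) (mul_nonneg (n0 3 a) (n0 1 b)))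
    simp only [Function.uncurry, hf]
    by_cases h1 : Prim r
    swap
    · simp [h1]
    simp only [if_pos h1] at z
    rw [if_pos h1, if_pos h1]
    split_ifs with h2
    · by_cases ha : α a = 0
      · simp [ha]
      by_cases hb : α b = 0
      · simp [hb]
      obtain ⟨a1, a2⟩ := hs _ ha
      obtain ⟨b1, b2⟩ := hs _ hb
      have r0 := N_pos h1.ne_zero
      have na := N_nonneg a
      have nb := N_nonneg b
      have k1 := hC a b k a2 b2 hk D hD
      have k2 : 1 ≤ N r ^ (-2 : ℝ) * N a ^ 2 := by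
        rw [Real.rpow_neg r0.le, Real.rpow_two, ← div_eq_inv_mul, one_le_div (by positivity)]
        gcongr
        exact N_le_of_dvd a1.ne_zero h2.1
      rw [norm_mul, norm_mul, norm_mul, Complex.norm_conj]
      calc _ ≤ 1 * (‖α a‖ * ‖α b‖ * (C * (D * N k)⁻¹ * (N a * N b))) := by
            gcongr
            exact norm_mu_le r
        _ ≤ (N r ^ (-2 : ℝ) * N a ^ 2) * (‖α a‖ * ‖α b‖ * (C * (D * N k)⁻¹ * (N a * N b))) := by
            gcongr
        _ = _ := by ring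
    · simpa using z
  have e1 : ∀ p : R K × R K, (if IsCoprime p.1 p.2 then α p.1 * conj (α p.2) else 0) *
      psK D p.1 p.2 k = ∑' r, f r p := by
    intro p
    by_cases ha : α p.1 = 0
    · simp [hf, ha]
    have a1 := (hs _ ha).1
    rw [tsum_eq_sum (s := (pdiv p.1).filter fun e => e ∣ p.2), Finset.sum_congr rfl
      (g := fun r => mu r * (α p.1 * conj (α p.2) * psK D p.1 p.2 k)), ← Finset.sum_mul,
      sum_mu_coprime a1, isCoprime_comm]
    · split_ifs <;> simp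
    · intro r hr
      rw [Finset.mem_filter, mem_pdiv a1.ne_zero] at hr
      simp only [hf, if_pos hr.1.1, if_pos (And.intro hr.1.2 hr.2)]
    · intro r hr
      rw [Finset.mem_filter, mem_pdiv a1.ne_zero] at hr
      simp only [hf]
      split_ifs with h1 h2
      · exact (hr ⟨⟨h1, h2.1⟩, h2.2⟩).elim
      · simp
      · rfl
  rw [tsum_congr e1, sf.tsum_comm]
  refine tsum_of_norm_bounded hB.hasSum fun r => ?_
  simp only [hf]
  split_ifs with hr
  · rw [tsum_mul_left, norm_mul]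
    exact (mul_le_of_le_one_left (norm_nonneg _) (norm_mu_le r)).trans (h r hr)
  · simp

theorem b4aps3_coef (α : R K → ℂ) (p : R K × R K) :
    ‖(if IsCoprime p.1 p.2 then α p.1 * conj (α p.2) else 0)‖ ≤ ‖α p.1‖ * ‖α p.2‖ := by
  split_ifs
  · rw [norm_mul, Complex.norm_conj]
  · rw [norm_zero]; positivity

/-- **Poisson step** (port of `R17.pstep`) for the part of `α` in one class: `ps_Qform`, `ps_point`,
`ps_mid` for `cls α c` (`supp_of_le`, `rapid_of_le`, `norm_cls_le`, `mom_le_of_le`), `ps_mid_r`,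
`IG_sum`, `IG_const_mul`. -/
theorem pstep {σ : ℝ} (hσ : 0 < σ) (hσ1 : σ ≤ 1) {A0 : ℕ} (hA0 : 2 ≤ A0) :
    ∃ C, 0 ≤ C ∧ ∀ (α : R K → ℂ) (c : G K), SuppSq α → Rapid α → ∀ D U : ℝ, 0 < D → 0 < U →
    ‖Qform (cls α c) D‖ ≤ C * D * ‖α 1‖ ^ 2 +
      C * D * ∑' r : R K, (if Prim r then IG σ (fun ν τ => ∑ k ∈ ball K U,
          (D * N k) ^ (-σ) * ‖Tsum α ν r k σ τ‖ ^ 2) else 0) +
      C * (D * U) * ((D * U) ^ A0)⁻¹ * mom α A0 ^ 2 := by
  obtain ⟨C1, hC1, H1⟩ := ps_point (K := K) hA0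
  obtain ⟨C2, hC2, H2⟩ := norm_psK_le (K := K)
  set H : ℝ := hc K ^ 2 with hH
  have hH0 : 0 ≤ H := by positivity
  refine ⟨1 + H + C1, by positivity, fun α c hs0 hα0 D U hD hU => ?_⟩
  have hle := norm_cls_le α c
  have hs := supp_of_le hs0 hle
  have hα := rapid_of_le hα0 hle
  have hcl : ∀ a, cls α c a ≠ 0 → cl a = c := fun a ha => by
    by_contra h
    exact ha (if_neg h)
  have n0 : ∀ j : ℕ, (0 : R K → ℝ) ≤ fun m => ‖cls α c m‖ * N m ^ j := fun j m =>
    mul_nonneg (norm_nonneg _) (pow_nonneg (N_nonneg _) _)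
  have sK : ∀ k ∈ ball K U, Summable fun p : R K × R K =>
      (if IsCoprime p.1 p.2 then cls α c p.1 * conj (cls α c p.2) else 0) * psK D p.1 p.2 k := by
    intro k hk
    have hW : 0 ≤ C2 * (D * N k)⁻¹ := mul_nonneg hC2 (inv_nonneg.2 (mul_nonneg hD.le (N_nonneg _)))
    refine Summable.of_norm_bounded (((hα 1).mul_of_nonneg (hα 1) (n0 1) (n0 1)).mul_left
      (C2 * (D * N k)⁻¹)) fun p => ?_
    by_cases ha : cls α c p.1 = 0
    · simp [ha]
    by_cases hb : cls α c p.2 = 0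
    · simp [hb]
    rw [norm_mul]
    refine (mul_le_mul (b4aps3_coef (cls α c) p) (H2 _ _ k (hs _ ha).2 (hs _ hb).2
      (mem_ball.1 hk).1.ne_zero D hD) (norm_nonneg _) (by positivity)).trans_eq ?_
    ring
  have h1 := (ps_Qform hs hα hD).sub
    ((hasSum_sum (s := ball K U) fun k hk => (sK k hk).hasSum).mul_left (D : ℂ))
  have h2 := ((hasSum_ite_eq ((1, 1) : R K × R K) (D * ‖cls α c 1‖ ^ 2)).add
    ((((hα A0).hasSum.mul (hα A0).hasSum ((hα A0).mul_of_nonneg (hα A0) (n0 A0) (n0 A0)))).mul_left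
      (C1 * (D * U) * ((D * U) ^ A0)⁻¹)))
  have h3 := h1.norm_le_of_bounded h2 fun p => by
    rw [← Finset.mul_sum, mul_left_comm, ← mul_sub]
    have z : (0 : ℝ) ≤ (if p = (1, 1) then D * ‖cls α c 1‖ ^ 2 else 0) +
        C1 * (D * U) * ((D * U) ^ A0)⁻¹ *
        (‖cls α c p.1‖ * N p.1 ^ A0 * (‖cls α c p.2‖ * N p.2 ^ A0)) :=
      add_nonneg (by split_ifs <;> positivity)
        (mul_nonneg (by positivity) (mul_nonneg (n0 A0 _) (n0 A0 _)))
    by_cases ha : cls α c p.1 = 0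
    · simpa [ha] using z
    by_cases hb : cls α c p.2 = 0
    · simpa [hb] using z
    by_cases hc : IsCoprime p.1 p.2
    swap
    · rw [if_neg hc, zero_mul, norm_zero]; exact z
    obtain ⟨a1, a2⟩ := hs _ ha
    obtain ⟨b1, b2⟩ := hs _ hb
    rw [norm_mul]
    refine (mul_le_mul (b4aps3_coef (cls α c) p) (H1 _ _ a1 b1 a2 b2 hc
      ((hcl _ ha).trans (hcl _ hb).symm) D U hD hU) (norm_nonneg _) (by positivity)).trans_eq ?_
    obtain ⟨a, b⟩ := p
    simp only [Prod.mk.injEq]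
    split_ifs with h
    · rw [h.1, h.2]; ring
    · ring
  have sB : ∀ k, Summable fun r => if Prim r then H * ((D * N k) ^ (-σ) *
      IG σ (fun ν τ => ‖Tsum α ν r k σ τ‖ ^ 2)) else 0 := by
    intro k
    refine (((summable_Tsum hs0 hα0 k hσ hσ1).mul_left ((D * N k) ^ (-σ))).mul_left H).congr
      fun r => ?_
    split_ifs <;> simp
  have h4 : ‖∑ k ∈ ball K U, ∑' p : R K × R K,
      (if IsCoprime p.1 p.2 then cls α c p.1 * conj (cls α c p.2) else 0) * psK D p.1 p.2 k‖ ≤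
      H * ∑' r : R K, (if Prim r then IG σ (fun ν τ => ∑ k ∈ ball K U,
        (D * N k) ^ (-σ) * ‖Tsum α ν r k σ τ‖ ^ 2) else 0) := by
    refine (norm_sum_le_of_le _ fun k hk => ps_mid hs hα hD (mem_ball.1 hk).1.ne_zero (sB k)
      fun r hr => ps_mid_r hs0 hα0 c hσ hσ1 hD (mem_ball.1 hk).1 hr).trans_eq ?_
    rw [← Summable.tsum_finsetSum fun k _ => sB k, ← tsum_mul_left]
    refine tsum_congr fun r => ?_
    split_ifs with hr
    · rw [← Finset.mul_sum, IG_sum hσ (ball K U)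
        (f := fun k ν τ => (D * N k) ^ (-σ) * ‖Tsum α ν r k σ τ‖ ^ 2) fun k _ =>
          (adm_Tsum hs0 hα0 hr.ne_zero k hσ1).const_mul
            (Real.rpow_nonneg (mul_nonneg hD.le (N_nonneg _)) _)]
      congr 1
      exact Finset.sum_congr rfl fun k _ => (IG_const_mul σ _ _).symm
    · simp
  have t0 : 0 ≤ ∑' r : R K, (if Prim r then IG σ (fun ν τ => ∑ k ∈ ball K U,
      (D * N k) ^ (-σ) * ‖Tsum α ν r k σ τ‖ ^ 2) else 0) := tsum_nonneg fun r => by
    split_ifs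
    · exact IG_nonneg σ fun _ _ => Finset.sum_nonneg fun k _ =>
        mul_nonneg (Real.rpow_nonneg (mul_nonneg hD.le (N_nonneg _)) _) (sq_nonneg _)
    · exact le_rfl
  have h5 := (norm_le_norm_sub_add _ _).trans (add_le_add h3 ((norm_mul_le _ _).trans
    (mul_le_mul_of_nonneg_left h4 (norm_nonneg _))))
  rw [Complex.norm_real, Real.norm_of_nonneg hD.le, ← mom, ← sq] at h5
  refine h5.trans ?_
  generalize ∑' r : R K, (if Prim r then IG σ (fun ν τ => ∑ k ∈ ball K U,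
      (D * N k) ^ (-σ) * ‖Tsum α ν r k σ τ‖ ^ 2) else 0) = T at t0
  have u1 : D * ‖cls α c 1‖ ^ 2 ≤ D * ‖α 1‖ ^ 2 :=
    mul_le_mul_of_nonneg_left (pow_le_pow_left₀ (norm_nonneg _) (hle 1) 2) hD.le
  have u2 : C1 * (D * U) * ((D * U) ^ A0)⁻¹ * mom (cls α c) A0 ^ 2 ≤
      C1 * (D * U) * ((D * U) ^ A0)⁻¹ * mom α A0 ^ 2 :=
    mul_le_mul_of_nonneg_left (pow_le_pow_left₀ (mom_nonneg _ _) (mom_le_of_le hα0 hle A0) 2)
      (by positivity)
  have t1 : 0 ≤ D * ‖α 1‖ ^ 2 := by positivity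
  have t2 : 0 ≤ D * U * ((D * U) ^ A0)⁻¹ * mom α A0 ^ 2 := by positivity
  have t3 := mul_nonneg hD.le t0
  nlinarith [mul_nonneg hH0 t1, mul_nonneg hC1 t1, mul_nonneg hH0 t2, mul_nonneg hC1 t3]

end Crest.Agent.R312.FM
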