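import Crest.Agent.R312.B4aBack1
import Crest.Agent.R312.B4aPS3
import Crest.Agent.R312.B4aGcd2

/-!
# R312 / B4aBack2 : the backward step

Definitions and the dictionary R17 → R312 are in `B4aDefs.lean`.  Prefix helper lemmas with `b4aback2_`.
Copy from `R17/Back` lines 265–350.
-/

set_option autoImplicit false

noncomputable section

open scoped Classical ComplexConjugate NumberField
open MeasureTheory

namespace Crest.Agent.R312.FM

variable {K : Type} [Field K] [NumberField K] [Fld K] [Loc K] [Setup K]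

/-- **Backward step** (port of `R17.back`).  `norm_tsum_bal`, `ball_le_Mo`, `Mo_le_cls`; for each class `c`:
`gcd_split` for `cls (bal β) c`, `cls_dil`, `pstep` for `α = bal β (g ·)` and the class `c / cl g` with
`D = L`, `U_g = U/N g²`; `T_eq_B`, `summable_Bx`, `tail_le`; `∑_{g primary} N g^{-2} < ∞`. -/
theorem back {σ : ℝ} (hσ : 0 < σ) (hσ1 : σ ≤ 1) {A0 : ℕ} (hA0 : 2 ≤ A0) :
    ∃ C, 0 ≤ C ∧ ∀ β : R K → ℂ, SuppSq β → Rapid β → ∀ L U : ℝ, 0 < L → 0 < U →
    ∑ k ∈ ball K L, ‖∑' m, β m * gt m * conj (chi m k)‖ ^ 2 ≤ C * L * ∑' m, ‖β m‖ ^ 2 +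
      C * L * ∑' x : R K × R K, (if Prim x.1 ∧ Prim x.2 then
        IG σ (fun ν τ => ∑ d ∈ ball K (U / N x.1 ^ 2), (L * N d) ^ (-σ) *
          ‖Bsum β ν x.1 x.2 (d * x.1 ^ 2) σ τ‖ ^ 2) else 0) +
      C * (L * U) * ((L * U) ^ A0)⁻¹ * mom β (A0 + 1) ^ 2 := by
  obtain ⟨C, hC0, hC⟩ := pstep (K := K) hσ hσ1 hA0
  obtain ⟨C1, hC1, h1⟩ := ball_le_Mo (K := K)
  obtain ⟨C2, hC2, h2⟩ := Mo_le_cls (K := K)
  have hinv : Summable fun n : R K => if Prim n then (N n ^ 2)⁻¹ else 0 := by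
    simpa only [Real.rpow_neg (N_nonneg _), Real.rpow_two] using
      summable_N_rpow (K := K) (σ := 2) (by norm_num)
  obtain ⟨c, hc⟩ : ∃ c : ℝ, c = ∑' n : R K, if Prim n then (N n ^ 2)⁻¹ else 0 := ⟨_, rfl⟩
  have hc0 : 0 ≤ c := hc ▸ tsum_nonneg fun n => by positivity
  refine ⟨C1 * C2 * (C * (1 + c)), by positivity, fun β hs hβ L U hL hU => ?_⟩
  have hs' : SuppSq (bal β) := supp_of_le hs fun n => (norm_bal hs n).le
  have hβ' : Rapid (bal β) := rapid_of_le hβ fun n => (norm_bal hs n).le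
  have hB := summable_Bx hs hβ hσ hσ1 hL hU
  have hB0 := Bx_nonneg β σ hL U
  have hsq := rapid_summable_sq hβ
  obtain ⟨W, hW⟩ : ∃ W : ℝ, W = L * U * ((L * U) ^ A0)⁻¹ * mom β (A0 + 1) ^ 2 := ⟨_, rfl⟩
  have hW0 : 0 ≤ W := hW ▸ by positivity
  have h5 : ∀ cc : G K, Mo (cls (bal β) cc) L ≤
      C * L * ∑' m, ‖β m‖ ^ 2 + C * L * ∑' x, Bx β σ L U x + C * W * c := by
    intro cc
    obtain ⟨a1, a2⟩ := gcd_split (supp_of_le hs' (norm_cls_le _ cc))
      (rapid_of_le hβ' (norm_cls_le _ cc)) hL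
    have h4 : ∀ g : R K, (if Prim g then ‖Qform (fun m => cls (bal β) cc (g * m)) L‖ else 0) ≤
        C * L * ‖β g‖ ^ 2 + C * L * ∑' r, Bx β σ L U (g, r) +
          C * W * if Prim g then (N g ^ 2)⁻¹ else 0 := by
      intro g
      have e0 : 0 ≤ ∑' r, Bx β σ L U (g, r) := tsum_nonneg fun r => hB0 _
      split_ifs with hg
      · have p := N_pos hg.ne_zero
        rw [cls_dil (supp_zero hs') cc hg.ne_zero]
        refine (hC _ _ (supp_dil hs' hg) (rapid_dil hβ' hg.ne_zero) L (U / N g ^ 2) hL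
          (by positivity)).trans (add_le_add (add_le_add ?_ (le_of_eq ?_)) ?_)
        · rw [mul_one, norm_bal hs]
        · congr 1
          refine tsum_congr fun r => ?_
          by_cases hr : Prim r
          · rw [if_pos hr, Bx, if_pos ⟨hg, hr⟩, T_eq_B hs hg hr]
          · rw [if_neg hr, Bx, if_neg fun h => hr h.2]
        · have e1 := tail_le hs hβ hg.ne_zero A0 hL hU
          rw [← hW] at e1
          rw [mul_assoc, mul_assoc, mul_assoc C, ← mul_assoc (L * _)]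
          exact mul_le_mul_of_nonneg_left e1 hC0
      · positivity
    have s1 := hsq.mul_left (C * L)
    have s2 := hB.prod.mul_left (C * L)
    have s3 := hinv.mul_left (C * W)
    have h5 := Summable.tsum_le_tsum h4 a1 ((s1.add s2).add s3)
    rw [(s1.add s2).tsum_add s3, s1.tsum_add s2, tsum_mul_left, tsum_mul_left, tsum_mul_left,
      ← hB.tsum_prod, ← hc] at h5
    exact a2.trans h5
  have h6 := (h1 _ (supp_zero hs') hβ' L hL).trans (mul_le_mul_of_nonneg_left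
    (h2 _ (supp_zero hs') hβ' L _ hL h5) (by positivity))
  simp only [norm_tsum_bal]
  refine h6.trans ?_
  change _ ≤ _ + _ * ∑' x, Bx β σ L U x + _
  rw [mul_assoc _ (L * U), mul_assoc _ (L * U * _), ← hW]
  have t1 : 0 ≤ ∑' m, ‖β m‖ ^ 2 := tsum_nonneg fun m => sq_nonneg _
  have t2 : 0 ≤ ∑' x, Bx β σ L U x := tsum_nonneg hB0
  have t3 : 0 ≤ C1 * C2 * C *
      (c * L * ∑' m, ‖β m‖ ^ 2 + c * L * ∑' x, Bx β σ L U x + W) := by positivity
  linarith

end Crest.Agent.R312.FM
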