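import Crest.Agent.R312.B4aAl

/-!
# R312 / B4aSup : families of rows with varying lengths

Definitions and the dictionary R17 → R312 are in `B4aDefs.lean`.  Prefix helper lemmas with `b4asup_`.
Copy from `R17/FMoment_SupA`, `FMoment_Sup`.
-/

set_option autoImplicit false

noncomputable section

open scoped Classical ComplexConjugate NumberField
open MeasureTheory

namespace Crest.Agent.R312.FM

variable {K : Type} [Field K] [NumberField K] [Fld K] [Loc K] [Setup K]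

/-- Port of `R17.FM.sup_blk` (file `FMoment_SupA`; `blk ↦ pb`, `continuous_pb`, `local_sup`). -/
theorem sup_pb {δ : ℝ} (hδ : 0 < δ) : ∃ C, 0 ≤ C ∧ ∀ (ι : Type) (T : Finset ι) (S : Finset (R K))
    (a : R K → R K → ℂ) (ρ : ι → R K) (y w : ι → ℝ) (Y t m 𝓔 : ℝ), (∀ d ∈ S, PolyBd (a d)) →
    (∀ i ∈ T, ρ i ∈ S ∧ y i ≤ Y ∧ 0 ≤ w i) →
    (∀ d ∈ S, ∑ i ∈ T.filter (fun i => ρ i = d), w i ≤ m) → 0 ≤ m → 0 ≤ 𝓔 →
    (∀ y' t' : ℝ, y' ≤ Y + 1 → |t' - t| ≤ 1 →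
      ∑ d ∈ S, ‖pb (a d) y' t'‖ ^ 2 ≤ 𝓔 * Real.exp (δ * y')) →
    ∑ i ∈ T, w i * ‖pb (a (ρ i)) (y i) t‖ ^ 2 ≤
      C * (1 + |t|) ^ 2 * m * 𝓔 * Real.exp (δ * Y) := by
  obtain ⟨C, hC⟩ := local_sup (K := K)
  refine ⟨|C| * (2 * Real.exp δ / δ), by positivity,
    fun ι T S a ρ y w Y t m 𝓔 ha hT hm hm0 hE h => ?_⟩
  obtain ⟨A, hA⟩ : ∃ A, ∀ i ∈ T, A ≤ y i - 1 := by
    obtain ⟨A, hA⟩ := (T.image fun i => y i - 1).finite_toSet.bddBelow
    exact ⟨A, fun i hi => hA (Finset.mem_coe.2 (Finset.mem_image_of_mem _ hi))⟩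
  set g : R K → ℝ → ℝ := fun d y' => ∫ t' in Set.Icc (t - 1) (t + 1), ‖pb (a d) y' t'‖ ^ 2 with hg
  have hc : ∀ d ∈ S, Continuous fun p : ℝ × ℝ => ‖pb (a d) p.1 p.2‖ ^ 2 := fun d hd =>
    (continuous_pb (ha d hd)).norm.pow 2
  have hgc : ∀ d ∈ S, Continuous (g d) := fun d hd =>
    continuous_parametric_integral_of_continuous (f := fun y' t' => ‖pb (a d) y' t'‖ ^ 2) (hc d hd)
      isCompact_Icc
  have hg0 : ∀ d y', 0 ≤ g d y' := fun d y' => integral_nonneg fun _ => sq_nonneg _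
  set G : R K → ℝ := fun d => ∫ y' in Set.Icc A (Y + 1), g d y' with hG
  have hG0 : ∀ d, 0 ≤ G d := fun d => integral_nonneg fun _ => hg0 d _
  have h1 : ∀ i ∈ T, ‖pb (a (ρ i)) (y i) t‖ ^ 2 ≤ |C| * (1 + |t|) ^ 2 * G (ρ i) := by
    intro i hi
    obtain ⟨e1, e2, -⟩ := hT i hi
    refine (hC _ (ha _ e1) _ _).trans (mul_le_mul (by gcongr; exact le_abs_self C) ?_
      (integral_nonneg fun _ => hg0 _ _) (by positivity))
    exact setIntegral_mono_set (hgc _ e1).continuousOn.integrableOn_Icc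
      (Filter.Eventually.of_forall (hg0 _))
      (Set.Icc_subset_Icc (hA i hi) (by linarith)).eventuallyLE
  have h2 : ∀ y' ≤ Y + 1, ∑ d ∈ S, g d y' ≤ 2 * 𝓔 * Real.exp (δ * y') := by
    intro y' hy'
    have hi : ∀ d ∈ S, IntegrableOn (fun t' => ‖pb (a d) y' t'‖ ^ 2) (Set.Icc (t - 1) (t + 1)) :=
      fun d hd => ((hc d hd).comp (Continuous.prodMk_right y')).continuousOn.integrableOn_Icc
    simp only [hg]
    rw [← integral_finsetSum _ hi]
    refine (setIntegral_mono_on (integrable_finsetSum _ hi)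
      (continuous_const (y := 𝓔 * Real.exp (δ * y'))).continuousOn.integrableOn_Icc measurableSet_Icc
      fun t' ht' => h y' t' hy' (abs_le.2 ⟨by linarith [ht'.1], by linarith [ht'.2]⟩)).trans_eq ?_
    rw [setIntegral_const, Real.volume_real_Icc_of_le (by linarith), smul_eq_mul]
    ring
  have h3 : ∑ d ∈ S, G d ≤ 2 * 𝓔 * (Real.exp (δ * (Y + 1)) / δ) := by
    have hi : ∀ d ∈ S, IntegrableOn (g d) (Set.Icc A (Y + 1)) :=
      fun d hd => (hgc d hd).continuousOn.integrableOn_Icc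
    have hi' := (integrableOn_exp_mul_Iic hδ (Y + 1)).const_mul (2 * 𝓔)
    simp only [hG]
    rw [← integral_finsetSum _ hi, ← integral_exp_mul_Iic hδ, ← integral_const_mul]
    refine (setIntegral_mono_on (integrable_finsetSum _ hi)
      (IntegrableOn.mono_set hi' Set.Icc_subset_Iic_self) measurableSet_Icc
      fun y' hy' => h2 y' hy'.2).trans ?_
    exact setIntegral_mono_set hi' (Filter.Eventually.of_forall fun _ => by positivity)
      Set.Icc_subset_Iic_self.eventuallyLE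
  have h4 : ∑ i ∈ T, w i * G (ρ i) ≤ m * ∑ d ∈ S, G d := by
    rw [← Finset.sum_fiberwise_of_maps_to fun i hi => (hT i hi).1, Finset.mul_sum]
    refine Finset.sum_le_sum fun d hd => ?_
    rw [Finset.sum_congr rfl fun i hi => by rw [(Finset.mem_filter.1 hi).2], ← Finset.sum_mul]
    exact mul_le_mul_of_nonneg_right (hm d hd) (hG0 d)
  calc _ ≤ ∑ i ∈ T, w i * (|C| * (1 + |t|) ^ 2 * G (ρ i)) :=
        Finset.sum_le_sum fun i hi => mul_le_mul_of_nonneg_left (h1 i hi) (hT i hi).2.2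
    _ = |C| * (1 + |t|) ^ 2 * ∑ i ∈ T, w i * G (ρ i) := by
        rw [Finset.mul_sum]
        exact Finset.sum_congr rfl fun i _ => by ring
    _ ≤ |C| * (1 + |t|) ^ 2 * (m * (2 * 𝓔 * (Real.exp (δ * (Y + 1)) / δ))) := by
        gcongr
        exact h4.trans (mul_le_mul_of_nonneg_left h3 hm0)
    _ = _ := by rw [mul_add, mul_one, Real.exp_add]; ring

/-- If `T` is empty there is nothing to prove; otherwise `1 ≤ D/κ²`.  `sup_pb` with `S = ball (D/κ²)`,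
`a d = π.sq d` (`F_eq_pb`; `(π.mv y t).sq = π.sq` by `rfl`), `Y = log X3`,
`𝓔 = M N H^{δ/2} (2 s)^B · 3D/κ`: for `y' ≤ Y + 1`, `|t' - t| ≤ 1` apply `BndB` to `π.mv y' t'` (length
`≤ e X3 ≤ 3D/κ`, conductor `≤ 2 s`) with `D' = 3D/κ ≥ D/κ²` (`ball_mono`). -/
theorem supK (B : ℕ) {δ : ℝ} (hδ : 0 < δ) : ∃ C, 0 ≤ C ∧ ∀ (M X : ℝ), 0 ≤ M →
    BndB K δ M B X → ∀ π : Par K, Prim π.H → ∀ (ι : Type) (T : Finset ι) (ρ : ι → R K)
    (y w : ι → ℝ) (D κ X3 m : ℝ), 1 ≤ κ → 0 < X3 → Real.exp 1 * X3 ≤ X → κ * X3 ≤ D → 0 ≤ m →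
    (∀ i ∈ T, ρ i ∈ ball K (D / κ ^ 2) ∧ Real.exp (y i) ≤ X3 ∧ 0 ≤ w i) →
    (∀ d : R K, ∑ i ∈ T.filter (fun i => ρ i = d), w i ≤ m) →
    κ * ∑ i ∈ T, w i * ‖(π.mv (y i) π.t).F (ρ i)‖ ^ 2 ≤
      C * m * M * N π.H ^ (δ / 2) * π.s ^ (B + 2) * D * X3 ^ δ := by
  obtain ⟨C, hC, hsup⟩ := sup_pb (K := K) hδ
  refine ⟨C * 2 ^ B * 3, by positivity, ?_⟩
  intro M X hM hB π hH ι T ρ y w D κ X3 m hκ hX3 hX hD hm hT hfib
  have hκ0 : 0 < κ := lt_of_lt_of_le one_pos hκ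
  have hD0 : 0 < D := lt_of_lt_of_le (mul_pos hκ0 hX3) hD
  have hNH : 0 ≤ N π.H ^ (δ / 2) := Real.rpow_nonneg (N_nonneg _) _
  have hs := π.one_le_s
  rcases T.eq_empty_or_nonempty with rfl | ⟨i₀, hi₀⟩
  · simp only [Finset.sum_empty, mul_zero]
    positivity
  have h1 : 1 ≤ D / κ ^ 2 := by
    obtain ⟨h1, h2⟩ := mem_ball.1 (hT i₀ hi₀).1
    exact (one_le_N h1.ne_zero).trans h2
  have h2 : D / κ ^ 2 ≤ 3 * D / κ := by
    rw [div_le_div_iff₀ (by positivity) hκ0]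
    nlinarith [mul_pos hD0 hκ0, mul_le_mul_of_nonneg_left hκ (mul_pos hD0 hκ0).le]
  have hexpY : Real.exp (Real.log X3) = X3 := Real.exp_log hX3
  have key := hsup ι T (ball K (D / κ ^ 2)) π.sq ρ y w (Real.log X3) π.t m
    (M * N π.H ^ (δ / 2) * (2 * π.s) ^ B * (3 * D / κ)) (fun d _ => π.polyBd_sq d)
    (fun i hi => ⟨(hT i hi).1, (Real.le_log_iff_exp_le hX3).2 (hT i hi).2.1, (hT i hi).2.2⟩)
    (fun d _ => hfib d) hm (by positivity) fun y' t' hy' ht' => ?_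
  · have h3 : (1 + |π.t|) ^ 2 ≤ π.s ^ 2 :=
      pow_le_pow_left₀ (by positivity) (le_add_of_nonneg_right (norm_nonneg _)) 2
    rw [mul_comm δ, Real.exp_mul, hexpY] at key
    simp only [Par.F_eq_pb]
    refine (mul_le_mul_of_nonneg_left key hκ0.le).trans ?_
    calc _ ≤ κ * (C * π.s ^ 2 * m * (M * N π.H ^ (δ / 2) * (2 * π.s) ^ B * (3 * D / κ)) *
          X3 ^ δ) := by gcongr
      _ = _ := by
        rw [mul_pow, pow_add]
        field_simp
  · have hle : Real.exp y' ≤ Real.exp 1 * X3 := by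
      rw [← hexpY, ← Real.exp_add]
      exact Real.exp_le_exp.2 (by linarith)
    have he3 : Real.exp 1 ≤ 3 := (Real.exp_one_lt_d9.trans (by norm_num)).le
    have hb := hB (π.mv y' t') hH (3 * D / κ) (hle.trans hX) (hle.trans (by
      rw [le_div_iff₀ hκ0]
      nlinarith [mul_pos hX3 hκ0])) (h1.trans h2)
    have h3 : (π.mv y' t').s ≤ 2 * π.s := by
      have := abs_add_le (t' - π.t) π.t
      rw [sub_add_cancel] at this
      have h4 := abs_nonneg π.t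
      have h5 : 0 ≤ π.ν.sz := norm_nonneg _
      show 1 + |t'| + π.ν.sz ≤ 2 * (1 + |π.t| + π.ν.sz)
      linarith
    have h4 := (π.mv y' t').one_le_s
    simp only [Par.F_eq_pb] at hb
    refine (Finset.sum_le_sum_of_subset_of_nonneg (ball_mono h2) fun _ _ _ => sq_nonneg _).trans
      (hb.trans ?_)
    rw [mul_comm δ, Real.exp_mul]
    show M * N π.H ^ (δ / 2) * (π.mv y' t').s ^ B * (3 * D / κ) * Real.exp y' ^ δ ≤ _
    gcongr

end Crest.Agent.R312.FM
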