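import Crest.Agent.R312.B4aTwist
import Crest.Agent.R312.B4aSup

/-!
# R312 / B4aBackI : the backward step, inner part

Definitions and the dictionary R17 → R312 are in `B4aDefs.lean`.  Prefix helper lemmas with `b4abacki_`.
Copy from `R17/FMoment_BackI`.
-/

set_option autoImplicit false

noncomputable section

open scoped Classical ComplexConjugate NumberField
open MeasureTheory

namespace Crest.Agent.R312.FM

variable {K : Type} [Field K] [NumberField K] [Fld K] [Loc K] [Setup K]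

/-- port of `R17.FM.rows_fibre` -/
theorem rows_fibre {ι : Type} (T' : Finset ι) (r g d : ι → R K) (w : ι → ℝ) {m : ℝ} (hm : 0 ≤ m)
    (h : ∀ i ∈ T', Prim (r i) ∧ Prim (g i) ∧ d i ≠ 0)
    (hw : ∀ r0 g0 d0 : R K, ∑ i ∈ T'.filter (fun i => r i = r0 ∧ g i = g0 ∧ d i = d0), w i ≤ m)
    (ρ : R K) (hρ : ρ ≠ 0) :
    ∑ i ∈ T'.filter (fun i => d i * g i ^ 2 * r i ^ 2 = ρ), w i ≤ nd ρ ^ 2 * m := by
  rw [← Finset.sum_fiberwise_of_maps_to (t := pdiv ρ ×ˢ pdiv ρ) (g := fun i => (r i, g i))]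
  · refine (Finset.sum_le_card_nsmul _ _ m fun z _ => ?_).trans_eq ?_
    · rcases ((T'.filter (fun i => d i * g i ^ 2 * r i ^ 2 = ρ)).filter
        (fun i => (r i, g i) = z)).eq_empty_or_nonempty with h0 | ⟨i0, h0⟩
      · rw [h0]
        exact hm
      · simp only [Finset.mem_filter] at h0
        obtain ⟨⟨h1, h2⟩, rfl⟩ := h0
        refine le_trans (le_of_eq (Finset.sum_congr ?_ fun _ _ => rfl)) (hw (r i0) (g i0) (d i0))
        ext i
        simp only [Finset.mem_filter, Prod.mk.injEq]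
        constructor
        · rintro ⟨⟨h3, h4⟩, h5, h6⟩
          refine ⟨h3, h5, h6, ?_⟩
          rw [h5, h6, ← h2] at h4
          exact mul_right_cancel₀ (pow_ne_zero 2 (h i0 h1).2.1.ne_zero)
            (mul_right_cancel₀ (pow_ne_zero 2 (h i0 h1).1.ne_zero) h4)
        · rintro ⟨h3, h5, h6, h4⟩
          exact ⟨⟨h3, by rw [h5, h6, h4, h2]⟩, h5, h6⟩
    · rw [Finset.card_product, nsmul_eq_mul, nd, sq, Nat.cast_mul]
  · intro i hi
    obtain ⟨h1, rfl⟩ := Finset.mem_filter.1 hi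
    exact Finset.mem_product.2 ⟨(mem_pdiv hρ).2 ⟨(h i h1).1, ⟨d i * g i ^ 2 * r i, by ring⟩⟩,
      (mem_pdiv hρ).2 ⟨(h i h1).2.1, ⟨d i * g i * r i ^ 2, by ring⟩⟩⟩

/-- the quantities produced by `Bsum_le` -/
def b4abacki_V (π : Par K) (δ τ : ℝ) (ν : Tw K) (r g r' ρ : R K) : ℝ :=
  ‖((((π.shift (δ - 1 / 2) τ).tw ν).excl r').mv
    (π.y - Real.log (N r) + (δ - 1 / 2) / 2 - Real.log (N (g * r'))) (π.t - τ)).F ρ‖ ^ 2

theorem b4abacki_row {Y : ℝ} {d g r : R K} (hg : Prim g) (hr : Prim r)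
    (hd : d ∈ ball K (Y / N r ^ 2 / N g ^ 2)) : d * g ^ 2 * r ^ 2 ∈ ball K Y := by
  obtain ⟨h1, h2⟩ := mem_ball.1 hd
  refine mem_ball.2 ⟨(h1.mul (hg.pow 2)).mul (hr.pow 2), ?_⟩
  rwa [N_mul, N_mul, N_pow, N_pow, ← le_div_iff₀ (pow_pos (N_pos hr.ne_zero) 2),
    ← le_div_iff₀ (pow_pos (N_pos hg.ne_zero) 2)]

theorem b4abacki_fixed (B : ℕ) {δ : ℝ} (hδ : 0 < δ) (hδ1 : δ ≤ 1 / 8) : ∃ C, 0 ≤ C ∧
    ∀ (E M X' : ℝ), 0 ≤ M → BndB K δ M B X' → ∀ (π : Par K) (T : Finset (R K)) (D κ X2 : ℝ),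
    π.BH δ E X' T D κ X2 → ∀ (ν : Tw K) (τ : ℝ) (r' : R K), Prim r' →
    ∀ P : Finset (R K × R K), (∀ x ∈ P, Prim x.1 ∧ x.2 = r') →
      κ * ∑ r ∈ T, ∑ x ∈ P, ∑ d ∈ ball K (D / κ ^ 2 / N r ^ 2 / N x.1 ^ 2),
        b4abacki_V π δ τ ν r x.1 r' (d * x.1 ^ 2 * r ^ 2) ≤
      C * E ^ 2 * M * N π.H ^ (δ / 2) * ((π.shift (δ - 1 / 2) τ).tw ν).s ^ (B + 2) * D *
        π.len ^ δ * N r' ^ (-(δ / 2)) := by
  obtain ⟨C1, hC1, h1⟩ := supK (K := K) B hδ
  obtain ⟨C2, hC2, h2⟩ := nd_le (K := K) (θ := δ / 2) (by positivity)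
  refine ⟨C1 * C2 ^ 2, by positivity,
    fun E M X' hM hB π T D κ X2 hb ν τ r' hr' P hP => ?_⟩
  have hE := hb.hE
  have hκ := hb.hκ
  have hX1 := π.len_pos
  have hX2 := hb.hX2
  have hD : 0 < D := (mul_pos (by linarith) hX1).trans_le hb.h3
  have hN := one_le_N hr'.ne_zero
  have hN0 : 0 < N r' := by linarith
  have hDκ : D / κ ^ 2 ≤ D := div_le_self hD.le (one_le_pow₀ hκ)
  have hsm : ∀ n : R K, N n ≤ D / κ ^ 2 → N n ^ δ ≤ E ^ 2 := fun n h =>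
    (Real.rpow_le_rpow (N_nonneg n) (h.trans hDκ) hδ.le).trans hb.hE2
  have hdv : ∀ n : R K, n ≠ 0 → nd n ^ 2 ≤ C2 ^ 2 * N n ^ δ := fun n hn => by
    refine (pow_le_pow_left₀ (nd_nonneg n) (h2 n hn) 2).trans_eq ?_
    rw [mul_pow, ← Real.rpow_mul_natCast (N_nonneg n)]
    congr 2
    push_cast
    ring
  have hmin : min π.len X2 / N r' ≤ min π.len X2 := div_le_self (le_min hX1.le hX2.le) hN
  have hmin1 := hmin.trans (min_le_left _ _)
  have hmin2 := mul_le_mul_of_nonneg_left (hmin.trans (min_le_right _ _)) (Real.exp_pos 1).le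
  obtain ⟨T', hT'⟩ : ∃ T' : Finset (Σ _ : R K, Σ _ : R K × R K, R K), T' = T.sigma fun r =>
    P.sigma fun x => ball K (D / κ ^ 2 / N r ^ 2 / N x.1 ^ 2) := ⟨_, rfl⟩
  have hmem : ∀ z ∈ T', z.1 ∈ T ∧ z.2.1 ∈ P ∧
      z.2.2 ∈ ball K (D / κ ^ 2 / N z.1 ^ 2 / N z.2.1.1 ^ 2) := fun z hz => by
    simpa only [hT', Finset.mem_sigma] using hz
  have hrow := fun z hz => b4abacki_row (hP _ (hmem z hz).2.1).1
    (hb.hr _ (hmem z hz).1) (hmem z hz).2.2
  have h3 := h1 M X' hM hB (((π.shift (δ - 1 / 2) τ).tw ν).excl r') (hb.hH.mul hr') _ T'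
    (fun z => z.2.2 * z.2.1.1 ^ 2 * z.1 ^ 2)
    (fun z => π.y - Real.log (N z.1) + (δ - 1 / 2) / 2 - Real.log (N (z.2.1.1 * r')))
    (fun _ => 1) D κ (min π.len X2 / N r') (C2 ^ 2 * E ^ 2 * 1) hκ (by positivity)
    (hmin2.trans hb.h1) ((mul_le_mul_of_nonneg_left hmin1 (by linarith)).trans hb.h3)
    (by positivity)
    (fun z hz => by
      obtain ⟨a1, a2, -⟩ := hmem z hz
      have a5 := (hP _ a2).1.ne_zero
      have a6 := (hb.hr _ a1).ne_zero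
      refine ⟨hrow z hz, ?_, zero_le_one⟩
      have e : π.len / N z.1 / N r' = Real.exp (π.y - Real.log (N z.1) - Real.log (N r')) := by
        rw [Real.exp_sub, Real.exp_sub, Real.exp_log (N_pos a6), Real.exp_log hN0]
        rfl
      have a7 : Real.log (N r') ≤ Real.log (N (z.2.1.1 * r')) :=
        Real.log_le_log hN0 (N_le_of_dvd (mul_ne_zero a5 hr'.ne_zero) (dvd_mul_left _ _))
      refine le_trans ?_ (div_le_div_of_nonneg_right
        (le_min (div_le_self hX1.le (one_le_N a6)) (hb.up _ a1)) hN0.le)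
      rw [e]
      exact Real.exp_le_exp.2 (by linarith))
    (fun ρ => by
      rcases (T'.filter fun z => z.2.2 * z.2.1.1 ^ 2 * z.1 ^ 2 = ρ).eq_empty_or_nonempty with
        h0 | ⟨z0, h0⟩
      · rw [h0, Finset.sum_empty]
        positivity
      obtain ⟨b1, b2⟩ := Finset.mem_filter.1 h0
      obtain ⟨b3, b4⟩ := mem_ball.1 (b2 ▸ hrow z0 b1)
      refine (rows_fibre T' (fun z => z.1) (fun z => z.2.1.1) (fun z => z.2.2) _ zero_le_one
        (fun z hz => ⟨hb.hr _ (hmem z hz).1, (hP _ (hmem z hz).2.1).1,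
          (mem_ball.1 (hmem z hz).2.2).1.ne_zero⟩) (fun r0 g0 d0 => ?_) ρ b3.ne_zero).trans
        (mul_le_mul_of_nonneg_right ((hdv ρ b3.ne_zero).trans (mul_le_mul_of_nonneg_left
          (hsm ρ b4) (by positivity))) zero_le_one)
      rw [Finset.sum_const, nsmul_eq_mul, mul_one]
      refine Nat.cast_le_one.2 (Finset.card_le_one.2 ?_)
      rintro ⟨i1, x1, d1⟩ hz1 ⟨i2, x2, d2⟩ hz2
      simp only [Finset.mem_filter] at hz1 hz2
      have e : x1 = x2 := Prod.ext (hz1.2.2.1.trans hz2.2.2.1.symm)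
        ((hP _ (hmem _ hz1.1).2.1).2.trans (hP _ (hmem _ hz2.1).2.1).2.symm)
      rw [hz1.2.1, hz2.2.1, e, hz1.2.2.2, hz2.2.2.2])
  simp only [Finset.sum_sigma']
  rw [← hT']
  simp only [one_mul] at h3
  refine h3.trans ?_
  have e1 : N (π.H * r') ^ (δ / 2) = N π.H ^ (δ / 2) * N r' ^ (δ / 2) := by
    rw [N_mul, Real.mul_rpow (N_nonneg _) hN0.le]
  have e2 : (min π.len X2 / N r') ^ δ ≤ π.len ^ δ * N r' ^ (-δ) := by
    rw [Real.rpow_neg hN0.le, ← div_eq_mul_inv, ← Real.div_rpow hX1.le hN0.le]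
    exact Real.rpow_le_rpow (by positivity) (div_le_div_of_nonneg_right (min_le_left _ _) hN0.le)
      hδ.le
  have e3 : N r' ^ (-(δ / 2)) = N r' ^ (δ / 2) * N r' ^ (-δ) := by
    rw [← Real.rpow_add hN0]
    congr 1
    ring
  have hH := N_nonneg π.H
  have hs := ((π.shift (δ - 1 / 2) τ).tw ν).one_le_s
  change _ * _ * _ * N (π.H * r') ^ (δ / 2) * ((π.shift (δ - 1 / 2) τ).tw ν).s ^ (B + 2) * _ * _ ≤ _
  rw [e1, e3]
  exact (mul_le_mul_of_nonneg_left e2 (by positivity)).trans_eq (by ring)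

/-- Drop `(L N d)^{-δ} ≤ 1`.  `Bsum_le` for `π.cut r` with `σ = δ`; with `X1 = π.len`,
`(X1/N r)^{2δ-1} ≤ N r · E²/X1`, which cancels the weight `(N r)⁻¹`.  Group the pairs `x = (g, r') ∈ P`
according to `r'`.  For fixed `r'` apply `supK` to `π₃ = ((π.shift (δ-1/2) τ).tw ν).excl r'` (the parameters
in `Bsum_le` are `π₃.mv y' π₃.t` by `rfl`) and the family of all `(r, g, d)` (a `Finset.sigma`) with
`ρ = d g² r² ∈ ball (D/κ²)`, weight `1`, `X3 = min X1 X2 / N r'`.  Fibres (`rows_fibre`, `nd_le` with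
`θ = δ/2`): `≤ nd ρ² ≤ C D^δ ≤ C E²` (for `ρ ∉ ball (D/κ²)` the fibre is empty).  Finally
`N (H r')^{δ/2} X3^δ ≤ N H^{δ/2} X1^δ N r'^{-δ/2}` and `∑_{r'} N r'^{-1-δ/2} ≤ C` (`sum_N_rpow_le`). -/
theorem back_inner (B : ℕ) {δ : ℝ} (hδ : 0 < δ) (hδ1 : δ ≤ 1 / 8) : ∃ C, 0 ≤ C ∧
    ∀ (E M X' : ℝ), 0 ≤ M → BndB K δ M B X' → ∀ (π : Par K) (T : Finset (R K)) (D κ X2 : ℝ),
    π.BH δ E X' T D κ X2 → ∀ L : ℝ, 1 ≤ L → ∀ (ν : Tw K) (τ : ℝ) (P : Finset (R K × R K)),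
    (∀ x ∈ P, Prim x.1 ∧ Prim x.2) →
      ∑ r ∈ T, (N r)⁻¹ * ∑ x ∈ P, ∑ d ∈ ball K (D / κ ^ 2 / N r ^ 2 / N x.1 ^ 2),
        (L * N d) ^ (-δ) * ‖Bsum (fun m => (π.cut r).al m * chi m (r ^ 2)) ν x.1 x.2
          (d * x.1 ^ 2) δ τ‖ ^ 2 ≤
      C * E ^ 4 * M * N π.H ^ (δ / 2) * (D / (κ * π.len)) * π.len ^ δ *
        ((π.shift (δ - 1 / 2) τ).tw ν).s ^ (B + 2) := by
  obtain ⟨C1, hC1, h1⟩ := b4abacki_fixed (K := K) B hδ hδ1
  obtain ⟨C2, hC2, h2⟩ := sum_N_rpow_le (K := K) (θ := δ / 2) (by positivity)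
  refine ⟨2 * C1 * C2, by positivity,
    fun E M X' hM hB π T D κ X2 hb L hL ν τ P hP => ?_⟩
  have hE := hb.hE
  have hκ := hb.hκ
  have hX1 := π.len_pos
  have hD : 0 < D := (mul_pos (by linarith) hX1).trans_le hb.h3
  have hH := N_nonneg π.H
  have hs := ((π.shift (δ - 1 / 2) τ).tw ν).one_le_s
  obtain ⟨U, hU⟩ : ∃ U : R K → R K × R K → R K → ℝ, U = fun r x r' =>
    ∑ d ∈ ball K (D / κ ^ 2 / N r ^ 2 / N x.1 ^ 2),
      b4abacki_V π δ τ ν r x.1 r' (d * x.1 ^ 2 * r ^ 2) := ⟨_, rfl⟩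
  obtain ⟨A, hA⟩ : ∃ A : ℝ, A = C1 * E ^ 2 * M * N π.H ^ (δ / 2) *
    ((π.shift (δ - 1 / 2) τ).tw ν).s ^ (B + 2) * D * π.len ^ δ / κ := ⟨_, rfl⟩
  have hA0 : 0 ≤ A := by rw [hA]; positivity
  have h3 : ∑ r ∈ T, ∑ x ∈ P, (N x.2)⁻¹ * U r x x.2 ≤ A * C2 := by
    simp only [← Finset.sum_fiberwise_of_maps_to (s := P) (t := P.image Prod.snd) (g := Prod.snd)
      fun x hx => Finset.mem_image_of_mem _ hx]
    rw [Finset.sum_comm]
    have hpr : ∀ r' ∈ P.image Prod.snd, Prim r' := fun r' hr' => by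
      obtain ⟨x0, hx0, e0⟩ := Finset.mem_image.1 hr'
      exact e0 ▸ (hP _ hx0).2
    refine le_trans (Finset.sum_le_sum fun r' hr' => ?_) ((Finset.mul_sum _ _ _).symm.trans_le
      (mul_le_mul_of_nonneg_left (h2 (P.image Prod.snd) hpr) hA0))
    have hp := hpr r' hr'
    have hN := N_pos hp.ne_zero
    have h4 := h1 E M X' hM hB π T D κ X2 hb ν τ r' hp
      (P.filter fun x => x.2 = r') fun x hx =>
        ⟨(hP _ (Finset.mem_filter.1 hx).1).1, (Finset.mem_filter.1 hx).2⟩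
    rw [← le_div_iff₀' (by linarith)] at h4
    rw [Finset.sum_congr rfl fun r _ => Finset.sum_congr rfl
      (g := fun x => (N r')⁻¹ * U r x r') fun x hx => by rw [(Finset.mem_filter.1 hx).2]]
    simp only [← Finset.mul_sum]
    simp only [hU]
    refine (mul_le_mul_of_nonneg_left h4 (by positivity)).trans_eq ?_
    rw [hA, sub_eq_add_neg (-1 : ℝ), Real.rpow_add hN, Real.rpow_neg_one]
    ring
  refine le_trans (Finset.sum_le_sum fun r hr => ?_) ((Finset.mul_sum _ _ _).symm.trans_le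
    ((mul_le_mul_of_nonneg_left h3 (by positivity : 0 ≤ 2 * (E ^ 2 / π.len))).trans ?_))
  · have a0 := (hb.hr _ hr).ne_zero
    have a1 := N_pos a0
    have a2 := (π.cut r).len_pos
    have a4 : (π.cut r).len ^ (2 * δ - 1) ≤ E ^ 2 * (N r / π.len) := by
      rw [sub_eq_add_neg, Real.rpow_add a2, Real.rpow_neg_one]
      refine mul_le_mul ((Real.rpow_le_rpow a2.le ((π.len_cut a0).trans_le
        (div_le_self hX1.le (one_le_N a0))) (by positivity)).trans ?_) ?_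
        (by positivity) (by positivity)
      · rw [mul_comm, show (2 : ℝ) = (2 : ℕ) by norm_num, Real.rpow_mul_natCast hX1.le]
        exact pow_le_pow_left₀ (by positivity) hb.hE1 2
      · rw [π.len_cut a0, inv_div]
    rw [Finset.mul_sum, Finset.mul_sum]
    refine Finset.sum_le_sum fun x hx => ?_
    simp only [hU]
    rw [Finset.mul_sum, Finset.mul_sum, Finset.mul_sum]
    refine Finset.sum_le_sum fun d hd => ?_
    have a5 := (π.cut r).Bsum_le (hP _ hx).1 (hP _ hx).2 ν hδ.le (by linarith) τ r d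
    have a7 : (L * N d) ^ (-δ) ≤ 1 := Real.rpow_le_one_of_one_le_of_nonpos
      (one_le_mul_of_one_le_of_one_le hL (one_le_N (mem_ball.1 hd).1.ne_zero)) (by linarith)
    have a9 := N_nonneg x.2
    refine (mul_le_mul_of_nonneg_left ((mul_le_of_le_one_left (by positivity) a7).trans
      (a5.trans (mul_le_mul_of_nonneg_right (mul_le_mul_of_nonneg_left a4 zero_le_two)
        (by positivity)))) (inv_nonneg.2 a1.le)).trans_eq ?_
    change (N r)⁻¹ * (_ * (_ * b4abacki_V π δ τ ν r x.1 x.2 (d * x.1 ^ 2 * r ^ 2))) = _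
    field_simp
  · refine le_of_eq ?_
    rw [hA]
    field_simp

end Crest.Agent.R312.FM
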