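import Crest.Agent.R312.B4aBackI
import Crest.Agent.R312.B4aBack2

/-!
# R312 / B4aBackS : the backward step for a family

Definitions and the dictionary R17 → R312 are in `B4aDefs.lean`.  Prefix helper lemmas with `b4abacks_`.
Copy from `R17/FMoment_BackS`.
-/

set_option autoImplicit false

noncomputable section

open scoped Classical ComplexConjugate NumberField
open MeasureTheory

namespace Crest.Agent.R312.FM

variable {K : Type} [Field K] [NumberField K] [Fld K] [Loc K] [Setup K]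

theorem b4abacks_tail {A0 : ℕ} (hA0 : 2 ≤ A0) {X E V m C : ℝ} (hX : 0 < X) (hE : 1 ≤ E)
    (hV : X ^ 2 * E ≤ V) (hm0 : 0 ≤ m) (hm : m ≤ C * X ^ (((A0 + 1 : ℕ) : ℝ) + 1 / 2)) :
    V * (V ^ A0)⁻¹ * m ^ 2 ≤ C ^ 2 * (E * (E ^ A0)⁻¹ * X ^ 5) := by
  obtain ⟨n, rfl⟩ : ∃ n, A0 = n + 1 := ⟨A0 - 1, by omega⟩
  have hE0 : 0 < E := by linarith
  have hV0 : 0 < X ^ 2 * E := by positivity
  have hV1 : 0 < V := hV0.trans_le hV
  have e1 : V * (V ^ (n + 1))⁻¹ = (V ^ n)⁻¹ := by rw [pow_succ]; field_simp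
  have e2 : (V ^ n)⁻¹ ≤ ((X ^ 2 * E) ^ n)⁻¹ :=
    inv_anti₀ (by positivity) (pow_le_pow_left₀ hV0.le hV n)
  have e3 : m ^ 2 ≤ C ^ 2 * X ^ (2 * n + 5) := by
    refine (pow_le_pow_left₀ hm0 hm 2).trans ?_
    rw [mul_pow, ← Real.rpow_natCast (X ^ _), ← Real.rpow_mul hX.le]
    have : (((n + 1 + 1 : ℕ) : ℝ) + 1 / 2) * ((2 : ℕ) : ℝ) = ((2 * n + 5 : ℕ) : ℝ) := by
      push_cast
      ring
    rw [this, Real.rpow_natCast]
  rw [e1]
  refine (mul_le_mul e2 e3 (sq_nonneg _) (by positivity)).trans_eq ?_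
  rw [mul_pow, ← pow_mul, pow_add, pow_succ E n]
  field_simp

/-- If `L < 1` the ball is empty.  Apply `back` (`σ = δ`, `A0` from `exists_A0`) to
`β_r m = (π.cut r).al m · χ_m(r²)` (`supp_of_le`, `rapid_of_le`, `mom_le_of_le`) with `U = D/κ²/N r²`.
Diagonal: `l2_al`, `len_cut`: `∑ (N r)⁻¹ (X1/N r)^δ ≤ C X1^δ`.  Tail: `L U ≥ (X1/N r)² E`, `mom_al`,
`fmbacks_tail` of R17.  Main term: `pack`, `back_inner`, `s_shift_tw`.
All of `E, M, N H, s, L, D/(κ X1)` are `≥ 1`. -/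
theorem backsum (B : ℕ) {δ : ℝ} (hδ : 0 < δ) (hδ1 : δ ≤ 1 / 8) : ∃ C, 0 ≤ C ∧
    ∀ (E M X' : ℝ), 1 ≤ M → BndB K δ M B X' → ∀ (π : Par K) (T : Finset (R K)) (D κ X2 : ℝ),
    π.BH δ E X' T D κ X2 → ∀ L : ℝ, 0 < L → π.len ^ 2 * E ≤ L * (D / κ ^ 2) →
      ∑ r ∈ T, (N r)⁻¹ * ∑ k ∈ ball K L, ‖(π.cut r).Ds r k‖ ^ 2 ≤
      C * E ^ 4 * M * N π.H ^ (δ / 2) * (L * D / (κ * π.len)) * π.len ^ δ * π.s ^ (B + 2) := by
  obtain ⟨A0, hA0, hA⟩ := exists_A0 hδ hδ1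
  obtain ⟨Cb, hCb0, hCb⟩ := back (K := K) hδ (by linarith) hA0
  obtain ⟨C2, hC20, hC2⟩ := l2_al (K := K) hδ
  obtain ⟨C4, hC40, hC4⟩ := mom_al (K := K) (A0 + 1)
  obtain ⟨C3, hC30, hC3⟩ := sum_N_rpow_le (K := K) hδ
  obtain ⟨Cp, hCp0, hCp⟩ := pack (K := K) hδ (B + 2)
  obtain ⟨CI, hCI0, hCI⟩ := back_inner (K := K) B hδ hδ1
  refine ⟨Cb * ((C2 + C4 ^ 2) * C3) + Cb * (Cp * CI), by positivity,
    fun E M X' hM hB π T D κ X2 H L hL hLD => ?_⟩
  have hE := H.hE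
  have hκ := H.hκ
  have hX1 := π.len_pos
  have hs := π.one_le_s
  have hκX : 0 < κ * π.len := by positivity
  have hD : 0 < D := hκX.trans_le H.h3
  have hNH := one_le_N H.hH.ne_zero
  have hNH' : 1 ≤ N π.H ^ (δ / 2) := Real.one_le_rpow hNH (by positivity)
  have hXδ : 0 ≤ π.len ^ δ := Real.rpow_nonneg hX1.le _
  rcases lt_or_ge L 1 with hL1 | hL1
  · simp only [ball_eq_empty hL1, Finset.sum_empty, mul_zero, Finset.sum_const_zero]
    positivity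
  set f : R K → R K × R K → Tw K → ℝ → ℝ := fun r x ν τ =>
    ∑ d ∈ ball K (D / κ ^ 2 / N r ^ 2 / N x.1 ^ 2), (L * N d) ^ (-δ) *
      ‖Bsum (fun m => (π.cut r).al m * chi m (r ^ 2)) ν x.1 x.2 (d * x.1 ^ 2) δ τ‖ ^ 2 with hf
  have hf0 : ∀ i x ν τ, 0 ≤ f i x ν τ := fun i x ν τ => Finset.sum_nonneg fun d _ =>
    mul_nonneg (Real.rpow_nonneg (mul_nonneg hL.le (N_nonneg d)) _) (sq_nonneg _)
  set S : R K → ℝ := fun r => ∑' x : R K × R K, (if Prim x.1 ∧ Prim x.2 then IG δ (f r x) else 0)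
    with hS
  have hω : ∀ r ∈ T, 0 ≤ (N r)⁻¹ := fun r _ => inv_nonneg.2 (N_nonneg r)
  have main : ∑ r ∈ T, (N r)⁻¹ * S r ≤ Cp *
      (CI * E ^ 4 * M * N π.H ^ (δ / 2) * (D / (κ * π.len)) * π.len ^ δ * π.s ^ (B + 2)) :=
    hCp (R K) (R K × R K) T (fun x => Prim x.1 ∧ Prim x.2) _ f _ hω hf0 (by positivity)
      fun ν τ P hP => by
        refine (hCI E M X' (by linarith) hB π T D κ X2 H L hL1 ν τ P hP).trans ?_
        rw [mul_assoc _ (π.s ^ (B + 2)), ← mul_pow]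
        refine mul_le_mul_of_nonneg_left (pow_le_pow_left₀ ?_ (π.s_shift_tw _ τ ν) _) (by positivity)
        exact zero_le_one.trans (Par.one_le_s _)
  have each : ∀ r ∈ T, ∑ k ∈ ball K L, ‖(π.cut r).Ds r k‖ ^ 2 ≤
      Cb * L * ((C2 + C4 ^ 2) * π.len ^ δ * N r ^ (-δ)) + Cb * L * S r := fun r hr => by
    have hr' := (H.hr r hr).ne_zero
    have hr1 := one_le_N hr'
    have hr0 := N_pos hr'
    have hβ : ∀ m, ‖(π.cut r).al m * chi m (r ^ 2)‖ ≤ ‖(π.cut r).al m‖ := fun m => by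
      by_cases hm : (π.cut r).al m = 0
      · simp [hm]
      · rw [norm_mul]
        exact mul_le_of_le_one_right (norm_nonneg _) (norm_chi_le (Par.supp hm).1.ne_zero _)
    have hb := hCb _ (supp_of_le (π.cut r).suppSq hβ) (rapid_of_le (π.cut r).rapid hβ) L
      (D / κ ^ 2 / N r ^ 2) hL (by positivity)
    have l1 := rapid_summable_sq (π.cut r).rapid
    have l2 := hC2 (π.cut r)
    have d2 := (mom_le_of_le (π.cut r).rapid hβ (A0 + 1)).trans (hC4 (π.cut r))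
    rw [π.len_cut hr'] at l2 d2
    have hsq : ∀ m, ‖(π.cut r).al m * chi m (r ^ 2)‖ ^ 2 ≤ ‖(π.cut r).al m‖ ^ 2 :=
      fun m => pow_le_pow_left₀ (norm_nonneg _) (hβ m) 2
    have hXr : 0 < π.len / N r := by positivity
    have eX : (π.len / N r) ^ δ = π.len ^ δ * N r ^ (-δ) := by
      rw [Real.div_rpow hX1.le hr0.le, Real.rpow_neg hr0.le, div_eq_mul_inv]
    have d1 : ∑' m, ‖(π.cut r).al m * chi m (r ^ 2)‖ ^ 2 ≤ C2 * (π.len / N r) ^ δ :=
      ((Summable.of_nonneg_of_le (fun m => sq_nonneg _) hsq l1).tsum_le_tsum hsq l1).trans l2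
    have d3 : (π.len / N r) ^ 2 * E ≤ L * (D / κ ^ 2 / N r ^ 2) := by
      rw [div_pow, div_mul_eq_mul_div, ← mul_div_assoc]
      exact div_le_div_of_nonneg_right hLD (by positivity)
    have d4 := b4abacks_tail hA0 hXr hE d3 (mom_nonneg _ _) d2
    have d5 := hA _ E hXr hE ((Real.rpow_le_rpow hXr.le (div_le_self hX1.le hr1) hδ.le).trans H.hE1)
    have d6 : 0 ≤ (π.len / N r) ^ δ := Real.rpow_nonneg hXr.le _
    have d7 := d4.trans (mul_le_mul_of_nonneg_left d5 (sq_nonneg _))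
    have t1 : Cb * L * ∑' m, ‖(π.cut r).al m * chi m (r ^ 2)‖ ^ 2 ≤
        Cb * L * (C2 * (π.len / N r) ^ δ) := mul_le_mul_of_nonneg_left d1 (by positivity)
    have t3 : Cb * (L * (D / κ ^ 2 / N r ^ 2)) * ((L * (D / κ ^ 2 / N r ^ 2)) ^ A0)⁻¹ *
        mom (fun m => (π.cut r).al m * chi m (r ^ 2)) (A0 + 1) ^ 2 ≤
        Cb * L * (C4 ^ 2 * (π.len / N r) ^ δ) := by
      rw [mul_assoc Cb, mul_assoc Cb]
      exact mul_le_mul (le_mul_of_one_le_right hCb0 hL1) d7 (by positivity) (by positivity)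
    refine hb.trans ((add_le_add_three t1 (le_refl (Cb * L * S r)) t3).trans_eq ?_)
    rw [eX]
    ring
  have fib : ∑ r ∈ T, (N r)⁻¹ * N r ^ (-δ) ≤ C3 := by
    refine le_trans (le_of_eq (Finset.sum_congr rfl fun r hr => ?_)) (hC3 T H.hr)
    rw [sub_eq_add_neg, Real.rpow_add (N_pos (H.hr r hr).ne_zero), Real.rpow_neg_one]
  have hone : 1 ≤ E ^ 4 * M * N π.H ^ (δ / 2) * (D / (κ * π.len)) * π.s ^ (B + 2) := by
    have a1 : 1 ≤ D / (κ * π.len) := (one_le_div hκX).2 H.h3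
    exact one_le_mul_of_one_le_of_one_le (one_le_mul_of_one_le_of_one_le
      (one_le_mul_of_one_le_of_one_le (one_le_mul_of_one_le_of_one_le
        (one_le_pow₀ hE) hM) hNH') a1) (one_le_pow₀ hs)
  calc _ ≤ ∑ r ∈ T, (N r)⁻¹ * (Cb * L * ((C2 + C4 ^ 2) * π.len ^ δ * N r ^ (-δ)) + Cb * L * S r) :=
        Finset.sum_le_sum fun i hi => mul_le_mul_of_nonneg_left (each i hi) (hω i hi)
    _ = Cb * L * ((C2 + C4 ^ 2) * π.len ^ δ) * ∑ r ∈ T, (N r)⁻¹ * N r ^ (-δ) +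
          Cb * L * ∑ r ∈ T, (N r)⁻¹ * S r := by
        rw [Finset.mul_sum, Finset.mul_sum, ← Finset.sum_add_distrib]
        exact Finset.sum_congr rfl fun i _ => by ring
    _ ≤ Cb * L * ((C2 + C4 ^ 2) * π.len ^ δ) * C3 *
          (E ^ 4 * M * N π.H ^ (δ / 2) * (D / (κ * π.len)) * π.s ^ (B + 2)) +
          Cb * L * (Cp * (CI * E ^ 4 * M * N π.H ^ (δ / 2) * (D / (κ * π.len)) * π.len ^ δ *
            π.s ^ (B + 2))) :=
        add_le_add ((mul_le_mul_of_nonneg_left fib (by positivity)).trans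
          (le_mul_of_one_le_right (by positivity) hone))
          (mul_le_mul_of_nonneg_left main (by positivity))
    _ = _ := by ring

end Crest.Agent.R312.FM
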