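import Crest.Agent.R312.B4aAl

/-!
# R312 / B4aCube1 : passage to theta coefficients, cube removal

Definitions and the dictionary R17 → R312 are in `B4aDefs.lean`.  Prefix helper lemmas with `b4acube1_`.
Copy from `R17/FMoment_Cube1` and `summable_Ath` of `FMoment_Triv`.
-/

set_option autoImplicit false

noncomputable section

open scoped Classical ComplexConjugate NumberField
open MeasureTheory

namespace Crest.Agent.R312.FM

variable {K : Type} [Field K] [NumberField K] [Fld K] [Loc K] [Setup K]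

theorem b4acube1_dvd {e c m : R K} (he : Prim e) (hc : Prim c) (hm : Squarefree m) :
    e ^ 3 ∣ m * c ^ 3 ↔ e ∣ c := by
  refine ⟨fun ⟨t, ht⟩ => ?_, fun h => (pow_dvd_pow_of_dvd h 3).mul_left m⟩
  obtain ⟨a, -, rfl, -⟩ := rkey_cube (m := t) he hc hm (by rw [ht, mul_comm])
  exact dvd_mul_right _ _

theorem b4acube1_reindex {F : R K → ℂ} {a : ℂ} (hF : HasSum F a)
    (h : ∀ n, F n ≠ 0 → ∃ m c, Squarefree m ∧ Prim c ∧ n = m * c ^ 3) :
    HasSum (fun c : R K => if Prim c then ∑' m, if Squarefree m then F (m * c ^ 3) else 0 else 0) a := by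
  have hs : ∀ x : Function.support fun x : R K × R K =>
      if Prim x.1 ∧ Squarefree x.2 then F (x.2 * x.1 ^ 3) else 0, Prim x.1.1 ∧ Squarefree x.1.2 :=
    fun x => by_contra fun hc => x.2 (if_neg hc)
  have key := (hasSum_iff_hasSum_of_ne_zero_bij (f := F) (a := a) (g := fun x : R K × R K =>
    if Prim x.1 ∧ Squarefree x.2 then F (x.2 * x.1 ^ 3) else 0) (fun x => x.1.2 * x.1.1 ^ 3)
    (fun x y e => by
      have e : x.1.2 * x.1.1 ^ 3 = y.1.2 * y.1.1 ^ 3 := e
      have e1 : x.1.1 = y.1.1 := (hs x).1.eq_of_associated (hs y).1 (associated_of_dvd_dvd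
        ((b4acube1_dvd (hs x).1 (hs y).1 (hs y).2).1 (e ▸ dvd_mul_left _ _))
        ((b4acube1_dvd (hs y).1 (hs x).1 (hs x).2).1 (e ▸ dvd_mul_left _ _)))
      rw [e1] at e
      exact Subtype.ext (Prod.ext e1 (mul_right_cancel₀ ((hs y).1.pow 3).ne_zero e)))
    (fun n hn => by
      obtain ⟨m, c, hm, hc, rfl⟩ := h n hn
      exact ⟨⟨(c, m), by rwa [Function.mem_support, if_pos ⟨hc, hm⟩]⟩, rfl⟩)
    (fun x => (if_pos (hs x)).symm)).1 hF
  refine key.prod_fiberwise fun c => ?_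
  have h1 := (key.summable.prod_factor c).hasSum
  by_cases hc : Prim c
  · simpa only [hc, true_and, if_true] using h1
  · simp only [hc, false_and, if_false]
    exact hasSum_zero

theorem b4acube1_lam {G : ℝ} {c : R K} (hc : Prim c) (hG : N c ≤ G) :
    lamG G c = if c = 1 then 1 else 0 := by
  rw [lamG, Finset.filter_true_of_mem fun e he =>
    (N_le_of_dvd hc.ne_zero ((mem_pdiv hc.ne_zero).1 he).2).trans hG, sum_mu_pdiv hc]

theorem b4acube1_main {A : R K → ℂ} (hA : Summable A)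
    (h : ∀ n, A n ≠ 0 → ∃ m c, Squarefree m ∧ Prim c ∧ n = m * c ^ 3) (G : ℝ) :
    HasSum (fun c : R K => if Prim c then
        lamG G c * ∑' m, if Squarefree m then A (m * c ^ 3) else 0 else 0)
      (∑ e ∈ ball K G, mu e * ∑' m, A (m * e ^ 3)) := by
  have h1 : HasSum (fun n => ∑ e ∈ ball K G, mu e * if e ^ 3 ∣ n then A n else 0)
      (∑ e ∈ ball K G, mu e * ∑' m, A (m * e ^ 3)) := by
    refine hasSum_sum fun e he => HasSum.mul_left _ ?_
    simp only [mul_comm _ (e ^ 3)]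
    rw [← tsum_dvd ((mem_ball.1 he).1.pow 3).ne_zero]
    exact (hA.indicator {n | e ^ 3 ∣ n}).hasSum
  have h2 := b4acube1_reindex h1 fun n hn => h n fun e => hn (by simp [e])
  refine (congrArg (HasSum · _) (funext fun c => ?_)).mpr h2
  split_ifs with hc
  · rw [← tsum_mul_left]
    refine tsum_congr fun m => ?_
    split_ifs with hm
    · simp only [mul_ite, mul_zero]
      rw [lamG, Finset.sum_mul, ← Finset.sum_filter]
      refine Finset.sum_congr (Finset.ext fun e => ?_) fun _ _ => rfl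
      simp only [Finset.mem_filter, mem_pdiv hc.ne_zero, mem_ball]
      exact ⟨fun h => ⟨⟨h.1.1, h.2⟩, (b4acube1_dvd h.1.1 hc hm).2 h.1.2⟩,
        fun h => ⟨⟨h.1.1, (b4acube1_dvd h.1.1 hc hm).1 h.2⟩, h.1.2⟩⟩
    · rw [mul_zero]
  · rfl

/-- `norm_tt_le`, `norm_f1`, `summable_gw_rpow` -/
theorem Par.summable_Ath (π : Par K) (r k : R K) : Summable (fun n => ‖π.Ath r k n‖) := by
  refine Summable.of_nonneg_of_le (fun _ => norm_nonneg _) (fun n => ?_)
    (summable_gw_rpow (K := K) (1 / 6 + -(1 / 2)) π.y)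
  unfold Par.Ath
  by_cases h0 : Prim n ∧ IsCoprime n π.H
  swap
  · rw [if_neg h0, norm_zero]
    split_ifs
    · exact mul_nonneg (Real.rpow_nonneg (N_nonneg _) _) (gw_pos _).le
    · exact le_rfl
  have hn := h0.1.ne_zero
  have a1 := norm_tt_le h0.1
  have a2 := norm_chi_le hn (r ^ 2)
  have a3 := norm_chi_le hn k
  have a4 : ‖(N n : ℂ) ^ (-(1 / 2 + π.t * Complex.I))‖ = N n ^ (-(1 / 2) : ℝ) := by
    rw [Complex.norm_cpow_eq_rpow_re_of_pos (N_pos hn)]
    congr 1
    simp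
  have a5 := (gw_pos (Real.log (N n) - π.y)).le
  have a6 := Real.rpow_nonneg (N_nonneg n) (1 / 6)
  have a7 := Real.rpow_nonneg (N_nonneg n) (-(1 / 2))
  rw [if_pos h0, if_pos h0.1, norm_mul, norm_mul, norm_mul, norm_mul, norm_mul, norm_mul, Complex.norm_conj, a4,
    Real.rpow_add (N_pos hn), norm_f1 hn, π.ν.norm_v hn, Complex.norm_real, Real.norm_of_nonneg a5]
  calc _ ≤ N n ^ (1 / 6 : ℝ) * 1 * 1 * 1 * 1 * N n ^ (-(1 / 2) : ℝ) * gw (Real.log (N n) - π.y) := by gcongr
    _ = _ := by ring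

/-- termwise `key_identity` -/
theorem Par.Ds_eq_Rc (π : Par K) (r k : R K) : π.Ds r k = π.Rc r k 1 := by
  refine tsum_congr fun m => ?_
  rw [one_pow, mul_one]
  by_cases hs : Squarefree m
  swap
  · have : π.al m = 0 := by_contra fun e => hs (Par.supp e).2.1
    rw [this, if_neg hs, zero_mul, zero_mul, zero_mul]
  rw [if_pos hs, Par.Ath, Par.al]
  by_cases hm : Prim m ∧ IsCoprime m π.H
  swap
  · rw [if_neg hm, if_neg hm]
    ring
  have := key_identity hm.1 hs
  rw [if_pos hm, if_pos hm]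
  linear_combination (π.ν.v m * (N m : ℂ) ^ (-(1 / 2 + π.t * Complex.I)) * (gw (Real.log (N m) - π.y) : ℂ) *
    chi m (r ^ 2) * conj (chi m k)) * this

/-- Port of `R17.FM.Par.OK.hasSum_rem` (`(ball G).filter Prim ↦ ball K X`). -/
theorem Par.hasSum_rem (π : Par K) (r k : R K) {X : ℝ} (hX : 1 ≤ X) :
    HasSum (fun c : R K => if Prim c ∧ X < N c then lamG X c * π.Rc r k c else 0)
      (π.Th r k X - π.Ds r k) := by
  have h1 := b4acube1_main (π.summable_Ath r k).of_norm (fun n hn => by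
    have h2 : Prim n ∧ IsCoprime n π.H := by_contra fun e => hn (by rw [Par.Ath, if_neg e])
    obtain ⟨m, c, -, hm⟩ := tau_ne_zero h2.1 fun e => hn (by
      rw [Par.Ath, if_pos h2, tt, e]
      ring)
    exact ⟨m, c, hm⟩) X
  rw [π.Ds_eq_Rc]
  refine (congrArg (HasSum · _) (funext fun c => ?_)).mpr
    (h1.sub (hasSum_ite_eq 1 (π.Rc r k 1)))
  by_cases hc : Prim c
  swap
  · rw [if_neg hc, if_neg fun e => hc e.1, if_neg fun e : c = 1 => hc (e ▸ Prim.one), sub_zero]
  rw [if_pos hc]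
  by_cases hcG : X < N c
  · rw [if_pos ⟨hc, hcG⟩, if_neg fun e => by rw [e, N_one] at hcG; linarith, sub_zero, Par.Rc]
  rw [if_neg fun e => hcG e.2, b4acube1_lam hc (not_lt.1 hcG)]
  split_ifs with e
  · rw [e, one_mul, Par.Rc, sub_self]
  · rw [zero_mul, sub_zero]

end Crest.Agent.R312.FM
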