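import Crest.Agent.R312.B4aAl

/-!
# R312 / B4aCube2 : the terms of the cube removal

Definitions and the dictionary R17 → R312 are in `B4aDefs.lean`.  Prefix helper lemmas with `b4acube2_`.
Copy from `R17/FMoment_Cube2`.
-/

set_option autoImplicit false

noncomputable section

open scoped Classical ComplexConjugate NumberField
open MeasureTheory

namespace Crest.Agent.R312.FM

variable {K : Type} [Field K] [NumberField K] [Fld K] [Loc K] [Setup K]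

theorem b4acube2_norm {c : R K} (hc : c ≠ 0) (t : ℝ) :
    ‖(Real.sqrt (N c) : ℂ) * (N (c ^ 3) : ℂ) ^ (-(1 / 2 + t * Complex.I))‖ = (N c)⁻¹ := by
  have h0 := N_pos hc
  have e : (-(1 / 2 + t * Complex.I) : ℂ).re = -(1 / 2) := by simp
  rw [norm_mul, Complex.norm_cpow_eq_rpow_re_of_pos (N_pos (pow_ne_zero 3 hc)), e, Complex.norm_real,
    Real.norm_eq_abs, abs_of_nonneg (Real.sqrt_nonneg _), N_pow, Real.sqrt_eq_rpow,
    ← Real.rpow_natCast, ← Real.rpow_mul h0.le, ← Real.rpow_add h0, ← Real.rpow_neg_one]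
  norm_num

theorem b4acube2_zero (π : Par K) (r k : R K) {c m : R K} (hc : Prim c)
    (h : ¬ ((Prim m ∧ IsCoprime m π.H) ∧ IsCoprime c π.H)) : π.Ath r k (m * c ^ 3) = 0 :=
  if_neg fun h1 => h ⟨⟨Prim.of_mul_left (mul_comm m _ ▸ h1.1) (hc.pow 3), h1.2.of_mul_left_left⟩,
    h1.2.of_isCoprime_of_dvd_left (Dvd.intro_left (m * c ^ 2) (by ring))⟩

theorem b4acube2_Ath (π : Par K) (r k : R K) {c m : R K} (hc : Prim c) (hm : Prim m) (hmH : IsCoprime m π.H)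
    (hcH : IsCoprime c π.H) : π.Ath r k (m * c ^ 3) =
      angN c ^ 3 * π.ν.v (c ^ 3) * chi (c ^ 3) (r ^ 2) * conj (chi (c ^ 3) k) *
        ((Real.sqrt (N c) : ℂ) * (N (c ^ 3) : ℂ) ^ (-(1 / 2 + π.t * Complex.I))) *
        (f1 (m * c ^ 3) * tt m * π.ν.v m * chi m (r ^ 2) * conj (chi m k) *
          (N m : ℂ) ^ (-(1 / 2 + π.t * Complex.I)) * (gw (Real.log (N m) - (π.y - Real.log (N (c ^ 3)))) : ℂ)) := by
  have hc3 : c ^ 3 ≠ 0 := pow_ne_zero 3 hc.ne_zero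
  have e : Real.log (N (m * c ^ 3)) - π.y = Real.log (N m) - (π.y - Real.log (N (c ^ 3))) := by
    rw [N_mul, Real.log_mul (N_pos hm.ne_zero).ne' (N_pos hc3).ne']
    ring
  rw [Par.Ath, if_pos ⟨hm.mul (hc.pow 3), hmH.mul_left hcH.pow_left⟩, tt_mul_cube hm hc, Tw.v_mul,
    chi_mul hm.ne_zero hc3, chi_mul hm.ne_zero hc3, map_mul, N_mul_cpow, e]
  ring

theorem b4acube2_u (π : Par K) (r k : R K) {c : R K} (hc : Prim c) :
    ‖angN c ^ 3 * π.ν.v (c ^ 3) * chi (c ^ 3) (r ^ 2) * conj (chi (c ^ 3) k) *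
      ((Real.sqrt (N c) : ℂ) * (N (c ^ 3) : ℂ) ^ (-(1 / 2 + π.t * Complex.I)))‖ ≤ (N c)⁻¹ := by
  have hc3 : c ^ 3 ≠ 0 := pow_ne_zero 3 hc.ne_zero
  rw [norm_mul, b4acube2_norm hc.ne_zero]
  refine mul_le_of_le_one_left (inv_nonneg.2 (N_nonneg c)) ?_
  rw [norm_mul, norm_mul, norm_mul, norm_pow, norm_angN, π.ν.norm_v hc3, one_pow, one_mul, one_mul,
    Complex.norm_conj]
  exact mul_le_one₀ (norm_chi_le hc3 _) (norm_nonneg _) (norm_chi_le hc3 _)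

theorem b4acube2_chi {m r H : R K} (hm : m ≠ 0) (hr : r ∣ H) (k : R K) :
    conj (chi m (k * r ^ 4 * H ^ 6)) = if IsCoprime m H then chi m (r ^ 2) * conj (chi m k) else 0 := by
  rw [(chi_isChar hm).mul, chi_pow_six hm]
  split_ifs with h
  · have h6 := chi_pow_six hm r
    rw [if_pos (h.of_isCoprime_of_dvd_right hr), IsChar_pow (chi_isChar hm)] at h6
    rw [mul_one, (chi_isChar hm).mul, map_mul, IsChar_pow (chi_isChar hm), IsChar_pow (chi_isChar hm), map_pow,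
      conj_chi hm r]
    linear_combination conj (chi m k) * chi m r ^ 2 * (chi m r ^ 12 + chi m r ^ 6 + 1) * h6
  · rw [mul_zero, map_zero]

/-- For primary `m`: `tt_mul_cube`, `f1_mul` and `exists_hchar_sg`/`expand_f1` (or `exists_f1_cl` and
`expand_class` for `g ↦ φ (g * cl (c³))`): `f1 (m c³) = ∑_θ a_θ θ(m)`, `‖a_θ‖ ≤ 1`.  Since `r ∣ H`:
`1_{(m,H)=1} χ_m(r²) conj χ_m(k) = conj χ_m(k r⁴ H⁶)` (`chi_pow_six`, `conj_chi`).  So
`Tc = u √N c · N(c³)^{-s} ∑_θ a_θ Fth (ν θ) (k r⁴ H⁶) (y - log N c³) t` with `‖u‖ ≤ 1` (`u = 0` if `c` is not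
coprime to `H`); `Prim (m c³) ↔ Prim m`; `blks_sum`/`summable_blks`. -/
theorem Par.norm_Tc_le (π : Par K) {r : R K} (hr : r ∣ π.H) (k : R K) {c : R K} (hc : Prim c) :
    ‖π.Tc r k c‖ ≤ (N c)⁻¹ * ∑ θ ∈ hchars K,
      ‖Fth (π.ν * θ) (k * r ^ 4 * π.H ^ 6) (π.y - Real.log (N (c ^ 3))) π.t‖ := by
  have h0 : 0 ≤ (N c)⁻¹ := inv_nonneg.2 (N_nonneg c)
  by_cases hcH : IsCoprime c π.H
  swap
  · have : ∀ m, π.Ath r k (m * c ^ 3) = 0 := fun m => b4acube2_zero π r k hc fun h => hcH h.2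
    simp only [Par.Tc, this, tsum_zero, norm_zero]
    exact mul_nonneg h0 (Finset.sum_nonneg fun _ _ => norm_nonneg _)
  have hc3 : c ^ 3 ≠ 0 := pow_ne_zero 3 hc.ne_zero
  obtain ⟨φ, hφ, hφ'⟩ := exists_f1_cl (K := K)
  obtain ⟨a, ha, ha'⟩ := expand_class (φ := fun g => φ (g * cl (c ^ 3))) fun g => (hφ _).le
  have hP : ∀ θ ∈ hchars K, PolyBd fun m => a θ * (tt m * (π.ν * θ).v m * conj (chi m (k * r ^ 4 * π.H ^ 6))) :=
    fun θ _ => ⟨1, 1, fun m hm => by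
      rw [norm_mul, norm_mul, norm_mul, Tw.norm_v _ hm.ne_zero, mul_one, Complex.norm_conj, pow_one, one_mul]
      refine (mul_le_of_le_one_left (by positivity) (ha θ)).trans ?_
      refine (mul_le_of_le_one_right (norm_nonneg _) (norm_chi_le hm.ne_zero _)).trans ?_
      exact (norm_tt_le hm).trans (Real.rpow_le_self_of_one_le (one_le_N hm.ne_zero) (by norm_num))⟩
  have key : π.Tc r k c = angN c ^ 3 * π.ν.v (c ^ 3) * chi (c ^ 3) (r ^ 2) * conj (chi (c ^ 3) k) *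
      ((Real.sqrt (N c) : ℂ) * (N (c ^ 3) : ℂ) ^ (-(1 / 2 + π.t * Complex.I))) *
      ∑ θ ∈ hchars K, a θ * Fth (π.ν * θ) (k * r ^ 4 * π.H ^ 6) (π.y - Real.log (N (c ^ 3))) π.t := by
    simp only [Fth, pb, ← blks_smul]
    rw [← blks_sum _ hP, blks, ← tsum_mul_left]
    refine tsum_congr fun m => ?_
    by_cases hm : Prim m
    swap
    · rw [if_neg hm, mul_zero, b4acube2_zero π r k hc fun h => hm h.1.1]
    have e : ∑ θ ∈ hchars K, a θ * (tt m * (π.ν * θ).v m * conj (chi m (k * r ^ 4 * π.H ^ 6))) =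
        f1 (m * c ^ 3) * tt m * π.ν.v m * conj (chi m (k * r ^ 4 * π.H ^ 6)) := by
      rw [hφ' _ (mul_ne_zero hm.ne_zero hc3), cl_mul hm.ne_zero hc3, ha' m hm, Finset.sum_mul, Finset.sum_mul,
        Finset.sum_mul]
      exact Finset.sum_congr rfl fun θ _ => by rw [Tw.mul_v]; ring
    rw [if_pos hm, e, b4acube2_chi hm.ne_zero hr]
    split_ifs with hmH
    · rw [b4acube2_Ath π r k hc hm hmH hcH]
      ring
    · rw [b4acube2_zero π r k hc fun h => hmH h.1.2]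
      ring
  rw [key, norm_mul]
  refine mul_le_mul (b4acube2_u π r k hc) ((norm_sum_le _ _).trans (Finset.sum_le_sum fun θ _ => ?_))
    (norm_nonneg _) h0
  rw [norm_mul]
  exact mul_le_of_le_one_left (norm_nonneg _) (ha θ)

/-- `f1_mul m (c³)`: `f1 (m c³) = f1 m · f1 (c³) · sg m (c³)³`, and `sg m (c³) ^ 3 = sg m (c⁹) = θ(m)`
(`sg_pow_right`, `exists_hchar_sg`); `key_identity` backwards. -/
theorem norm_Rc_le {c : R K} (hc : Prim c) : ∃ θ ∈ hchars K, ∀ (π : Par K) (r k : R K),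
    ‖π.Rc r k c‖ ≤ (N c)⁻¹ * ‖((π.cut (c ^ 3)).tw θ).Ds r k‖ := by
  have h0 : 0 ≤ (N c)⁻¹ := inv_nonneg.2 (N_nonneg c)
  have hc3 : c ^ 3 ≠ 0 := pow_ne_zero 3 hc.ne_zero
  obtain ⟨θ, hθ, hθ'⟩ := exists_hchar_sg ((c ^ 3) ^ 3)
  refine ⟨θ, hθ, fun π r k => ?_⟩
  by_cases hcH : IsCoprime c π.H
  swap
  · have : ∀ m, π.Ath r k (m * c ^ 3) = 0 := fun m => b4acube2_zero π r k hc fun h => hcH h.2
    simp only [Par.Rc, this, ite_self, tsum_zero, norm_zero]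
    exact mul_nonneg h0 (norm_nonneg _)
  have key : π.Rc r k c = angN c ^ 3 * π.ν.v (c ^ 3) * chi (c ^ 3) (r ^ 2) * conj (chi (c ^ 3) k) *
      ((Real.sqrt (N c) : ℂ) * (N (c ^ 3) : ℂ) ^ (-(1 / 2 + π.t * Complex.I))) *
      (f1 (c ^ 3) * ((π.cut (c ^ 3)).tw θ).Ds r k) := by
    rw [Par.Ds, ← tsum_mul_left, ← tsum_mul_left]
    refine tsum_congr fun m => ?_
    rw [Par.al_tw]
    by_cases hm : Prim m ∧ IsCoprime m π.H
    swap
    · have e : (π.cut (c ^ 3)).al m = 0 := if_neg hm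
      rw [e, b4acube2_zero π r k hc fun h => hm h.1, ite_self]
      ring
    have e : (π.cut (c ^ 3)).al m = mu m * π.ν.v m * (N m : ℂ) ^ (-(1 / 2 + π.t * Complex.I)) *
        (gw (Real.log (N m) - (π.y - Real.log (N (c ^ 3)))) : ℂ) := if_pos hm
    rw [e]
    split_ifs with hs
    · rw [b4acube2_Ath π r k hc hm.1 hm.2 hcH, f1_mul hm.1.ne_zero hc3, hθ' m hm.1, sg_pow_right m hc3]
      congr 1
      linear_combination (-(f1 (c ^ 3) * sg m (c ^ 3) ^ 3 * π.ν.v m * chi m (r ^ 2) * conj (chi m k) *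
        (N m : ℂ) ^ (-(1 / 2 + π.t * Complex.I)) *
        (gw (Real.log (N m) - (π.y - Real.log (N (c ^ 3)))) : ℂ))) * key_identity hm.1 hs
    · rw [mu_eq_zero hs]
      ring
  rw [key, norm_mul, norm_mul (f1 _), norm_f1 hc3, one_mul]
  exact mul_le_mul_of_nonneg_right (b4acube2_u π r k hc) (norm_nonneg _)

end Crest.Agent.R312.FM
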