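import Crest.Agent.R312.B4aBackS

/-!
# R312 / B4aDD1 : the two applications of the backward step

Definitions and the dictionary R17 → R312 are in `B4aDefs.lean`.  Prefix helper lemmas with `b4add1_`.
Compare `R17/FMoment_DD1`.
-/

set_option autoImplicit false

noncomputable section

open scoped Classical ComplexConjugate NumberField
open MeasureTheory

namespace Crest.Agent.R312.FM

variable {K : Type} [Field K] [NumberField K] [Fld K] [Loc K] [Setup K]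

theorem b4add1_gen (B : ℕ) {δ : ℝ} (hδ : 0 < δ) (hδ1 : δ ≤ 1 / 8) : ∃ C, 0 ≤ C ∧
    ∀ (E M X' : ℝ), 1 ≤ M → BndB K δ M B X' → ∀ (π : Par K) (X0 D G0 : ℝ),
    π.SH δ E X' X0 D G0 → ∀ g : R K, Prim g → ∀ T : Finset (R K), (∀ r ∈ T, Prim r) →
    ∀ (π' : Par K) (κ : ℝ), 1 ≤ κ → π'.H = π.H * g → π'.len = π.len / N g / κ → π'.s = π.s →
    (∀ r ∈ T, G0 ≤ κ * N r) →
      ∑ r ∈ T, (N r)⁻¹ * ∑ k ∈ ball K (Kg E X0 D g), ‖(π'.cut r).Ds r k‖ ^ 2 ≤
        C * E ^ 5 * M * N g ^ (-1 - δ / 2) * X0 ^ δ * π.s ^ (B + 2) * X0 * κ ^ (-δ) := by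
  obtain ⟨C, hC0, hC⟩ := backsum (K := K) B hδ hδ1
  refine ⟨2 * C, by positivity, fun E M X' hM hB π X0 D G0 hs g hg T hT π' κ hκ hH hl hs' hG' => ?_⟩
  have hX0 := hs.hX0
  have hX0D := hs.h2
  have hD : 0 < D := by linarith
  have hE := hs.hE
  have hNg := one_le_N hg.ne_zero
  have hG : 0 < G0 := (Real.exp_pos 1).trans_le hs.hG
  have hl0 := π.len_pos
  have hup := hs.up
  have hlo := hs.lo
  have hs1 := π.one_le_s
  rw [hs.hH, one_mul] at hH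
  have h1 : π'.len ≤ X0 / N g / κ := by rw [hl]; gcongr
  have h2 : X0 / N g ≤ X0 := div_le_self (by linarith) hNg
  have h3 : X0 / N g / κ ≤ X0 / N g := div_le_self (by positivity) hκ
  have hl' := π'.len_pos
  have key := hC E M X' hM hB π' T D κ (X0 / G0) ⟨hH ▸ hg, hκ, hE, by positivity,
    (Real.rpow_le_rpow hl'.le (by linarith) hδ.le).trans hs.hE1, ?_, ?_, ?_, hT, fun r hr => ?_⟩
    (Kg E X0 D g) (by unfold Kg; positivity) ?_
  · refine key.trans ?_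
    have a1 : Kg E X0 D g * D / (κ * π'.len) ≤ 2 * X0 * E * (N g)⁻¹ := by
      rw [hl, Kg, div_le_iff₀ (by positivity)]
      calc X0 ^ 2 * E / (N g ^ 2 * D) * D = X0 * E * (N g ^ 2)⁻¹ * X0 := by field_simp
        _ ≤ X0 * E * (N g ^ 2)⁻¹ * (2 * π.len) := by gcongr
        _ = _ := by field_simp
    have a2 : π'.len ^ δ ≤ X0 ^ δ * (N g ^ (-δ) * κ ^ (-δ)) := by
      refine (Real.rpow_le_rpow hl'.le h1 hδ.le).trans_eq ?_
      rw [Real.div_rpow (by positivity) (by positivity), Real.div_rpow (by positivity) (by positivity),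
        Real.rpow_neg (by positivity), Real.rpow_neg (by positivity)]
      ring
    have a3 : N g ^ (-1 - δ / 2) = N g ^ (δ / 2) * (N g)⁻¹ * N g ^ (-δ) := by
      rw [← Real.rpow_neg_one, ← Real.rpow_add (by positivity), ← Real.rpow_add (by positivity)]
      congr 1; ring
    rw [hH, hs', a3]
    calc _ ≤ C * E ^ 4 * M * N g ^ (δ / 2) * (2 * X0 * E * (N g)⁻¹) *
          (X0 ^ δ * (N g ^ (-δ) * κ ^ (-δ))) * π.s ^ (B + 2) := by gcongr
      _ = _ := by ring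
  · calc D ^ δ ≤ (X0 ^ 2) ^ δ := Real.rpow_le_rpow hD.le hs.hD hδ.le
      _ = (X0 ^ δ) ^ 2 := by rw [sq, sq, Real.mul_rpow (by linarith) (by linarith)]
      _ ≤ E ^ 2 := pow_le_pow_left₀ (Real.rpow_nonneg (by linarith) _) hs.hE1 2
  · rw [← mul_div_assoc, div_le_iff₀ hG, mul_comm X']
    exact hs.h1
  · rw [le_div_iff₀ (by positivity)] at h1
    linarith
  · have := N_pos (hT r hr).ne_zero
    calc π'.len / N r ≤ X0 / κ / N r := by
          gcongr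
          exact h1.trans (by gcongr)
      _ ≤ X0 / G0 := by
          rw [div_div]
          gcongr
          exact hG' r hr
  · calc π'.len ^ 2 * E ≤ (X0 / N g / κ) ^ 2 * E := by gcongr
      _ = _ := by rw [Kg]; field_simp

/-- `Ds_dil`, `backsum` for `π.dil g` (`H = 1 * g`, length `X1 = len/N g ∈ [X0/(2 N g), X0/N g]`), `κ = 1`,
`X2 = X0/G0`; `D^δ ≤ (X0²)^δ ≤ E²`; `Kg · D = X0² E/N g²`. -/
theorem DD_large (B : ℕ) {δ : ℝ} (hδ : 0 < δ) (hδ1 : δ ≤ 1 / 8) : ∃ C, 0 ≤ C ∧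
    ∀ (E M X' : ℝ), 1 ≤ M → BndB K δ M B X' → ∀ (π : Par K) (X0 D G0 : ℝ),
    π.SH δ E X' X0 D G0 → ∀ g : R K, Prim g → ∀ T : Finset (R K), (∀ r ∈ T, Prim r ∧ G0 < N r) →
      π.DD g (Kg E X0 D g) T (fun π' r k => ‖π'.Ds r k‖ ^ 2) ≤
        C * E ^ 5 * M * N g ^ (-1 - δ / 2) * X0 ^ δ * π.s ^ (B + 2) * X0 := by
  obtain ⟨C, hC0, hC⟩ := b4add1_gen (K := K) B hδ hδ1
  refine ⟨C, hC0, fun E M X' hM hB π X0 D G0 hs g hg T hT => ?_⟩
  have key := hC E M X' hM hB π X0 D G0 hs g hg T (fun r hr => (hT r hr).1) (π.dil g) 1 le_rfl rfl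
    (by rw [π.len_dil hg.ne_zero, div_one]) rfl fun r hr => by rw [one_mul]; exact (hT r hr).2.le
  rw [Real.one_rpow, mul_one] at key
  refine le_trans (le_of_eq (Finset.sum_congr rfl fun r hr => ?_)) key
  simp only [π.Ds_dil hg.ne_zero (hT r hr).1.ne_zero]

/-- `Ds_cube`, `backsum` for `((π.dil g).cut (c³)).tw θ` (length `len/(N g N c³)`, `s_tw`), `κ = N c³`,
`X2 = X0/G0` (`G0 < N c ≤ N c³`). -/
theorem DD_cube (B : ℕ) {δ : ℝ} (hδ : 0 < δ) (hδ1 : δ ≤ 1 / 8) : ∃ C, 0 ≤ C ∧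
    ∀ (E M X' : ℝ), 1 ≤ M → BndB K δ M B X' → ∀ (π : Par K) (X0 D G0 : ℝ),
    π.SH δ E X' X0 D G0 → ∀ g : R K, Prim g → ∀ T : Finset (R K), (∀ r ∈ T, Prim r) →
    ∀ c : R K, Prim c → G0 < N c → ∀ θ ∈ hchars K,
      π.DD g (Kg E X0 D g) T (fun π' r k => ‖((π'.cut (c ^ 3)).tw θ).Ds r k‖ ^ 2) ≤
        C * E ^ 5 * M * N g ^ (-1 - δ / 2) * X0 ^ δ * π.s ^ (B + 2) * X0 * N c ^ (-(3 * δ)) := by
  obtain ⟨C, hC0, hC⟩ := b4add1_gen (K := K) B hδ hδ1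
  refine ⟨C, hC0, fun E M X' hM hB π X0 D G0 hs g hg T hT c hc hcG θ hθ => ?_⟩
  have hNc := one_le_N hc.ne_zero
  have key := hC E M X' hM hB π X0 D G0 hs g hg T hT (((π.dil g).cut (c ^ 3)).tw θ) (N c ^ 3)
    (one_le_pow₀ hNc) rfl
    (by rw [← π.len_dil hg.ne_zero, ← N_pow, ← Par.len_cut _ (pow_ne_zero 3 hc.ne_zero)]; rfl)
    ((Par.s_tw _ hθ).trans rfl) fun r hr => by
      have := one_le_N (hT r hr).ne_zero
      have h2 : N c ≤ N c ^ 3 := le_self_pow₀ hNc (by norm_num)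
      nlinarith
  have h3 : (N c ^ 3) ^ (-δ) = N c ^ (-(3 * δ)) := by
    rw [← Real.rpow_natCast, ← Real.rpow_mul (by linarith)]
    congr 1; push_cast; ring
  rw [h3] at key
  refine le_trans (le_of_eq (Finset.sum_congr rfl fun r hr => ?_)) key
  simp only [π.Ds_cube hg.ne_zero (hT r hr).ne_zero]

end Crest.Agent.R312.FM
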