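import Crest.Agent.R312.B4aCube2
import Crest.Agent.R312.B4T

/-!
# R312 / B4aTheta : the theta-complete part

Definitions and the dictionary R17 → R312 are in `B4aDefs.lean`.  Prefix helper lemmas with `b4atheta_`.
Compare `R17/FMoment_Theta`.
-/

set_option autoImplicit false

noncomputable section

open scoped Classical ComplexConjugate NumberField
open MeasureTheory

namespace Crest.Agent.R312.FM

variable {K : Type} [Field K] [NumberField K] [Fld K] [Loc K] [Setup K]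

theorem b4atheta_Th (π : Par K) {r : R K} (hr : r ∣ π.H) {G L M n : ℝ} (hM : 0 ≤ M)
    (hn : ((ball K G).card : ℝ) ≤ n) (hb : ∀ c : R K, Prim c → N c ≤ G → ∀ θ ∈ hchars K,
      ∑ k ∈ ball K L, ‖Fth (π.ν * θ) (k * r ^ 4 * π.H ^ 6) (π.y - Real.log (N (c ^ 3))) π.t‖ ^ 2 ≤ M) :
    ∑ k ∈ ball K L, ‖π.Th r k G‖ ^ 2 ≤ n ^ 2 * hc K ^ 2 * M := by
  have hn0 : 0 ≤ n := (Nat.cast_nonneg _).trans hn
  have h0 : 0 ≤ hc K := zero_le_one.trans (one_le_hc (K := K))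
  have h2 : ∀ c ∈ ball K G, ∑ k ∈ ball K L, ‖mu c * π.Tc r k c‖ ^ 2 ≤ hc K ^ 2 * M := by
    intro c hc'
    obtain ⟨a2, a3⟩ := mem_ball.1 hc'
    have a5 : ∀ k, ‖mu c * π.Tc r k c‖ ^ 2 ≤ hc K * ∑ θ ∈ hchars K,
        ‖Fth (π.ν * θ) (k * r ^ 4 * π.H ^ 6) (π.y - Real.log (N (c ^ 3))) π.t‖ ^ 2 := fun k => by
      have b1 : ‖mu c * π.Tc r k c‖ ≤ ∑ θ ∈ hchars K,
          ‖Fth (π.ν * θ) (k * r ^ 4 * π.H ^ 6) (π.y - Real.log (N (c ^ 3))) π.t‖ := by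
        rw [norm_mul]
        refine (mul_le_of_le_one_left (norm_nonneg _) (norm_mu_le c)).trans
          ((π.norm_Tc_le hr k a2).trans (mul_le_of_le_one_left
            (Finset.sum_nonneg fun _ _ => norm_nonneg _) ?_))
        exact inv_le_one_of_one_le₀ (one_le_N a2.ne_zero)
      exact (pow_le_pow_left₀ (norm_nonneg _) b1 2).trans sq_sum_le_card_mul_sum_sq
    refine (Finset.sum_le_sum fun k _ => a5 k).trans ?_
    rw [← Finset.mul_sum, Finset.sum_comm, sq, mul_assoc]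
    refine mul_le_mul_of_nonneg_left ?_ h0
    refine (Finset.sum_le_card_nsmul _ _ M (hb c a2 a3)).trans ?_
    rw [nsmul_eq_mul]
    exact le_rfl
  refine (Finset.sum_le_sum fun k _ => norm_sum_sq_le _ _).trans ?_
  rw [← Finset.mul_sum, Finset.sum_comm]
  have h3 := Finset.sum_le_card_nsmul _ _ _ h2
  rw [nsmul_eq_mul] at h3
  calc _ ≤ n * (n * (hc K ^ 2 * M)) := by
        refine mul_le_mul hn (h3.trans ?_)
          (Finset.sum_nonneg fun _ _ => Finset.sum_nonneg fun _ _ => sq_nonneg _) hn0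
        gcongr
    _ = _ := by ring

theorem b4atheta_inj {a : R K} (ha : Prim a) {L A : ℝ} (hL : 0 ≤ L) (hA : N a ≤ A) (f : R K → ℝ)
    (hf : ∀ k, 0 ≤ f k) : ∑ k ∈ ball K L, f (k * a) ≤ ∑ k ∈ ball K (L * A), f k := by
  rw [← Finset.sum_image (s := ball K L) (g := fun k => k * a) (f := f)
    fun x _ y _ h => mul_right_cancel₀ ha.ne_zero h]
  refine Finset.sum_le_sum_of_subset_of_nonneg (fun x hx => ?_) fun _ _ _ => hf _
  obtain ⟨k, hk, rfl⟩ := Finset.mem_image.1 hx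
  obtain ⟨k1, k2⟩ := mem_ball.1 hk
  refine mem_ball.2 ⟨k1.mul ha, ?_⟩
  rw [N_mul]
  exact mul_le_mul k2 hA (N_nonneg a) hL

theorem b4atheta_num {X0 E G L Y : ℝ} (hX0 : 1 ≤ X0) (hE : 1 ≤ E) (hG : 1 ≤ G) (hL0 : 0 ≤ L)
    (hL : L ≤ X0 * E) (hY : 0 < Y) (hY2 : X0 ≤ 2 * G ^ 5 * Y) :
    L * G ^ 16 + (L * G ^ 16) ^ 2 / Y ≤ 3 * G ^ 37 * E ^ 2 * X0 := by
  have t1 : L * G ^ 16 ≤ G ^ 37 * E ^ 2 * X0 := by
    calc L * G ^ 16 ≤ X0 * E * G ^ 16 := by gcongr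
      _ = G ^ 16 * E ^ 1 * X0 := by ring
      _ ≤ _ := by gcongr <;> norm_num
  have t2 : (L * G ^ 16) ^ 2 / Y ≤ 2 * G ^ 37 * E ^ 2 * X0 := by
    rw [div_le_iff₀ hY]
    calc (L * G ^ 16) ^ 2 ≤ (X0 * E * G ^ 16) ^ 2 := by gcongr
      _ = G ^ 32 * E ^ 2 * X0 * X0 := by ring
      _ ≤ G ^ 32 * E ^ 2 * X0 * (2 * G ^ 5 * Y) := by gcongr
      _ = _ := by ring
  linarith

/-- If `Kg < 1` the ball is empty.  Let `π' = π.dil (g r)`, `H' = 1 * (g r)`.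
`‖Th‖² ≤ #ball(G0) ∑_c ‖Tc‖²`, `‖Tc‖² ≤ hc ∑_θ ‖Fth (ν θ) (k r⁴ H'⁶) y' t‖²` (`norm_sum_sq_le`,
`norm_Tc_le`, `(N c)⁻¹ ≤ 1`).  The map `k ↦ k r⁴ H'⁶` is injective from `ball Kg` into `ball L'`,
`L' = Kg · G0^16`.  `thetaNorm` with `A = 1`, `ε = δ`, `Z = 3 G0^16 X0 E`: `Kg ≤ X0² E/D ≤ X0 E`,
`e^{y'} = len/(N(g r) N c³) ∈ [X0/(2 G0⁵), X0]`, so `|y'| ≤ log Z`, `Z^δ ≤ 3 G0² E²`,
`L' + L'²/e^{y'} ≤ 3 G0^37 E² X0` (`X0⁴/D² ≤ X0²`); `sz_mul_hchar`; counts by `card_ball_le`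
(`T ⊆ ball G0`, `(N r)⁻¹ ≤ 1`).  E.g. `c = 42`. -/
theorem DD_theta : ∃ c : ℕ, ∀ δ : ℝ, 0 < δ → δ ≤ 1 / 8 → ∃ (C : ℝ) (B : ℕ), 0 ≤ C ∧
    ∀ (E : ℝ) (π : Par K) (X' X0 D G0 : ℝ), π.SH δ E X' X0 D G0 →
    ∀ g : R K, Prim g → N g ≤ G0 → ∀ T : Finset (R K), (∀ r ∈ T, Prim r ∧ N r ≤ G0) →
      π.DD g (Kg E X0 D g) T (fun π' r k => ‖π'.Th r k G0‖ ^ 2) ≤
        C * G0 ^ c * E ^ 5 * π.s ^ B * X0 := by
  refine ⟨56, fun δ hδ hδ1 => ?_⟩
  obtain ⟨C, B, h⟩ := thetaNorm (K := K) 1 hδ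
  obtain ⟨Cb, hCb, hball⟩ := card_ball_le (K := K)
  have h0 : 0 ≤ hc K := zero_le_one.trans (one_le_hc (K := K))
  refine ⟨9 * |C| * Cb ^ 3 * hc K ^ 2, B, by positivity,
    fun E π X' X0 D G0 hS g hg hgG T hT => ?_⟩
  have hE := hS.hE
  have hX := hS.hX0
  have hs := π.one_le_s
  have hG : 1 ≤ G0 := (one_le_N hg.ne_zero).trans hgG
  unfold Par.DD
  by_cases hK : 1 ≤ Kg E X0 D g
  swap
  · simp only [ball_eq_empty (K := K) (not_le.1 hK), Finset.sum_empty, Finset.sum_const_zero, mul_zero]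
    positivity
  have hXD : X0 ≤ D := hS.h2
  have hD0 : 0 < D := by linarith
  have hK1 : Kg E X0 D g ≤ X0 ^ 2 * E / D := by
    unfold Kg
    gcongr
    exact le_mul_of_one_le_left hD0.le (one_le_pow₀ (one_le_N hg.ne_zero))
  have hK2 : X0 ^ 2 * E / D ≤ X0 * E := by
    rw [div_le_iff₀ hD0]
    calc X0 ^ 2 * E = X0 * E * X0 := by ring
      _ ≤ _ := by gcongr
  have hK3 := hK1.trans hK2
  have hK0 : 0 ≤ Kg E X0 D g := by linarith
  set Z := 3 * G0 ^ 16 * X0 * E with hZ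
  have g16 : 1 ≤ G0 ^ 16 := one_le_pow₀ hG
  have z3 : 3 * G0 ^ 16 ≤ Z := by
    calc 3 * G0 ^ 16 = 3 * G0 ^ 16 * 1 * 1 := by ring
      _ ≤ _ := by rw [hZ]; gcongr
  have z2 : X0 ≤ Z := by
    calc X0 = 1 * X0 * 1 := by ring
      _ ≤ _ := by rw [hZ]; gcongr; linarith
  have z1 : Kg E X0 D g * G0 ^ 16 ≤ Z := by
    calc Kg E X0 D g * G0 ^ 16 ≤ X0 * E * G0 ^ 16 := by gcongr
      _ = 1 * G0 ^ 16 * X0 * E := by ring
      _ ≤ _ := by rw [hZ]; gcongr; norm_num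
  have z0 : 3 ≤ Z := by linarith
  have z4 : Z ^ δ ≤ 3 * G0 ^ 16 * E * E := by
    rw [hZ, Real.mul_rpow (by positivity) (by linarith), Real.mul_rpow (by positivity) (by linarith)]
    have a1 : (3 * G0 ^ 16) ^ δ ≤ 3 * G0 ^ 16 :=
      Real.rpow_le_self_of_one_le (by linarith) (by linarith)
    have a2 : E ^ δ ≤ E := Real.rpow_le_self_of_one_le hE (by linarith)
    have a3 := hS.hE1
    gcongr
  set M := |C| * (3 * G0 ^ 16 * E * E) * π.s ^ B * (3 * G0 ^ 37 * E ^ 2 * X0) with hM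
  have hM0 : 0 ≤ M := by positivity
  have hb := hball G0 (by linarith)
  have key : ∀ r ∈ T, (N r)⁻¹ * ∑ k ∈ ball K (Kg E X0 D g), ‖(π.dil (g * r)).Th r k G0‖ ^ 2 ≤
      (Cb * G0) ^ 2 * hc K ^ 2 * M := by
    intro r hr
    obtain ⟨r1, r2⟩ := hT r hr
    have hgr := hg.mul r1
    have n1 : N (g * r) ≤ G0 ^ 2 := by
      rw [N_mul, sq]
      exact mul_le_mul hgG r2 (N_nonneg r) (by linarith)
    refine (mul_le_of_le_one_left (Finset.sum_nonneg fun _ _ => sq_nonneg _)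
      (inv_le_one_of_one_le₀ (one_le_N r1.ne_zero))).trans ?_
    have eH : (π.dil (g * r)).H = g * r := by
      change π.H * (g * r) = _
      rw [hS.hH, one_mul]
    refine b4atheta_Th _ (by rw [eH]; exact dvd_mul_left r g) hM0 hb fun c hc' hcG θ hθ => ?_
    have hc3 : c ^ 3 ≠ 0 := pow_ne_zero _ hc'.ne_zero
    have n2 : N (c ^ 3) ≤ G0 ^ 3 := by
      rw [N_pow]
      exact pow_le_pow_left₀ (N_nonneg c) hcG 3
    have n3 : N (r ^ 4 * (g * r) ^ 6) ≤ G0 ^ 16 := by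
      rw [N_mul, N_pow, N_pow]
      have := N_nonneg r
      have := N_nonneg (g * r)
      calc N r ^ 4 * N (g * r) ^ 6 ≤ G0 ^ 4 * (G0 ^ 2) ^ 6 := by gcongr
        _ = _ := by ring
    have p1 := N_pos hgr.ne_zero
    have p2 := N_pos hc3
    have q1 := one_le_N hgr.ne_zero
    have q2 := one_le_N hc3
    set y' := (π.dil (g * r)).y - Real.log (N (c ^ 3)) with hy'
    have ey : π.len = N (g * r) * N (c ^ 3) * Real.exp y' := by
      rw [hy', Real.exp_sub, Real.exp_log p2]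
      change _ = _ * _ * ((π.dil (g * r)).len / _)
      rw [π.len_dil hgr.ne_zero]
      field_simp
    have hY := Real.exp_pos y'
    have u1 : Real.exp y' ≤ X0 := by
      refine le_trans ?_ hS.up
      rw [ey]
      exact le_mul_of_one_le_left hY.le (one_le_mul_of_one_le_of_one_le q1 q2)
    have u2 : X0 ≤ 2 * G0 ^ 5 * Real.exp y' := by
      calc X0 ≤ 2 * π.len := hS.lo
        _ = 2 * (N (g * r) * N (c ^ 3)) * Real.exp y' := by rw [ey]; ring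
        _ ≤ 2 * (G0 ^ 2 * G0 ^ 3) * Real.exp y' := by gcongr
        _ = _ := by ring
    have hZ0 : 0 < Z := by linarith
    have u3 : |y'| ≤ 1 * Real.log Z := by
      rw [one_mul, abs_le]
      refine ⟨?_, (Real.le_log_iff_exp_le hZ0).2 (u1.trans z2)⟩
      rw [neg_le, Real.le_log_iff_exp_le hZ0, Real.exp_neg, inv_le_iff_one_le_mul₀ hY]
      calc 1 ≤ 2 * G0 ^ 5 * Real.exp y' := hX.trans u2
        _ ≤ 3 * G0 ^ 16 * Real.exp y' := by gcongr <;> norm_num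
        _ ≤ _ := by gcongr
    have u4 := h Z z0 (π.ν * θ) (Kg E X0 D g * G0 ^ 16) y' π.t
      (one_le_mul_of_one_le_of_one_le hK g16) (by rwa [Real.rpow_one]) u3
    rw [sz_mul_hchar _ hθ] at u4
    have u5 := b4atheta_inj ((r1.pow 4).mul (hgr.pow 6)) hK0 n3
      (fun k => ‖Fth (π.ν * θ) k y' π.t‖ ^ 2) fun _ => sq_nonneg _
    have u6 := b4atheta_num hX hE hG hK0 hK3 hY u2
    simp only [eH, mul_assoc _ (r ^ 4)]
    refine u5.trans (u4.trans ?_)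
    rw [hM]
    change C * Z ^ δ * π.s ^ B * _ ≤ _
    gcongr
    exact le_abs_self C
  have hc' : (T.card : ℝ) ≤ Cb * G0 :=
    (Nat.cast_le.2 (Finset.card_le_card fun r hr => mem_ball.2 (hT r hr))).trans hb
  refine (Finset.sum_le_card_nsmul _ _ _ key).trans ?_
  rw [nsmul_eq_mul]
  calc _ ≤ Cb * G0 * ((Cb * G0) ^ 2 * hc K ^ 2 * M) := by gcongr
    _ = 9 * |C| * Cb ^ 3 * hc K ^ 2 * G0 ^ 56 * E ^ 4 * π.s ^ B * X0 := by rw [hM]; ring
    _ ≤ _ := by gcongr; norm_num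

end Crest.Agent.R312.FM
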