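import Crest.Agent.R312.B4aDD1
import Crest.Agent.R312.B4aCube1
import Crest.Agent.R312.B4aTheta

/-!
# R312 / B4aDD2 : the dual sums: remainder of the cube removal, total

Definitions and the dictionary R17 → R312 are in `B4aDefs.lean`.  Prefix helper lemmas with `b4add2_`.
Copy from `R17/FMoment_DD2`.
-/

set_option autoImplicit false

noncomputable section

open scoped Classical ComplexConjugate NumberField
open MeasureTheory

namespace Crest.Agent.R312.FM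

variable {K : Type} [Field K] [NumberField K] [Fld K] [Loc K] [Setup K]

theorem b4add2_eq (π : Par K) (g : R K) (L : ℝ) (T : Finset (R K)) (Φ : Par K → R K → R K → ℝ) :
    π.DD g L T Φ = ∑ i ∈ T ×ˢ ball K L, (N i.1)⁻¹ * Φ (π.dil (g * i.1)) i.1 i.2 := by
  rw [Finset.sum_product, Par.DD]
  simp only [Finset.mul_sum]

theorem b4add2_num {δ C n d : ℝ} (hn : 0 < n) (h0 : 0 ≤ d) (h1 : d ≤ C * n ^ (δ / 2)) :
    d ^ 2 * n⁻¹ ^ 2 * n ^ (-(3 * δ)) ≤ (C * n ^ (-1 - δ)) ^ 2 := by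
  obtain ⟨u, hu⟩ : ∃ u, u = n ^ (δ / 2) := ⟨_, rfl⟩
  have hu0 : 0 < u := hu ▸ Real.rpow_pos_of_pos hn _
  have e : ∀ k : ℕ, u ^ k = n ^ (δ / 2 * k) := fun k => by
    rw [hu, Real.rpow_mul_natCast hn.le]
  have e2 : n ^ (-(3 * δ)) = (u ^ 6)⁻¹ := by
    rw [e, ← Real.rpow_neg hn.le]; congr 1; push_cast; ring
  have e3 : n ^ (-1 - δ) = n⁻¹ * (u ^ 2)⁻¹ := by
    rw [e, ← Real.rpow_neg hn.le, ← Real.rpow_neg_one, ← Real.rpow_add hn]; congr 1; push_cast; ring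
  rw [← hu] at h1
  rw [e2, e3]
  calc _ ≤ (C * u) ^ 2 * n⁻¹ ^ 2 * (u ^ 6)⁻¹ := by gcongr
    _ = _ := by field_simp

/-- `minkowski` over `c` for the family of pairs `(r, k) ∈ T ×ˢ ball` with `hasSum_rem`;
`‖lamG G0 c · Rc c‖² ≤ nd c² (N c)⁻² ‖Ds‖²` (`norm_lamG_le`, `norm_Rc_le`), `DD_cube`;
`e c = C N c^{-1-δ}` on primary `c` with `G0 < N c`, else `0` (`nd_le` with `θ = δ/2`, `sum_N_rpow_le`). -/
theorem DD_rem (B : ℕ) {δ : ℝ} (hδ : 0 < δ) (hδ1 : δ ≤ 1 / 8) : ∃ C, 0 ≤ C ∧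
    ∀ (E M X' : ℝ), 1 ≤ M → BndB K δ M B X' → ∀ (π : Par K) (X0 D G0 : ℝ),
    π.SH δ E X' X0 D G0 → ∀ g : R K, Prim g → ∀ T : Finset (R K), (∀ r ∈ T, Prim r) →
      π.DD g (Kg E X0 D g) T (fun π' r k => ‖π'.Th r k G0 - π'.Ds r k‖ ^ 2) ≤
        C * E ^ 5 * M * N g ^ (-1 - δ / 2) * X0 ^ δ * π.s ^ (B + 2) * X0 := by
  obtain ⟨C1, hC1, h1⟩ := DD_cube (K := K) B hδ hδ1
  obtain ⟨C2, hC2, h2⟩ := nd_le (K := K) (θ := δ / 2) (by positivity)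
  obtain ⟨C3, hC3, h3⟩ := sum_N_rpow_le (K := K) hδ
  refine ⟨C1 * (C2 * C3) ^ 2, by positivity, fun E M X' hM hB π X0 D G0 hS g hg T hT => ?_⟩
  have hE := hS.hE
  have hX := hS.hX0
  have hs := π.one_le_s
  have hG : 1 ≤ G0 := (Real.one_le_exp zero_le_one).trans hS.hG
  have hg0 := Real.rpow_nonneg (N_nonneg g) (-1 - δ / 2)
  obtain ⟨V, hV⟩ : ∃ V, V = C1 * E ^ 5 * M * N g ^ (-1 - δ / 2) * X0 ^ δ *
    π.s ^ (B + 2) * X0 := ⟨_, rfl⟩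
  have hV0 : 0 ≤ V := by rw [hV]; positivity
  have key := minkowski (T ×ˢ ball K (Kg E X0 D g))
    (ω := fun i => (N i.1)⁻¹) (fun i _ => inv_nonneg.2 (N_nonneg _))
    (fun i _ => (π.dil (g * i.1)).hasSum_rem i.1 i.2 hG)
    (e := fun c : R K => if Prim c ∧ G0 < N c then C2 * N c ^ (-1 - δ) else 0)
    (fun c => by
      have := Real.rpow_nonneg (N_nonneg c) (-1 - δ)
      split_ifs <;> positivity) hV0 (C := C2 * C3)
    (fun P => by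
      rw [← Finset.sum_filter, ← Finset.mul_sum]
      exact mul_le_mul_of_nonneg_left (h3 _ fun r hr => (Finset.mem_filter.1 hr).2.1) (by positivity))
    (fun c => by
      by_cases hc : Prim c ∧ G0 < N c
      swap
      · simp [hc]
      simp only [if_pos hc]
      obtain ⟨θ, hθ, a0⟩ := norm_Rc_le hc.1
      have a1 := h1 E M X' hM hB π X0 D G0 hS g hg T hT c hc.1 hc.2 θ hθ
      rw [← hV, b4add2_eq] at a1
      have a2 := b4add2_num (N_pos hc.1.ne_zero) (nd_nonneg c) (h2 c hc.1.ne_zero)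
      have a3 : 0 ≤ nd c ^ 2 * (N c)⁻¹ ^ 2 := by positivity
      refine le_trans ?_ (mul_le_mul_of_nonneg_left a2 hV0)
      rw [mul_left_comm]
      refine le_trans ?_ (mul_le_mul_of_nonneg_left a1 a3)
      rw [Finset.mul_sum]
      refine Finset.sum_le_sum fun i _ => ?_
      rw [mul_left_comm]
      refine mul_le_mul_of_nonneg_left ?_ (inv_nonneg.2 (N_nonneg _))
      rw [norm_mul, mul_pow, mul_assoc]
      refine mul_le_mul (pow_le_pow_left₀ (norm_nonneg _) (norm_lamG_le G0 c) 2) ?_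
        (by positivity) (by positivity)
      exact (pow_le_pow_left₀ (norm_nonneg _) (a0 _ i.1 i.2) 2).trans_eq (mul_pow _ _ _))
  rw [b4add2_eq]
  refine key.trans (le_of_eq ?_)
  rw [hV]; ring

/-- Split `T` into `G0 < N r` (`DD_large`) and `N r ≤ G0`, where `‖Ds‖² ≤ 2‖Th‖² + 2‖Th - Ds‖²`
(`DD_theta`, `DD_rem`); `B' = max B₁ (B+2)`. -/
theorem DD_total : ∃ c : ℕ, ∀ (B : ℕ) (δ : ℝ), 0 < δ → δ ≤ 1 / 8 → ∃ (C : ℝ) (B' : ℕ), 0 ≤ C ∧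
    ∀ (E M X' : ℝ), 1 ≤ M → BndB K δ M B X' → ∀ (π : Par K) (X0 D G0 : ℝ),
    π.SH δ E X' X0 D G0 → ∀ g : R K, Prim g → N g ≤ G0 → ∀ T : Finset (R K), (∀ r ∈ T, Prim r) →
      π.DD g (Kg E X0 D g) T (fun π' r k => ‖π'.Ds r k‖ ^ 2) ≤
        C * E ^ 5 * (G0 ^ c + M * N g ^ (-1 - δ / 2) * X0 ^ δ) * π.s ^ B' * X0 := by
  obtain ⟨c, hc⟩ := DD_theta (K := K)
  refine ⟨c, fun B δ hδ hδ1 => ?_⟩
  obtain ⟨C1, B1, hC1, h1⟩ := hc δ hδ hδ1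
  obtain ⟨C2, hC2, h2⟩ := DD_rem (K := K) B hδ hδ1
  obtain ⟨C3, hC3, h3⟩ := DD_large (K := K) B hδ hδ1
  refine ⟨2 * C1 + 2 * C2 + C3, B1 + (B + 2), by positivity,
    fun E M X' hM hB π X0 D G0 hS g hg hgG T hT => ?_⟩
  have hE := hS.hE
  have hX := hS.hX0
  have hG : 1 ≤ G0 := (Real.one_le_exp zero_le_one).trans hS.hG
  have hg0 := Real.rpow_nonneg (N_nonneg g) (-1 - δ / 2)
  have ht := π.one_le_s
  have a1 := h1 E π X' X0 D G0 hS g hg hgG (T.filter fun r => ¬ G0 < N r)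
    (fun r hr => ⟨hT r (Finset.mem_filter.1 hr).1, not_lt.1 (Finset.mem_filter.1 hr).2⟩)
  have a2 := h2 E M X' hM hB π X0 D G0 hS g hg (T.filter fun r => ¬ G0 < N r)
    (fun r hr => hT r (Finset.mem_filter.1 hr).1)
  have a3 := h3 E M X' hM hB π X0 D G0 hS g hg (T.filter fun r => G0 < N r)
    (fun r hr => ⟨hT r (Finset.mem_filter.1 hr).1, (Finset.mem_filter.1 hr).2⟩)
  have b1 : π.DD g (Kg E X0 D g) T (fun π' r k => ‖π'.Ds r k‖ ^ 2) =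
      π.DD g (Kg E X0 D g) (T.filter fun r => G0 < N r) (fun π' r k => ‖π'.Ds r k‖ ^ 2) +
      π.DD g (Kg E X0 D g) (T.filter fun r => ¬ G0 < N r) (fun π' r k => ‖π'.Ds r k‖ ^ 2) :=
    (Finset.sum_filter_add_sum_filter_not _ _ _).symm
  have b2 : π.DD g (Kg E X0 D g) (T.filter fun r => ¬ G0 < N r) (fun π' r k => ‖π'.Ds r k‖ ^ 2) ≤
      2 * π.DD g (Kg E X0 D g) (T.filter fun r => ¬ G0 < N r)
        (fun π' r k => ‖π'.Th r k G0‖ ^ 2) +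
      2 * π.DD g (Kg E X0 D g) (T.filter fun r => ¬ G0 < N r)
        (fun π' r k => ‖π'.Th r k G0 - π'.Ds r k‖ ^ 2) := by
    simp only [b4add2_eq, Finset.mul_sum, ← Finset.sum_add_distrib]
    refine Finset.sum_le_sum fun i _ => ?_
    have hab : ∀ a b : ℂ, ‖b‖ ^ 2 ≤ 2 * ‖a‖ ^ 2 + 2 * ‖a - b‖ ^ 2 := fun a b => by
      have : ‖b‖ ≤ ‖a‖ + ‖a - b‖ := by simpa using norm_sub_le a (a - b)
      nlinarith [norm_nonneg b, sq_nonneg (‖a‖ - ‖a - b‖)]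
    refine (mul_le_mul_of_nonneg_left (hab ((π.dil (g * i.1)).Th i.1 i.2 G0) _)
      (inv_nonneg.2 (N_nonneg _))).trans (le_of_eq ?_)
    ring
  obtain ⟨U, hU⟩ : ∃ U, U = E ^ 5 * (G0 ^ c + M * N g ^ (-1 - δ / 2) * X0 ^ δ) *
    π.s ^ (B1 + (B + 2)) * X0 := ⟨_, rfl⟩
  have p1 : 0 ≤ M * N g ^ (-1 - δ / 2) * X0 ^ δ := by positivity
  have p2 : 0 ≤ G0 ^ c := by positivity
  have c1 : G0 ^ c * E ^ 5 * π.s ^ B1 * X0 ≤ U := by
    rw [hU, mul_comm (G0 ^ c)]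
    gcongr <;> first | omega | linarith
  have c2 : E ^ 5 * (M * N g ^ (-1 - δ / 2) * X0 ^ δ) * π.s ^ (B + 2) * X0 ≤ U := by
    have : π.s ^ (B + 2) ≤ π.s ^ (B1 + (B + 2)) := pow_le_pow_right₀ ht (by omega)
    rw [hU]
    gcongr ?_ * ?_ * ?_ * ?_ <;> linarith
  have d1 := mul_le_mul_of_nonneg_left c1 hC1
  have d2 := mul_le_mul_of_nonneg_left c2 hC2
  have d3 := mul_le_mul_of_nonneg_left c2 hC3
  have e : (2 * C1 + 2 * C2 + C3) * E ^ 5 * (G0 ^ c + M * N g ^ (-1 - δ / 2) * X0 ^ δ) *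
    π.s ^ (B1 + (B + 2)) * X0 = 2 * (C1 * U) + 2 * (C2 * U) + C3 * U := by rw [hU]; ring
  rw [e]
  linarith

end Crest.Agent.R312.FM
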