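import Crest.Agent.R312.B3W
import Crest.Agent.R312.B0Api

/-!
# R312 / B4a : definitions (sub-lead helper34).  Definitions only, namespace `Crest.Agent.R312.FM`.

PORT of `R17/TLS, PStepAux, PStep, Back, FMoment_*` WITHOUT marks (`J = 0`, `L = 1`, `low = len`, no `OK`:
the only hypothesis on a `Par` is `Prim π.H`).  Dictionary (see also `ReadB`):
`O ↦ R K`, `P0 Q n ↦ Prim n`, `IsCoprime n 6 ↦ n ≠ 0`, `ball X ↦ ball K X` (primary elements only),
`Om (N d / D) ↦ wt d 1 D`, `Om (D * N k / N q) ↦ wt k q D⁻¹`, R17's `dv n ↦ nd n`,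
`ν ↦ ν.v` (`ν : Tw K`), `1 + |t| ↦ π.s = 1 + |t| + ν.sz`,
`∑ ν ∈ hchars, ∫ τ, Gm σ τ * f ν τ ↦ IG σ f`.
WARNING: `R K` has infinitely many units: sums such as `∑' n, N n ^ (-2)` converge only over `Prim n`.
Poisson summation needs unit invariant functions, so sequences are first split into classes (`cls`).

A *standard sequence* is `π.al n = 1_{n primary, (n,H)=1} μ(n) ν(n) N(n)^{-1/2-it} gw(log N n - y)`,
`π.F d = ∑' n, π.al n χ_n(d)`, `π.len = e^y`.
**Claim** `Bnd δ M B X`: `H = 1`, `len ≤ X`, `len ≤ D`, `1 ≤ D` ⇒ `Mo π.al D ≤ M s^B D len^δ`.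
`step`: `Bnd M B (X/G) → Bnd (C E^c (G^c + M)) B' X` for `X^δ ≤ E`.

Order of files: Defs, Abs, IG, Sep, Mo, TLS, Gcd1, Gcd2, PS1, PS2, PS3, Back1, Back2, Al, H, Sup, Large,
Cube1, Cube2, Theta, Twist, BackI, BackS, DD1, DD2, Small, Step, Ind, `B4F`; B6Amp, B6Lap, B6Eul, `B6Main`.
-/

set_option autoImplicit false

noncomputable section

open scoped Classical ComplexConjugate NumberField
open MeasureTheory

namespace Crest.Agent.R312.FM

variable {K : Type} [Field K] [NumberField K] [Fld K] [Loc K] [Setup K]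

/-- number of primary divisors -/
def nd (n : R K) : ℝ := ((pdiv n).card : ℝ)

variable (K) in
/-- number of class characters -/
def hc : ℝ := ((hchars K).card : ℝ)

/-- the second moment with the row weight `wt` -/
def Mo (α : R K → ℂ) (D : ℝ) : ℝ := ∑' d : R K, wt d 1 D * ‖∑' n, α n * chi n d‖ ^ 2

/-- the bilinear form with coprime variables -/
def Qform (α : R K → ℂ) (D : ℝ) : ℂ :=
  ∑' d : R K, (wt d 1 D : ℂ) * ∑' m1 : R K, ∑' m2 : R K, if IsCoprime m1 m2 then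
    α m1 * conj (α m2) * chi m1 d * conj (chi m2 d) else 0

/-- the part of a sequence in one class -/
def cls (α : R K → ℂ) (c : G K) (n : R K) : ℂ := if cl n = c then α n else 0

/-- the dual sum after one Poisson step -/
def Tsum (α : R K → ℂ) (ν : Tw K) (r k : R K) (σ τ : ℝ) : ℂ :=
  ∑' m : R K, α (r * m) * (N (r * m) : ℂ) ^ (-(1 / 2 : ℂ) + σ + τ * Complex.I) *
    gt m * ν.v m * chi m (r ^ 2) * conj (chi m k)

/-- the sum after the second (backward) Poisson step -/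
def Bsum (β : R K → ℂ) (ν : Tw K) (g r d : R K) (σ τ : ℝ) : ℂ :=
  ∑' m : R K, β (g * r * m) * (N (r * m) : ℂ) ^ (-(1 / 2 : ℂ) + σ + τ * Complex.I) *
    ν.v m * chi m d

/-- the Mellin coefficients of `mellin_Om` -/
def Gam (σ : ℝ) : Tw K → ℝ → ℂ := if h : 0 < σ then (mellin_Om (K := K) h).choose else 0

/-- the symmetrised majorant of `Gam`: invariant under `ν ↦ ν θ` (`θ ∈ hchars`), `ν ↦ ν⁻¹`, `τ ↦ -τ` -/
def Gm (σ : ℝ) (ν : Tw K) (τ : ℝ) : ℝ :=
  ∑ θ ∈ hchars K, (‖Gam σ (ν * θ) τ‖ + ‖Gam σ (ν * θ)⁻¹ τ‖ + ‖Gam σ (ν * θ) (-τ)‖ +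
    ‖Gam σ (ν * θ)⁻¹ (-τ)‖)

/-- the average over all twists -/
def IG (σ : ℝ) (f : Tw K → ℝ → ℝ) : ℝ := ∑' ν : Tw K, ∫ τ : ℝ, Gm σ ν τ * f ν τ

/-- admissible integrands for `IG` -/
structure Adm (f : Tw K → ℝ → ℝ) : Prop where
  cont : ∀ ν, Continuous (f ν)
  nonneg : ∀ ν τ, 0 ≤ f ν τ
  bdd : ∃ C, ∀ ν τ, f ν τ ≤ C

/-- twisted Dirichlet polynomial with exponent `σ + iτ` -/
def psX (u : R K → ℂ) (ν : Tw K) (σ τ : ℝ) : ℂ :=
  ∑' m, u m * ν.v m * (N m : ℂ) ^ (σ + τ * Complex.I : ℂ)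

/-- the dual coefficient -/
def psW (m k : R K) : ℂ := conj (chi m k) * gt m / (Real.sqrt (N m) : ℂ)

/-- the dual kernel -/
def psK (D : ℝ) (a b k : R K) : ℂ :=
  psW a k * conj (psW b k) * (sg a b * chi b (-1)) * (wt k (a * b) D⁻¹ : ℂ)

/-- the conjugated coefficients of the backward step -/
def bal (β : R K → ℂ) (m : R K) : ℂ := conj (β m * gt m)

/-- the general term of the double series in `back` -/
def Bx (β : R K → ℂ) (σ L U : ℝ) (x : R K × R K) : ℝ :=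
  if Prim x.1 ∧ Prim x.2 then IG σ (fun ν τ => ∑ d ∈ ball K (U / N x.1 ^ 2),
    (L * N d) ^ (-σ) * ‖Bsum β ν x.1 x.2 (d * x.1 ^ 2) σ τ‖ ^ 2) else 0

/-- coefficient in the cube removal -/
def lamG (X : ℝ) (c : R K) : ℂ := ∑ e ∈ (pdiv c).filter (fun e => N e ≤ X), mu e

variable (K) in
/-- parameters of a standard sequence -/
structure Par where
  ν : Tw K
  H : R K
  y : ℝ
  t : ℝ

namespace Par

variable (π : Par K)

/-- the standard sequence -/
def al (n : R K) : ℂ :=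
  if Prim n ∧ IsCoprime n π.H then
    mu n * π.ν.v n * (N n : ℂ) ^ (-(1 / 2 + π.t * Complex.I)) *
      (gw (Real.log (N n) - π.y) : ℂ) else 0

/-- the Möbius block on the row `d` -/
def F (d : R K) : ℂ := ∑' n, π.al n * chi n d

/-- the dual sum -/
def Ds (r k : R K) : ℂ := ∑' m, π.al m * chi m (r ^ 2) * gt m * conj (chi m k)

/-- the length -/
def len : ℝ := Real.exp π.y
/-- the analytic conductor -/
def s : ℝ := 1 + |π.t| + π.ν.sz

/-- change `(y, t)` -/
def mv (y t : ℝ) : Par K := { π with y := y, t := t }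
/-- exclude the primes of `r` -/
def excl (r : R K) : Par K := { π with H := π.H * r }
/-- dilation of the weight by `g` -/
def cut (g : R K) : Par K := { π with y := π.y - Real.log (N g) }
/-- dilation of the sequence by `g` -/
def dil (g : R K) : Par K := { π with y := π.y - Real.log (N g), H := π.H * g }
/-- twist by a character -/
def tw (ν' : Tw K) : Par K := { π with ν := π.ν * ν' }
/-- absorbing the weight `N(n)^{x+iτ}` -/
def shift (x τ : ℝ) : Par K := { π with y := π.y + x / 2, t := π.t - τ }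
/-- dropping the coprimality condition, length shortened by `f` -/
def drop (f : R K) : Par K := { π with H := 1, y := π.y - Real.log (N f) }

/-- coefficient of a dilation -/
def cf (g : R K) : ℂ :=
  if IsCoprime g π.H then mu g * π.ν.v g * (N g : ℂ) ^ (-(1 / 2 + π.t * Complex.I)) else 0

/-- the sequence whose block is `π.F d` -/
def sq (d m : R K) : ℂ := if IsCoprime m π.H then mu m * π.ν.v m * chi m d else 0

/-- the summand on the theta side -/
def Ath (r k n : R K) : ℂ :=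
  if Prim n ∧ IsCoprime n π.H then
    tt n * f1 n * π.ν.v n * chi n (r ^ 2) * conj (chi n k) *
      (N n : ℂ) ^ (-(1 / 2 + π.t * Complex.I)) * (gw (Real.log (N n) - π.y) : ℂ) else 0

def Tc (r k c : R K) : ℂ := ∑' m, π.Ath r k (m * c ^ 3)
def Rc (r k c : R K) : ℂ := ∑' m, if Squarefree m then π.Ath r k (m * c ^ 3) else 0
/-- the theta-complete part of `Ds` -/
def Th (r k : R K) (X : ℝ) : ℂ := ∑ c ∈ ball K X, mu c * π.Tc r k c

/-- weighted sum over `r` and the dual rows of a quantity `Φ` -/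
def DD (g : R K) (L : ℝ) (T : Finset (R K)) (Φ : Par K → R K → R K → ℝ) : ℝ :=
  ∑ r ∈ T, (N r)⁻¹ * ∑ k ∈ ball K L, Φ (π.dil (g * r)) r k

/-- hypotheses of the backward step for the family `π.cut r`, `r ∈ T` -/
structure BH (δ E X' : ℝ) (T : Finset (R K)) (D κ X2 : ℝ) : Prop where
  hH : Prim π.H
  hκ : 1 ≤ κ
  hE : 1 ≤ E
  hX2 : 0 < X2
  hE1 : π.len ^ δ ≤ E
  hE2 : D ^ δ ≤ E ^ 2
  h1 : Real.exp 1 * X2 ≤ X'
  h3 : κ * π.len ≤ D
  hr : ∀ r ∈ T, Prim r
  up : ∀ r ∈ T, π.len / N r ≤ X2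

/-- the setting of the induction step (`π` is the sequence after the first shift, `X0` the original
length) -/
structure SH (δ E X' X0 D G0 : ℝ) : Prop where
  hH : π.H = 1
  up : π.len ≤ X0
  lo : X0 ≤ 2 * π.len
  hX0 : 1 ≤ X0
  hE : 1 ≤ E
  hE1 : X0 ^ δ ≤ E
  hD : D ≤ X0 ^ 2
  h2 : X0 ≤ D
  hG : Real.exp 1 ≤ G0
  h1 : Real.exp 1 * X0 ≤ G0 * X'

end Par

/-- length of the dual sum after the first Poisson step -/
def Kg (E X0 D : ℝ) (g : R K) : ℝ := X0 ^ 2 * E / (N g ^ 2 * D)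

variable (K) in
/-- the induction claim -/
def Bnd (δ M : ℝ) (B : ℕ) (X : ℝ) : Prop :=
  ∀ π : Par K, π.H = 1 → ∀ D : ℝ, π.len ≤ X → π.len ≤ D → 1 ≤ D →
    Mo π.al D ≤ M * π.s ^ B * D * π.len ^ δ

variable (K) in
/-- the claim with a coprimality condition -/
def BndH (δ M : ℝ) (B : ℕ) (X : ℝ) : Prop :=
  ∀ π : Par K, Prim π.H → ∀ D : ℝ, π.len ≤ X → π.len ≤ D → 1 ≤ D →
    Mo π.al D ≤ M * N π.H ^ (δ / 2) * π.s ^ B * D * π.len ^ δ

variable (K) in
/-- the claim for sharp cut-offs -/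
def BndB (δ M : ℝ) (B : ℕ) (X : ℝ) : Prop :=
  ∀ π : Par K, Prim π.H → ∀ D : ℝ, π.len ≤ X → π.len ≤ D → 1 ≤ D →
    ∑ d ∈ ball K D, ‖π.F d‖ ^ 2 ≤ M * N π.H ^ (δ / 2) * π.s ^ B * D * π.len ^ δ

end Crest.Agent.R312.FM
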