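import Crest.Agent.R312.B4aMo

/-!
# R312 / B4aGcd1 : convolution sums, Möbius expansion of coprimality

Definitions and the dictionary R17 → R312 are in `B4aDefs.lean`.  Prefix helper lemmas with `b4agcd1_`.
Copy from `R17/TLS` lines 395–715 (`cf ↦ gcf`, `PP ↦ PQ`).
-/

set_option autoImplicit false

noncomputable section

open scoped Classical ComplexConjugate NumberField
open MeasureTheory

namespace Crest.Agent.R312.FM

variable {K : Type} [Field K] [NumberField K] [Fld K] [Loc K] [Setup K]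

theorem pdiv_one : pdiv (1 : R K) = {1} :=
  pdiv_of_isUnit isUnit_one

theorem b4agcd1_fib {ι : Type*} (S : ι → Finset (R K)) {b c : ι → ℝ} (hb0 : ∀ i, 0 ≤ b i)
    (hc : Summable c) (h : ∀ i, (S i).card * b i ≤ c i) :
    Summable (fun p : ι × R K => if p.2 ∈ S p.1 then b p.1 else 0) := by
  have h0 : ∀ (i : ι) (r : R K), 0 ≤ (if r ∈ S i then b i else 0) := by
    intro i r
    split_ifs
    · exact hb0 i
    · exact le_rfl
  refine (summable_prod_of_nonneg fun p => h0 p.1 p.2).mpr ⟨fun i => ?_, ?_⟩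
  · exact summable_of_ne_finset_zero (s := S i) fun r hr => if_neg hr
  · refine Summable.of_nonneg_of_le (fun i => tsum_nonneg fun r => h0 i r) (fun i => ?_) hc
    rw [tsum_eq_sum (s := S i) fun r hr => if_neg hr]
    refine le_trans (le_of_eq ?_) (h i)
    rw [Finset.sum_congr rfl fun r hr => if_pos hr]
    dsimp only
    rw [Finset.sum_const, nsmul_eq_mul]

/-- as in R17, but the bounds are only required for primary `g` -/
theorem conv_sum {E : Type*} [NormedAddCommGroup E] [CompleteSpace E] (f : R K → R K → E)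
    {b : R K → ℝ} (hb : Summable (fun g => if Prim g then N g * b g else 0))
    (hf : ∀ r g, Prim g → ‖f r g‖ ≤ b g) :
    Summable (fun p : R K × R K => if Prim p.1 ∧ Prim p.2 then f p.1 (p.1 * p.2) else 0) ∧
    Summable (fun g => if Prim g then ∑ r ∈ pdiv g, f r g else 0) ∧
    ∑' p : R K × R K, (if Prim p.1 ∧ Prim p.2 then f p.1 (p.1 * p.2) else 0) =
      ∑' g, if Prim g then ∑ r ∈ pdiv g, f r g else 0 := by
  have hb0 : ∀ q, 0 ≤ if Prim q then b q else 0 := fun q => by
    split_ifs with h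
    · exact le_trans (norm_nonneg _) (hf 0 q h)
    · exact le_rfl
  set F : R K × R K → E := fun x => if Prim x.1 ∧ x.2 ∈ pdiv x.1 then f x.2 x.1 else 0 with hF
  have hFs : Summable F := by
    refine Summable.of_norm_bounded (b4agcd1_fib pdiv hb0 hb fun q =>
      (mul_le_mul_of_nonneg_right (nd_le_N q) (hb0 q)).trans_eq (by rw [mul_ite, mul_zero])) ?_
    rintro ⟨q, r⟩
    simp only [hF]
    by_cases h : Prim q ∧ r ∈ pdiv q
    · rw [if_pos h, if_pos h.2, if_pos h.1]
      exact hf r q h.1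
    · rw [if_neg h, norm_zero]
      by_cases h' : r ∈ pdiv q
      · rw [if_pos h']
        exact hb0 q
      · rw [if_neg h']
  set e : R K × R K → R K × R K := fun p => (if p.1 = 0 then p.2 else p.1 * p.2, p.1) with he
  have hei : Function.Injective e := by
    rintro ⟨r, g⟩ ⟨r', g'⟩ h
    simp only [he, Prod.mk.injEq] at h
    obtain ⟨h1, rfl⟩ := h
    by_cases hr : r = 0
    · simp only [hr, if_true] at h1
      rw [h1]
    · simp only [hr, if_false] at h1
      rw [mul_left_cancel₀ hr h1]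
  have hFe : ∀ p : R K × R K,
      F (e p) = if Prim p.1 ∧ Prim p.2 then f p.1 (p.1 * p.2) else 0 := by
    rintro ⟨r, g⟩
    simp only [hF, he]
    by_cases h : Prim r ∧ Prim g
    · have h1 := h.1.mul h.2
      rw [if_pos h, if_neg h.1.ne_zero,
        if_pos ⟨h1, (mem_pdiv h1.ne_zero).mpr ⟨h.1, dvd_mul_right _ _⟩⟩]
    · rw [if_neg h, if_neg]
      rintro ⟨h1, h2⟩
      have h3 := ((mem_pdiv h1.ne_zero).mp h2).1
      rw [if_neg h3.ne_zero] at h1
      exact h ⟨h3, h1.of_mul_left h3⟩
  have hsupp : Function.support F ⊆ Set.range e := by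
    rintro ⟨q, r⟩ h
    have h1 : Prim q ∧ r ∈ pdiv q := by
      by_contra h2
      exact h (if_neg h2)
    obtain ⟨h2, g, rfl⟩ := (mem_pdiv h1.1.ne_zero).mp h1.2
    exact ⟨(r, g), by simp only [he, if_neg h2.ne_zero]⟩
  have hin : ∀ q, ∑' r, F (q, r) = if Prim q then ∑ r ∈ pdiv q, f r q else 0 := by
    intro q
    rw [tsum_eq_sum (s := pdiv q) fun r hr => if_neg fun h => hr h.2]
    by_cases h : Prim q
    · rw [if_pos h]
      exact Finset.sum_congr rfl fun r hr => if_pos ⟨h, hr⟩
    · rw [if_neg h]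
      exact Finset.sum_eq_zero fun r _ => if_neg fun h' => h h'.1
  refine ⟨(hFs.comp_injective hei).congr hFe, hFs.prod.congr hin, ?_⟩
  rw [← tsum_congr hFe, hei.tsum_eq hsupp, hFs.tsum_prod]
  exact tsum_congr hin

theorem cop_expand {u : R K → ℂ} (hp : ∀ m, u m ≠ 0 → Prim m)
    (hu : Summable (fun m => ‖u m‖ * N m)) :
    ∑' m1, ∑' m2, (if IsCoprime m1 m2 then u m1 * conj (u m2) else 0) =
      ∑' r, if Prim r then mu r * ((‖∑' k, u (r * k)‖ ^ 2 : ℝ) : ℂ) else 0 := by
  have hu0 : Summable (fun m => ‖u m‖) := by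
    refine Summable.of_nonneg_of_le (fun _ => norm_nonneg _) (fun m => ?_) hu
    by_cases h : u m = 0
    · simp [h]
    · exact le_mul_of_one_le_right (norm_nonneg _) (one_le_N (hp m h).ne_zero)
  set C : R K × R K → R K → ℂ := fun p r =>
    if Prim r ∧ r ∣ p.1 ∧ r ∣ p.2 then mu r * (u p.1 * conj (u p.2)) else 0 with hC
  have hCs : Summable (Function.uncurry C) := by
    refine Summable.of_norm_bounded (b4agcd1_fib (fun p : R K × R K => pdiv p.1)
      (b := fun p => ‖u p.1‖ * ‖u p.2‖) (fun p => by positivity)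
      (hu.mul_of_nonneg hu0 (fun m => mul_nonneg (norm_nonneg _) (N_nonneg _))
        (fun _ => norm_nonneg _)) fun p => ?_) ?_
    · have h1 : ((pdiv p.1).card : ℝ) ≤ N p.1 := nd_le_N p.1
      calc _ ≤ N p.1 * (‖u p.1‖ * ‖u p.2‖) := by gcongr
        _ = _ := by ring
    · rintro ⟨⟨m1, m2⟩, r⟩
      simp only [Function.uncurry_apply_pair, hC]
      by_cases h0 : u m1 = 0
      · simp [h0]
      by_cases h : Prim r ∧ r ∣ m1 ∧ r ∣ m2
      · rw [if_pos h, if_pos ((mem_pdiv (hp m1 h0).ne_zero).mpr ⟨h.1, h.2.1⟩), norm_mul, norm_mul,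
          Complex.norm_conj]
        exact mul_le_of_le_one_left (by positivity) (norm_mu_le r)
      · rw [if_neg h, norm_zero]
        split_ifs
        · positivity
        · exact le_rfl
  have h1 : ∀ p : R K × R K,
      ∑' r, C p r = if IsCoprime p.1 p.2 then u p.1 * conj (u p.2) else 0 := by
    rintro ⟨m1, m2⟩
    simp only [hC]
    by_cases h0 : u m1 = 0
    · simp [h0]
    have hm := hp m1 h0
    rw [tsum_eq_sum (s := (pdiv m1).filter (fun e => e ∣ m2)) fun r hr => if_neg fun h => hr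
      (Finset.mem_filter.mpr ⟨(mem_pdiv hm.ne_zero).mpr ⟨h.1, h.2.1⟩, h.2.2⟩)]
    rw [Finset.sum_congr rfl fun r hr => if_pos
      ⟨((mem_pdiv hm.ne_zero).mp (Finset.mem_filter.mp hr).1).1,
        ((mem_pdiv hm.ne_zero).mp (Finset.mem_filter.mp hr).1).2, (Finset.mem_filter.mp hr).2⟩,
      ← Finset.sum_mul, sum_mu_coprime hm]
    by_cases hc : IsCoprime m1 m2
    · rw [if_pos hc, if_pos hc.symm, one_mul]
    · rw [if_neg hc, if_neg (fun h => hc h.symm), zero_mul]
  have h2 : ∀ r, ∑' p : R K × R K, C p r =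
      if Prim r then mu r * ((‖∑' k, u (r * k)‖ ^ 2 : ℝ) : ℂ) else 0 := by
    intro r
    by_cases hr : Prim r
    · have hv : Summable (fun m => ‖if r ∣ m then u m else 0‖) := by
        refine Summable.of_nonneg_of_le (fun _ => norm_nonneg _) (fun m => ?_) hu0
        split_ifs
        · exact le_rfl
        · simp
      rw [if_pos hr, ← tsum_dvd hr.ne_zero u, normSq_tsum hv, ← tsum_mul_left]
      refine tsum_congr fun p => ?_
      simp only [hC]
      by_cases a1 : r ∣ p.1 <;> by_cases a2 : r ∣ p.2 <;> simp [hr, a1, a2]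
    · rw [if_neg hr]
      simp [hC, hr]
  have h3 : Summable (fun p : R K × R K => if IsCoprime p.1 p.2 then u p.1 * conj (u p.2) else 0) :=
    hCs.prod.congr h1
  rw [← h3.tsum_prod, ← tsum_congr h1, ← hCs.tsum_comm]
  exact tsum_congr h2

/-- the Möbius coefficient -/
def gcf (r d : R K) : ℂ := mu r * (if IsCoprime d r then 1 else 0)

theorem norm_gcf_le (r d : R K) : ‖gcf r d‖ ≤ 1 := by
  unfold gcf
  split_ifs
  · rw [mul_one]
    exact norm_mu_le r
  · simp

theorem b4agcd1_filter {g : R K} (hg : Prim g) (d : R K) :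
    ∃ k, Prim k ∧ (pdiv g).filter (fun r => IsCoprime d r) = pdiv k := by
  obtain ⟨n0, n1, j, h1, -, h2, h4, rfl⟩ := hg.exists_split (q := d)
  refine ⟨n1, h2, ?_⟩
  ext r
  rw [Finset.mem_filter, mem_pdiv hg.ne_zero, mem_pdiv h2.ne_zero]
  constructor
  · rintro ⟨⟨a1, a2⟩, a3⟩
    exact ⟨a1, IsCoprime.dvd_of_dvd_mul_left
      ((a3.symm.pow_right (n := j)).of_isCoprime_of_dvd_right h1) a2⟩
  · rintro ⟨a1, a2⟩
    exact ⟨⟨a1, a2.mul_left _⟩, (h4.of_isCoprime_of_dvd_left a2).symm⟩

/-- `Prim.exists_split` with `q = d` (`d ≠ 0`), `sum_mu_pdiv` -/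
theorem sum_gcf {g : R K} (hg : Prim g) (d : R K) :
    ∃ x : ℝ, 0 ≤ x ∧ ∑ r ∈ pdiv g, gcf r d = x := by
  obtain ⟨k, hk, h⟩ := b4agcd1_filter hg d
  have h1 : ∑ r ∈ pdiv g, gcf r d = ∑ r ∈ pdiv k, mu r := by
    rw [← h, Finset.sum_filter]
    refine Finset.sum_congr rfl fun r _ => ?_
    unfold gcf
    split_ifs <;> simp
  rw [h1, sum_mu_pdiv hk]
  split_ifs
  · exact ⟨1, zero_le_one, by simp⟩
  · exact ⟨0, le_rfl, by simp⟩

/-- `∑ |α(g m)|` -/
def sA (α : R K → ℂ) (g : R K) : ℝ := ∑' m, ‖α (g * m)‖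

/-- `|∑ α(g m) χ_m(d)|²` -/
def PQ (α : R K → ℂ) (g d : R K) : ℝ := ‖∑' m, α (g * m) * chi m d‖ ^ 2

theorem b4agcd1_sA_le {α : R K → ℂ} (hs : SuppSq α) (hα : Rapid α) {g : R K} (hg : g ≠ 0)
    (j : ℕ) : sA α g * N g ^ j ≤ mom α j := by
  have hi : Function.Injective (fun m : R K => g * m) := mul_right_injective₀ hg
  have h1 := tsum_comp_le_tsum_of_inj (hα j)
    (fun n => mul_nonneg (norm_nonneg _) (pow_nonneg (N_nonneg _) _)) hi
  refine le_trans ?_ h1
  unfold sA
  rw [← tsum_mul_right]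
  refine Summable.tsum_le_tsum (fun m => ?_) ((rapid_summable (rapid_dil hα hg)).mul_right _)
    ((hα j).comp_injective hi)
  simp only [Function.comp_apply]
  by_cases hm : m = 0
  · simp [hm, supp_zero hs]
  · refine mul_le_mul_of_nonneg_left (pow_le_pow_left₀ (N_nonneg _) ?_ _) (norm_nonneg _)
    rw [N_mul]
    exact le_mul_of_one_le_right (N_nonneg _) (one_le_N hm)

theorem summable_sA {α : R K → ℂ} (hs : SuppSq α) (hα : Rapid α) :
    Summable (fun g => if Prim g then N g * sA α g ^ 2 else 0) := by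
  refine Summable.of_nonneg_of_le (fun g => ?_) (fun g => ?_)
    ((summable_N_rpow (σ := 2) (by norm_num)).mul_left (mom α 0 * mom α 3))
  · split_ifs
    · exact mul_nonneg (N_nonneg _) (by positivity)
    · exact le_rfl
  · split_ifs with hg
    · have h0 := b4agcd1_sA_le hs hα hg.ne_zero 0
      have h3 := b4agcd1_sA_le hs hα hg.ne_zero 3
      have hN := N_pos hg.ne_zero
      rw [pow_zero, mul_one] at h0
      rw [Real.rpow_neg hN.le, Real.rpow_two, ← div_eq_mul_inv, le_div_iff₀ (by positivity)]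
      have h4 : 0 ≤ sA α g := tsum_nonneg fun _ => norm_nonneg _
      calc _ = sA α g * (sA α g * N g ^ 3) := by ring
        _ ≤ _ := mul_le_mul h0 h3 (by positivity) (mom_nonneg α 0)
    · rw [mul_zero]

theorem PQ_le {α : R K → ℂ} (hs : SuppSq α) (hα : Rapid α) (g d : R K) : PQ α g d ≤ sA α g ^ 2 := by
  refine pow_le_pow_left₀ (norm_nonneg _) (tsum_of_norm_bounded (Summable.hasSum ?_) fun m =>
    b4amo_term (α := fun m => α (g * m)) (by simp [supp_zero hs]) m d) 2
  by_cases hg : g = 0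
  · simp [hg, supp_zero hs, summable_zero]
  · exact rapid_summable (rapid_dil hα hg)

theorem inner_eq {α : R K → ℂ} (hs : SuppSq α) (hα : Rapid α) {g : R K} (hg : Prim g) (d : R K) :
    (∑' m1 : R K, ∑' m2 : R K, if IsCoprime m1 m2 then
      α (g * m1) * conj (α (g * m2)) * chi m1 d * conj (chi m2 d) else 0) =
      ∑' r, if Prim r then gcf r d * (PQ α (g * r) d : ℂ) else 0 := by
  have h := cop_expand (u := fun m => α (g * m) * chi m d)
    (fun m hm => (supp_dil hs hg m (left_ne_zero_of_mul hm)).1) ?_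
  · refine Eq.trans ?_ (h.trans ?_)
    · refine tsum_congr fun m1 => tsum_congr fun m2 => ?_
      split_ifs
      · rw [map_mul]
        ring
      · rfl
    · refine tsum_congr fun r => ?_
      by_cases hr : Prim r
      · rw [if_pos hr, if_pos hr, gcf, mul_assoc]
        congr 1
        have e1 : ∑' k, α (g * (r * k)) * chi (r * k) d =
            chi r d * ∑' k, α (g * r * k) * chi k d := by
          rw [← tsum_mul_left]
          refine tsum_congr fun k => ?_
          by_cases hk : k = 0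
          · simp [hk, supp_zero hs]
          · rw [chi_mul hr.ne_zero hk, mul_assoc g]
            ring
        rw [e1, norm_mul, mul_pow, Complex.ofReal_mul]
        unfold PQ
        congr 1
        split_ifs with hc
        · rw [(chi_isChar hr.ne_zero).norm_eq_one hr.ne_zero hc]
          simp
        · rw [((chi_isChar hr.ne_zero).zero_iff d).mpr hc]
          simp
      · rw [if_neg hr, if_neg hr]
  · refine Summable.of_nonneg_of_le (fun m => mul_nonneg (norm_nonneg _) (N_nonneg _))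
      (fun m => ?_) (rapid_dil hα hg.ne_zero 1)
    rw [pow_one]
    exact mul_le_mul_of_nonneg_right
      (b4amo_term (α := fun m => α (g * m)) (by simp [supp_zero hs]) m d) (N_nonneg _)

end Crest.Agent.R312.FM
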