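import Crest.Agent.R312.B4aAl

/-!
# R312 / B4aH : removing a coprimality condition

Definitions and the dictionary R17 → R312 are in `B4aDefs.lean`.  Prefix helper lemmas with `b4ah_`.
Copy from `R17/FMoment_H`.
-/

set_option autoImplicit false

noncomputable section

open scoped Classical ComplexConjugate NumberField
open MeasureTheory

namespace Crest.Agent.R312.FM

variable {K : Type} [Field K] [NumberField K] [Fld K] [Loc K] [Setup K]

theorem b4ah_norm_le (π : Par K) {n : R K} (hn : Prim n) (d : R K) :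
    ‖π.ν.v n * chi n d * (N n : ℂ) ^ (-(1 / 2 + π.t * Complex.I))‖ ≤ N n ^ (-(1 / 2 : ℝ)) := by
  have hN := N_pos hn.ne_zero
  have h1 : ‖chi n d‖ ≤ 1 := norm_chi_le hn.ne_zero d
  have h2 := π.ν.norm_v_le n
  have h3 : (-(1 / 2 + π.t * Complex.I) : ℂ).re = -(1 / 2 : ℝ) := by simp
  rw [norm_mul, norm_mul, Complex.norm_cpow_eq_rpow_re_of_pos hN, h3]
  exact mul_le_of_le_one_left (Real.rpow_nonneg hN.le _) (mul_le_one₀ h2 (norm_nonneg _) h1)

/-- the family summed in `F_expand` -/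
def b4ahG (π : Par K) (d : R K) (x : R K × R K) : ℂ :=
  if Prim x.1 ∧ x.2 ∈ (pdiv x.1).filter (fun f => ∃ j : ℕ, f ∣ π.H ^ j) then
    mu (dv x.1 x.2) * (π.ν.v x.1 * chi x.1 d * (N x.1 : ℂ) ^ (-(1 / 2 + π.t * Complex.I)) *
      (gw (Real.log (N x.1) - π.y) : ℂ)) else 0

theorem b4ah_summable (π : Par K) (d : R K) : Summable (b4ahG π d) := by
  have hz : ∀ n, ∀ f ∉ pdiv n, ‖b4ahG π d (n, f)‖ = 0 := fun n f hf => by
    unfold b4ahG
    rw [if_neg fun hh => hf (Finset.mem_filter.1 hh.2).1, norm_zero]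
  refine Summable.of_norm ((summable_prod_of_nonneg fun _ => norm_nonneg _).2
    ⟨fun n => summable_of_ne_finset_zero (hz n), ?_⟩)
  refine Summable.of_nonneg_of_le (fun n => tsum_nonneg fun _ => norm_nonneg _) (fun n => ?_)
    (summable_gw_rpow (K := K) (1 / 2) π.y)
  rw [tsum_eq_sum (hz n)]
  by_cases hn : Prim n
  · have hN := N_pos hn.ne_zero
    rw [if_pos hn]
    set Z := gw (Real.log (N n) - π.y) with hZ
    have hZ0 : 0 ≤ Z := (gw_pos _).le
    have hp : 0 ≤ N n ^ (-(1 / 2 : ℝ)) := Real.rpow_nonneg hN.le _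
    have h1 : ∀ f ∈ pdiv n, ‖b4ahG π d (n, f)‖ ≤ N n ^ (-(1 / 2 : ℝ)) * Z := fun f _ => by
      unfold b4ahG
      split_ifs
      · rw [norm_mul, norm_mul]
        refine (mul_le_of_le_one_left (by positivity) (norm_mu_le _)).trans ?_
        rw [Complex.norm_real, Real.norm_of_nonneg hZ0]
        exact mul_le_mul_of_nonneg_right (b4ah_norm_le π hn d) hZ0
      · rw [norm_zero]; positivity
    refine (Finset.sum_le_card_nsmul _ _ _ h1).trans ?_
    rw [nsmul_eq_mul, ← mul_assoc]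
    refine mul_le_mul_of_nonneg_right ?_ hZ0
    calc ((pdiv n).card : ℝ) * N n ^ (-(1 / 2 : ℝ)) ≤ N n ^ (1 : ℝ) * N n ^ (-(1 / 2 : ℝ)) := by
          rw [Real.rpow_one]
          exact mul_le_mul_of_nonneg_right (card_pdiv_le_N hn.ne_zero) hp
      _ = N n ^ (1 / 2 : ℝ) := by rw [← Real.rpow_add hN]; norm_num
  · have h1 : ∀ f ∈ pdiv n, ‖b4ahG π d (n, f)‖ = 0 := fun f _ => by
      unfold b4ahG
      rw [if_neg fun hh => hn hh.1, norm_zero]
    rw [Finset.sum_eq_zero h1, if_neg hn]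

theorem b4ah_row {π : Par K} (h : Prim π.H) (d n : R K) :
    HasSum (fun f => b4ahG π d (n, f)) (π.al n * chi n d) := by
  by_cases hn : Prim n
  · have h1 := hasSum_sum_of_ne_finset_zero (L := SummationFilter.unconditional (R K))
      (s := (pdiv n).filter (fun f => ∃ j : ℕ, f ∣ π.H ^ j)) (f := fun f => b4ahG π d (n, f))
      (fun f hf => by unfold b4ahG; rw [if_neg fun hh => hf hh.2])
    convert h1 using 1
    rw [Finset.sum_congr rfl (g := fun f => mu (dv n f) * (π.ν.v n * chi n d *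
      (N n : ℂ) ^ (-(1 / 2 + π.t * Complex.I)) * (gw (Real.log (N n) - π.y) : ℂ)))
      (fun f hf => by unfold b4ahG; rw [if_pos ⟨hn, hf⟩]), ← Finset.sum_mul,
      ← mu_coprime_expand hn h.ne_zero]
    unfold Par.al
    by_cases hc : IsCoprime n π.H
    · rw [if_pos ⟨hn, hc⟩, if_pos hc]; ring
    · rw [if_neg fun hh => hc hh.2, if_neg hc, zero_mul, zero_mul]
  · have h1 : (fun f => b4ahG π d (n, f)) = fun _ => 0 := by
      funext f
      unfold b4ahG
      rw [if_neg fun hh => hn hh.1]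
    have h2 : π.al n = 0 := by
      unfold Par.al
      rw [if_neg fun hh => hn hh.1]
    rw [h1, h2, zero_mul]
    exact hasSum_zero

theorem b4ah_col (π : Par K) (d f : R K) :
    ∑' n, b4ahG π d (n, f) = if Prim f ∧ (∃ j : ℕ, f ∣ π.H ^ j) then
      π.ν.v f * chi f d * (N f : ℂ) ^ (-(1 / 2 + π.t * Complex.I)) * (π.drop f).F d else 0 := by
  split_ifs with hf
  · have h1 : ∀ n, b4ahG π d (n, f) = if Prim n ∧ f ∣ n then mu (dv n f) * (π.ν.v n * chi n d *
        (N n : ℂ) ^ (-(1 / 2 + π.t * Complex.I)) * (gw (Real.log (N n) - π.y) : ℂ)) else 0 := fun n => by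
      unfold b4ahG
      refine if_congr (and_congr_right fun hn => ?_) rfl rfl
      rw [Finset.mem_filter, mem_pdiv hn.ne_zero]
      exact ⟨fun hh => hh.1.2, fun hh => ⟨⟨hf.1, hh⟩, hf.2⟩⟩
    rw [tsum_congr h1, tsum_prim_dvd hf.1, Par.F, ← tsum_mul_left]
    refine tsum_congr fun m => ?_
    unfold Par.al
    by_cases hm : Prim m
    · have hf0 := hf.1.ne_zero
      have hm0 := hm.ne_zero
      rw [if_pos hm, if_pos ⟨hm, isCoprime_one_right⟩, dv_mul_left hf0, Tw.v_mul, N_mul_cpow,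
        chi_mul hf0 hm0, N_mul, Real.log_mul (N_pos hf0).ne' (N_pos hm0).ne']
      simp only [Par.drop]
      rw [show Real.log (N m) - (π.y - Real.log (N f)) = Real.log (N f) + Real.log (N m) - π.y by ring]
      ring
    · rw [if_neg hm, if_neg fun hh => hm hh.1, zero_mul, mul_zero]
  · have h1 : ∀ n, b4ahG π d (n, f) = 0 := fun n => by
      unfold b4ahG
      refine if_neg fun hh => hf ?_
      have h2 := Finset.mem_filter.1 hh.2
      exact ⟨((mem_pdiv hh.1.ne_zero).1 h2.1).1, h2.2⟩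
    simp [h1]

/-- Port of `R17.FM.Par.OK.F_expand` (`mu_coprime_expand`, `n = f m`). -/
theorem Par.F_expand {π : Par K} (h : Prim π.H) (d : R K) :
    HasSum (fun f : R K => if Prim f ∧ (∃ j : ℕ, f ∣ π.H ^ j) then
      π.ν.v f * chi f d * (N f : ℂ) ^ (-(1 / 2 + π.t * Complex.I)) * (π.drop f).F d else 0)
      (π.F d) := by
  have hs := b4ah_summable π d
  have h1 : π.F d = ∑' x, b4ahG π d x := (hs.hasSum.prod_fiberwise (b4ah_row h d)).tsum_eq
  have h2 : HasSum (fun x : R K × R K => b4ahG π d x.swap) (∑' x, b4ahG π d x) :=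
    (Equiv.prodComm (R K) (R K)).hasSum_iff.2 hs.hasSum
  rw [h1]
  refine h2.prod_fiberwise fun f => ?_
  rw [← b4ah_col π d f]
  exact (h2.summable.prod_factor f).hasSum

/-- Port of `R17.FM.toH` (`minkowski`, `sum_smooth_le`, `len_drop`). -/
theorem toH {δ : ℝ} (hδ : 0 < δ) : ∃ C, 1 ≤ C ∧ ∀ (M : ℝ) (B : ℕ) (X : ℝ),
    0 ≤ M → Bnd K δ M B X → BndH K δ (C * M) B X := by
  obtain ⟨C0, hC0⟩ := sum_smooth_le (K := K) (σ := 1 / 2) (ε := δ / 4) (by norm_num) (by positivity)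
  refine ⟨1 + C0 ^ 2, by nlinarith [sq_nonneg C0], fun M B X hM hB π h D h1 h2 h3 => ?_⟩
  have hD : 0 < D := lt_of_lt_of_le one_pos h3
  have hlen := π.len_pos
  have hH := N_pos h.ne_zero
  have hs1 := π.one_le_s
  obtain ⟨𝓔, h𝓔⟩ : ∃ 𝓔, 𝓔 = M * π.s ^ B * D * π.len ^ δ := ⟨_, rfl⟩
  have h𝓔0 : 0 ≤ 𝓔 := by rw [h𝓔]; positivity
  have hOm : ∀ d : R K, 0 ≤ wt d 1 D := fun d => wt_nonneg _ _ _
  refine (Mo_le_of_sum_le (B := 𝓔 * (C0 * N π.H ^ (δ / 4)) ^ 2) fun T => ?_).trans ?_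
  · refine minkowski T (fun d _ => hOm d) (fun d _ => Par.F_expand h d)
      (e := fun f => if Prim f ∧ (∃ j : ℕ, f ∣ π.H ^ j) then N f ^ (-(1 / 2 : ℝ)) else 0)
      (fun f => ?_) h𝓔0 (fun P => ?_) (fun f => ?_)
    · split_ifs
      · exact Real.rpow_nonneg (N_nonneg f) _
      · exact le_rfl
    · rw [← Finset.sum_filter]
      exact hC0 π.H h.ne_zero _ fun f hf => (Finset.mem_filter.1 hf).2
    · by_cases hf : Prim f ∧ (∃ j : ℕ, f ∣ π.H ^ j)
      · simp only [if_pos hf]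
        have hf0 := hf.1.ne_zero
        have hl : (π.drop f).len ≤ π.len := by
          rw [π.len_drop hf0]
          exact div_le_self hlen.le (one_le_N hf0)
        have h4 := hB (π.drop f) rfl D (hl.trans h1) (hl.trans h2) h3
        have h5 : Mo (π.drop f).al D ≤ 𝓔 := by
          refine h4.trans ?_
          have := (π.drop f).len_pos
          rw [h𝓔, show (π.drop f).s = π.s from rfl]
          gcongr
        have h6 := (sum_le_Mo (π.drop f).al_zero (π.drop f).rapid hD T).trans h5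
        calc ∑ d ∈ T, wt d 1 D * ‖π.ν.v f * chi f d *
              (N f : ℂ) ^ (-(1 / 2 + π.t * Complex.I)) * (π.drop f).F d‖ ^ 2
            ≤ ∑ d ∈ T, wt d 1 D * ‖(π.drop f).F d‖ ^ 2 * (N f ^ (-(1 / 2 : ℝ))) ^ 2 := by
              refine Finset.sum_le_sum fun d _ => ?_
              rw [norm_mul, mul_pow, mul_comm (_ ^ 2), ← mul_assoc]
              have := hOm d
              have := b4ah_norm_le π hf.1 d
              gcongr
          _ ≤ 𝓔 * (N f ^ (-(1 / 2 : ℝ))) ^ 2 := by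
              rw [← Finset.sum_mul]
              exact mul_le_mul_of_nonneg_right h6 (sq_nonneg _)
      · simp [if_neg hf]
  · have h4 : (N π.H ^ (δ / 4)) ^ 2 = N π.H ^ (δ / 2) := by
      rw [← Real.rpow_natCast, ← Real.rpow_mul hH.le]
      congr 1
      push_cast
      ring
    have h5 : 0 ≤ 𝓔 * N π.H ^ (δ / 2) := mul_nonneg h𝓔0 (Real.rpow_nonneg hH.le _)
    calc 𝓔 * (C0 * N π.H ^ (δ / 4)) ^ 2 = C0 ^ 2 * (𝓔 * N π.H ^ (δ / 2)) := by
          rw [mul_pow, h4]; ring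
      _ ≤ (1 + C0 ^ 2) * (𝓔 * N π.H ^ (δ / 2)) := by gcongr; linarith
      _ = _ := by rw [h𝓔]; ring

/-- `ball_le_Mo` -/
theorem toB : ∃ C, 1 ≤ C ∧ ∀ (δ M : ℝ) (B : ℕ) (X : ℝ),
    BndH K δ M B X → BndB K δ (C * M) B X := by
  obtain ⟨C, hC1, hC⟩ := ball_le_Mo (K := K)
  refine ⟨C, hC1, fun δ M B X hB π h D h1 h2 h3 => ?_⟩
  refine (hC π.al π.al_zero π.rapid D (lt_of_lt_of_le one_pos h3)).trans ?_
  refine (mul_le_mul_of_nonneg_left (hB π h D h1 h2 h3) (by linarith)).trans (le_of_eq ?_)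
  ring

end Crest.Agent.R312.FM
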