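import Crest.Agent.R312.B4aAbs

/-!
# R312 / B4aIG : the average `IG` over all twists

Definitions and the dictionary R17 → R312 are in `B4aDefs.lean`.  Prefix helper lemmas with `b4aig_`.
-/

set_option autoImplicit false

noncomputable section

open scoped Classical ComplexConjugate NumberField
open MeasureTheory

namespace Crest.Agent.R312.FM

variable {K : Type} [Field K] [NumberField K] [Fld K] [Loc K] [Setup K]

theorem Gam_spec {σ : ℝ} (hσ : 0 < σ) : (∀ ν : Tw K, Continuous (Gam σ ν)) ∧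
    (∀ B : ℕ, (∀ ν : Tw K, Integrable (fun τ : ℝ => ‖Gam σ ν τ‖ * (1 + |τ| + ν.sz) ^ B)) ∧
      Summable (fun ν : Tw K => ∫ τ : ℝ, ‖Gam σ ν τ‖ * (1 + |τ| + ν.sz) ^ B)) ∧
    ∀ d q : R K, d ≠ 0 → q ≠ 0 → ∀ T : ℝ, 0 < T →
      (Om ((d : K) / (q : K)) T : ℂ) = ∑' ν : Tw K, ∫ τ : ℝ, Gam σ ν τ * (ν.v d * conj (ν.v q)) *
        ((N d / (N q * T) : ℝ) : ℂ) ^ (-(σ + τ * Complex.I)) := by
  unfold Gam
  rw [dif_pos hσ]
  exact (mellin_Om (K := K) hσ).choose_spec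

theorem Gm_nonneg (σ : ℝ) (ν : Tw K) (τ : ℝ) : 0 ≤ Gm σ ν τ := by
  exact Finset.sum_nonneg fun θ _ => by positivity

/-- the term `θ = 1` (`one_mem_hchars`) -/
theorem norm_Gam_le (σ : ℝ) (ν : Tw K) (τ : ℝ) : ‖Gam σ ν τ‖ ≤ Gm σ ν τ := by
  refine le_trans ?_ (Finset.single_le_sum (f := fun θ => ‖Gam σ (ν * θ) τ‖ + ‖Gam σ (ν * θ)⁻¹ τ‖ +
    ‖Gam σ (ν * θ) (-τ)‖ + ‖Gam σ (ν * θ)⁻¹ (-τ)‖) (fun θ _ => by positivity) one_mem_hchars)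
  simp only [mul_one]
  have := norm_nonneg (Gam σ ν⁻¹ τ)
  have := norm_nonneg (Gam σ ν (-τ))
  have := norm_nonneg (Gam σ ν⁻¹ (-τ))
  linarith

/-- reindex `θ' ↦ θ θ'` on `hchars` (`Finset.sum_bij'`, `mul_mem_hchars`, `inv_mem_hchars`) -/
theorem Gm_mul (σ : ℝ) (ν : Tw K) {θ : Tw K} (hθ : θ ∈ hchars K) (τ : ℝ) :
    Gm σ (ν * θ) τ = Gm σ ν τ := by
  unfold Gm
  refine Finset.sum_bij' (fun θ' _ => θ * θ') (fun θ' _ => θ⁻¹ * θ')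
    (fun θ' h => mul_mem_hchars hθ h) (fun θ' h => mul_mem_hchars (inv_mem_hchars hθ) h)
    (fun θ' _ => by simp) (fun θ' _ => by simp) fun θ' _ => ?_
  rw [mul_assoc]

/-- reindex `θ ↦ θ⁻¹` -/
theorem Gm_inv (σ : ℝ) (ν : Tw K) (τ : ℝ) : Gm σ ν⁻¹ τ = Gm σ ν τ := by
  unfold Gm
  refine Finset.sum_bij' (fun θ' _ => θ'⁻¹) (fun θ' _ => θ'⁻¹)
    (fun θ' h => inv_mem_hchars h) (fun θ' h => inv_mem_hchars h)
    (fun θ' _ => by simp) (fun θ' _ => by simp) fun θ' _ => ?_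
  have e1 : (ν * θ'⁻¹)⁻¹ = ν⁻¹ * θ' := by rw [mul_inv, inv_inv]
  have e2 : (ν⁻¹ * θ')⁻¹ = ν * θ'⁻¹ := by rw [mul_inv, inv_inv]
  rw [e1, e2]
  ring

theorem Gm_neg (σ : ℝ) (ν : Tw K) (τ : ℝ) : Gm σ ν (-τ) = Gm σ ν τ := by
  unfold Gm
  refine Finset.sum_congr rfl fun θ _ => ?_
  rw [neg_neg]
  ring

theorem continuous_Gm {σ : ℝ} (hσ : 0 < σ) (ν : Tw K) : Continuous (Gm σ ν) := by
  have h := (Gam_spec (K := K) hσ).1
  refine continuous_finsetSum _ fun θ _ => ?_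
  exact (((h _).norm.add (h _).norm).add ((h _).comp continuous_neg).norm).add
    ((h _).comp continuous_neg).norm

/-- the weighted norm of `Gam` -/
def b4aig_w (σ : ℝ) (B : ℕ) (ν : Tw K) (τ : ℝ) : ℝ := ‖Gam σ ν τ‖ * (1 + |τ| + ν.sz) ^ B

theorem b4aig_eq (σ : ℝ) (B : ℕ) (ν : Tw K) (τ : ℝ) : Gm σ ν τ * (1 + |τ| + ν.sz) ^ B =
    ∑ θ ∈ hchars K, (b4aig_w σ B (ν * θ) τ + b4aig_w σ B (ν * θ)⁻¹ τ + b4aig_w σ B (ν * θ) (-τ) +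
      b4aig_w σ B (ν * θ)⁻¹ (-τ)) := by
  unfold Gm
  rw [Finset.sum_mul]
  refine Finset.sum_congr rfl fun θ hθ => ?_
  simp only [b4aig_w, Tw.sz_inv, sz_mul_hchar ν hθ, abs_neg]
  ring

theorem b4aig_int {σ : ℝ} (hσ : 0 < σ) (B : ℕ) (ν : Tw K) : Integrable (b4aig_w σ B ν) :=
  ((Gam_spec hσ).2.1 B).1 ν

theorem b4aig_int4 {σ : ℝ} (hσ : 0 < σ) (B : ℕ) (ν : Tw K) : Integrable fun τ =>
    b4aig_w σ B ν τ + b4aig_w σ B ν⁻¹ τ + b4aig_w σ B ν (-τ) + b4aig_w σ B ν⁻¹ (-τ) :=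
  (((b4aig_int hσ B _).add (b4aig_int hσ B _)).add (b4aig_int hσ B _).comp_neg).add
    (b4aig_int hσ B _).comp_neg

/-- `sz_mul_hchar`, `Tw.sz_inv`, `Integrable.comp_neg` -/
theorem integrable_Gm {σ : ℝ} (hσ : 0 < σ) (B : ℕ) (ν : Tw K) :
    Integrable (fun τ : ℝ => Gm σ ν τ * (1 + |τ| + ν.sz) ^ B) := by
  simp only [b4aig_eq]
  exact integrable_finsetSum _ fun θ _ => b4aig_int4 hσ B _

/-- each of the `4 |hchars|` pieces is a reindexing (`Equiv.mulRight`, `Equiv.inv`) of the summable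
family of `Gam_spec` -/
theorem summable_Gm {σ : ℝ} (hσ : 0 < σ) (B : ℕ) :
    Summable (fun ν : Tw K => ∫ τ : ℝ, Gm σ ν τ * (1 + |τ| + ν.sz) ^ B) := by
  have h : Summable fun ν : Tw K => ∫ τ, b4aig_w σ B ν τ := ((Gam_spec hσ).2.1 B).2
  have h' : Summable fun ν : Tw K => ∫ τ, b4aig_w σ B ν⁻¹ τ :=
    (Equiv.inv (Tw K)).summable_iff.2 h
  have h4 : Summable fun ν : Tw K => ∫ τ, (b4aig_w σ B ν τ + b4aig_w σ B ν⁻¹ τ +
      b4aig_w σ B ν (-τ) + b4aig_w σ B ν⁻¹ (-τ)) := by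
    refine (((h.add h').add h).add h').congr fun ν => ?_
    have i1 := b4aig_int hσ B ν
    have i2 := b4aig_int hσ B ν⁻¹
    have i3 : Integrable fun τ => b4aig_w σ B ν τ + b4aig_w σ B ν⁻¹ τ := i1.add i2
    have i4 : Integrable fun τ => b4aig_w σ B ν τ + b4aig_w σ B ν⁻¹ τ + b4aig_w σ B ν (-τ) :=
      i3.add i1.comp_neg
    rw [integral_add i4 i2.comp_neg, integral_add i3 i1.comp_neg, integral_add i1 i2,
      integral_neg_eq_self (b4aig_w σ B ν), integral_neg_eq_self (b4aig_w σ B ν⁻¹)]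
  refine (summable_sum (s := hchars K) fun θ _ => (Equiv.mulRight θ).summable_iff.2 h4).congr
    fun ν => ?_
  simp only [b4aig_eq]
  rw [integral_finsetSum _ fun θ _ => b4aig_int4 hσ B _]
  rfl

theorem b4aig_int0 {σ : ℝ} (hσ : 0 < σ) (ν : Tw K) : Integrable (Gm σ ν) := by
  simpa using integrable_Gm hσ 0 ν

theorem b4aig_sum0 {σ : ℝ} (hσ : 0 < σ) : Summable (fun ν : Tw K => ∫ τ : ℝ, Gm σ ν τ) := by
  simpa using summable_Gm (K := K) hσ 0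

theorem b4aig_le {σ : ℝ} (hσ : 0 < σ) {f : Tw K → ℝ → ℝ} {b : ℝ} (h0 : ∀ ν τ, 0 ≤ f ν τ)
    (h : ∀ ν τ, f ν τ ≤ b) (ν : Tw K) : ∫ τ, Gm σ ν τ * f ν τ ≤ (∫ τ, Gm σ ν τ) * b := by
  rw [← integral_mul_const]
  exact integral_mono_of_nonneg (.of_forall fun τ => mul_nonneg (Gm_nonneg _ _ _) (h0 _ _))
    ((b4aig_int0 hσ ν).mul_const b)
    (.of_forall fun τ => mul_le_mul_of_nonneg_left (h _ _) (Gm_nonneg _ _ _))

theorem b4aig_nn (σ : ℝ) {f : Tw K → ℝ → ℝ} (h0 : ∀ ν τ, 0 ≤ f ν τ) (ν : Tw K) :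
    0 ≤ ∫ τ, Gm σ ν τ * f ν τ :=
  integral_nonneg fun _ => mul_nonneg (Gm_nonneg _ _ _) (h0 _ _)

theorem Adm.integrable {σ : ℝ} (hσ : 0 < σ) {f : Tw K → ℝ → ℝ} (hf : Adm f) (ν : Tw K) :
    Integrable (fun τ => Gm σ ν τ * f ν τ) := by
  obtain ⟨C, hC⟩ := hf.bdd
  refine ((b4aig_int0 hσ ν).mul_const C).mono'
    ((continuous_Gm hσ ν).mul (hf.cont ν)).aestronglyMeasurable (.of_forall fun τ => ?_)
  rw [Real.norm_of_nonneg (mul_nonneg (Gm_nonneg _ _ _) (hf.nonneg _ _))]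
  exact mul_le_mul_of_nonneg_left (hC _ _) (Gm_nonneg _ _ _)

theorem Adm.summable {σ : ℝ} (hσ : 0 < σ) {f : Tw K → ℝ → ℝ} (hf : Adm f) :
    Summable (fun ν : Tw K => ∫ τ, Gm σ ν τ * f ν τ) := by
  obtain ⟨C, hC⟩ := hf.bdd
  exact Summable.of_nonneg_of_le (b4aig_nn σ hf.nonneg) (b4aig_le hσ hf.nonneg hC)
    ((b4aig_sum0 hσ).mul_right C)

theorem Adm.sum {ι : Type*} (T : Finset ι) {f : ι → Tw K → ℝ → ℝ} (hf : ∀ i ∈ T, Adm (f i)) :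
    Adm (fun ν τ => ∑ i ∈ T, f i ν τ) := by
  choose! C hC using fun i hi => (hf i hi).bdd
  exact ⟨fun ν => continuous_finsetSum _ fun i hi => (hf i hi).cont ν,
    fun ν τ => Finset.sum_nonneg fun i hi => (hf i hi).nonneg ν τ,
    ∑ i ∈ T, C i, fun ν τ => Finset.sum_le_sum fun i hi => hC i hi ν τ⟩

theorem Adm.const_mul {f : Tw K → ℝ → ℝ} (hf : Adm f) {c : ℝ} (hc : 0 ≤ c) :
    Adm (fun ν τ => c * f ν τ) := by
  obtain ⟨C, hC⟩ := hf.bdd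
  exact ⟨fun ν => continuous_const.mul (hf.cont ν), fun ν τ => mul_nonneg hc (hf.nonneg ν τ),
    c * C, fun ν τ => mul_le_mul_of_nonneg_left (hC ν τ) hc⟩

theorem Adm.comp {f : Tw K → ℝ → ℝ} (hf : Adm f) (e : Tw K → Tw K) {φ : ℝ → ℝ}
    (hφ : Continuous φ) : Adm (fun ν τ => f (e ν) (φ τ)) := by
  obtain ⟨C, hC⟩ := hf.bdd
  exact ⟨fun ν => (hf.cont _).comp hφ, fun ν τ => hf.nonneg _ _, C, fun ν τ => hC _ _⟩

theorem IG_nonneg (σ : ℝ) {f : Tw K → ℝ → ℝ} (hf : ∀ ν τ, 0 ≤ f ν τ) : 0 ≤ IG σ f := by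
  exact tsum_nonneg (b4aig_nn σ hf)

/-- no integrability of `f` is needed (`integral_mono_of_nonneg`) -/
theorem IG_mono {σ : ℝ} (hσ : 0 < σ) {f g : Tw K → ℝ → ℝ} (hf : ∀ ν τ, 0 ≤ f ν τ) (hg : Adm g)
    (h : ∀ ν τ, f ν τ ≤ g ν τ) : IG σ f ≤ IG σ g := by
  have h1 : ∀ ν, ∫ τ, Gm σ ν τ * f ν τ ≤ ∫ τ, Gm σ ν τ * g ν τ := fun ν =>
    integral_mono_of_nonneg (.of_forall fun τ => mul_nonneg (Gm_nonneg _ _ _) (hf _ _))
      (hg.integrable hσ ν)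
      (.of_forall fun τ => mul_le_mul_of_nonneg_left (h _ _) (Gm_nonneg _ _ _))
  exact Summable.tsum_le_tsum h1
    (Summable.of_nonneg_of_le (b4aig_nn σ hf) h1 (hg.summable hσ)) (hg.summable hσ)

theorem IG_le_const {σ : ℝ} (hσ : 0 < σ) : ∃ C, 0 ≤ C ∧ ∀ (f : Tw K → ℝ → ℝ) (b : ℝ),
    (∀ ν τ, 0 ≤ f ν τ) → (∀ ν τ, f ν τ ≤ b) → IG σ f ≤ C * b := by
  refine ⟨∑' ν : Tw K, ∫ τ, Gm σ ν τ, tsum_nonneg fun ν => integral_nonneg (Gm_nonneg σ ν),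
    fun f b h0 h => ?_⟩
  rw [← tsum_mul_right]
  exact Summable.tsum_le_tsum (b4aig_le hσ h0 h)
    (Summable.of_nonneg_of_le (b4aig_nn σ h0) (b4aig_le hσ h0 h) ((b4aig_sum0 hσ).mul_right b))
    ((b4aig_sum0 hσ).mul_right b)

theorem IG_sum {σ : ℝ} (hσ : 0 < σ) {ι : Type*} (T : Finset ι) {f : ι → Tw K → ℝ → ℝ}
    (hf : ∀ i ∈ T, Adm (f i)) : IG σ (fun ν τ => ∑ i ∈ T, f i ν τ) = ∑ i ∈ T, IG σ (f i) := by
  unfold IG
  rw [← Summable.tsum_finsetSum fun i hi => (hf i hi).summable hσ]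
  refine tsum_congr fun ν => ?_
  simp only [Finset.mul_sum]
  exact integral_finsetSum _ fun i hi => (hf i hi).integrable hσ ν

theorem IG_const_mul (σ c : ℝ) (f : Tw K → ℝ → ℝ) :
    IG σ (fun ν τ => c * f ν τ) = c * IG σ f := by
  unfold IG
  rw [← tsum_mul_left]
  refine tsum_congr fun ν => ?_
  rw [← integral_const_mul]
  simp only [mul_left_comm c]

/-- `Equiv.tsum_eq (Equiv.mulRight θ)`, `Gm_mul` -/
theorem IG_mul (σ : ℝ) (f : Tw K → ℝ → ℝ) {θ : Tw K} (hθ : θ ∈ hchars K) :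
    IG σ (fun ν τ => f (ν * θ) τ) = IG σ f := by
  unfold IG
  rw [← (Equiv.mulRight θ).tsum_eq fun ν => ∫ τ, Gm σ ν τ * f ν τ]
  simp only [Equiv.coe_mulRight, Gm_mul σ _ hθ]

theorem IG_inv (σ : ℝ) (f : Tw K → ℝ → ℝ) : IG σ (fun ν τ => f ν⁻¹ τ) = IG σ f := by
  unfold IG
  rw [← (Equiv.inv (Tw K)).tsum_eq fun ν => ∫ τ, Gm σ ν τ * f ν τ]
  simp only [Equiv.inv_apply, Gm_inv]

/-- `integral_neg_eq_self` -/
theorem IG_neg (σ : ℝ) (f : Tw K → ℝ → ℝ) : IG σ (fun ν τ => f ν (-τ)) = IG σ f := by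
  unfold IG
  refine tsum_congr fun ν => ?_
  rw [← integral_neg_eq_self fun τ => Gm σ ν τ * f ν τ]
  simp only [Gm_neg]

/-- Port of `R17.FM.pack`.  `sum_tsum_le` (restrict `P` to the `x` with `p x`), `sum_tsum_le` again over
`T ×ˢ P` for the series in `ν`, then for each `ν` `sum_integral_le` over `T ×ˢ P` with
`g τ = Gm σ ν τ * (𝓔 (1+|τ|+sz ν)^B)`; `C = ∑' ν, ∫ Gm σ ν τ (1+|τ|+sz ν)^B` (`Summable.sum_le_tsum`). -/
theorem pack {σ : ℝ} (hσ : 0 < σ) (B : ℕ) : ∃ C, 0 ≤ C ∧ ∀ (ι κ : Type) (T : Finset ι)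
    (p : κ → Prop) [DecidablePred p] (ω : ι → ℝ) (f : ι → κ → Tw K → ℝ → ℝ) (𝓔 : ℝ),
    (∀ i ∈ T, 0 ≤ ω i) → (∀ i x ν τ, 0 ≤ f i x ν τ) → 0 ≤ 𝓔 →
    (∀ (ν : Tw K) (τ : ℝ) (P : Finset κ), (∀ x ∈ P, p x) →
      ∑ i ∈ T, ω i * ∑ x ∈ P, f i x ν τ ≤ 𝓔 * (1 + |τ| + ν.sz) ^ B) →
    ∑ i ∈ T, ω i * ∑' x, (if p x then IG σ (f i x) else 0) ≤ C * 𝓔 := by
  have hG := Gm_nonneg (K := K) σ
  have hw : ∀ (ν : Tw K) (τ : ℝ), 0 ≤ Gm σ ν τ * (1 + |τ| + ν.sz) ^ B := fun ν τ =>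
    mul_nonneg (hG ν τ) (pow_nonneg (add_nonneg (by positivity) ν.sz_nonneg) _)
  refine ⟨∑' ν : Tw K, ∫ τ, Gm σ ν τ * (1 + |τ| + ν.sz) ^ B,
    tsum_nonneg fun ν => integral_nonneg (hw ν), fun ι κ T p _ ω f 𝓔 hω hf hE h => ?_⟩
  simp only [← tsum_mul_left]
  refine sum_tsum_le T (fun i hi x => mul_nonneg (hω i hi) ?_) fun P => ?_
  · split_ifs
    · exact IG_nonneg σ (hf i x)
    · exact le_rfl
  have e : ∑ i ∈ T, ∑ x ∈ P, ω i * (if p x then IG σ (f i x) else 0) =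
      ∑ z ∈ T ×ˢ P.filter p, ∑' ν : Tw K, ∫ τ, ω z.1 * (Gm σ ν τ * f z.1 z.2 ν τ) := by
    rw [Finset.sum_product]
    refine Finset.sum_congr rfl fun i _ => ?_
    rw [Finset.sum_filter]
    refine Finset.sum_congr rfl fun x _ => ?_
    split_ifs
    · simp only [integral_const_mul, tsum_mul_left, IG]
    · exact mul_zero _
  have hz : ∀ z ∈ T ×ˢ P.filter p, ∀ ν τ, 0 ≤ ω z.1 * (Gm σ ν τ * f z.1 z.2 ν τ) :=
    fun z hz ν τ => mul_nonneg (hω _ (Finset.mem_product.1 hz).1) (mul_nonneg (hG ν τ) (hf _ _ _ _))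
  rw [e]
  refine sum_tsum_le _ (fun z hz' ν => integral_nonneg (hz z hz' ν)) fun V => ?_
  rw [Finset.sum_comm]
  refine le_trans ?_ (mul_le_mul_of_nonneg_right
    ((summable_Gm hσ B).sum_le_tsum V fun ν _ => integral_nonneg (hw ν)) hE)
  rw [Finset.sum_mul]
  refine Finset.sum_le_sum fun ν _ => ?_
  rw [← integral_mul_const]
  refine sum_integral_le _ (fun z hz' τ => hz z hz' ν τ) ((integrable_Gm hσ B ν).mul_const _)
    fun τ => ?_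
  have h1 := mul_le_mul_of_nonneg_left
    (h ν τ (P.filter p) fun x hx => (Finset.mem_filter.1 hx).2) (hG ν τ)
  rw [Finset.sum_product]
  simp only [Finset.mul_sum, mul_left_comm (Gm σ ν τ)] at h1
  exact h1.trans_eq (by ring)

end Crest.Agent.R312.FM
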