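import Crest.Agent.R312.B4aAl

/-!
# R312 / B4aLarge : large gcd

Definitions and the dictionary R17 → R312 are in `B4aDefs.lean`.  Prefix helper lemmas with `b4alarge_`.
Copy from `R17/FMoment_Large`.
-/

set_option autoImplicit false

noncomputable section

open scoped Classical ComplexConjugate NumberField
open MeasureTheory

namespace Crest.Agent.R312.FM

variable {K : Type} [Field K] [NumberField K] [Fld K] [Loc K] [Setup K]

theorem b4alarge_dil (π : Par K) {g : R K} (hg : Prim g) (c : G K) {D A : ℝ} (hD : 0 < D)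
    (h : ∀ θ ∈ hchars K, Mo ((π.dil g).tw θ).al D ≤ A) :
    Mo (fun m => cls π.al c (g * m)) D ≤ hc K ^ 2 * N g ^ (-1 : ℝ) * A := by
  rw [cls_dil π.al_zero c hg.ne_zero, Real.rpow_neg_one]
  refine (Mo_cls_le (supp_dil π.suppSq hg) (rapid_dil π.rapid hg.ne_zero) _ hD).trans ?_
  have h1 : ∑ θ ∈ hchars K, Mo (fun n => π.al (g * n) * θ.v n) D ≤ hc K * ((N g)⁻¹ * A) := by
    have := Finset.sum_le_card_nsmul (hchars K) (fun θ => Mo (fun n => π.al (g * n) * θ.v n) D)
      ((N g)⁻¹ * A) fun θ hθ => by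
        have e : (fun n => π.al (g * n) * θ.v n) = fun n => π.cf g * ((π.dil g).tw θ).al n := by
          funext n
          rw [π.al_dil hg, Par.al_tw, mul_assoc]
        rw [e, Mo_const_mul]
        exact mul_le_mul (π.norm_cf_le hg.ne_zero) (h θ hθ) (Mo_nonneg _ _)
          (inv_nonneg.2 (N_nonneg g))
    rwa [nsmul_eq_mul] at this
  refine (mul_le_mul_of_nonneg_left h1 (zero_le_one.trans one_le_hc)).trans (le_of_eq ?_)
  ring

/-- For primary `g`: `cls_dil`, `Mo_cls_le`; `al (g m) θ(m) = cf g · ((π.dil g).tw θ).al m` (`al_dil`,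
`al_tw`), `Mo_const_mul`, `norm_cf_le`, `BndH` for `(π.dil g).tw θ` (`H = 1 * g`, `len_dil`, `s_tw`): the
`g`-th term is `≤ nd g · hc² (N g)⁻¹ M N g^{δ/2} s^B D (len/N g)^δ`.  `nd_le` with `θ = δ/4`,
`sum_N_rpow_le` with `θ = δ/4`, `Real.tsum_le_of_sum_le`. -/
theorem large {δ : ℝ} (hδ : 0 < δ) : ∃ C, 0 ≤ C ∧ ∀ (M : ℝ) (B : ℕ) (X' : ℝ),
    0 ≤ M → BndH K δ M B X' → ∀ π : Par K, π.H = 1 → ∀ (c : G K) (D G0 : ℝ), 0 < G0 →
    π.len ≤ G0 * X' → π.len ≤ D → 1 ≤ D →
    ∑' g : R K, (if Prim g ∧ G0 < N g then nd g * Mo (fun m => cls π.al c (g * m)) D else 0) ≤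
      C * M * π.s ^ B * D * π.len ^ δ := by
  obtain ⟨C1, hC1, h1⟩ := nd_le (K := K) (θ := δ / 4) (by linarith)
  obtain ⟨C2, hC2, h2⟩ := sum_N_rpow_le (K := K) (θ := δ / 4) (by linarith)
  refine ⟨C1 * hc K ^ 2 * C2, by positivity, fun M B X' hM hB π hH c D G0 hG0 hX hD hL => ?_⟩
  have hlen := π.len_pos
  have hs := π.one_le_s
  have hD0 : 0 < D := by linarith
  obtain ⟨A, hA⟩ : ∃ A, A = M * π.s ^ B * D * π.len ^ δ := ⟨_, rfl⟩
  have hA0 : 0 ≤ A := by rw [hA]; positivity
  have key : ∀ g : R K, (if Prim g ∧ G0 < N g then nd g * Mo (fun m => cls π.al c (g * m)) D else 0) ≤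
      C1 * hc K ^ 2 * A * if Prim g then N g ^ (-1 - δ / 4) else 0 := by
    intro g
    by_cases hg : Prim g ∧ G0 < N g
    · rw [if_pos hg, if_pos hg.1]
      have hN := N_pos hg.1.ne_zero
      have hN1 := one_le_N hg.1.ne_zero
      have h3 := b4alarge_dil π hg.1 c hD0 (A := A * N g ^ (-(δ / 2))) (by
        intro θ hθ
        have a1 : ((π.dil g).tw θ).len = π.len / N g := π.len_dil hg.1.ne_zero
        have a5 : π.len / N g ≤ X' := by
          refine (div_le_div_of_nonneg_left hlen.le hG0 hg.2.le).trans ?_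
          rw [div_le_iff₀ hG0, mul_comm]
          exact hX
        have a7 : ((π.dil g).tw θ).H = g := by
          change π.H * g = g
          rw [hH, one_mul]
        have a8 : ((π.dil g).tw θ).s = π.s := (π.dil g).s_tw hθ
        have a6 := hB ((π.dil g).tw θ) (by rw [a7]; exact hg.1) D (a1.trans_le a5)
          (a1.trans_le ((div_le_self hlen.le hN1).trans hD)) hL
        rw [a7, a8, a1] at a6
        refine a6.trans (le_of_eq ?_)
        have a9 : N g ^ (-(δ / 2)) = N g ^ (δ / 2) / N g ^ δ := by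
          rw [← Real.rpow_sub hN]
          congr 1
          ring
        rw [hA, Real.div_rpow hlen.le hN.le, a9]
        ring)
      calc _ ≤ (C1 * N g ^ (δ / 4)) * (hc K ^ 2 * N g ^ (-1 : ℝ) * (A * N g ^ (-(δ / 2)))) :=
            mul_le_mul (h1 g hg.1.ne_zero) h3 (Mo_nonneg _ _) (by positivity)
        _ = _ := by
            have e : N g ^ (-1 - δ / 4) = N g ^ (δ / 4) * N g ^ (-1 : ℝ) * N g ^ (-(δ / 2)) := by
              rw [← Real.rpow_add hN, ← Real.rpow_add hN]
              congr 1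
              ring
            rw [e]
            ring
    · rw [if_neg hg]
      have := Real.rpow_nonneg (N_nonneg g) (-1 - δ / 4)
      split_ifs <;> positivity
  refine Real.tsum_le_of_sum_le (fun g => ?_) fun T => ?_
  · simp only [Pi.zero_apply]
    split_ifs
    · exact mul_nonneg (nd_nonneg g) (Mo_nonneg _ D)
    · exact le_rfl
  · refine (Finset.sum_le_sum fun g _ => key g).trans ?_
    rw [← Finset.mul_sum, ← Finset.sum_filter]
    refine (mul_le_mul_of_nonneg_left (h2 _ fun r hr => (Finset.mem_filter.1 hr).2)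
      (by positivity)).trans (le_of_eq ?_)
    rw [hA]
    ring

end Crest.Agent.R312.FM
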