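import Crest.Agent.R312.B4aAbs

/-!
# R312 / B4aMo : the second moment, splitting into classes

Definitions and the dictionary R17 → R312 are in `B4aDefs.lean`.  Prefix helper lemmas with `b4amo_`.
Copy from `R17/FMoment_Abs`, `R17/TLS` (`summable_moment`, `tsum_Om_le'`).
-/

set_option autoImplicit false

noncomputable section

open scoped Classical ComplexConjugate NumberField
open MeasureTheory

namespace Crest.Agent.R312.FM

variable {K : Type} [Field K] [NumberField K] [Fld K] [Loc K] [Setup K]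

theorem summable_wt1 {D : ℝ} (hD : 0 < D) : Summable (fun d : R K => wt d 1 D) := by
  simpa using summable_wt (K := K) (q := 1) one_ne_zero hD 0

theorem norm_wt (d q : R K) (T : ℝ) : ‖(wt d q T : ℂ)‖ = wt d q T := by
  rw [Complex.norm_real, Real.norm_eq_abs, abs_of_nonneg (wt_nonneg _ _ _)]

/-- `tsum_wt_le` with `q = 1` -/
theorem tsum_wt1_le : ∃ C, 0 ≤ C ∧ ∀ D : ℝ, 0 < D → ∑' d : R K, wt d 1 D ≤ 1 + C * D := by
  obtain ⟨C, hC0, hC⟩ := tsum_wt_le (K := K)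
  refine ⟨C, hC0, fun D hD => ?_⟩
  have h1 := hC 1 one_ne_zero D hD
  rw [N_one, one_mul] at h1
  have h2 := (summable_wt1 (K := K) hD).tsum_eq_add_tsum_ite 0
  rw [h2]
  have h3 : wt (0 : R K) 1 D = 1 := by simp [wt]
  rw [h3]
  have h4 : ∑' d : R K, (if d = 0 then 0 else wt d 1 D) ≤ C * D := h1
  convert add_le_add_right h4 1 using 4

theorem b4amo_term {α : R K → ℂ} (h0 : α 0 = 0) (n d : R K) : ‖α n * chi n d‖ ≤ ‖α n‖ := by
  by_cases hn : n = 0
  · subst hn; simp [h0]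
  · rw [norm_mul]; exact mul_le_of_le_one_right (norm_nonneg _) (norm_chi_le hn d)

theorem b4amo_summable {α : R K → ℂ} (h0 : α 0 = 0) (hα : Rapid α) (d : R K) :
    Summable (fun n => α n * chi n d) :=
  Summable.of_norm_bounded (rapid_summable hα) fun n => b4amo_term h0 n d

theorem summable_Mo {α : R K → ℂ} (h0 : α 0 = 0) (hα : Rapid α) {D : ℝ} (hD : 0 < D) :
    Summable fun d : R K => wt d 1 D * ‖∑' n, α n * chi n d‖ ^ 2 := by
  have hA := rapid_summable hα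
  refine Summable.of_nonneg_of_le (fun d => mul_nonneg (wt_nonneg _ _ _) (by positivity)) (fun d => ?_)
    ((summable_wt1 hD).mul_right ((∑' n, ‖α n‖) ^ 2))
  refine mul_le_mul_of_nonneg_left (pow_le_pow_left₀ (norm_nonneg _) ?_ 2) (wt_nonneg _ _ _)
  exact tsum_of_norm_bounded hA.hasSum fun n => b4amo_term h0 n d

theorem sum_le_Mo {α : R K → ℂ} (h0 : α 0 = 0) (hα : Rapid α) {D : ℝ} (hD : 0 < D)
    (T : Finset (R K)) : ∑ d ∈ T, wt d 1 D * ‖∑' n, α n * chi n d‖ ^ 2 ≤ Mo α D := by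
  exact (summable_Mo h0 hα hD).sum_le_tsum T fun d _ => mul_nonneg (wt_nonneg _ _ _) (sq_nonneg _)

theorem Mo_le_of_sum_le {α : R K → ℂ} {D B : ℝ}
    (h : ∀ T : Finset (R K), ∑ d ∈ T, wt d 1 D * ‖∑' n, α n * chi n d‖ ^ 2 ≤ B) : Mo α D ≤ B := by
  exact Real.tsum_le_of_sum_le (fun d => mul_nonneg (wt_nonneg _ _ _) (sq_nonneg _)) h

theorem Mo_nonneg (α : R K → ℂ) (D : ℝ) : 0 ≤ Mo α D := by
  exact tsum_nonneg fun d => mul_nonneg (wt_nonneg _ _ _) (sq_nonneg _)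

theorem Mo_const_mul (z : ℂ) (α : R K → ℂ) (D : ℝ) :
    Mo (fun n => z * α n) D = ‖z‖ ^ 2 * Mo α D := by
  unfold Mo
  rw [← tsum_mul_left]
  refine tsum_congr fun d => ?_
  have : ∑' n, z * α n * chi n d = z * ∑' n, α n * chi n d := by
    rw [← tsum_mul_left]; exact tsum_congr fun n => by ring
  rw [this, norm_mul, mul_pow]; ring

/-- `Om_ge` -/
theorem ball_le_Mo : ∃ C, 1 ≤ C ∧ ∀ α : R K → ℂ, α 0 = 0 → Rapid α → ∀ D : ℝ, 0 < D →
    ∑ d ∈ ball K D, ‖∑' n, α n * chi n d‖ ^ 2 ≤ C * Mo α D := by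
  obtain ⟨c, hc, h⟩ := Om_ge (K := K)
  refine ⟨max 1 c⁻¹, le_max_left _ _, fun α h0 hα D hD => ?_⟩
  have h1 := sum_le_Mo h0 hα hD (ball K D)
  have h2 : c * ∑ d ∈ ball K D, ‖∑' n, α n * chi n d‖ ^ 2 ≤
      ∑ d ∈ ball K D, wt d 1 D * ‖∑' n, α n * chi n d‖ ^ 2 := by
    rw [Finset.mul_sum]
    refine Finset.sum_le_sum fun d hd => mul_le_mul_of_nonneg_right ?_ (sq_nonneg _)
    obtain ⟨hp, hN⟩ := mem_ball.1 hd
    have := h d hp.ne_zero D hN
    unfold wt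
    rw [if_neg hp.ne_zero, if_pos hp]
    exact this
  have h3 := Mo_nonneg α D
  calc ∑ d ∈ ball K D, ‖∑' n, α n * chi n d‖ ^ 2 = c⁻¹ * (c * ∑ d ∈ ball K D, ‖∑' n, α n * chi n d‖ ^ 2) := by
        rw [← mul_assoc, inv_mul_cancel₀ hc.ne', one_mul]
    _ ≤ c⁻¹ * Mo α D := mul_le_mul_of_nonneg_left (h2.trans h1) (inv_nonneg.2 hc.le)
    _ ≤ _ := mul_le_mul_of_nonneg_right (le_max_right _ _) h3

/-- `norm_sum_sq_le`, `Summable.tsum_finsetSum`, `Mo_le_of_sum_le`, `sum_le_Mo` -/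
theorem Mo_sum_le {ι : Type*} (T : Finset ι) {a : ι → R K → ℂ} (h0 : ∀ i ∈ T, a i 0 = 0)
    (ha : ∀ i ∈ T, Rapid (a i)) {D : ℝ} (hD : 0 < D) :
    Mo (fun n => ∑ i ∈ T, a i n) D ≤ T.card * ∑ i ∈ T, Mo (a i) D := by
  refine Mo_le_of_sum_le fun P => ?_
  have h1 : ∀ d, ∑' n, (∑ i ∈ T, a i n) * chi n d = ∑ i ∈ T, ∑' n, a i n * chi n d := fun d => by
    rw [← Summable.tsum_finsetSum fun i hi => b4amo_summable (h0 i hi) (ha i hi) d]
    exact tsum_congr fun n => Finset.sum_mul _ _ _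
  calc ∑ d ∈ P, wt d 1 D * ‖∑' n, (∑ i ∈ T, a i n) * chi n d‖ ^ 2
      ≤ ∑ d ∈ P, wt d 1 D * (T.card * ∑ i ∈ T, ‖∑' n, a i n * chi n d‖ ^ 2) :=
        Finset.sum_le_sum fun d _ => by
          rw [h1]; exact mul_le_mul_of_nonneg_left (norm_sum_sq_le _ _) (wt_nonneg _ _ _)
    _ = T.card * ∑ i ∈ T, ∑ d ∈ P, wt d 1 D * ‖∑' n, a i n * chi n d‖ ^ 2 := by
        rw [Finset.sum_comm, Finset.mul_sum]
        refine Finset.sum_congr rfl fun d _ => ?_
        rw [← Finset.mul_sum]; ring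
    _ ≤ _ := mul_le_mul_of_nonneg_left
        (Finset.sum_le_sum fun i hi => sum_le_Mo (h0 i hi) (ha i hi) hD P) (Nat.cast_nonneg _)

/-- `α = ∑_c cls α c`, `Mo_sum_le`; `C = |G|²` -/
theorem Mo_le_cls : ∃ C, 1 ≤ C ∧ ∀ α : R K → ℂ, α 0 = 0 → Rapid α → ∀ D B : ℝ, 0 < D →
    (∀ c : G K, Mo (cls α c) D ≤ B) → Mo α D ≤ C * B := by
  have hc : (1 : ℝ) ≤ (Finset.univ : Finset (G K)).card := by
    exact_mod_cast Finset.card_pos.2 ⟨1, Finset.mem_univ _⟩
  refine ⟨((Finset.univ : Finset (G K)).card : ℝ) ^ 2, one_le_pow₀ hc, fun α h0 hα D B hD hB => ?_⟩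
  have e : α = fun n => ∑ c : G K, cls α c n := by
    funext n
    unfold cls
    rw [Finset.sum_ite_eq]; simp
  have h1 := Mo_sum_le (Finset.univ : Finset (G K)) (a := fun c => cls α c)
    (fun c _ => norm_le_zero_iff.1 ((norm_cls_le α c 0).trans (by rw [h0, norm_zero])))
    (fun c _ => rapid_of_le hα (norm_cls_le α c)) hD
  rw [← e] at h1
  refine h1.trans ?_
  have h2 : ∑ c : G K, Mo (cls α c) D ≤ (Finset.univ : Finset (G K)).card * B := by
    have := Finset.sum_le_card_nsmul (Finset.univ : Finset (G K)) (fun c => Mo (cls α c) D) B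
      fun c _ => hB c
    rwa [nsmul_eq_mul] at this
  calc _ ≤ ((Finset.univ : Finset (G K)).card : ℝ) * ((Finset.univ : Finset (G K)).card * B) :=
        mul_le_mul_of_nonneg_left h2 (Nat.cast_nonneg _)
    _ = _ := by ring

/-- `expand_class` for the indicator function of `c`, `Mo_sum_le`, `Mo_const_mul` -/
theorem Mo_cls_le {α : R K → ℂ} (hs : SuppSq α) (hα : Rapid α) (c : G K) {D : ℝ} (hD : 0 < D) :
    Mo (cls α c) D ≤ hc K * ∑ θ ∈ hchars K, Mo (fun n => α n * θ.v n) D := by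
  obtain ⟨w, hw, he⟩ := expand_class (K := K) (φ := fun g => if g = c then 1 else 0)
    (fun g => by
      show ‖if g = c then (1 : ℂ) else 0‖ ≤ 1
      split_ifs
      · exact norm_one.le
      · rw [norm_zero]; exact zero_le_one)
  have hb : ∀ θ : Tw K, ∀ n, ‖α n * θ.v n‖ ≤ ‖α n‖ := fun θ n => by
    rw [norm_mul]; exact mul_le_of_le_one_right (norm_nonneg _) (θ.norm_v_le n)
  have hb2 : ∀ θ : Tw K, ∀ n, ‖w θ * (α n * θ.v n)‖ ≤ ‖α n‖ := fun θ n => by
    rw [norm_mul]; exact (mul_le_of_le_one_left (norm_nonneg _) (hw θ)).trans (hb θ n)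
  have e : cls α c = fun n => ∑ θ ∈ hchars K, w θ * (α n * θ.v n) := by
    funext n
    by_cases hn : α n = 0
    · simp [cls, hn]
    · have h1 := he n (hs n hn).1
      have : ∑ θ ∈ hchars K, w θ * (α n * θ.v n) = α n * ∑ θ ∈ hchars K, w θ * θ.v n := by
        rw [Finset.mul_sum]; exact Finset.sum_congr rfl fun θ _ => by ring
      rw [this, ← h1]
      unfold cls
      split_ifs <;> simp
  have h0 := supp_zero hs
  rw [e]
  refine (Mo_sum_le (hchars K) (a := fun θ n => w θ * (α n * θ.v n)) (fun θ _ => by simp [h0])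
    (fun θ _ => rapid_of_le hα (hb2 θ)) hD).trans ?_
  refine mul_le_mul_of_nonneg_left (Finset.sum_le_sum fun θ _ => ?_) (Nat.cast_nonneg _)
  rw [Mo_const_mul]
  exact mul_le_of_le_one_left (Mo_nonneg _ _) (pow_le_one₀ (norm_nonneg _) (hw θ))

end Crest.Agent.R312.FM
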