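import Crest.Agent.R312.B4aMo

/-!
# R312 / B4aPS1 : the Poisson step for one pair

Definitions and the dictionary R17 → R312 are in `B4aDefs.lean`.  Prefix helper lemmas with `b4aps1_`.
Copy from `R17/PStepAux` lines 1–165 and `R17/PStep` (`ps_Qform`).
-/

set_option autoImplicit false

noncomputable section

open scoped Classical ComplexConjugate NumberField
open MeasureTheory

namespace Crest.Agent.R312.FM

variable {K : Type} [Field K] [NumberField K] [Fld K] [Loc K] [Setup K]

theorem b4aps1_sqrt_ne {m : R K} (h : m ≠ 0) : (Real.sqrt (N m) : ℂ) ≠ 0 :=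
  Complex.ofReal_ne_zero.2 (Real.sqrt_pos.2 (N_pos h)).ne'

theorem norm_psW {m : R K} (hs : Squarefree m) (k : R K) : ‖psW m k‖ ≤ ‖chi m k‖ := by
  have h0 := hs.ne_zero
  rw [psW, norm_div, norm_mul, norm_gt h0 hs, mul_one, Complex.norm_conj, Complex.norm_real,
    Real.norm_eq_abs, abs_of_nonneg (Real.sqrt_nonneg _)]
  exact div_le_self (norm_nonneg _) (Real.one_le_sqrt.2 (one_le_N h0))

theorem ps_gs {a b : R K} (sa : Squarefree a) (sb : Squarefree b) (hab : IsCoprime a b) (k : R K) :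
    gs (a * b) (fun x => chi a x * conj (chi b x)) k =
      (N (a * b) : ℂ) * (psW a k * conj (psW b k) * (sg a b * chi b (-1))) := by
  have a0 := sa.ne_zero
  have b0 := sb.ne_zero
  have e1 := gs_chi_pow a0 sa (j := 1) (by norm_num) k
  simp only [pow_one] at e1
  have e2 : gs a (chi a) 1 = gt a * (Real.sqrt (N a) : ℂ) := by
    rw [gt, div_mul_cancel₀ _ (b4aps1_sqrt_ne a0)]
  have e3 := mul_conj_of_norm ((chi_isChar b0).norm_eq_one b0 hab)
  have e4 : ∀ m : R K, (N m : ℂ) = (Real.sqrt (N m) : ℂ) * (Real.sqrt (N m) : ℂ) := fun m => by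
    rw [← Complex.ofReal_mul, Real.mul_self_sqrt (N_nonneg m)]
  rw [gs_mul a0 b0 hab (chi_isChar a0) (chi_isChar b0).conj, gs_conj_chi b0 sb, e1, e2,
    chi_rec a0 b0, N_mul, Complex.ofReal_mul, e4 a, e4 b,
    mul_assoc (sg a b), e3]
  simp only [psW, map_div₀, map_mul, Complex.conj_conj, Complex.conj_ofReal]
  have := b4aps1_sqrt_ne a0
  have := b4aps1_sqrt_ne b0
  field_simp

theorem norm_psK {a b : R K} (sa : Squarefree a) (sb : Squarefree b) (D : ℝ) (k : R K) :
    ‖psK D a b k‖ ≤ ‖chi a k‖ * ‖chi b k‖ * wt k (a * b) D⁻¹ := by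
  rw [psK, norm_mul, norm_mul, norm_mul, norm_mul, norm_sg, one_mul,
    Complex.norm_conj, norm_wt]
  have := wt_nonneg k (a * b) D⁻¹
  refine mul_le_mul_of_nonneg_right ?_ this
  refine (mul_le_of_le_one_right (by positivity) (norm_chi_le sb.ne_zero _)).trans ?_
  gcongr
  · exact norm_psW sa k
  · exact norm_psW sb k

theorem b4aps1_psK' {a b : R K} (sa : Squarefree a) (sb : Squarefree b) (D : ℝ) (k : R K) :
    ‖psK D a b k‖ ≤ wt k (a * b) D⁻¹ :=
  (norm_psK sa sb D k).trans (mul_le_of_le_one_left (wt_nonneg _ _ _)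
    (mul_le_one₀ (norm_chi_le sa.ne_zero _) (norm_nonneg _) (norm_chi_le sb.ne_zero _)))

theorem b4aps1_wt_le {σ : ℝ} (hσ : 0 < σ) : ∃ C : ℝ, 0 ≤ C ∧ ∀ d q : R K, d ≠ 0 → q ≠ 0 →
    ∀ T : ℝ, 0 < T → wt d q T ≤ if Prim d then C * (N d / (N q * T)) ^ (-σ) else 0 := by
  obtain ⟨C, hC0, hC⟩ := Om_le (K := K) hσ
  refine ⟨C, hC0, fun d q hd hq T hT => ?_⟩
  unfold wt
  rw [if_neg hd]
  split_ifs
  · exact hC d q hd hq T hT
  · exact le_rfl

/-- there is no bound `Om ≤ 1` any more; `Om_le` with `σ = 1` is used for summability -/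
theorem norm_psK_le : ∃ C, 0 ≤ C ∧ ∀ a b k : R K, Squarefree a → Squarefree b → k ≠ 0 →
    ∀ D : ℝ, 0 < D → ‖psK D a b k‖ ≤ C * (D * N k)⁻¹ * (N a * N b) := by
  obtain ⟨C, hC0, hC⟩ := b4aps1_wt_le (K := K) one_pos
  refine ⟨C, hC0, fun a b k sa sb hk D hD => ?_⟩
  have a0 := N_pos sa.ne_zero
  have b0 := N_pos sb.ne_zero
  have k0 := N_pos hk
  refine (b4aps1_psK' sa sb D k).trans ((hC k (a * b) hk (mul_ne_zero sa.ne_zero sb.ne_zero) _
    (inv_pos.2 hD)).trans ?_)
  split_ifs
  · rw [Real.rpow_neg_one, N_mul]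
    refine le_of_eq ?_
    field_simp
  · positivity

/-- Port of `R17.ps_point`.  `poisson_per` (unit invariance: `chi_conj_unit`), `ps_gs`; `wt 0 = 1`;
`wt k = 0` unless `k = 0` or `Prim k`; tail by `Om_le` with `σ = A0` and `tsum_tail_N_rpow`. -/
theorem ps_point {A0 : ℕ} (hA0 : 2 ≤ A0) : ∃ C, 0 ≤ C ∧ ∀ a b : R K, Prim a → Prim b →
    Squarefree a → Squarefree b → IsCoprime a b → cl a = cl b → ∀ D U : ℝ, 0 < D → 0 < U →
    ‖∑' d : R K, (wt d 1 D : ℂ) * (chi a d * conj (chi b d)) -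
        D * ∑ k ∈ ball K U, psK D a b k‖ ≤
      D * (if a = 1 ∧ b = 1 then 1 else 0) +
        C * (D * U) * ((D * U) ^ A0)⁻¹ * (N a ^ A0 * N b ^ A0) := by
  have hA1 : (1 : ℝ) < A0 := by exact_mod_cast hA0
  obtain ⟨C, hC0, hC⟩ := sum_tail_N_rpow (K := K) hA1
  obtain ⟨C1, hC1, hW⟩ := b4aps1_wt_le (K := K) (σ := A0) (by linarith)
  refine ⟨C1 * C, by positivity, fun a b ha hb sa sb hab hcl D U hD hU => ?_⟩
  have a0 := N_pos ha.ne_zero
  have b0 := N_pos hb.ne_zero
  have hq := mul_ne_zero ha.ne_zero hb.ne_zero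
  have e1 := poisson_per hq ((chi_isChar ha.ne_zero).mul_moduli (chi_isChar hb.ne_zero).conj).per
    (fun u x => chi_conj_unit ha.ne_zero hb.ne_zero hcl u x) hD
  have e2 : ∑' d : R K, (wt d 1 D : ℂ) * (chi a d * conj (chi b d)) =
      D * ∑' k, psK D a b k := by
    simp only [mul_comm (wt _ 1 D : ℂ)]
    rw [e1, ← tsum_mul_left, ← tsum_mul_left]
    refine tsum_congr fun k => ?_
    rw [ps_gs sa sb hab, psK, N_mul]
    have : ((N a * N b : ℝ) : ℂ) ≠ 0 := Complex.ofReal_ne_zero.2 (by positivity)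
    rw [Complex.ofReal_div]
    field_simp
  have sK : Summable fun k => ‖psK D a b k‖ := by
    refine Summable.of_nonneg_of_le (fun _ => norm_nonneg _) (fun k => ?_)
      (summable_wt hq (inv_pos.2 hD) 0)
    rw [pow_zero, one_mul]
    exact b4aps1_psK' sa sb D k
  have hb0 : (0 : R K) ∉ ball K U := fun h => (mem_ball.1 h).1.ne_zero rfl
  have e3 : ∑' k, psK D a b k = ∑ k ∈ insert 0 (ball K U), psK D a b k +
      ∑' k, if Prim k ∧ U < N k then psK D a b k else 0 := by
    have s2 : Summable fun k => if Prim k ∧ U < N k then psK D a b k else 0 :=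
      Summable.of_norm_bounded sK fun k => by split_ifs <;> simp
    have e4 : ∑' k, (if k ∈ insert 0 (ball K U) then psK D a b k else 0) =
        ∑ k ∈ insert 0 (ball K U), psK D a b k :=
      (tsum_eq_sum (s := insert 0 (ball K U)) fun k hk => if_neg hk).trans
        (Finset.sum_congr rfl fun k hk => if_pos hk)
    rw [← e4,
      ← Summable.tsum_add (Summable.of_norm_bounded sK fun k => by split_ifs <;> simp) s2]
    refine tsum_congr fun k => ?_
    by_cases h : Prim k ∧ U < N k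
    · rw [if_pos h, if_neg, zero_add]
      rw [Finset.mem_insert, mem_ball]
      rintro (rfl | h')
      · exact h.1.ne_zero rfl
      · linarith [h'.2, h.2]
    · rw [if_neg h, add_zero]
      split_ifs with h'
      · rfl
      · rw [Finset.mem_insert, mem_ball, not_or] at h'
        have hp : ¬ Prim k := fun hp => h'.2 ⟨hp, not_lt.1 fun h2 => h ⟨hp, h2⟩⟩
        rw [psK, wt, if_neg h'.1, if_neg hp, Complex.ofReal_zero, mul_zero]
  rw [e2, e3, Finset.sum_insert hb0, ← mul_sub, add_right_comm, add_sub_cancel_right, norm_mul,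
    Complex.norm_real, Real.norm_eq_abs, abs_of_pos hD]
  have z : ‖psK D a b 0‖ ≤ if a = 1 ∧ b = 1 then 1 else 0 := by
    split_ifs with h
    · exact (b4aps1_psK' sa sb D 0).trans (by rw [wt, if_pos rfl])
    · refine (norm_psK sa sb D 0).trans_eq ?_
      rcases not_and_or.1 h with h | h
      · rw [chi_zero ha h, norm_zero, zero_mul, zero_mul]
      · rw [chi_zero hb h, norm_zero, mul_zero, zero_mul]
  have n3 : ∀ k : R K, 0 ≤ if Prim k ∧ U < N k then N k ^ (-(A0 : ℝ)) else 0 := fun k => by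
    split_ifs
    · exact Real.rpow_nonneg (N_nonneg _) _
    · exact le_rfl
  have s3 : Summable fun k : R K => if Prim k ∧ U < N k then N k ^ (-(A0 : ℝ)) else 0 :=
    summable_of_sum_le n3 (hC U hU)
  have t := tsum_of_norm_bounded (f := fun k => if Prim k ∧ U < N k then psK D a b k else 0)
    (s3.hasSum.mul_left (C1 * ((N a * N b / D) ^ A0))) fun k => by
      split_ifs with h
      · have hk := hU.trans h.2
        refine (b4aps1_psK' sa sb D k).trans ((hW k _ h.1.ne_zero hq _ (inv_pos.2 hD)).trans_eq ?_)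
        rw [if_pos h.1, Real.rpow_neg hk.le, Real.rpow_neg (by rw [N_mul]; positivity),
          Real.rpow_natCast, Real.rpow_natCast, N_mul]
        simp only [div_pow, mul_pow, inv_pow]
        field_simp
      · simp
  have t2 := t.trans (mul_le_mul_of_nonneg_left (Real.tsum_le_of_sum_le n3 (hC U hU))
    (by positivity))
  refine (mul_le_mul_of_nonneg_left (norm_add_le_of_le z t2) hD.le).trans_eq ?_
  rw [Real.rpow_sub hU, Real.rpow_one, Real.rpow_natCast]
  simp only [div_pow, mul_pow]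
  field_simp

theorem b4aps1_coef (α : R K → ℂ) (p : R K × R K) :
    ‖(if IsCoprime p.1 p.2 then α p.1 * conj (α p.2) else 0)‖ ≤ ‖α p.1‖ * ‖α p.2‖ := by
  split_ifs
  · rw [norm_mul, Complex.norm_conj]
  · rw [norm_zero]; positivity

/-- Port of `R17.ps_Qform`. -/
theorem ps_Qform {α : R K → ℂ} (hs : SuppSq α) (hα : Rapid α) {D : ℝ} (hD : 0 < D) :
    HasSum (fun p : R K × R K => (if IsCoprime p.1 p.2 then α p.1 * conj (α p.2) else 0) *
      ∑' d : R K, (wt d 1 D : ℂ) * (chi p.1 d * conj (chi p.2 d))) (Qform α D) := by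
  set f : R K × R K → R K → ℂ := fun p d =>
    (if IsCoprime p.1 p.2 then α p.1 * conj (α p.2) else 0) *
    ((wt d 1 D : ℂ) * (chi p.1 d * conj (chi p.2 d))) with hf
  have s0 : Summable fun m => ‖α m‖ := rapid_summable hα
  have s1 : Summable fun d : R K => wt d 1 D := summable_wt1 hD
  have sf : Summable (Function.uncurry f) := by
    refine Summable.of_norm_bounded ((s0.mul_of_nonneg s0 (fun _ => norm_nonneg _)
      fun _ => norm_nonneg _).mul_of_nonneg s1 (fun _ => by positivity) fun _ => wt_nonneg _ _ _) ?_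
    rintro ⟨⟨a, b⟩, d⟩
    simp only [Function.uncurry, hf]
    by_cases ha : α a = 0
    · simp [ha]
    by_cases hb : α b = 0
    · simp [hb]
    rw [norm_mul, norm_mul, norm_mul, Complex.norm_conj, norm_wt]
    exact mul_le_mul (b4aps1_coef α (a, b)) (mul_le_of_le_one_right (wt_nonneg _ _ _)
      (mul_le_one₀ (norm_chi_le (hs _ ha).1.ne_zero _) (norm_nonneg _)
        (norm_chi_le (hs _ hb).1.ne_zero _))) (mul_nonneg (wt_nonneg _ _ _) (by positivity))
      (by positivity)
  have e1 : Qform α D = ∑' d, ∑' p, f p d := by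
    refine tsum_congr fun d => ?_
    have sd : Summable fun p => f p d := sf.prod_symm.prod_factor d
    rw [sd.tsum_prod, ← tsum_mul_left]
    refine tsum_congr fun a => ?_
    rw [← tsum_mul_left]
    refine tsum_congr fun b => ?_
    simp only [hf]
    split_ifs
    · ring
    · simp
  rw [e1, sf.tsum_comm]
  simpa only [hf, Function.uncurry, tsum_mul_left] using sf.prod.hasSum

end Crest.Agent.R312.FM
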