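import Crest.Agent.R312.B4aIG

/-!
# R312 / B4aSep : separation of variables

Definitions and the dictionary R17 → R312 are in `B4aDefs.lean`.  Prefix helper lemmas with `b4asep_`.
-/

set_option autoImplicit false

noncomputable section

open scoped Classical ComplexConjugate NumberField
open MeasureTheory

namespace Crest.Agent.R312.FM

variable {K : Type} [Field K] [NumberField K] [Fld K] [Loc K] [Setup K]

theorem b4asep_summable {u : R K → ℂ} (h0 : u 0 = 0) (hu : Summable fun m => ‖u m‖ * N m) (ν : Tw K)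
    {s : ℂ} (hs : s.re ≤ 1) : Summable fun m => ‖u m * ν.v m * (N m : ℂ) ^ s‖ := by
  refine Summable.of_nonneg_of_le (fun _ => norm_nonneg _) (fun m => ?_) hu
  by_cases hm : m = 0
  · simp [hm, h0]
  · rw [norm_mul, norm_mul, ν.norm_v hm, mul_one]
    exact mul_le_mul_of_nonneg_left (norm_N_cpow_le hm hs) (norm_nonneg _)

theorem b4asep_conj {x : ℝ} (hx : 0 ≤ x) (σ τ : ℝ) :
    conj ((x : ℂ) ^ (σ + (-τ : ℝ) * Complex.I : ℂ)) = (x : ℂ) ^ (σ + τ * Complex.I : ℂ) := by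
  have := Complex.cpow_conj (x : ℂ) (σ + (-τ : ℝ) * Complex.I : ℂ) (by
    rw [Complex.arg_ofReal_of_nonneg hx]; exact Real.pi_ne_zero.symm)
  rw [Complex.conj_ofReal] at this
  rw [← this]
  simp

/-- Port of `R17.ps_sep` (PStepAux).  For `p = (a, b)` with `a, b ≠ 0` apply `Gam_spec` with `d = k`,
`q = a b`, `T = D⁻¹`: `Om = ∑' ν, ∫ τ, F p ν τ`, where
`F p ν τ = Gam σ ν τ · ν(k) (D N k)^{-(σ+iτ)} · (u a · ν⁻¹(a) N a^{σ+iτ}) · conj (v b · ν(b) N b^{σ-iτ})`,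
`‖F p ν τ‖ ≤ (D N k)^{-σ} Gm σ ν τ · (‖u a‖ N a)(‖v b‖ N b)`.  Exchange `∑' p` with `∑' ν`
(`Summable.tsum_comm`, the double family is dominated by a product) and then, for each `ν`, with the
integral (`integral_tsum_of_summable_integral_norm`).  The inner sum is
`Gam · ν(k) (D N k)^{-s} · psX u ν⁻¹ σ τ · conj (psX v ν σ (-τ))`, of norm at most
`(D N k)^{-σ} Gm σ ν τ (F ν⁻¹ τ + F ν (-τ))/2`; finish with `IG_inv`, `IG_neg`
(`tsum_of_norm_bounded`, `norm_integral_le_of_norm_le`, `Adm.integrable`, `Adm.summable`, `Adm.comp`). -/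
theorem ps_sep {σ : ℝ} (hσ : 0 < σ) (hσ1 : σ ≤ 1) {u v : R K → ℂ} (u0 : u 0 = 0) (v0 : v 0 = 0)
    (hu : Summable fun m => ‖u m‖ * N m) (hv : Summable fun m => ‖v m‖ * N m) {k : R K} (hk : k ≠ 0)
    {D : ℝ} (hD : 0 < D) {F : Tw K → ℝ → ℝ} (hF : Adm F)
    (h1 : ∀ ν τ, ‖psX u ν σ τ‖ ^ 2 ≤ F ν τ) (h2 : ∀ ν τ, ‖psX v ν σ τ‖ ^ 2 ≤ F ν τ) :
    ‖∑' p : R K × R K, u p.1 * conj (v p.2) *
        (Om ((k : K) / ((p.1 * p.2 : R K) : K)) D⁻¹ : ℂ)‖ ≤ (D * N k) ^ (-σ) * IG σ F := by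
  have hx : 0 < D * N k := mul_pos hD (N_pos hk)
  obtain ⟨x, hxd⟩ : ∃ x, x = D * N k := ⟨_, rfl⟩
  rw [← hxd] at hx ⊢
  have hG0 : ∀ ν : Tw K, Integrable (Gm σ ν) := fun ν => by simpa using integrable_Gm hσ 0 ν
  have hG1 : Summable (fun ν : Tw K => ∫ τ : ℝ, Gm σ ν τ) := by
    simpa using summable_Gm (K := K) hσ 0
  set Φ : R K × R K → Tw K → ℝ → ℂ := fun p ν τ =>
    (Gam σ ν τ * ν.v k * (x : ℂ) ^ (-(σ + τ * Complex.I) : ℂ)) *
      ((u p.1 * ν⁻¹.v p.1 * (N p.1 : ℂ) ^ (σ + τ * Complex.I : ℂ)) *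
        conj (v p.2 * ν.v p.2 * (N p.2 : ℂ) ^ (σ + (-τ : ℝ) * Complex.I : ℂ))) with hΦ
  have hK : ∀ (ν : Tw K) (τ : ℝ), ‖Gam σ ν τ * ν.v k * (x : ℂ) ^ (-(σ + τ * Complex.I) : ℂ)‖ ≤
      x ^ (-σ) * Gm σ ν τ := by
    intro ν τ
    rw [norm_mul, norm_mul, ν.norm_v hk, mul_one, Complex.norm_cpow_eq_rpow_re_of_pos hx, mul_comm]
    simp only [Complex.neg_re, Complex.add_re, Complex.ofReal_re, Complex.mul_re, Complex.I_re,
      mul_zero, Complex.ofReal_im, Complex.I_im, zero_mul, sub_zero, add_zero]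
    exact mul_le_mul_of_nonneg_left (norm_Gam_le σ ν τ) (Real.rpow_nonneg hx.le _)
  have re1 : ∀ τ : ℝ, (σ + τ * Complex.I : ℂ).re ≤ 1 := fun τ => by simpa using hσ1
  have hFn : ∀ p ν τ, ‖Φ p ν τ‖ ≤
      x ^ (-σ) * Gm σ ν τ * ((‖u p.1‖ * N p.1) * (‖v p.2‖ * N p.2)) := by
    intro p ν τ
    rw [hΦ, norm_mul]
    refine mul_le_mul (hK ν τ) ?_ (norm_nonneg _) ((norm_nonneg _).trans (hK ν τ))
    by_cases a : p.1 = 0
    · simp [a, u0]
    by_cases b : p.2 = 0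
    · simp [b, v0]
    rw [norm_mul, Complex.norm_conj, norm_mul, norm_mul, norm_mul, norm_mul, Tw.norm_v _ a,
      Tw.norm_v _ b, mul_one, mul_one]
    have := N_nonneg p.1
    gcongr
    · exact norm_N_cpow_le a (re1 τ)
    · exact norm_N_cpow_le b (re1 _)
  have hFc : ∀ p ν, Continuous (Φ p ν) := by
    intro p ν
    by_cases a : p.1 = 0
    · simp only [hΦ, a, u0, zero_mul, mul_zero]; exact continuous_const
    by_cases b : p.2 = 0
    · simp only [hΦ, b, v0, zero_mul, mul_zero, map_zero]; exact continuous_const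
    have c1 := (Gam_spec hσ).1 ν
    have n1 : (x : ℂ) ≠ 0 := Complex.ofReal_ne_zero.2 hx.ne'
    have n2 : (N p.1 : ℂ) ≠ 0 := Complex.ofReal_ne_zero.2 (N_pos a).ne'
    have n3 : (N p.2 : ℂ) ≠ 0 := Complex.ofReal_ne_zero.2 (N_pos b).ne'
    refine ((c1.mul continuous_const).mul (Continuous.const_cpow (by fun_prop) (Or.inl n1))).mul
      ((continuous_const.mul (Continuous.const_cpow (by fun_prop) (Or.inl n2))).mul
        (Complex.continuous_conj.comp (continuous_const.mul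
          (Continuous.const_cpow (by fun_prop) (Or.inl n3)))))
  have hFb : ∀ (p : R K × R K) (ν : Tw K), Integrable fun τ =>
      x ^ (-σ) * Gm σ ν τ * ((‖u p.1‖ * N p.1) * (‖v p.2‖ * N p.2)) :=
    fun p ν => ((hG0 ν).const_mul _).mul_const _
  have hFi : ∀ p ν, Integrable (Φ p ν) := fun p ν =>
    (hFb p ν).mono' (hFc p ν).aestronglyMeasurable (.of_forall (hFn p ν))
  have n0 : ∀ w : R K → ℂ, (0 : R K → ℝ) ≤ fun m => ‖w m‖ * N m := fun w m =>
    mul_nonneg (norm_nonneg _) (N_nonneg _)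
  have hA := hu.mul_of_nonneg hv (n0 u) (n0 v)
  have hI : ∀ p ν, ∫ τ, ‖Φ p ν τ‖ ≤
      ((‖u p.1‖ * N p.1) * (‖v p.2‖ * N p.2)) * (x ^ (-σ) * ∫ τ, Gm σ ν τ) := by
    intro p ν
    rw [mul_comm, ← integral_const_mul, ← integral_mul_const]
    exact integral_mono (hFi p ν).norm (hFb p ν) (hFn p ν)
  have hFs : ∀ ν, Summable fun p => ∫ τ, ‖Φ p ν τ‖ := fun ν =>
    Summable.of_nonneg_of_le (fun _ => integral_nonneg fun _ => norm_nonneg _) (fun p => hI p ν)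
      (hA.mul_right _)
  have hD2 : Summable (Function.uncurry fun (p : R K × R K) (ν : Tw K) => ∫ τ, Φ p ν τ) := by
    refine Summable.of_norm_bounded (hA.mul_of_nonneg (hG1.mul_left (x ^ (-σ)))
      (fun p => mul_nonneg (n0 u _) (n0 v _)) fun ν => mul_nonneg (Real.rpow_nonneg hx.le _)
        (integral_nonneg (Gm_nonneg σ ν))) fun z => ?_
    exact (norm_integral_le_integral_norm _).trans (hI z.1 z.2)
  have e1 : ∀ p : R K × R K, u p.1 * conj (v p.2) *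
      (Om ((k : K) / ((p.1 * p.2 : R K) : K)) D⁻¹ : ℂ) = ∑' ν, ∫ τ, Φ p ν τ := by
    intro p
    by_cases a : p.1 = 0
    · simp [hΦ, a, u0]
    by_cases b : p.2 = 0
    · simp [hΦ, b, v0]
    have a' := N_pos a
    have b' := N_pos b
    rw [(Gam_spec hσ).2.2 k _ hk (mul_ne_zero a b) _ (inv_pos.2 hD), ← tsum_mul_left]
    refine tsum_congr fun ν => ?_
    rw [← integral_const_mul]
    refine integral_congr_ae (.of_forall fun τ => ?_)
    have c2 : (x : ℂ) ^ (-(σ + τ * Complex.I) : ℂ) =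
        ((N k / (N (p.1 * p.2) * D⁻¹) : ℝ) : ℂ) ^ (-(σ + τ * Complex.I) : ℂ) *
          ((N p.1 : ℂ) ^ (-(σ + τ * Complex.I) : ℂ) * (N p.2 : ℂ) ^ (-(σ + τ * Complex.I) : ℂ)) := by
      have k' := N_pos hk
      rw [← Complex.mul_cpow_ofReal_nonneg a'.le b'.le, ← Complex.ofReal_mul, N_mul,
        ← Complex.mul_cpow_ofReal_nonneg (by positivity) (by positivity), ← Complex.ofReal_mul, hxd]
      congr 2
      field_simp
    have n2 : (N p.1 : ℂ) ^ (σ + τ * Complex.I : ℂ) ≠ 0 :=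
      Complex.cpow_ne_zero_iff.2 (Or.inl (Complex.ofReal_ne_zero.2 a'.ne'))
    have n3 : (N p.2 : ℂ) ^ (σ + τ * Complex.I : ℂ) ≠ 0 :=
      Complex.cpow_ne_zero_iff.2 (Or.inl (Complex.ofReal_ne_zero.2 b'.ne'))
    simp only [hΦ]
    rw [map_mul, map_mul, b4asep_conj b'.le, c2, Complex.cpow_neg (N p.1 : ℂ),
      Complex.cpow_neg (N p.2 : ℂ), Tw.inv_v, Tw.v_mul, map_mul]
    field_simp
  have hF1 : Adm fun (ν : Tw K) τ => F ν⁻¹ τ := hF.comp (fun ν => ν⁻¹) continuous_id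
  have hF2 : Adm fun (ν : Tw K) τ => F ν (-τ) := hF.comp (fun ν => ν) continuous_neg
  rw [tsum_congr e1, ← hD2.tsum_comm]
  refine (tsum_of_norm_bounded (((hF1.summable hσ).hasSum.add (hF2.summable hσ).hasSum).mul_left
    (x ^ (-σ) / 2)) fun ν => ?_).trans_eq ?_
  swap
  · change _ * (IG σ _ + IG σ _) = _
    rw [IG_inv, IG_neg]
    ring
  rw [integral_tsum_of_summable_integral_norm (hFi · ν) (hFs ν),
    ← integral_add (hF1.integrable hσ ν) (hF2.integrable hσ ν), ← integral_const_mul]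
  refine norm_integral_le_of_norm_le
    (((hF1.integrable hσ ν).add (hF2.integrable hσ ν)).const_mul _) (.of_forall fun τ => ?_)
  have s2 : Summable fun m =>
      ‖conj (v m * ν.v m * (N m : ℂ) ^ (σ + (-τ : ℝ) * Complex.I : ℂ))‖ := by
    simpa only [Complex.norm_conj] using b4asep_summable v0 hv ν (re1 (-τ))
  simp only [hΦ]
  rw [tsum_mul_left, ← tsum_mul_tsum_of_summable_norm (b4asep_summable u0 hu ν⁻¹ (re1 τ)) s2,
    ← Complex.conj_tsum, norm_mul, norm_mul (∑' _, _), Complex.norm_conj]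
  refine (mul_le_mul_of_nonneg_right (hK ν τ) (by positivity)).trans ?_
  have a1 := h1 ν⁻¹ τ
  have a2 := h2 ν (-τ)
  have a3 : 0 ≤ x ^ (-σ) * Gm σ ν τ := (norm_nonneg _).trans (hK ν τ)
  unfold psX at a1 a2
  refine (mul_le_mul_of_nonneg_left (show _ ≤ (F ν⁻¹ τ + F ν (-τ)) / 2 by
    nlinarith [sq_nonneg (‖∑' m, u m * ν⁻¹.v m * (N m : ℂ) ^ (σ + τ * Complex.I : ℂ)‖ -
      ‖∑' m, v m * ν.v m * (N m : ℂ) ^ (σ + (-τ : ℝ) * Complex.I : ℂ)‖)]) a3).trans_eq (by ring)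

end Crest.Agent.R312.FM
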