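import Crest.Agent.R312.B4aPS1
import Crest.Agent.R312.B4aSep

/-!
# R312 / B4aPS2 : the Poisson step: Mellin separation for fixed `r, k`

Definitions and the dictionary R17 → R312 are in `B4aDefs.lean`.  Prefix helper lemmas with `b4aps2_`.
Copy from `R17/PStep` lines 1–215.
-/

set_option autoImplicit false

noncomputable section

open scoped Classical ComplexConjugate NumberField
open MeasureTheory

namespace Crest.Agent.R312.FM

variable {K : Type} [Field K] [NumberField K] [Fld K] [Loc K] [Setup K]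

theorem b4aps2_supp {α : R K → ℂ} (hs : SuppSq α) {r m : R K} (h : α (r * m) ≠ 0) :
    Squarefree m ∧ m ≠ 0 :=
  ⟨(hs _ h).2.of_mul_right, right_ne_zero_of_mul (hs _ h).1.ne_zero⟩

theorem b4aps2_term {α : R K → ℂ} (hs : SuppSq α) (ν : Tw K) (r k m : R K)
    {s : ℂ} (hs1 : s.re ≤ 1) :
    ‖α (r * m) * (N (r * m) : ℂ) ^ s * gt m * ν.v m * chi m (r ^ 2) * conj (chi m k)‖ ≤
      ‖α (r * m)‖ * N (r * m) ^ 1 := by
  by_cases h : α (r * m) = 0
  · simp [h]
  obtain ⟨h2, h1⟩ := b4aps2_supp hs h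
  simp only [norm_mul, Complex.norm_conj, norm_gt h1 h2, mul_one, pow_one]
  have := N_nonneg (r * m)
  calc _ ≤ ‖α (r * m)‖ * N (r * m) * 1 * 1 * 1 := by
        gcongr
        · exact norm_N_cpow_le (hs _ h).1.ne_zero hs1
        · exact ν.norm_v_le m
        · exact norm_chi_le h1 _
        · exact norm_chi_le h1 _
    _ = _ := by ring

theorem b4aps2_re {σ : ℝ} (hσ1 : σ ≤ 1) (τ : ℝ) :
    (-(1 / 2 : ℂ) + σ + τ * Complex.I).re ≤ 1 := by
  simp; linarith

theorem b4aps2_cont {α : R K → ℂ} (hs : SuppSq α) (hα : Rapid α) (ν : Tw K) {r : R K}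
    (hr : r ≠ 0) (k : R K) {σ : ℝ} (hσ1 : σ ≤ 1) :
    Continuous fun τ => Tsum α ν r k σ τ := by
  refine continuous_tsum (fun m => ?_) ((hα 1).comp_injective (mul_right_injective₀ hr))
    fun m τ => b4aps2_term hs ν r k m (b4aps2_re hσ1 τ)
  by_cases h : α (r * m) = 0
  · simp only [h, zero_mul]; exact continuous_const
  have n1 : (N (r * m) : ℂ) ≠ 0 := Complex.ofReal_ne_zero.2 (N_pos (hs _ h).1.ne_zero).ne'
  exact ((((continuous_const.mul (Continuous.const_cpow (by fun_prop) (Or.inl n1))).mul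
    continuous_const).mul continuous_const).mul continuous_const).mul continuous_const

theorem norm_Tsum_le {α : R K → ℂ} (hs : SuppSq α) (hα : Rapid α) (ν : Tw K) {r : R K}
    (hr : r ≠ 0) (k : R K) {σ : ℝ} (hσ1 : σ ≤ 1) (τ : ℝ) :
    ‖Tsum α ν r k σ τ‖ ^ 2 ≤ mom α 2 ^ 2 * N r ^ (-2 : ℝ) := by
  have hr0 := N_pos hr
  have s3 := (hα 2).comp_injective (mul_right_injective₀ hr)
  have h1 := tsum_of_norm_bounded (s3.hasSum.mul_right (N r)⁻¹) fun m =>
    (b4aps2_term hs ν r k m (b4aps2_re hσ1 τ)).trans (by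
      by_cases h : α (r * m) = 0
      · simp [h]
      have := one_le_N (b4aps2_supp hs h).2
      simp only [Function.comp, N_mul]
      rw [← div_eq_mul_inv, le_div_iff₀ hr0, mul_assoc]
      gcongr
      rw [pow_one, sq]
      gcongr
      exact le_mul_of_one_le_right hr0.le this)
  have h2 := tsum_comp_le_tsum_of_inj (hα 2)
    (fun n => mul_nonneg (norm_nonneg _) (pow_nonneg (N_nonneg _) _)) (mul_right_injective₀ hr)
  have h3 : ‖Tsum α ν r k σ τ‖ ≤ mom α 2 * (N r)⁻¹ :=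
    h1.trans (mul_le_mul_of_nonneg_right h2 (by positivity))
  rw [Real.rpow_neg hr0.le, Real.rpow_two, ← inv_pow, ← mul_pow]
  gcongr

/-- `continuous_tsum` and `norm_Tsum_le` -/
theorem adm_Tsum {α : R K → ℂ} (hs : SuppSq α) (hα : Rapid α) {r : R K} (hr : r ≠ 0) (k : R K)
    {σ : ℝ} (hσ1 : σ ≤ 1) : Adm (fun (ν : Tw K) τ => ‖Tsum α ν r k σ τ‖ ^ 2) := by
  exact ⟨fun ν => (b4aps2_cont hs hα ν hr k hσ1).norm.pow 2, fun _ _ => sq_nonneg _,
    _, fun ν τ => norm_Tsum_le hs hα ν hr k hσ1 τ⟩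

/-- `IG_le_const`, `summable_N_rpow` -/
theorem summable_Tsum {α : R K → ℂ} (hs : SuppSq α) (hα : Rapid α) (k : R K) {σ : ℝ} (hσ : 0 < σ)
    (hσ1 : σ ≤ 1) :
    Summable fun r : R K => if Prim r then IG σ (fun ν τ => ‖Tsum α ν r k σ τ‖ ^ 2) else 0 := by
  obtain ⟨C, hC0, hC⟩ := IG_le_const (K := K) hσ
  refine Summable.of_nonneg_of_le (fun r => ?_) (fun r => ?_)
    ((summable_N_rpow (K := K) (σ := 2) (by norm_num)).mul_left (C * mom α 2 ^ 2))
  · split_ifs
    · exact IG_nonneg σ fun _ _ => sq_nonneg _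
    · exact le_rfl
  · split_ifs with h
    · rw [mul_assoc]
      exact hC _ _ (fun _ _ => sq_nonneg _) fun ν τ => norm_Tsum_le hs hα ν h.ne_zero k hσ1 τ
    · simp

/-- the coefficients after the Möbius step -/
def psU (α : R K → ℂ) (c : G K) (r k m : R K) : ℂ := if r ∣ m then cls α c m * psW m k else 0

theorem b4aps2_norm_psU {α : R K → ℂ} (hs : SuppSq α) (c : G K) (r k m : R K) :
    ‖psU α c r k m‖ ≤ ‖α m‖ := by
  unfold psU
  split_ifs
  · by_cases h : α m = 0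
    · simp [cls, h]
    obtain ⟨h1, h2⟩ := hs _ h
    rw [norm_mul]
    exact (mul_le_of_le_one_right (norm_nonneg _)
      ((norm_psW h2 k).trans (norm_chi_le h1.ne_zero _))).trans (norm_cls_le α c m)
  · simp

/-- Port of `R17.ps_X_le`.  `tsum_dvd`, `gt_mul r m`; the function `m ↦ 1_{cl r · cl m = c} sg r m` is a
class function of `m` bounded by `1` (`φ g = if cl r * g = c then HH (cl r) g else 0`): `expand_class`,
so `psX = conj χ_r(k) gt r ν(r) ∑_θ c_θ Tsum α (ν θ) r k σ τ`; `norm_sum_sq_le`. -/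
theorem ps_X_le {α : R K → ℂ} (hs : SuppSq α) (hα : Rapid α) (c : G K) (ν : Tw K) {r : R K}
    (hr : Prim r) (k : R K) {σ : ℝ} (hσ1 : σ ≤ 1) (τ : ℝ) :
    ‖psX (psU α c r k) ν σ τ‖ ^ 2 ≤ hc K * ∑ θ ∈ hchars K, ‖Tsum α (ν * θ) r k σ τ‖ ^ 2 := by
  have e1 : psX (psU α c r k) ν σ τ = ∑' m, cls α c (r * m) * psW (r * m) k * ν.v (r * m) *
      (N (r * m) : ℂ) ^ (σ + τ * Complex.I : ℂ) := by
    rw [← tsum_dvd hr.ne_zero
      fun m => cls α c m * psW m k * ν.v m * (N m : ℂ) ^ (σ + τ * Complex.I : ℂ)]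
    exact tsum_congr fun m => by unfold psU; split_ifs <;> simp
  have hc0 : 0 ≤ hc K := Nat.cast_nonneg _
  by_cases h : ∀ m, α (r * m) = 0
  · rw [e1]
    simp only [cls, h, ite_self, zero_mul, tsum_zero, norm_zero]
    exact (zero_pow two_ne_zero).trans_le
      (mul_nonneg hc0 (Finset.sum_nonneg fun _ _ => sq_nonneg _))
  obtain ⟨m0, hm0⟩ := not_forall.1 h
  obtain ⟨rs, r0⟩ := b4aps2_supp hs (r := m0) (m := r) (by rwa [mul_comm])
  obtain ⟨a, a1, a2⟩ := expand_class (K := K)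
    (φ := fun g => if cl r * g = c then HH (cl r) g else 0) fun g => by
      split_ifs
      · exact (norm_HH _ _).le
      · simp
  have e2 : psX (psU α c r k) ν σ τ =
      (conj (chi r k) * gt r * ν.v r) * ∑ θ ∈ hchars K, a θ * Tsum α (ν * θ) r k σ τ := by
    have hsum : ∀ θ ∈ hchars K, Summable fun m => a θ * (α (r * m) *
        (N (r * m) : ℂ) ^ (-(1 / 2 : ℂ) + σ + τ * Complex.I) * gt m * (ν * θ).v m *
          chi m (r ^ 2) * conj (chi m k)) := fun θ _ =>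
      (Summable.of_norm_bounded ((hα 1).comp_injective (mul_right_injective₀ r0))
        fun m => b4aps2_term hs (ν * θ) r k m (b4aps2_re hσ1 τ)).mul_left _
    simp only [Tsum, ← tsum_mul_left]
    rw [e1, ← Summable.tsum_finsetSum hsum, ← tsum_mul_left]
    refine tsum_congr fun m => ?_
    by_cases hm : α (r * m) = 0
    · simp [cls, hm]
    obtain ⟨b1, b2⟩ := hs _ hm
    obtain ⟨-, m0⟩ := b4aps2_supp hs hm
    have mp : Prim m := b1.of_mul_left hr
    have n0 := N_pos b1.ne_zero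
    have e3 : (N (r * m) : ℂ) ^ (-(1 / 2 : ℂ) + σ + τ * Complex.I) =
        (N (r * m) : ℂ) ^ (σ + τ * Complex.I : ℂ) / (Real.sqrt (N (r * m)) : ℂ) := by
      rw [add_assoc, Complex.cpow_add _ _ (Complex.ofReal_ne_zero.2 n0.ne'), Complex.cpow_neg,
        Real.sqrt_eq_rpow, Complex.ofReal_cpow n0.le, div_eq_inv_mul (_ ^ _)]
      simp
    have e4 : ∑ θ ∈ hchars K, a θ * (α (r * m) *
        (N (r * m) : ℂ) ^ (-(1 / 2 : ℂ) + σ + τ * Complex.I) * gt m * (ν * θ).v m *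
          chi m (r ^ 2) * conj (chi m k)) = (∑ θ ∈ hchars K, a θ * θ.v m) * (α (r * m) *
        (N (r * m) : ℂ) ^ (-(1 / 2 : ℂ) + σ + τ * Complex.I) * gt m * ν.v m *
          chi m (r ^ 2) * conj (chi m k)) := by
      rw [Finset.sum_mul]
      exact Finset.sum_congr rfl fun θ _ => by rw [Tw.mul_v]; ring
    rw [e4, ← a2 m mp, e3, psW, gt_mul r0 m0 (IsRelPrime.isCoprime
      (IsRelPrime.of_squarefree_mul b2)), ν.v_mul, chi_mul r0 m0, sq r, (chi_isChar m0).mul,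
      map_mul, cls, cl_mul r0 m0, sg]
    split_ifs
    · ring
    · simp
  rw [e2, norm_mul]
  have h1 : ‖conj (chi r k) * gt r * ν.v r‖ ≤ 1 := by
    rw [norm_mul, norm_mul, norm_gt r0 rs, mul_one, Complex.norm_conj]
    exact mul_le_one₀ (norm_chi_le r0 _) (norm_nonneg _) (ν.norm_v_le _)
  refine (pow_le_pow_left₀ (by positivity) (mul_le_of_le_one_left (norm_nonneg _) h1) 2).trans
    ((norm_sum_sq_le _ _).trans (mul_le_mul_of_nonneg_left
      (Finset.sum_le_sum fun θ _ => ?_) hc0))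
  rw [norm_mul]
  exact pow_le_pow_left₀ (by positivity) (mul_le_of_le_one_left (norm_nonneg _) (a1 θ)) 2

/-- On the support `sg a b · χ_b(-1) = HH c c · HH c (cl (-1))` is a constant of norm `1` (`chi_unit`);
`wt k q T = Om (k/q) T` for primary `k`; `ps_sep` with `u = v = psU α c r k` and
`F ν τ = hc ∑_θ ‖Tsum α (ν θ) …‖²`; `IG_const_mul`, `IG_sum`, `IG_mul`. -/
theorem ps_mid_r {α : R K → ℂ} (hs : SuppSq α) (hα : Rapid α) (c : G K) {σ : ℝ} (hσ : 0 < σ)
    (hσ1 : σ ≤ 1) {D : ℝ} (hD : 0 < D) {k r : R K} (hk : Prim k) (hr : Prim r) :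
    ‖∑' p : R K × R K, if r ∣ p.1 ∧ r ∣ p.2 then
        cls α c p.1 * conj (cls α c p.2) * psK D p.1 p.2 k else 0‖ ≤
      hc K ^ 2 * ((D * N k) ^ (-σ) * IG σ (fun ν τ => ‖Tsum α ν r k σ τ‖ ^ 2)) := by
  have hc0 : 0 ≤ hc K := Nat.cast_nonneg _
  have e1 : ∀ p : R K × R K,
      (if r ∣ p.1 ∧ r ∣ p.2 then cls α c p.1 * conj (cls α c p.2) * psK D p.1 p.2 k else 0) =
      (HH c c * HH c (cl (-1 : R K))) * (psU α c r k p.1 * conj (psU α c r k p.2) *
        (Om ((k : K) / ((p.1 * p.2 : R K) : K)) D⁻¹ : ℂ)) := by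
    intro p
    unfold psU
    by_cases a' : r ∣ p.1
    swap
    · simp [a']
    by_cases b' : r ∣ p.2
    swap
    · simp [b']
    by_cases a : cl p.1 = c
    swap
    · simp [cls, a]
    by_cases b : cl p.2 = c
    swap
    · simp [cls, b]
    by_cases b0 : α p.2 = 0
    · simp [cls, b0]
    rw [if_pos ⟨a', b'⟩, if_pos a', if_pos b', psK, chi_unit (hs _ b0).1.ne_zero isUnit_one.neg,
      sg, sg, a, b, wt, if_neg hk.ne_zero, if_pos hk, map_mul]
    ring
  have su : Summable fun m => ‖psU α c r k m‖ * N m :=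
    Summable.of_nonneg_of_le (fun m => mul_nonneg (norm_nonneg _) (N_nonneg _))
      (fun m => by
        rw [pow_one]; exact mul_le_mul_of_nonneg_right (b4aps2_norm_psU hs c r k m) (N_nonneg _))
      (hα 1)
  have u0 : psU α c r k 0 = 0 := by simp [psU, cls, supp_zero hs]
  have hA := adm_Tsum hs hα hr.ne_zero k hσ1
  have hA' : ∀ θ ∈ hchars K, Adm (fun (ν : Tw K) τ => ‖Tsum α (ν * θ) r k σ τ‖ ^ 2) :=
    fun θ _ => hA.comp (fun ν => ν * θ) continuous_id
  rw [tsum_congr e1, tsum_mul_left, norm_mul, norm_mul, norm_HH, norm_HH, one_mul, one_mul]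
  refine (ps_sep hσ hσ1 u0 u0 su su hk.ne_zero hD ((Adm.sum _ hA').const_mul hc0)
    (fun ν τ => ps_X_le hs hα c ν hr k hσ1 τ) fun ν τ => ps_X_le hs hα c ν hr k hσ1 τ).trans_eq ?_
  rw [IG_const_mul, IG_sum hσ _ hA', Finset.sum_congr rfl fun θ hθ =>
    IG_mul σ (fun ν τ => ‖Tsum α ν r k σ τ‖ ^ 2) hθ, Finset.sum_const, nsmul_eq_mul]
  unfold hc
  ring

end Crest.Agent.R312.FM
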