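import Crest.Agent.R312.B4aDD2

/-!
# R312 / B4aSmall : small gcd

Definitions and the dictionary R17 → R312 are in `B4aDefs.lean`.  Prefix helper lemmas with `b4asmall_`.
Copy from `R17/FMoment_Small`.
-/

set_option autoImplicit false

noncomputable section

open scoped Classical ComplexConjugate NumberField
open MeasureTheory

namespace Crest.Agent.R312.FM

variable {K : Type} [Field K] [NumberField K] [Fld K] [Loc K] [Setup K]

/-- the tail term -/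
theorem b4asmall_tail {X E D n C m δ : ℝ} {A : ℕ} (hX : 1 ≤ X) (hE : 1 ≤ E) (hD : 0 < D)
    (hn : 0 < n) (hm : 0 ≤ m) (h1 : n ^ A * m ≤ C * X ^ ((A : ℝ) + 1 / 2))
    (h2 : E * (E ^ A)⁻¹ * X ^ 5 ≤ X ^ δ) :
    (D * (X ^ 2 * E / (n ^ 2 * D))) * ((D * (X ^ 2 * E / (n ^ 2 * D))) ^ A)⁻¹ * m ^ 2 ≤
      C ^ 2 * X ^ δ * n ^ (-1 - 1 : ℝ) := by
  have hX0 : 0 < X := by linarith
  have e1 : D * (X ^ 2 * E / (n ^ 2 * D)) = X ^ 2 * E / n ^ 2 := by field_simp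
  have e2 : n ^ (-1 - 1 : ℝ) = (n ^ 2)⁻¹ := by
    rw [show (-1 - 1 : ℝ) = -((2 : ℕ) : ℝ) by norm_num, Real.rpow_neg hn.le, Real.rpow_natCast]
  have h3 : (n ^ A * m) ^ 2 ≤ (C * X ^ ((A : ℝ) + 1 / 2)) ^ 2 :=
    pow_le_pow_left₀ (by positivity) h1 2
  have e3 : (X ^ ((A : ℝ) + 1 / 2)) ^ 2 = (X ^ A) ^ 2 * X := by
    rw [← Real.rpow_natCast, ← Real.rpow_mul hX0.le, ← pow_mul, ← pow_succ, ← Real.rpow_natCast]
    congr 1; push_cast; ring
  rw [mul_pow C, e3] at h3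
  have e4 : X ^ 2 * E / n ^ 2 * ((X ^ 2 * E / n ^ 2) ^ A)⁻¹ * m ^ 2 =
      (X ^ 2 * E * (E ^ A)⁻¹ * ((X ^ A) ^ 2)⁻¹ * (n ^ 2)⁻¹) * (n ^ A * m) ^ 2 := by
    rw [div_pow, mul_pow, mul_pow, ← pow_mul, ← pow_mul, ← pow_mul, ← pow_mul, mul_comm A 2]
    field_simp
  rw [e1, e2, e4]
  refine le_trans (mul_le_mul_of_nonneg_left h3 (by positivity)) ?_
  have e5 : (X ^ 2 * E * (E ^ A)⁻¹ * ((X ^ A) ^ 2)⁻¹ * (n ^ 2)⁻¹) * (C ^ 2 * ((X ^ A) ^ 2 * X)) =
      C ^ 2 * (E * (E ^ A)⁻¹ * X ^ 3) * (n ^ 2)⁻¹ := by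
    field_simp
  rw [e5]
  refine mul_le_mul_of_nonneg_right (mul_le_mul_of_nonneg_left (le_trans ?_ h2) (by positivity))
    (by positivity)
  exact mul_le_mul_of_nonneg_left (pow_le_pow_right₀ hX (by norm_num)) (by positivity)


theorem b4asmall_low {X E δ : ℝ} (h0 : 0 < X) (hE : X ^ δ ≤ E) : X ^ (2 * δ - 1) * X ≤ E ^ 2 := by
  have h4 : X ^ (2 * δ - 1) * X = (X ^ δ) ^ 2 := by
    rw [← Real.rpow_add_one h0.ne', ← Real.rpow_natCast, ← Real.rpow_mul h0.le]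
    congr 1; push_cast; ring
  rw [h4]
  exact pow_le_pow_left₀ (Real.rpow_nonneg h0.le _) hE 2

/-- the main term for one `g` -/
theorem b4asmall_main (π : Par K) {δ D U : ℝ} (hδ : 0 < δ)
    (hδ1 : δ ≤ 1 / 8) (hD : 1 ≤ D) {g : R K} (hg : Prim g) (ν : Tw K) (τ : ℝ)
    (P : Finset (R K)) (hP : ∀ r ∈ P, Prim r) :
    ∑ r ∈ P, ∑ k ∈ ball K U, (D * N k) ^ (-δ) * ‖Tsum (fun m => π.al (g * m)) ν r k δ τ‖ ^ 2 ≤
      2 * π.len ^ (2 * δ - 1) *
        ((π.shift (δ - 1 / 2) τ).tw ν).DD g U P (fun π' r k => ‖π'.Ds r k‖ ^ 2) := by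
  unfold Par.DD
  rw [Finset.mul_sum]
  refine Finset.sum_le_sum fun r hr => ?_
  rw [Finset.mul_sum, Finset.mul_sum]
  refine Finset.sum_le_sum fun k hk => ?_
  have h1 : (D * N k) ^ (-δ) ≤ 1 := by
    have := one_le_N (mem_ball.1 hk).1.ne_zero
    exact Real.rpow_le_one_of_one_le_of_nonpos (by nlinarith) (by linarith)
  refine le_trans (mul_le_of_le_one_left (by positivity) h1) ?_
  exact π.Tsum_le hg (hP r hr) ν hδ.le (by linarith) τ k

/-- Port of `R17.FM.small` (`low = len`, so `len^{2δ-1} len ≤ E²`; `mom_dil`, `card_ball_le`;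
`pack` with `𝓔 = C Y s^{B'}` and `s_shift_tw`). -/
theorem small : ∃ c : ℕ, ∀ (B : ℕ) (δ : ℝ), 0 < δ → δ ≤ 1 / 8 → ∃ (C : ℝ) (B' : ℕ), 0 ≤ C ∧
    ∀ (E M X' : ℝ), 1 ≤ E → 1 ≤ M → BndB K δ M B X' → ∀ π : Par K, π.H = 1 →
    ∀ (a : R K → G K) (D G0 : ℝ), π.len ^ δ ≤ E → D ≤ π.len ^ 2 → π.len ≤ D → 1 ≤ D →
    Real.exp 1 ≤ G0 → Real.exp 1 * π.len ≤ G0 * X' →
      ∑ g ∈ ball K G0, ‖Qform (cls (fun m => π.al (g * m)) (a g)) D‖ ≤
        C * E ^ 7 * (G0 ^ c + M) * π.s ^ B' * D * π.len ^ δ := by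
  obtain ⟨c, hc⟩ := DD_total (K := K)
  refine ⟨c + 1, fun B δ hδ hδ1 => ?_⟩
  obtain ⟨A0, hA0, hA⟩ := exists_A0 hδ hδ1
  obtain ⟨C1, hC1, hC0⟩ := pstep (K := K) hδ (by linarith) hA0
  obtain ⟨C2, hC2, hl2⟩ := l2_al (K := K) hδ
  obtain ⟨C3, hC3, hmom⟩ := mom_al (K := K) A0
  obtain ⟨C5, B', hC5, hDD⟩ := hc B δ hδ hδ1
  obtain ⟨C4, hC4, hpack⟩ := pack (K := K) hδ B'
  obtain ⟨C6, hC6, hs6⟩ := sum_N_rpow_le (K := K) (θ := δ / 2) (by linarith)
  obtain ⟨C7, hC7, hs7⟩ := sum_N_rpow_le (K := K) (θ := 1) one_pos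
  obtain ⟨C8, hC8, hball⟩ := card_ball_le (K := K)
  refine ⟨C1 * C2 + C1 * (C4 * (2 * C5 * (C8 + C6))) + C1 * (C3 ^ 2 * C7), B', by positivity, ?_⟩
  intro E M X' hE hM hB π hH a D G0 hE1 hDX h2 hD hG h1
  have hlen := π.len_pos
  have hX : 1 ≤ π.len := by
    by_contra hlt
    push Not at hlt
    nlinarith
  have hG1 : 1 ≤ G0 := (Real.one_le_exp zero_le_one).trans hG
  have hXδ : 1 ≤ π.len ^ δ := Real.one_le_rpow hX hδ.le
  set T := ball K G0 with hT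
  have hTP : ∀ g ∈ T, Prim g := fun g hg => (mem_ball.1 hg).1
  have hTN : ∀ g ∈ T, N g ≤ G0 := fun g hg => (mem_ball.1 hg).2
  set f : R K → R K → Tw K → ℝ → ℝ := fun g r ν τ =>
    ∑ k ∈ ball K (Kg E π.len D g), (D * N k) ^ (-δ) *
      ‖Tsum (fun m => π.al (g * m)) ν r k δ τ‖ ^ 2 with hf
  have hf0 : ∀ g r ν τ, 0 ≤ f g r ν τ := fun g r ν τ =>
    Finset.sum_nonneg fun k _ => mul_nonneg
      (Real.rpow_nonneg (mul_nonneg (by linarith) (N_nonneg _)) _) (by positivity)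
  set Y : ℝ := E ^ 7 * (G0 ^ (c + 1) + M) * π.len ^ δ with hY
  have hGc : 1 ≤ G0 ^ (c + 1) := one_le_pow₀ hG1
  have hY1 : π.len ^ δ ≤ Y := by
    have : 1 ≤ E ^ 7 * (G0 ^ (c + 1) + M) :=
      one_le_mul_of_one_le_of_one_le (one_le_pow₀ hE) (by linarith)
    rw [hY]
    exact le_mul_of_one_le_left (by linarith) this
  have hs1 := π.one_le_s
  set u : ℝ := π.s ^ B' with hu
  have hu1 : 1 ≤ u := one_le_pow₀ hs1
  have hY0 : 0 ≤ Y := by linarith
  -- the main term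
  have hmain := hpack (R K) (R K) T Prim (fun _ => 1) f (2 * C5 * (C8 + C6) * Y * u)
    (fun _ _ => zero_le_one) hf0 (by positivity) (by
      intro ν τ P hP
      have hx : δ - 1 / 2 ≤ 0 := by linarith
      have hSH : ((π.shift (δ - 1 / 2) τ).tw ν).SH δ E X' π.len D G0 :=
        ⟨hH, π.len_shift_le hx τ, π.le_len_shift (x := δ - 1 / 2) (by linarith) τ, hX, hE, hE1, hDX,
          h2, hG, h1⟩
      have hlow := b4asmall_low hlen hE1
      have hl0 : 0 ≤ π.len ^ (2 * δ - 1) := Real.rpow_nonneg hlen.le _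
      have hs2 := ((π.shift (δ - 1 / 2) τ).tw ν).one_le_s
      set v : ℝ := ((π.shift (δ - 1 / 2) τ).tw ν).s ^ B' with hv
      have hv0 : 0 ≤ v := by positivity
      have hvu : v ≤ u * (1 + |τ| + ν.sz) ^ B' := by
        rw [hv, hu, ← mul_pow]
        exact pow_le_pow_left₀ (by linarith) (π.s_shift_tw _ τ ν) _
      have hg1 : ∀ g ∈ T, 1 * ∑ r ∈ P, f g r ν τ ≤
          2 * C5 * E ^ 7 * v * (G0 ^ c + M * π.len ^ δ * N g ^ (-1 - δ / 2)) := by
        intro g hg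
        rw [one_mul]
        refine le_trans (b4asmall_main π hδ hδ1 hD (hTP g hg) ν τ P hP) ?_
        have h8 := hDD E M X' hM hB _ π.len D G0 hSH g (hTP g hg) (hTN g hg) P hP
        refine le_trans (mul_le_mul_of_nonneg_left h8 (by positivity)) ?_
        have h9 : 0 ≤ N g ^ (-1 - δ / 2) := Real.rpow_nonneg (N_nonneg _) _
        have h10 : 0 ≤ 2 * C5 * E ^ 5 * v * (G0 ^ c + M * π.len ^ δ * N g ^ (-1 - δ / 2)) := by
          positivity
        have h11 := mul_le_mul_of_nonneg_left hlow h10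
        refine le_trans (le_of_eq ?_) (le_trans h11 (le_of_eq ?_)) <;> ring
      refine le_trans (Finset.sum_le_sum hg1) ?_
      rw [← Finset.mul_sum, Finset.sum_add_distrib, ← Finset.mul_sum, Finset.sum_const,
        nsmul_eq_mul]
      have hcard : (T.card : ℝ) ≤ C8 * G0 := hball G0 (by linarith)
      have h12 : (T.card : ℝ) * G0 ^ c ≤ C8 * G0 ^ (c + 1) * π.len ^ δ := by
        have h13 : (T.card : ℝ) * G0 ^ c ≤ C8 * G0 ^ (c + 1) := by
          rw [pow_succ]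
          have := mul_le_mul_of_nonneg_right hcard (show 0 ≤ G0 ^ c by positivity)
          linarith
        exact h13.trans (le_mul_of_one_le_right (by positivity) hXδ)
      have h14 : M * π.len ^ δ * ∑ g ∈ T, N g ^ (-1 - δ / 2) ≤ M * π.len ^ δ * C6 :=
        mul_le_mul_of_nonneg_left (hs6 T hTP) (by positivity)
      have h15 : (T.card : ℝ) * G0 ^ c + M * π.len ^ δ * ∑ g ∈ T, N g ^ (-1 - δ / 2) ≤
          (C8 + C6) * ((G0 ^ (c + 1) + M) * π.len ^ δ) := by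
        have h16 : 0 ≤ C6 * G0 ^ (c + 1) * π.len ^ δ := by positivity
        have h17 : 0 ≤ C8 * (M * π.len ^ δ) := by positivity
        nlinarith
      refine le_trans (mul_le_mul_of_nonneg_left h15 (by positivity)) ?_
      have h18 := mul_le_mul_of_nonneg_left hvu (show 0 ≤ 2 * C5 * (C8 + C6) * Y by positivity)
      refine le_trans (le_of_eq ?_) (h18.trans (le_of_eq ?_))
      · rw [hY]; ring
      · ring)
  simp only [one_mul] at hmain
  -- one `g`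
  have hone : ∀ g ∈ T, ‖Qform (cls (fun m => π.al (g * m)) (a g)) D‖ ≤
      C1 * D * ‖π.al g‖ ^ 2 + C1 * D * (∑' r : R K, if Prim r then IG δ (f g r) else 0) +
      C1 * (C3 ^ 2 * π.len ^ δ * N g ^ (-1 - 1 : ℝ)) := by
    intro g hg
    have hg0 := (hTP g hg).ne_zero
    have hNg := N_pos hg0
    have hU : 0 < Kg E π.len D g := by unfold Kg; positivity
    have h5 := hC0 _ (a g) (supp_dil π.suppSq (hTP g hg)) (rapid_dil π.rapid hg0) D _
      (by linarith) hU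
    refine le_trans h5 ?_
    have h6 := b4asmall_tail (δ := δ) hX hE (by linarith : 0 < D) hNg (mom_nonneg _ _)
      ((mom_dil π.rapid hg0 A0).trans (hmom π)) (hA _ _ hlen hE hE1)
    refine add_le_add (add_le_add ?_ le_rfl) ?_
    · rw [mul_one]
    · rw [mul_assoc, mul_assoc, ← mul_assoc (D * _)]
      exact mul_le_mul_of_nonneg_left h6 hC1
  refine le_trans (Finset.sum_le_sum hone) ?_
  rw [Finset.sum_add_distrib, Finset.sum_add_distrib, ← Finset.mul_sum, ← Finset.mul_sum,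
    ← Finset.mul_sum, ← Finset.mul_sum]
  have h5 : ∑ g ∈ T, ‖π.al g‖ ^ 2 ≤ C2 * π.len ^ δ :=
    ((rapid_summable_sq π.rapid).sum_le_tsum T fun _ _ => by positivity).trans (hl2 π)
  have hD0 : 0 ≤ D := by linarith
  have hZ : π.len ^ δ ≤ Y * u := hY1.trans (le_mul_of_one_le_right hY0 hu1)
  have h6 : C1 * D * ∑ g ∈ T, ‖π.al g‖ ^ 2 ≤ C1 * C2 * (Y * u * D) := by
    have := mul_le_mul_of_nonneg_left (h5.trans (mul_le_mul_of_nonneg_left hZ hC2))
      (mul_nonneg hC1 hD0)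
    linarith
  have h7 := mul_le_mul_of_nonneg_left hmain (mul_nonneg hC1 hD0)
  have h8 : C1 * (C3 ^ 2 * π.len ^ δ * ∑ g ∈ T, N g ^ (-1 - 1 : ℝ)) ≤
      C1 * (C3 ^ 2 * C7) * (Y * u * D) := by
    have h9 : π.len ^ δ ≤ Y * u * D := hZ.trans (le_mul_of_one_le_right (by positivity) hD)
    have h10 : C3 ^ 2 * π.len ^ δ * ∑ g ∈ T, N g ^ (-1 - 1 : ℝ) ≤ C3 ^ 2 * (Y * u * D) * C7 :=
      mul_le_mul (mul_le_mul_of_nonneg_left h9 (by positivity)) (hs7 T hTP)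
        (Finset.sum_nonneg fun g _ => Real.rpow_nonneg (N_nonneg _) _) (by positivity)
    have := mul_le_mul_of_nonneg_left h10 hC1
    linarith
  refine le_trans (add_le_add (add_le_add h6 h7) h8) (le_of_eq ?_)
  rw [hY]; ring

end Crest.Agent.R312.FM
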