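import Crest.Agent.R312.B4aSmall
import Crest.Agent.R312.B4aLarge
import Crest.Agent.R312.B4aH

/-!
# R312 / B4aStep : the induction step

Definitions and the dictionary R17 → R312 are in `B4aDefs.lean`.  Prefix helper lemmas with `b4astep_`.
Copy from `R17/FMoment_Step`.
-/

set_option autoImplicit false

noncomputable section

open scoped Classical ComplexConjugate NumberField
open MeasureTheory

namespace Crest.Agent.R312.FM

variable {K : Type} [Field K] [NumberField K] [Fld K] [Loc K] [Setup K]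

theorem b4astep_split {f : R K → ℝ} (hs : Summable (fun g : R K => if Prim g then f g else 0))
    (hf : ∀ g, 0 ≤ f g) (G0 : ℝ) :
    ∑' g : R K, (if Prim g then f g else 0) =
      ∑ g ∈ ball K G0, f g + ∑' g : R K, (if Prim g ∧ G0 < N g then f g else 0) := by
  have h1 : HasSum (fun g : R K => if g ∈ ball K G0 then f g else 0) (∑ g ∈ ball K G0, f g) := by
    have := hasSum_sum_of_ne_finset_zero (s := ball K G0)
      (f := fun g : R K => if g ∈ ball K G0 then f g else 0) (L := .unconditional (R K))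
      (fun g hg => if_neg hg)
    rwa [Finset.sum_congr rfl fun g hg => if_pos hg] at this
  have h2 : Summable (fun g : R K => if Prim g ∧ G0 < N g then f g else 0) := by
    refine Summable.of_nonneg_of_le (fun g => ?_) (fun g => ?_) hs
    · split_ifs
      · exact hf g
      · exact le_rfl
    · by_cases hg : Prim g
      · rw [if_pos hg]
        split_ifs
        · exact le_rfl
        · exact hf g
      · rw [if_neg hg, if_neg fun h => hg h.1]
  rw [← h1.tsum_eq, ← h1.summable.tsum_add h2]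
  refine tsum_congr fun g => ?_
  by_cases hg : Prim g
  · by_cases h : G0 < N g
    · rw [if_pos hg, if_pos (⟨hg, h⟩ : Prim g ∧ G0 < N g), if_neg, zero_add]
      intro h'
      exact absurd (mem_ball.1 h').2 (not_le.2 h)
    · rw [if_pos hg, if_neg fun h' : Prim g ∧ G0 < N g => h h'.2, if_pos, add_zero]
      exact mem_ball.2 ⟨hg, not_lt.1 h⟩
  · rw [if_neg hg, if_neg fun h' : Prim g ∧ G0 < N g => hg h'.1,
      if_neg fun h' => hg (mem_ball.1 h').1, add_zero]

/-- If `len² ≤ D` use `short` (with `X = 1`).  Otherwise `Mo_le_cls`; for each class `c`: `gcd_split` for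
`cls π.al c`, split the series at `N g ≤ G0 = e Γ`: `cls_dil`, `small` (with `toH`, `toB`) and
`gcd_large`, `large`. -/
theorem step : ∃ c : ℕ, ∀ (B : ℕ) (δ : ℝ), 0 < δ → δ ≤ 1 / 8 →
    ∃ (C : ℝ) (B' : ℕ), 1 ≤ C ∧ ∀ E Γ M X : ℝ, 1 ≤ E → 1 ≤ Γ → 1 ≤ M → X ^ δ ≤ E →
      Bnd K δ M B (X / Γ) → Bnd K δ (C * E ^ c * (Γ ^ c + M)) B' X := by
  obtain ⟨c, hc⟩ := small (K := K)
  refine ⟨c + 7, fun B δ hδ hδ1 => ?_⟩
  obtain ⟨C1, B1, hC1, h1⟩ := hc B δ hδ hδ1
  obtain ⟨CH, hCH, hH⟩ := toH (K := K) hδ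
  obtain ⟨CK, hCK, hK⟩ := toB (K := K)
  obtain ⟨CL, hCL, hL⟩ := large (K := K) hδ
  obtain ⟨CS, hCS, hS⟩ := short (K := K) hδ hδ1
  obtain ⟨CM, hCM, hMo⟩ := Mo_le_cls (K := K)
  have he : (1 : ℝ) ≤ Real.exp 1 := Real.one_le_exp zero_le_one
  have hec : (1 : ℝ) ≤ Real.exp 1 ^ c := one_le_pow₀ he
  refine ⟨CS + CM * (C1 * (Real.exp 1 ^ c * (CK * CH)) + CL * CH), B1 + B, ?_, ?_⟩
  · have : 0 ≤ CM * (C1 * (Real.exp 1 ^ c * (CK * CH)) + CL * CH) := by positivity
    linarith
  intro E Γ M X hE hG hM hX hB π hH1 D hlen h2 hD1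
  have hl0 := π.len_pos
  have hlδ : 0 ≤ π.len ^ δ := Real.rpow_nonneg hl0.le _
  have ht : 1 ≤ π.s := π.one_le_s
  have hW : 1 ≤ E ^ (c + 7) * (Γ ^ (c + 7) + M) * π.s ^ (B1 + B) := by
    refine one_le_mul_of_one_le_of_one_le (one_le_mul_of_one_le_of_one_le (one_le_pow₀ hE) ?_)
      (one_le_pow₀ ht)
    have : 0 ≤ Γ ^ (c + 7) := by positivity
    linarith
  obtain ⟨V, hV⟩ : ∃ V, V = E ^ (c + 7) * (Γ ^ (c + 7) + M) * π.s ^ (B1 + B) *
    (D * π.len ^ δ) := ⟨_, rfl⟩
  have hV0 : D * π.len ^ δ ≤ V := by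
    rw [hV]; exact le_mul_of_one_le_left (by positivity) hW
  have hV1 : 0 ≤ V := le_trans (by positivity) hV0
  have goal : (CS + CM * (C1 * (Real.exp 1 ^ c * (CK * CH)) + CL * CH)) * E ^ (c + 7) *
      (Γ ^ (c + 7) + M) * π.s ^ (B1 + B) * D * π.len ^ δ =
      CS * V + CM * (C1 * (Real.exp 1 ^ c * (CK * CH)) * V + CL * CH * V) := by rw [hV]; ring
  rw [goal]
  have hA : 0 ≤ CM * (C1 * (Real.exp 1 ^ c * (CK * CH)) * V + CL * CH * V) := by positivity
  have hC' : 0 ≤ CS * V := by positivity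
  rcases le_total (π.len ^ 2) D with h | h
  · have := hS π D 1 hD1 le_rfl (Or.inr h)
    have h3 : CS * 1 ^ 2 * D * π.len ^ δ ≤ CS * V := by
      rw [one_pow, mul_one, mul_assoc]
      exact mul_le_mul_of_nonneg_left hV0 (by linarith)
    linarith
  have hBH := hH M B (X / Γ) (by linarith) hB
  have hBK := hK δ (CH * M) B (X / Γ) hBH
  have hG0 : 0 < Γ := by linarith
  have hD0 : 0 < D := by linarith
  have e1 : Real.exp 1 * Γ * (X / Γ) = Real.exp 1 * X := by field_simp
  have hMK : 1 ≤ CK * (CH * M) :=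
    one_le_mul_of_one_le_of_one_le hCK (one_le_mul_of_one_le_of_one_le hCH hM)
  have t1 : C1 * E ^ 7 * ((Real.exp 1 * Γ) ^ c + CK * (CH * M)) * π.s ^ B1 * D *
      π.len ^ δ ≤ C1 * (Real.exp 1 ^ c * (CK * CH)) * V := by
    have a1 : (Real.exp 1 * Γ) ^ c + CK * (CH * M) ≤
        Real.exp 1 ^ c * (CK * CH) * (Γ ^ (c + 7) + M) := by
      have b1 : Γ ^ c ≤ Γ ^ (c + 7) := pow_le_pow_right₀ hG (by omega)
      have b2 : 1 ≤ CK * CH := one_le_mul_of_one_le_of_one_le hCK hCH
      have b3 : (Real.exp 1 * Γ) ^ c ≤ Real.exp 1 ^ c * (CK * CH) * Γ ^ (c + 7) := by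
        rw [mul_pow]
        calc Real.exp 1 ^ c * Γ ^ c ≤ Real.exp 1 ^ c * (CK * CH * Γ ^ (c + 7)) := by
              refine mul_le_mul_of_nonneg_left (b1.trans ?_) (by positivity)
              exact le_mul_of_one_le_left (by positivity) b2
          _ = _ := by ring
      have b4 : CK * (CH * M) ≤ Real.exp 1 ^ c * (CK * CH) * M := by
        calc CK * (CH * M) = 1 * (CK * CH * M) := by ring
          _ ≤ Real.exp 1 ^ c * (CK * CH * M) :=
            mul_le_mul_of_nonneg_right hec (by positivity)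
          _ = _ := by ring
      rw [mul_add]; linarith
    have a2 : E ^ 7 ≤ E ^ (c + 7) := pow_le_pow_right₀ hE (by omega)
    have a3 : π.s ^ B1 ≤ π.s ^ (B1 + B) := pow_le_pow_right₀ ht (by omega)
    calc _ ≤ C1 * E ^ 7 * (Real.exp 1 ^ c * (CK * CH) * (Γ ^ (c + 7) + M)) *
          π.s ^ (B1 + B) * D * π.len ^ δ := by gcongr
      _ = C1 * (Real.exp 1 ^ c * (CK * CH)) * (E ^ 7 * (Γ ^ (c + 7) + M) *
          π.s ^ (B1 + B) * (D * π.len ^ δ)) := by ring
      _ ≤ _ := by rw [hV]; gcongr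
  have t2 : CL * (CH * M) * π.s ^ B * D * π.len ^ δ ≤ CL * CH * V := by
    have a1 : M ≤ E ^ (c + 7) * (Γ ^ (c + 7) + M) := by
      have : 0 ≤ Γ ^ (c + 7) := by positivity
      exact le_trans (by linarith) (le_mul_of_one_le_left (by linarith) (one_le_pow₀ hE))
    have a3 : π.s ^ B ≤ π.s ^ (B1 + B) := pow_le_pow_right₀ ht (by omega)
    calc _ = CL * CH * (M * π.s ^ B * (D * π.len ^ δ)) := by ring
      _ ≤ _ := by rw [hV]; gcongr
  have key : ∀ a : G K, Mo (cls π.al a) D ≤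
      C1 * (Real.exp 1 ^ c * (CK * CH)) * V + CL * CH * V := by
    intro a
    have s1 := h1 E _ (X / Γ) hE hMK hBK π hH1 (fun g => a / cl g) D (Real.exp 1 * Γ)
      ((Real.rpow_le_rpow hl0.le hlen hδ.le).trans hX) h h2 hD1
      (le_mul_of_one_le_right (by positivity) hG)
      (by rw [e1]; exact mul_le_mul_of_nonneg_left hlen (by positivity))
    have s2 := hL (CH * M) B (X / Γ) (by positivity) hBH π hH1 a D (Real.exp 1 * Γ)
      (by positivity) (by rw [e1]; exact hlen.trans (le_mul_of_one_le_left (hl0.le.trans hlen) he))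
      h2 hD1
    have hs := supp_of_le π.suppSq (norm_cls_le π.al a)
    have hr := rapid_of_le π.rapid (norm_cls_le π.al a)
    obtain ⟨g1, g2⟩ := gcd_split hs hr hD0
    have g3 := gcd_large hs hr hD0 (Real.exp 1 * Γ)
    rw [b4astep_split g1 (fun _ => norm_nonneg _) (Real.exp 1 * Γ),
      Finset.sum_congr rfl fun g hg => by
        rw [cls_dil π.al_zero a (mem_ball.1 hg).1.ne_zero]] at g2
    linarith
  have := hMo π.al π.al_zero π.rapid D _ hD0 key
  linarith

end Crest.Agent.R312.FM
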