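import Crest.Agent.R312.B4aMo

/-!
# R312 / B4aTLS : the trivial large sieve

Definitions and the dictionary R17 → R312 are in `B4aDefs.lean`.  Prefix helper lemmas with `b4atls_`.
Copy from `R17/TLS` lines 1–330.
-/

set_option autoImplicit false

noncomputable section

open scoped Classical ComplexConjugate NumberField
open MeasureTheory

namespace Crest.Agent.R312.FM

variable {K : Type} [Field K] [NumberField K] [Fld K] [Loc K] [Setup K]

theorem b4atls_per {q : R K} {ψ : R K → ℂ} (hψ : IsChar q ψ) (e : R K) :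
    Per (e * q) (fun d => if e ∣ d then ψ d else 0) := by
  intro x t
  have h1 : e ∣ x + e * q * t ↔ e ∣ x :=
    dvd_add_left (Dvd.intro (q * t) (mul_assoc e q t).symm)
  have h2 : ψ (x + e * q * t) = ψ x := by
    rw [mul_comm e q, mul_assoc]
    exact hψ.per x (e * t)
  simp only [h1, h2]

theorem b4atls_gs {q e : R K} (hq : q ≠ 0) (he : e ≠ 0) {ψ : R K → ℂ} (hψ : IsChar q ψ) (k : R K) :
    gs (e * q) (fun d => if e ∣ d then ψ d else 0) k = ψ e * gs q ψ k := by
  obtain ⟨r, hr, hr0⟩ := exists_res he 0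
  obtain ⟨t, rfl⟩ : e ∣ r := by simpa using hr0
  rw [gs, sum_res_tower he hq ((b4atls_per hψ e).mul (ad_per (e * q) k)),
    Finset.sum_eq_single (e * t)]
  · rw [gs, ← sum_res_affine hq (hψ.per.mul (ad_per q k)) isCoprime_one_left t, Finset.mul_sum]
    refine Finset.sum_congr rfl fun y _ => ?_
    have e1 : e * t + e * y = e * (1 * y + t) := by ring
    have e2 : k * (e * (1 * y + t)) = e * (k * (1 * y + t)) := by ring
    rw [e1, if_pos (Dvd.intro _ rfl), e2, ad_mul_cancel he, hψ.mul, mul_assoc]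
  · intro x hx hne
    refine Finset.sum_eq_zero fun y _ => ?_
    rw [if_neg, zero_mul]
    intro h
    exact hne (res_inj he hx hr (dvd_sub ((dvd_add_left (Dvd.intro y rfl)).1 h) (Dvd.intro t rfl)))
  · intro h
    exact absurd hr h

/-- Apply `poisson_per` to `φ = 1_{e ∣ ·} ψ` modulo `e q` (periodic, unit invariant).  Its Gauss sum is
`gs (e q) φ k = ∑_{y mod q} ψ(e y) ad q (k y) = ψ(e) gs q ψ k` (`sum_res_tower` or `b4_sum_res_map`,
`ad_mul_cancel`, `hψ.mul`); `tsum_wt_le` bounds the dual sum over `k ≠ 0` by `C N(e q)/D`. -/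
theorem poisson_bound : ∃ C, 0 ≤ C ∧ ∀ (q e : R K) (ψ : R K → ℂ) (A D : ℝ), q ≠ 0 → e ≠ 0 →
    IsChar q ψ → (∀ (u : (R K)ˣ) (x : R K), ψ (u * x) = ψ x) → gs q ψ 0 = 0 →
    (∀ k, ‖gs q ψ k‖ ≤ A) → 0 < D →
    ‖∑' d : R K, (if e ∣ d then ψ d else 0) * (wt d 1 D : ℂ)‖ ≤ C * A := by
  obtain ⟨C, hC0, hC⟩ := tsum_wt_le (K := K)
  refine ⟨C, hC0, fun q e ψ A D hq he hψ hu h0 hA hD => ?_⟩
  have hqe : e * q ≠ 0 := mul_ne_zero he hq
  have hN := N_pos hqe
  have hA0 : 0 ≤ A := le_trans (norm_nonneg _) (hA 0)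
  have hX : 0 < D⁻¹ := inv_pos.2 hD
  have hs0 : Summable (fun d : R K => wt d (e * q) D⁻¹) := by
    simpa using summable_wt hqe hX 0
  have hs : Summable (fun k : R K => if k = 0 then 0 else wt k (e * q) D⁻¹) := by
    refine Summable.of_nonneg_of_le (fun k => ?_) (fun k => ?_) hs0
    · split_ifs
      · exact le_rfl
      · exact wt_nonneg _ _ _
    · split_ifs
      · exact wt_nonneg _ _ _
      · exact le_rfl
  have h1 : ‖∑' d : R K, gs (e * q) (fun d => if e ∣ d then ψ d else 0) d *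
      (wt d (e * q) D⁻¹ : ℂ)‖ ≤ A * ∑' k : R K, if k = 0 then 0 else wt k (e * q) D⁻¹ := by
    refine tsum_of_norm_bounded (hs.hasSum.mul_left A) fun d => ?_
    rw [b4atls_gs hq he hψ]
    by_cases hd : d = 0
    · simp [hd, h0]
    · rw [if_neg hd, norm_mul, norm_mul, norm_wt]
      have e1 := hψ.norm_le hq e
      have e2 := hA d
      have e3 := wt_nonneg d (e * q) D⁻¹
      calc _ ≤ 1 * A * wt d (e * q) D⁻¹ := by gcongr
        _ = _ := by ring
  have hunit : ∀ (u : (R K)ˣ) (x : R K), (if e ∣ (u : R K) * x then ψ (u * x) else 0) =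
      if e ∣ x then ψ x else 0 := by
    intro u x
    simp only [Units.dvd_mul_left, hu]
  rw [poisson_per hqe (b4atls_per hψ e) hunit hD, norm_mul, Complex.norm_real, Real.norm_eq_abs,
    abs_of_pos (div_pos hD hN)]
  calc _ ≤ D / N (e * q) * (A * (C * (N (e * q) * D⁻¹))) :=
        mul_le_mul_of_nonneg_left (le_trans h1 (mul_le_mul_of_nonneg_left (hC _ hqe _ hX) hA0))
          (div_pos hD hN).le
    _ = _ := by field_simp

theorem b4atls_gs_le {n : R K} (hn : n ≠ 0) (hs : Squarefree n) {j : ℕ} (hj : ¬ 6 ∣ j)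
    (k : R K) : ‖gs n (fun x => chi n x ^ j) k‖ ≤ Real.sqrt (N n) := by
  rw [gs_chi_pow hn hs hj, norm_mul, norm_gs_chi_pow hn hs hj, Complex.norm_conj, norm_pow]
  exact mul_le_of_le_one_left (Real.sqrt_nonneg _)
    (pow_le_one₀ (norm_nonneg _) (norm_chi_le hn k))

theorem b4atls_gs_zero {n : R K} (hp : Prim n) (hs : Squarefree n) {j : ℕ} (hj : ¬ 6 ∣ j)
    (h1 : n ≠ 1) : gs n (fun x => chi n x ^ j) 0 = 0 := by
  have hj0 : j ≠ 0 := by
    rintro rfl
    exact hj (dvd_zero _)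
  rw [gs_chi_pow hp.ne_zero hs hj, chi_zero hp h1, zero_pow hj0, map_zero, zero_mul]

/-- Port of `R17.TL.kernel_bound` with `j = 1`.  `n_i = g n_i'`, `cl n₁' = cl n₂'` (`cl_mul`), so
`ψ = χ_{n₁'} conj χ_{n₂'}` is unit invariant (`chi_conj_unit`); `gs_mul`, `gs_chi_pow`, `gs_conj_chi`. -/
theorem kernel_bound : ∃ C, 0 ≤ C ∧ ∀ n1 n2 : R K, (Prim n1 ∧ Squarefree n1) →
    (Prim n2 ∧ Squarefree n2) → n1 ≠ n2 → cl n1 = cl n2 → ∀ D : ℝ, 0 < D →
    ‖∑' d : R K, (wt d 1 D : ℂ) * (chi n1 d * conj (chi n2 d))‖ ≤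
      C * (Real.sqrt (N n1) * Real.sqrt (N n2)) := by
  obtain ⟨C, hC0, hC⟩ := poisson_bound (K := K)
  refine ⟨C, hC0, fun n1 n2 h1 h2 hne hcl D hD => ?_⟩
  obtain ⟨g, a, b, hg, ha, hb, rfl, rfl, hab⟩ := exists_prim_gcd h1.1 h2.1
  have hg0 := hg.ne_zero
  have ha0 := ha.ne_zero
  have hb0 := hb.ne_zero
  have has : Squarefree a := h1.2.of_mul_right
  have hbs : Squarefree b := h2.2.of_mul_right
  have hclab : cl a = cl b := by
    rw [cl_mul hg0 ha0, cl_mul hg0 hb0] at hcl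
    have h := congrArg (fun x => (cl g)⁻¹ * x) hcl
    simpa only [inv_mul_cancel_left] using h
  have hc1 := (chi_isChar ha0).pow_char (j := 1) one_ne_zero
  have hc2 := (chi_isChar hb0).pow_char (j := 5) (by norm_num)
  have hψ := hc1.mul_moduli hc2
  set ψ : R K → ℂ := fun n => chi a n ^ 1 * chi b n ^ 5 with hψdef
  have hψu : ∀ (u : (R K)ˣ) (x : R K), ψ (u * x) = ψ x := by
    intro u x
    have h := chi_conj_unit ha0 hb0 hclab u x
    rw [conj_chi hb0, conj_chi hb0] at h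
    simp only [hψdef, pow_one]
    exact h
  have hq : a * b ≠ 0 := mul_ne_zero ha0 hb0
  have hgs := gs_mul ha0 hb0 hab hc1 hc2
  have hgs0 : gs (a * b) ψ 0 = 0 := by
    rw [hgs 0]
    by_cases ha1 : a = 1
    · have hb1 : b ≠ 1 := by
        rintro rfl
        exact hne (by rw [ha1])
      rw [b4atls_gs_zero hb hbs (j := 5) (by norm_num) hb1, mul_zero]
    · rw [b4atls_gs_zero ha has (j := 1) (by norm_num) ha1, mul_zero, zero_mul]
  have hgsle : ∀ k, ‖gs (a * b) ψ k‖ ≤ Real.sqrt (N a) * Real.sqrt (N b) := by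
    intro k
    rw [hgs k, norm_mul, norm_mul, norm_mul]
    have e1 := hc1.norm_le ha0 b
    have e2 := hc2.norm_le hb0 a
    have e3 := b4atls_gs_le ha0 has (j := 1) (by norm_num) k
    have e4 := b4atls_gs_le hb0 hbs (j := 5) (by norm_num) k
    calc _ ≤ 1 * 1 * Real.sqrt (N a) * Real.sqrt (N b) := by gcongr
      _ = _ := by ring
  have hker : ∀ d, (wt d 1 D : ℂ) * (chi (g * a) d * conj (chi (g * b) d)) =
      ∑ e ∈ pdiv g, mu e * ((if e ∣ d then ψ d else 0) * (wt d 1 D : ℂ)) := by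
    intro d
    have e0 : ∀ e : R K, mu e * ((if e ∣ d then ψ d else 0) * (wt d 1 D : ℂ)) =
        if e ∣ d then mu e * (ψ d * (wt d 1 D : ℂ)) else 0 := by
      intro e
      split_ifs <;> simp
    simp_rw [e0]
    rw [← Finset.sum_filter, ← Finset.sum_mul, sum_mu_coprime hg, chi_mul hg0 ha0,
      chi_mul hg0 hb0, map_mul, conj_chi hg0, conj_chi hb0,
      ← (show chi g d ^ 6 = if IsCoprime d g then 1 else 0 from sym_pow_eq (k := 6) (by simp) hg0 d)]
    simp only [hψdef]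
    ring
  have hsum : ∀ e ∈ pdiv g,
      Summable (fun d => mu e * ((if e ∣ d then ψ d else 0) * (wt d 1 D : ℂ))) := by
    intro e _
    refine Summable.mul_left _ (Summable.of_norm_bounded (summable_wt1 hD) fun d => ?_)
    rw [norm_mul, norm_wt]
    refine mul_le_of_le_one_left (wt_nonneg _ _ _) ?_
    split_ifs
    · exact hψ.norm_le hq d
    · simp
  simp_rw [hker]
  rw [Summable.tsum_finsetSum hsum]
  refine le_trans (norm_sum_le _ _) ?_
  refine le_trans (Finset.sum_le_card_nsmul _ _ (C * (Real.sqrt (N a) * Real.sqrt (N b)))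
    fun e he => ?_) ?_
  · have he0 : e ≠ 0 := ((mem_pdiv hg0).mp he).1.ne_zero
    rw [tsum_mul_left, norm_mul]
    have e3 := hC (a * b) e ψ _ D hq he0 hψ hψu hgs0 hgsle hD
    have e4 := norm_mu_le e
    calc _ ≤ 1 * (C * (Real.sqrt (N a) * Real.sqrt (N b))) := by gcongr
      _ = _ := by ring
  · rw [nsmul_eq_mul, N_mul, N_mul, Real.sqrt_mul (N_nonneg g), Real.sqrt_mul (N_nonneg g)]
    have e1 := card_pdiv_le_N hg0
    have e2 : Real.sqrt (N g) * Real.sqrt (N g) = N g := Real.mul_self_sqrt (N_nonneg g)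
    calc _ ≤ N g * (C * (Real.sqrt (N a) * Real.sqrt (N b))) := by gcongr
      _ = (Real.sqrt (N g) * Real.sqrt (N g)) * (C * (Real.sqrt (N a) * Real.sqrt (N b))) := by
        rw [e2]
      _ = _ := by ring

theorem b4atls_sqrt (n : R K) : Real.sqrt (N n) ≤ N n := by
  rw [Real.sqrt_le_iff]
  refine ⟨N_nonneg n, ?_⟩
  by_cases hn : n = 0
  · simp [hn]
  · nlinarith [one_le_N hn]

theorem b4atls_summ {α : R K → ℂ} (hα : Rapid α) :
    Summable (fun n => ‖α n‖ * Real.sqrt (N n)) := by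
  refine Summable.of_nonneg_of_le (fun n => by positivity) (fun n => ?_) (hα 1)
  rw [pow_one]
  exact mul_le_mul_of_nonneg_left (b4atls_sqrt n) (norm_nonneg _)

theorem b4atls_diag {ι : Type} {f : ι → ℝ} (hf : Summable f) :
    HasSum (fun p : ι × ι => if p.1 = p.2 then f p.1 else 0) (∑' n, f n) := by
  have hi : Function.Injective (fun n : ι => (n, n)) := fun a b h => (Prod.ext_iff.mp h).1
  refine (hi.hasSum_iff ?_).mp ?_
  · rintro ⟨a, b⟩ h
    rw [if_neg]
    intro hab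
    exact h ⟨a, Prod.ext rfl hab⟩
  · simpa [Function.comp_def] using hf.hasSum

theorem b4atls_term {α : R K → ℂ} (hs : SuppSq α) (n d : R K) : ‖α n * chi n d‖ ≤ ‖α n‖ := by
  by_cases h : α n = 0
  · simp [h]
  · rw [norm_mul]
    exact mul_le_of_le_one_right (norm_nonneg _) (norm_chi_le (hs n h).1.ne_zero d)

/-- Port of `R17.tls` (`j = 1`) for a sequence supported on one class. -/
theorem tls_cls : ∃ C, 0 ≤ C ∧ ∀ α : R K → ℂ, SuppSq α → OneCl α → Rapid α → ∀ D : ℝ, 0 < D →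
    Mo α D ≤ C * ((1 + D) * ∑' n, ‖α n‖ ^ 2 + (∑' n, ‖α n‖ * Real.sqrt (N n)) ^ 2) := by
  obtain ⟨C1, hC10, hC1⟩ := tsum_wt1_le (K := K)
  obtain ⟨C2, hC20, hC2⟩ := kernel_bound (K := K)
  refine ⟨1 + C1 + C2, by positivity, fun α hs hcl hα D hD => ?_⟩
  have hA := rapid_summable hα
  have hB := b4atls_summ hα
  have hu : ∀ d, Summable (fun n => ‖α n * chi n d‖) := fun d =>
    Summable.of_nonneg_of_le (fun _ => norm_nonneg _) (fun n => b4atls_term hs n d) hA
  have hw : Summable (fun d : R K => ‖(wt d 1 D : ℂ)‖) := by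
    simpa only [norm_wt] using summable_wt1 hD
  have e1 : (Mo α D : ℂ) = ∑' p : R K × R K, ∑' d : R K, (wt d 1 D : ℂ) *
      (α p.1 * chi p.1 d * conj (α p.2 * chi p.2 d)) := by
    rw [Mo, Complex.ofReal_tsum, ← fub hw (b := fun p : R K × R K => ‖α p.1‖ * ‖α p.2‖)
      (hA.mul_of_nonneg hA (fun _ => norm_nonneg _) (fun _ => norm_nonneg _))]
    · refine tsum_congr fun d => ?_
      rw [Complex.ofReal_mul, normSq_tsum (hu d)]
    · intro p d
      rw [norm_mul, Complex.norm_conj]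
      exact mul_le_mul (b4atls_term hs _ d) (b4atls_term hs _ d) (norm_nonneg _)
        (norm_nonneg _)
  have hS := ((b4atls_diag (rapid_summable_sq hα)).mul_left (1 + C1 * D)).add
    ((hB.hasSum.mul hB.hasSum
      (hB.mul_of_nonneg hB (fun n => by positivity) (fun n => by positivity))).mul_left C2)
  have e2 : ‖(Mo α D : ℂ)‖ ≤ (1 + C1 * D) * ∑' n, ‖α n‖ ^ 2 +
      C2 * ((∑' n, ‖α n‖ * Real.sqrt (N n)) * ∑' n, ‖α n‖ * Real.sqrt (N n)) := by
    rw [e1]
    refine tsum_of_norm_bounded hS ?_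
    rintro ⟨n1, n2⟩
    simp only
    have hD1 : 0 ≤ 1 + C1 * D := by positivity
    by_cases hn : n1 = n2
    · subst hn
      rw [if_pos rfl]
      refine le_trans ?_ (le_add_of_nonneg_right (by positivity))
      refine le_trans (tsum_of_norm_bounded ((summable_wt1 hD).hasSum.mul_right (‖α n1‖ ^ 2))
        fun d => ?_) (mul_le_mul_of_nonneg_right (hC1 D hD) (by positivity))
      rw [norm_mul, norm_wt, norm_mul, Complex.norm_conj, sq]
      refine mul_le_mul_of_nonneg_left ?_ (wt_nonneg _ _ _)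
      exact mul_le_mul (b4atls_term hs _ d) (b4atls_term hs _ d) (norm_nonneg _)
        (norm_nonneg _)
    · rw [if_neg hn, mul_zero, zero_add]
      by_cases h1 : α n1 = 0
      · simp [h1]
      by_cases h2 : α n2 = 0
      · simp [h2]
      have e3 : ∀ d : R K, (wt d 1 D : ℂ) * (α n1 * chi n1 d * conj (α n2 * chi n2 d)) =
          (α n1 * conj (α n2)) * ((wt d 1 D : ℂ) * (chi n1 d * conj (chi n2 d))) := by
        intro d
        rw [map_mul]
        ring
      simp_rw [e3]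
      rw [tsum_mul_left, norm_mul, norm_mul, Complex.norm_conj]
      have e4 := hC2 n1 n2 (hs n1 h1) (hs n2 h2) hn (hcl n1 n2 h1 h2) D hD
      calc _ ≤ ‖α n1‖ * ‖α n2‖ * (C2 * (Real.sqrt (N n1) * Real.sqrt (N n2))) := by gcongr
        _ = _ := by ring
  rw [Complex.norm_real, Real.norm_eq_abs] at e2
  refine le_trans (le_abs_self _) (le_trans e2 ?_)
  have p1 : 0 ≤ ∑' n, ‖α n‖ ^ 2 := tsum_nonneg fun n => by positivity
  set P := ∑' n, ‖α n‖ ^ 2
  set S := ∑' n, ‖α n‖ * Real.sqrt (N n)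
  have p2 : 0 ≤ S * S := mul_self_nonneg S
  have p3 : 0 ≤ D * P := mul_nonneg hD.le p1
  have p4 := mul_nonneg hC10 p1
  have p5 := mul_nonneg hC20 p1
  have p6 := mul_nonneg hC20 p3
  have p7 := mul_nonneg hC10 p2
  nlinarith

/-- `Mo_le_cls`, `tls_cls`, `norm_cls_le` -/
theorem tls : ∃ C, 0 ≤ C ∧ ∀ α : R K → ℂ, SuppSq α → Rapid α → ∀ D : ℝ, 0 < D →
    Mo α D ≤ C * ((1 + D) * ∑' n, ‖α n‖ ^ 2 + (∑' n, ‖α n‖ * Real.sqrt (N n)) ^ 2) := by
  obtain ⟨C1, hC11, hC1⟩ := Mo_le_cls (K := K)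
  obtain ⟨C2, hC20, hC2⟩ := tls_cls (K := K)
  refine ⟨C1 * C2, by positivity, fun α hs hα D hD => ?_⟩
  rw [mul_assoc]
  refine hC1 α (supp_zero hs) hα D _ hD fun c => ?_
  have hle := norm_cls_le α c
  have hr := rapid_of_le hα hle
  have hcl : OneCl (cls α c) := by
    intro a b ha hb
    have h1 : cl a = c := by
      by_contra h
      exact ha (if_neg h)
    have h2 : cl b = c := by
      by_contra h
      exact hb (if_neg h)
    rw [h1, h2]
  refine (hC2 _ (supp_of_le hs hle) hcl hr D hD).trans (mul_le_mul_of_nonneg_left ?_ hC20)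
  have e1 : ∑' n, ‖cls α c n‖ ^ 2 ≤ ∑' n, ‖α n‖ ^ 2 :=
    (rapid_summable_sq hr).tsum_le_tsum
      (fun n => pow_le_pow_left₀ (norm_nonneg _) (hle n) 2) (rapid_summable_sq hα)
  have e2 : ∑' n, ‖cls α c n‖ * Real.sqrt (N n) ≤ ∑' n, ‖α n‖ * Real.sqrt (N n) :=
    (b4atls_summ hr).tsum_le_tsum
      (fun n => mul_le_mul_of_nonneg_right (hle n) (Real.sqrt_nonneg _)) (b4atls_summ hα)
  have e3 : 0 ≤ ∑' n, ‖cls α c n‖ * Real.sqrt (N n) := tsum_nonneg fun n => by positivity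
  have e4 : 0 ≤ 1 + D := by positivity
  gcongr

end Crest.Agent.R312.FM
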