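import Crest.Agent.R312.B4aAl

/-!
# R312 / B4aTwist : the sums produced by the Poisson steps

Definitions and the dictionary R17 → R312 are in `B4aDefs.lean`.  Prefix helper lemmas with `b4atwist_`.
Copy from `R17/FMoment_Twist` and the beginning of `FMoment_DD1`.
-/

set_option autoImplicit false

noncomputable section

open scoped Classical ComplexConjugate NumberField
open MeasureTheory

namespace Crest.Agent.R312.FM

variable {K : Type} [Field K] [NumberField K] [Fld K] [Loc K] [Setup K]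

/-- `N(r m)^w = N(g r m)^w N(g)^{-w}`, `al_shift`, `al_dil` (for `π.shift x τ` and `g r`), `al_tw`
(`((π.shift x τ).dil g').tw ν' = ((π.shift x τ).tw ν').dil g'` by `rfl`), `norm_cf_le`;
`N g^{-2x} ≤ N g`, `e^{x²/2} ≤ 2`. -/
theorem Par.twist_le (π : Par K) {g r : R K} (hg : Prim g) (hr : Prim r) (ν : Tw K)
    {x : ℝ} (hx : -(1 / 2) ≤ x) (hx0 : x ≤ 0) (τ : ℝ) (u : R K → ℂ) :
    ‖∑' m, π.al (g * r * m) * (N (r * m) : ℂ) ^ ((x : ℂ) + τ * Complex.I) * ν.v m * u m‖ ^ 2 ≤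
      2 * π.len ^ (2 * x) * ((N r)⁻¹ *
        ‖∑' m, (((π.shift x τ).tw ν).dil (g * r)).al m * u m‖ ^ 2) := by
  have hG := hg.mul hr
  have hg1 := one_le_N hg.ne_zero
  have hg0 := N_pos hg.ne_zero
  have hr0 := N_pos hr.ne_zero
  have hlow := π.len_pos
  have hne : (N g : ℂ) ^ ((x : ℂ) + τ * Complex.I) ≠ 0 := by
    rw [Ne, Complex.cpow_eq_zero_iff, not_and_or]
    exact Or.inl (by exact_mod_cast hg0.ne')
  have e1 : ∀ m, π.al (g * r * m) * (N (r * m) : ℂ) ^ ((x : ℂ) + τ * Complex.I) * ν.v m * u m =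
      ((N g : ℂ) ^ ((x : ℂ) + τ * Complex.I))⁻¹ * ((Real.exp (x ^ 2 / 4) * π.len ^ x : ℝ) : ℂ) *
        (π.shift x τ).cf (g * r) * ((((π.shift x τ).tw ν).dil (g * r)).al m * u m) := fun m => by
    have a1 := π.al_shift x τ (g * r * m)
    have a2 : (N (g * r * m) : ℂ) ^ ((x : ℂ) + τ * Complex.I) =
        (N g : ℂ) ^ ((x : ℂ) + τ * Complex.I) * (N (r * m) : ℂ) ^ ((x : ℂ) + τ * Complex.I) := by
      rw [mul_assoc, N_mul_cpow]
    have a3 := (π.shift x τ).al_dil hG m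
    have a5 : (((π.shift x τ).tw ν).dil (g * r)).al m = ((π.shift x τ).dil (g * r)).al m * ν.v m :=
      Par.al_tw ((π.shift x τ).dil (g * r)) ν m
    rw [a2, a3] at a1
    rw [a5]
    field_simp
    linear_combination (ν.v m * u m) * a1
  rw [tsum_congr e1, tsum_mul_left]
  have b1 : ‖((N g : ℂ) ^ ((x : ℂ) + τ * Complex.I))⁻¹‖ ^ 2 ≤ N g := by
    rw [norm_inv, Complex.norm_cpow_eq_rpow_re_of_pos hg0, ← Real.rpow_neg hg0.le,
      ← Real.rpow_natCast, ← Real.rpow_mul hg0.le]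
    conv_rhs => rw [← Real.rpow_one (N g)]
    refine Real.rpow_le_rpow_of_exponent_le hg1 ?_
    simp
    linarith
  have b2 : ‖((Real.exp (x ^ 2 / 4) * π.len ^ x : ℝ) : ℂ)‖ ^ 2 ≤ 2 * π.len ^ (2 * x) := by
    rw [Complex.norm_real, Real.norm_eq_abs, sq_abs, mul_pow, mul_comm 2 x, Real.rpow_mul hlow.le,
      Real.rpow_two]
    refine mul_le_mul_of_nonneg_right ?_ (sq_nonneg _)
    rw [← Real.exp_nat_mul, ← Real.le_log_iff_exp_le (by norm_num)]
    have := Real.log_two_gt_d9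
    push_cast
    nlinarith
  have b3 := (π.shift x τ).norm_cf_le hG.ne_zero
  rw [norm_mul, norm_mul, norm_mul, mul_pow, mul_pow, mul_pow]
  refine (mul_le_mul_of_nonneg_right (mul_le_mul (mul_le_mul b1 b2 (sq_nonneg _) hg0.le) b3
    (sq_nonneg _) (mul_nonneg hg0.le (by positivity))) (sq_nonneg _)).trans_eq ?_
  rw [N_mul]
  field_simp

theorem Par.Tsum_le (π : Par K) {g r : R K} (hg : Prim g) (hr : Prim r) (ν : Tw K)
    {σ : ℝ} (hσ : 0 ≤ σ) (hσ1 : σ ≤ 1 / 2) (τ : ℝ) (k : R K) :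
    ‖Tsum (fun m => π.al (g * m)) ν r k σ τ‖ ^ 2 ≤
      2 * π.len ^ (2 * σ - 1) * ((N r)⁻¹ *
        ‖(((π.shift (σ - 1 / 2) τ).tw ν).dil (g * r)).Ds r k‖ ^ 2) := by
  have key := π.twist_le hg hr ν (x := σ - 1 / 2) (by linarith) (by linarith) τ
    (fun m => chi m (r ^ 2) * gt m * conj (chi m k))
  have e1 : 2 * (σ - 1 / 2) = 2 * σ - 1 := by ring
  have e2 : ((σ - 1 / 2 : ℝ) : ℂ) + τ * Complex.I = -(1 / 2 : ℂ) + σ + τ * Complex.I := by
    push_cast
    ring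
  rw [e1, e2] at key
  have e3 : Tsum (fun m => π.al (g * m)) ν r k σ τ =
      ∑' m, π.al (g * r * m) * (N (r * m) : ℂ) ^ (-(1 / 2 : ℂ) + σ + τ * Complex.I) * ν.v m *
        (chi m (r ^ 2) * gt m * conj (chi m k)) := by
    refine tsum_congr fun m => ?_
    simp only [mul_assoc g]
    ring
  rw [e3]
  simpa only [Par.Ds, mul_assoc] using key

/-- pull out the constant `χ_{g r'}(r²)`; `twist_le` with `u m = χ_m(d g² r²)`; `al_relax` with
`ρ = d g² r²` -/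
theorem Par.Bsum_le (π : Par K) {g r' : R K} (hg : Prim g) (hr : Prim r') (ν : Tw K)
    {σ : ℝ} (hσ : 0 ≤ σ) (hσ1 : σ ≤ 1 / 2) (τ : ℝ) (r d : R K) :
    ‖Bsum (fun m => π.al m * chi m (r ^ 2)) ν g r' (d * g ^ 2) σ τ‖ ^ 2 ≤
      2 * π.len ^ (2 * σ - 1) * ((N r')⁻¹ *
        ‖((((π.shift (σ - 1 / 2) τ).tw ν).excl r').mv
          (π.y + (σ - 1 / 2) / 2 - Real.log (N (g * r'))) (π.t - τ)).F (d * g ^ 2 * r ^ 2)‖ ^ 2) := by
  have hG := hg.mul hr
  have key := π.twist_le hg hr ν (x := σ - 1 / 2) (by linarith) (by linarith) τ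
    (fun m => chi m (d * g ^ 2 * r ^ 2))
  have e1 : 2 * (σ - 1 / 2) = 2 * σ - 1 := by ring
  have e2 : ((σ - 1 / 2 : ℝ) : ℂ) + τ * Complex.I = -(1 / 2 : ℂ) + σ + τ * Complex.I := by
    push_cast
    ring
  rw [e1, e2] at key
  have e3 : Bsum (fun m => π.al m * chi m (r ^ 2)) ν g r' (d * g ^ 2) σ τ = chi (g * r') (r ^ 2) *
      ∑' m, π.al (g * r' * m) * (N (r' * m) : ℂ) ^ (-(1 / 2 : ℂ) + σ + τ * Complex.I) * ν.v m *
        chi m (d * g ^ 2 * r ^ 2) := by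
    rw [← tsum_mul_left]
    refine tsum_congr fun m => ?_
    by_cases hm : π.al (g * r' * m) = 0
    · simp [hm]
    have hm0 : m ≠ 0 := right_ne_zero_of_mul (Par.supp hm).1.ne_zero
    simp only [chi_mul hG.ne_zero hm0, (chi_isChar hm0).mul (d * g ^ 2)]
    ring
  have e4 : ‖Bsum (fun m => π.al m * chi m (r ^ 2)) ν g r' (d * g ^ 2) σ τ‖ ≤
      ‖∑' m, π.al (g * r' * m) * (N (r' * m) : ℂ) ^ (-(1 / 2 : ℂ) + σ + τ * Complex.I) * ν.v m *
        chi m (d * g ^ 2 * r ^ 2)‖ := by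
    rw [e3, norm_mul]
    exact mul_le_of_le_one_left (norm_nonneg _) (norm_chi_le hG.ne_zero _)
  refine (pow_le_pow_left₀ (norm_nonneg _) e4 2).trans (key.trans_eq ?_)
  have hp : ∀ p, Prime p → ¬ p ∣ d * g ^ 2 * r ^ 2 → (p ∣ g * r' ↔ p ∣ r') := fun p hp hd =>
    ⟨fun h1 => (hp.dvd_or_dvd h1).resolve_left fun h2 =>
      hd (((h2.trans (dvd_pow_self g two_ne_zero)).mul_left d).mul_right _), fun h1 => h1.mul_left g⟩
  congr 4
  refine tsum_congr fun m => Par.al_relax (by rfl) (by rfl) (by rfl) (fun p hp' hd => ?_) m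
  change p ∣ π.H * (g * r') ↔ p ∣ π.H * r'
  rw [hp'.dvd_mul, hp p hp' hd, hp'.dvd_mul]

theorem b4atwist_Ds {π π' : Par K} {r k : R K}
    (h : ∀ n, π.al n * chi n (r ^ 2) = π'.al n * chi n (r ^ 2)) : π.Ds r k = π'.Ds r k := by
  unfold Par.Ds
  exact tsum_congr fun m => by rw [h m]

theorem b4atwist_dvd {H g r p : R K} (hp : Prime p) (hr : ¬ p ∣ r ^ 2) :
    p ∣ H * (g * r) ↔ p ∣ H * g := by
  rw [← mul_assoc]
  exact ⟨fun h => (hp.dvd_or_dvd h).resolve_right fun h => hr (h.trans (dvd_pow_self r two_ne_zero)),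
    fun h => h.mul_right r⟩

/-- `al_relax` with `ρ = r²` (`log N(g r) = log N g + log N r`) -/
theorem Par.Ds_dil (π : Par K) {g r : R K} (hg : g ≠ 0) (hr : r ≠ 0) (k : R K) :
    (π.dil (g * r)).Ds r k = ((π.dil g).cut r).Ds r k := by
  refine b4atwist_Ds fun n => Par.al_relax (by rfl) ?_ (by rfl) (fun p hp hr => by exact b4atwist_dvd hp hr) n
  change π.y - Real.log (N (g * r)) = π.y - Real.log (N g) - Real.log (N r)
  rw [N_mul, Real.log_mul (N_pos hg).ne' (N_pos hr).ne']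
  ring

/-- `al_relax` with `ρ = r²` -/
theorem Par.Ds_cube (π : Par K) {g r : R K} (hg : g ≠ 0) (hr : r ≠ 0) (c : R K) (θ : Tw K)
    (k : R K) :
    (((π.dil (g * r)).cut c).tw θ).Ds r k = ((((π.dil g).cut c).tw θ).cut r).Ds r k := by
  refine b4atwist_Ds fun n => Par.al_relax (by rfl) ?_ (by rfl) (fun p hp hr => by exact b4atwist_dvd hp hr) n
  change π.y - Real.log (N (g * r)) - Real.log (N c) =
    π.y - Real.log (N g) - Real.log (N c) - Real.log (N r)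
  rw [N_mul, Real.log_mul (N_pos hg).ne' (N_pos hr).ne']
  ring

end Crest.Agent.R312.FM
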