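import Crest.Agent.R312.B5AExp

/-!
# R312 / B5A : the analytic theory of the Eisenstein series (head module, `ReadB5` section A)

Port of `R17/Vo*`.  The calculus of `HasRes K` is in `B5Res.lean`.  The interface statements are proved in the
imported files, with unchanged names and hypotheses (namespace `Crest.Agent.R312.Th`):
* `B5AGeo`: `actR_mul, actR_one, continuous_actR, BB_pos`;  `B5ACell`: `coef_sub`;
* `B5AEis`: `RowBd.tr, Eis_actR, summable_Eis, thK_actR`;  `B5ACT`: `summable_DS`;
* `B5AOp`: `Eig.sub, Eig.add, Eig.smul, Eig.integrable, Eig.eq_zero`;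
* `B5ATh`: `hasRes_thK, eig_thK, thK_orth`;  `B5AExp`: `hasRes_DS, hasExp_thK`.
Also useful: `B5AUps` (sums over `RowQ`, `EltQ`, `R ⧸ latI`), `B5ALat` (`summable_elts`), `B5ACoef` (`coef_Eis`).
-/
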