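import Crest.Agent.R312.B5ADefs

/-!
# R312 / B5AAbs : abstract functional analysis (σ-finite versions of `R17/VoSchur`, `VoAbs`)
-/

set_option autoImplicit false
set_option linter.unusedSectionVars false

noncomputable section

open scoped Classical ComplexConjugate NumberField Topology ENNReal InnerProductSpace
open MeasureTheory Filter
open Crest.Agent.R17.Vor (SL X vc zc pt o hr act uu kk hh Tt pw hi lo mid W Vr nn SS Adm LocBd)

namespace Crest.Agent.R312.Th

/-- Copy the proof of `R17.Vor.resolvent_main` (cite `R17.Vor.VoAbs_*`); `hOm` is now the hypothesis `hΩ`. -/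
theorem resolvent_main {H : Type} [NormedAddCommGroup H] [InnerProductSpace ℂ H] [CompleteSpace H]
    (T : H →L[ℂ] H) (hT : IsSelfAdjoint T) {Ω : Set ℂ}
    (hΩ : ∀ᶠ ε : ℝ in 𝓝[>] 0, (4 / 3 + ε * Complex.I : ℂ) ∈ Ω) {h : ℂ → ℂ} (hh : Differentiable ℂ h)
    (him : ∀ s ∈ Ω, (h s).im ≠ 0) {μ0 h1 : ℝ} (h0 : h (4 / 3) = μ0)
    (hd : HasDerivAt h (h1 : ℂ) (4 / 3)) (h1ne : h1 ≠ 0) {f : ℂ → H} (hf : Differentiable ℂ f) :
    ∃ (g : ℂ → H) (u : H), DifferentiableOn ℂ g Ω ∧
      (∀ s ∈ Ω, ∀ x, T x - h s • x = f s → x = g s) ∧ T u = (μ0 : ℂ) • u ∧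
      Tendsto (fun ε : ℝ => ((ε : ℂ) * Complex.I) • g (4 / 3 + ε * Complex.I)) (𝓝[>] 0)
        (𝓝 (-((h1 : ℂ)⁻¹ • u))) ∧
      ∀ D, T D = (μ0 : ℂ) • D → ⟪f (4 / 3), D⟫_ℂ = ⟪u, D⟫_ℂ := by
  have hOpen : ∀ s ∈ Ω, h s ∈ resolventSet ℂ T := fun s hs => R17.Vor.VoAbs_mem hT (him s hs)
  let S : H →L[ℂ] H := T - (μ0 : ℂ) • 1
  have hS : IsSelfAdjoint S := by
    refine hT.sub ?_
    rw [IsSelfAdjoint, star_smul, star_one, Complex.star_def, Complex.conj_ofReal]
  have hSx : ∀ x, S x = T x - (μ0 : ℂ) • x := fun x => by simp [S]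
  let K : Submodule ℂ H := S.ker
  have hKc : IsClosed (K : Set H) := S.isClosed_ker
  have : CompleteSpace K := hKc.completeSpace_coe
  let u : H := K.starProjection (f (4 / 3))
  have hu : T u = (μ0 : ℂ) • u := by
    have : u ∈ K := K.starProjection_apply_mem _
    have h2 : S u = 0 := this
    rwa [hSx, sub_eq_zero] at h2
  have hv : f (4 / 3) - u ∈ Kᗮ := K.sub_starProjection_mem_orthogonal _
  refine ⟨fun s => -(resolvent T (h s) (f s)), u, ?_, ?_, hu, ?_, ?_⟩
  · intro s hs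
    have h1 : DifferentiableAt ℂ (fun s => resolvent T (h s)) s :=
      (spectrum.hasDerivAt_resolvent_const_left (hOpen s hs)).differentiableAt.comp s (hh s)
    exact (h1.clm_apply (hf s)).neg.differentiableWithinAt
  · intro s hs x hx
    have := R17.Vor.VoAbs_left (hOpen s hs) x
    rw [← neg_sub, hx, map_neg] at this
    exact this.symm
  · -- the limit
    let sε : ℝ → ℂ := fun ε => 4 / 3 + ε * Complex.I
    let e : ℝ → ℂ := fun ε => ε * Complex.I
    let c : ℝ → ℂ := fun ε => (e ε)⁻¹ * (h (sε ε) - μ0)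
    have he0 : Tendsto e (𝓝[>] 0) (𝓝 0) := by
      have : Continuous e := by fun_prop
      simpa [e] using (this.tendsto 0).mono_left nhdsWithin_le_nhds
    have hene : ∀ ε : ℝ, 0 < ε → e ε ≠ 0 := fun ε hε =>
      mul_ne_zero (Complex.ofReal_ne_zero.2 hε.ne') Complex.I_ne_zero
    have hpos : ∀ᶠ ε : ℝ in 𝓝[>] 0, 0 < ε := self_mem_nhdsWithin
    have hc : Tendsto c (𝓝[>] 0) (𝓝 (h1 : ℂ)) := by
      have h2 := hasDerivAt_iff_tendsto_slope_zero.1 hd
      have h3 : Tendsto e (𝓝[>] 0) (𝓝[≠] 0) :=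
        tendsto_nhdsWithin_iff.2 ⟨he0, hpos.mono fun ε hε => hene ε hε⟩
      have h4 := h2.comp h3
      rw [h0] at h4
      exact h4
    have hs0 : Tendsto sε (𝓝[>] 0) (𝓝 (4 / 3)) := by
      simpa using he0.const_add (4 / 3 : ℂ)
    have hOm : ∀ᶠ ε : ℝ in 𝓝[>] 0, sε ε ∈ Ω := hΩ
    have hz : ∀ ε : ℝ, 0 < ε → h (sε ε) = μ0 + e ε * c ε := by
      intro ε hε
      simp only [c]
      rw [mul_inv_cancel_left₀ (hene ε hε)]; ring
    have habs : 0 < |h1| := abs_pos.2 h1ne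
    have hre : ∀ᶠ ε : ℝ in 𝓝[>] 0, |h1| / 2 < |(c ε).re| := by
      have h2 : Tendsto (fun ε => |(c ε).re|) (𝓝[>] 0) (𝓝 |h1|) := by
        simpa using ((Complex.continuous_re.tendsto _).comp hc).abs
      exact h2.eventually (lt_mem_nhds (by linarith))
    let A : ℝ → H →L[ℂ] H := fun ε => e ε • resolvent T (h (sε ε))
    have hA : ∀ᶠ ε : ℝ in 𝓝[>] 0, ∀ x, ‖A ε x‖ ≤ 2 / |h1| * ‖x‖ := by
      filter_upwards [hpos, hOm, hre] with ε hε h2 h3 x
      have h4 := R17.Vor.VoAbs_lower hT (h (sε ε)) (resolvent T (h (sε ε)) x)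
      rw [R17.Vor.VoAbs_right (hOpen _ h2)] at h4
      have h5 : (h (sε ε)).im = ε * (c ε).re := by
        rw [hz ε hε]; simp [e]
      have h6 : ‖A ε x‖ = ε * ‖resolvent T (h (sε ε)) x‖ := by
        simp [A, e, norm_smul, abs_of_pos hε]
      rw [h5, abs_mul, abs_of_pos hε] at h4
      rw [h6, div_mul_eq_mul_div, le_div_iff₀ habs]
      have h7 : 0 ≤ ε * ‖resolvent T (h (sε ε)) x‖ := by positivity
      nlinarith
    have t1 : Tendsto (fun ε => A ε (f (sε ε) - f (4 / 3))) (𝓝[>] 0) (𝓝 0) := by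
      refine R17.Vor.VoAbs_small hA ?_
      simpa using ((hf.continuous.tendsto _).comp hs0).sub_const (f (4 / 3))
    have t2 : Tendsto (fun ε => A ε (f (4 / 3) - u)) (𝓝[>] 0) (𝓝 0) := by
      refine R17.Vor.VoAbs_closure (by positivity) hA (S := (S.range : Set H)) ?_ ?_
      · rintro x ⟨y, rfl⟩
        have h2 : Tendsto (fun ε => A ε ((e ε * c ε) • y) - e ε • y) (𝓝[>] 0) (𝓝 0) := by
          have h3 : Tendsto (fun ε => (e ε * c ε) • y) (𝓝[>] 0) (𝓝 0) := by
            simpa using (he0.mul hc).smul_const y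
          simpa using (R17.Vor.VoAbs_small hA h3).sub (he0.smul_const y)
        refine h2.congr' ?_
        filter_upwards [hpos, hOm] with ε hε h3
        have h4 := R17.Vor.VoAbs_left (hOpen _ h3) y
        have h5 : (S : H →ₗ[ℂ] H) y = (e ε * c ε) • y - (h (sε ε) • y - T y) := by
          rw [hz ε hε, add_smul]
          change S y = _
          rw [hSx]; abel
        rw [h5, map_sub]
        simp only [A, smul_apply, h4]
      · have h2 := ContinuousLinearMap.orthogonal_ker S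
        rw [hS.adjoint_eq] at h2
        rw [← Submodule.topologicalClosure_coe, ← h2]
        exact hv
    have t3 : Tendsto (fun ε => A ε u) (𝓝[>] 0) (𝓝 ((h1 : ℂ)⁻¹ • u)) := by
      have h2 : Tendsto (fun ε => (c ε)⁻¹ • u) (𝓝[>] 0) (𝓝 ((h1 : ℂ)⁻¹ • u)) :=
        (hc.inv₀ (Complex.ofReal_ne_zero.2 h1ne)).smul_const u
      refine h2.congr' ?_
      filter_upwards [hpos, hOm, hre] with ε hε h3 h4
      have h5 := R17.Vor.VoAbs_left (hOpen _ h3) u
      have hc0 : c ε ≠ 0 := by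
        intro h6
        rw [h6] at h4
        simp only [Complex.zero_re, abs_zero] at h4
        linarith
      have h6 : h (sε ε) • u - T u = (c ε * e ε) • u := by
        rw [hu, ← sub_smul, hz ε hε]; congr 1; ring
      rw [h6, map_smul, mul_smul] at h5
      simp only [A, smul_apply]
      rw [eq_comm, eq_inv_smul_iff₀ hc0, h5]
    have t4 := ((t1.add t2).add t3).neg
    rw [zero_add, zero_add] at t4
    refine t4.congr fun ε => ?_
    rw [← map_add, ← map_add, sub_add_sub_cancel, sub_add_cancel]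
    simp only [A, smul_apply, smul_neg, e, sε]
  · intro D hD
    have hDK : D ∈ K := by
      change S D = 0
      rw [hSx, hD, sub_self]
    have := Submodule.inner_left_of_mem_orthogonal hDK hv
    rwa [inner_sub_left, sub_eq_zero] at this

/-- Copy `R17.Vor.schur`; additivity from `hint`, measurability from
`StronglyMeasurable.integral_prod_right`; `R17.Vor.VoSchur_bound`, `VoSchur_int` hold for `SFinite`. -/
theorem schur {α : Type} [MeasurableSpace α] {μ : Measure α} [SFinite μ]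
    {K : α → α → ℂ} (hK : Measurable (Function.uncurry K)) {M : ℝ} (hM : 0 ≤ M)
    (h1 : ∀ x, ∫⁻ y, ‖K x y‖ₑ ∂μ ≤ ENNReal.ofReal M) (hsym : ∀ x y, K y x = conj (K x y))
    (hint : ∀ x (f : Lp ℂ 2 μ), Integrable (fun y => K x y * f y) μ) :
    ∃ T : Lp ℂ 2 μ →L[ℂ] Lp ℂ 2 μ, IsSelfAdjoint T ∧
      ∀ f : Lp ℂ 2 μ, T f =ᵐ[μ] fun x => ∫ y, K x y * f y ∂μ := by
  have hmeas : ∀ f : Lp ℂ 2 μ, Measurable f := fun f => (Lp.stronglyMeasurable f).measurable
  have hmem : ∀ f : Lp ℂ 2 μ, MemLp (fun x => ∫ y, K x y * f y ∂μ) 2 μ := fun f =>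
    ⟨(StronglyMeasurable.integral_prod_right (f := fun x y => K x y * f y)
      (hK.mul ((hmeas f).comp measurable_snd)).stronglyMeasurable).aestronglyMeasurable,
      (R17.Vor.VoSchur_bound hK h1 hsym (hmeas f)).trans_lt
      (ENNReal.mul_lt_top ENNReal.ofReal_lt_top (Lp.memLp f).2)⟩
  let T₀ : Lp ℂ 2 μ →ₗ[ℂ] Lp ℂ 2 μ :=
    { toFun := fun f => (hmem f).toLp _
      map_add' := fun f g => by
        rw [← MemLp.toLp_add]
        refine MemLp.toLp_congr _ _ (Eventually.of_forall fun x => ?_)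
        simp only [Pi.add_apply]
        rw [← integral_add (hint x f) (hint x g)]
        refine integral_congr_ae ?_
        filter_upwards [Lp.coeFn_add f g] with y hy
        rw [hy, Pi.add_apply, mul_add]
      map_smul' := fun c f => by
        rw [RingHom.id_apply, ← MemLp.toLp_const_smul]
        refine MemLp.toLp_congr _ _ (Eventually.of_forall fun x => ?_)
        simp only [Pi.smul_apply, smul_eq_mul]
        rw [← integral_const_mul]
        refine integral_congr_ae ?_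
        filter_upwards [Lp.coeFn_smul c f] with y hy
        rw [hy, Pi.smul_apply, smul_eq_mul, mul_left_comm] }
  have hT₀ : ∀ f, ‖T₀ f‖ ≤ M * ‖f‖ := fun f => by
    change ‖(hmem f).toLp _‖ ≤ _
    rw [Lp.norm_toLp, Lp.norm_def, ← ENNReal.toReal_ofReal hM, ← ENNReal.toReal_mul]
    exact ENNReal.toReal_mono
      (ENNReal.mul_ne_top ENNReal.ofReal_ne_top (Lp.memLp f).2.ne) (R17.Vor.VoSchur_bound hK h1 hsym (hmeas f))
  have hT : ∀ f : Lp ℂ 2 μ, T₀.mkContinuous M hT₀ f =ᵐ[μ] fun x => ∫ y, K x y * f y ∂μ :=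
    fun f => (hmem f).coeFn_toLp
  refine ⟨T₀.mkContinuous M hT₀, ?_, hT⟩
  rw [ContinuousLinearMap.isSelfAdjoint_iff_isSymmetric]
  intro f g
  rw [ContinuousLinearMap.coe_coe, L2.inner_def, L2.inner_def]
  have hf : Measurable fun x => conj (f x) := Complex.continuous_conj.measurable.comp (hmeas f)
  have hf2 : MemLp (fun x => conj (f x)) 2 μ :=
    (Lp.memLp f).of_le hf.aestronglyMeasurable (Eventually.of_forall fun x => by simp)
  have h2 := R17.Vor.VoSchur_int hK h1 hsym (hmeas g) hf (Lp.memLp g) hf2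
  have h3 := integral_integral_swap (f := fun x y => conj (f x) * (K x y * g y)) h2
  calc ∫ y, ⟪(T₀.mkContinuous M hT₀ f) y, g y⟫_ℂ ∂μ
      = ∫ y, ∫ x, conj (f x) * (K x y * g y) ∂μ ∂μ := by
        refine integral_congr_ae ?_
        filter_upwards [hT f] with y hy
        rw [hy, RCLike.inner_apply, ← integral_conj, ← integral_const_mul]
        refine integral_congr_ae (Eventually.of_forall fun x => ?_)
        simp only
        rw [map_mul, ← hsym y x]
        ring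
    _ = _ := by
        rw [← h3]
        refine integral_congr_ae ?_
        filter_upwards [hT g] with x hx
        rw [hx, RCLike.inner_apply, integral_const_mul, mul_comm]

/-- `innerSL ℂ (toLp (conj k))`; the norm is at most that of the majorant (`Lp.norm_le_norm_of_ae_le` or
`eLpNorm_mono`) -/
theorem exists_functional {α : Type} [MeasurableSpace α] {μ : Measure α} {k : α → ℂ}
    (hk : AEStronglyMeasurable k μ) {G : α → ℝ} (hG : MemLp G 2 μ) (hb : ∀ y, ‖k y‖ ≤ G y) :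
    ∃ Λ : Lp ℂ 2 μ →L[ℂ] ℂ, (∀ f : Lp ℂ 2 μ, Λ f = ∫ y, k y * f y ∂μ) ∧
      ‖Λ‖ ≤ (eLpNorm G 2 μ).toReal := by
  have hk' : AEStronglyMeasurable (fun y => conj (k y)) μ :=
    Complex.continuous_conj.comp_aestronglyMeasurable hk
  have hb' : ∀ y, ‖conj (k y)‖ ≤ ‖G y‖ := fun y => by
    rw [Complex.norm_conj]; exact (hb y).trans (le_abs_self _)
  have hmem : MemLp (fun y => conj (k y)) 2 μ := hG.of_le hk' (Eventually.of_forall hb')
  refine ⟨innerSL ℂ (hmem.toLp _), fun f => ?_, ?_⟩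
  · rw [innerSL_apply_apply, L2.inner_def]
    refine integral_congr_ae ?_
    filter_upwards [hmem.coeFn_toLp] with y hy
    rw [hy, RCLike.inner_apply, RCLike.conj_conj, mul_comm]
  · rw [innerSL_apply_norm, Lp.norm_toLp]
    exact ENNReal.toReal_mono hG.2.ne (eLpNorm_mono hb')

/-- Copy `R17.Vor.differentiable_toLp`, applying `R17.Vor.VoSchur_taylor` with the bound `|B| * G w`;
`MemLp.of_le_mul`, `Lp.norm_le_mul_norm_of_ae_le_mul`. -/
theorem differentiable_toLp {α : Type} [MeasurableSpace α] {μ : Measure α}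
    {F : ℂ → α → ℂ} (hm : ∀ s, AEStronglyMeasurable (F s) μ)
    (hd : ∀ w, Differentiable ℂ (fun s => F s w)) {G : α → ℝ} (hG0 : ∀ w, 0 ≤ G w) (hG : MemLp G 2 μ)
    (hb : ∀ ρ : ℝ, ∃ B : ℝ, ∀ s, ‖s‖ ≤ ρ → ∀ w, ‖F s w‖ ≤ B * G w) :
    ∃ U : ℂ → Lp ℂ 2 μ, Differentiable ℂ U ∧ ∀ s, U s =ᵐ[μ] F s := by
  have hle : ∀ {f : α → ℂ} {B : ℝ}, AEStronglyMeasurable f μ → (∀ w, ‖f w‖ ≤ B * G w) → MemLp f 2 μ :=
    fun {f B} h1 h2 => hG.of_le_mul (c := B) h1 (Eventually.of_forall fun w => by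
      rw [Real.norm_of_nonneg (hG0 w)]; exact h2 w)
  have hmem : ∀ s, MemLp (F s) 2 μ := fun s => by
    obtain ⟨B, hB⟩ := hb ‖s‖
    exact hle (hm s) (hB s le_rfl)
  refine ⟨fun s => (hmem s).toLp _, fun s => ?_, fun s => (hmem s).coeFn_toLp⟩
  obtain ⟨B, hB⟩ := hb (‖s‖ + 1)
  have hB' : ∀ w, ∀ z ∈ Metric.ball s 1, ‖F z w‖ ≤ B * G w := fun w z hz => by
    refine hB z ?_ w
    rw [mem_ball_iff_norm] at hz
    linarith [norm_le_insert' z s]
  have hDm : AEStronglyMeasurable (fun w => deriv (fun z => F z w) s) μ := by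
    refine aestronglyMeasurable_of_tendsto_ae (𝓝[≠] s)
      (f := fun z w => (z - s)⁻¹ • (F z w - F s w))
      (fun z => ((hm z).sub (hm s)).const_smul (z - s)⁻¹) (Eventually.of_forall fun w => ?_)
    exact hasDerivAt_iff_tendsto_slope.1 (hd w s).hasDerivAt
  have hD : MemLp (fun w => deriv (fun z => F z w) s) 2 μ :=
    hle (B := 2 * B) hDm fun w => by
      rw [mul_assoc]; exact (R17.Vor.VoSchur_taylor (hd w) (hB' w)).1
  refine (hasDerivAt_iff_isLittleO.2 ?_ : HasDerivAt _ (hD.toLp _) s).differentiableAt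
  have h2 : (fun z : ℂ => ‖z - s‖ ^ 2) =o[𝓝 s] fun z => z - s :=
    Asymptotics.isLittleO_pow_sub_sub s one_lt_two
  refine Asymptotics.IsBigO.trans_isLittleO ?_ h2
  refine Asymptotics.IsBigO.of_bound (4 * B * ‖hG.toLp G‖) ?_
  filter_upwards [Metric.ball_mem_nhds s one_pos] with z hz
  rw [Real.norm_of_nonneg (by positivity), mul_right_comm]
  refine Lp.norm_le_mul_norm_of_ae_le_mul ?_
  filter_upwards [Lp.coeFn_sub ((hmem z).toLp _ - (hmem s).toLp _) ((z - s) • hD.toLp _),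
    Lp.coeFn_sub ((hmem z).toLp _) ((hmem s).toLp _), Lp.coeFn_smul (z - s) (hD.toLp _),
    (hmem z).coeFn_toLp, (hmem s).coeFn_toLp, hD.coeFn_toLp, hG.coeFn_toLp] with w a1 a2 a3 a4 a5 a6 a7
  rw [a1, Pi.sub_apply, a2, Pi.sub_apply, a3, Pi.smul_apply, a4, a5, a6, smul_eq_mul, a7,
    Real.norm_of_nonneg (hG0 w)]
  exact ((R17.Vor.VoSchur_taylor (hd w) (hB' w)).2 z hz).trans (le_of_eq (by ring))

end Crest.Agent.R312.Th
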