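import Crest.Agent.R312.B5AEis

/-!
# R312 / B5ACT : the constant term of the majorant `EE` (Tonelli version of `R17/VoCoef`), `summable_DS`
-/

set_option autoImplicit false
set_option linter.unusedSectionVars false

noncomputable section

open scoped Classical ComplexConjugate NumberField Topology ENNReal InnerProductSpace
open MeasureTheory Filter
open Crest.Agent.R17.Vor (SL X vc zc pt o hr act uu kk hh Tt pw hi lo mid W Vr nn SS Adm LocBd)

namespace Crest.Agent.R312.Th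

variable {K : Type} [Field K] [NumberField K] [Fld K] [Loc K] [Setup K]
variable {κ : R K → R K → ℂ} {I : Ideal (𝓞 K)}

omit [Loc K] [Setup K] in
theorem ct_meas (σ : ℝ) (v : Pl K → ℝ) (a : Pl K → ℂ) : Measurable fun z : Pl K → ℂ =>
    ENNReal.ofReal ((∏ i, v i / (‖z i + a i‖ ^ 2 + v i ^ 2)) ^ σ) := by
  refine (Measurable.pow_const (Finset.measurable_prod _ fun i _ => ?_) σ).ennreal_ofReal
  exact measurable_const.div (Continuous.measurable (by fun_prop))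
omit [Loc K] [Setup K] in
/-- translate by `a`, substitute `z = v y` (`map_mul_pi`, `lintegral_map`):
`v/(v²|y|² + v²) = v⁻¹ (1+|y|²)⁻¹` -/
theorem lintegral_pw (σ : ℝ) {v : Pl K → ℝ} (hv : ∀ i, 0 < v i) (a : Pl K → ℂ) :
    ∫⁻ z : Pl K → ℂ, ENNReal.ofReal ((∏ i, v i / (‖z i + a i‖ ^ 2 + v i ^ 2)) ^ σ) =
      ENNReal.ofReal ((∏ i, v i) ^ (2 - σ)) * JE K σ := by
  have hP : 0 < ∏ i, v i := Finset.prod_pos fun i _ => hv i
  have h1 := lintegral_add_right_eq_self (μ := (volume : Measure (Pl K → ℂ)))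
    (fun z : Pl K → ℂ => ENNReal.ofReal ((∏ i, v i / (‖z i + (0 : Pl K → ℂ) i‖ ^ 2 + v i ^ 2)) ^ σ)) a
  have h2 := lintegral_map (μ := (volume : Measure (Pl K → ℂ))) (ct_meas σ v 0)
    (g := fun y : Pl K → ℂ => (fun i => (v i : ℂ)) * y) (Continuous.measurable (by fun_prop))
  rw [map_mul_pi fun i => Complex.ofReal_ne_zero.2 (hv i).ne', lintegral_smul_measure] at h2
  simp only [Pi.add_apply, Pi.zero_apply, add_zero, Pi.mul_apply, norm_mul, Complex.norm_real,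
    Real.norm_of_nonneg (hv _).le, smul_eq_mul] at h1 h2
  have h3 : ∀ y : Pl K → ℂ, ENNReal.ofReal ((∏ i, v i / ((v i * ‖y i‖) ^ 2 + v i ^ 2)) ^ σ) =
      ENNReal.ofReal ((∏ i, v i) ^ (-σ)) * ENNReal.ofReal (∏ i, (1 + ‖y i‖ ^ 2) ^ (-σ)) := fun y => by
    rw [← ENNReal.ofReal_mul (by positivity), Real.finset_prod_rpow _ _ (fun i _ => by positivity),
      ← Real.mul_rpow hP.le (Finset.prod_nonneg fun i _ => by positivity), ← Finset.prod_mul_distrib,
      Real.rpow_neg (Finset.prod_nonneg fun i _ => by have := hv i; positivity),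
      ← Real.inv_rpow (Finset.prod_nonneg fun i _ => by have := hv i; positivity),
      ← Finset.prod_inv_distrib]
    congr 2
    refine Finset.prod_congr rfl fun i _ => ?_
    have := hv i
    field_simp
    ring
  simp only [h3] at h2
  rw [lintegral_const_mul' _ _ ENNReal.ofReal_ne_top] at h2
  have h4 : (∏ i, v i) ^ (2 - σ) = (∏ i, v i ^ 2) * (∏ i, v i) ^ (-σ) := by
    rw [Finset.prod_pow, sub_eq_add_neg, Real.rpow_add hP, Real.rpow_two]
  have h5 : 0 < ∏ i, v i ^ 2 := Finset.prod_pos fun i _ => pow_pos (hv i) 2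
  rw [h1, h4, ENNReal.ofReal_mul h5.le, mul_assoc, JE, ← h2, ← mul_assoc, ← ENNReal.ofReal_mul h5.le,
    mul_inv_cancel₀ h5.ne', ENNReal.ofReal_one, one_mul]

omit [Setup K] in
/-- `exists_latEquiv`, `ENNReal.tsum_prod`, `Ht_ptK` (`(D + C t)/C = D/C + t`), `lintegral_cellI`,
`lintegral_pw` -/
theorem ct_row (hI : I ≠ ⊥) {a : R K → R K → ℝ≥0∞} (hper : PerI I a) (σ : ℝ) {v : Pl K → ℝ}
    (hv : ∀ i, 0 < v i) {C : R K} (hC : C ≠ 0) :
    ∑' D : R K, ∫⁻ z in cellI I, a C D * ENNReal.ofReal (Ht (ptK z v) (C : K) (D : K) ^ σ) =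
      ENNReal.ofReal ((∏ i, v i) ^ (2 - σ)) * JE K σ *
        (ENNReal.ofReal (aN (C : K) ^ (-σ)) * ∑' D : R K ⧸ latI C I, a C D.out) := by
  obtain ⟨e, he⟩ := exists_latEquiv hC I
  have hC' : (C : K) ≠ 0 := fun h => hC (Subtype.ext h)
  rw [← e.tsum_eq, ENNReal.tsum_prod', ← ENNReal.tsum_mul_left, ← ENNReal.tsum_mul_left]
  refine tsum_congr fun D => ?_
  have h1 := lintegral_cellI hI fun z : Pl K → ℂ => a C D.out * ENNReal.ofReal (aN (C : K) ^ (-σ)) *
    ENNReal.ofReal ((∏ i, v i / (‖z i + embv (((D.out : R K) : K) / (C : K)) i‖ ^ 2 + v i ^ 2)) ^ σ)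
  rw [lintegral_const_mul _ (ct_meas σ v _), lintegral_pw σ hv] at h1
  refine Eq.trans (tsum_congr fun t => lintegral_congr fun z => ?_) (h1.trans (by ring))
  have h2 : ∀ i, z i + emb i (((D.out + C * toR (t : 𝓞 K) : R K) : K) / (C : K)) =
      (z + embv ((t : 𝓞 K) : K)) i + embv (((D.out : R K) : K) / (C : K)) i := fun i => by
    rw [Pi.add_apply, embv_apply, embv_apply, add_assoc, ← emb_add]
    congr 2
    change (((D.out : R K) : K) + (C : K) * ((t : 𝓞 K) : K)) / (C : K) = _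
    field_simp
    ring
  rw [he, hper _ _ _ t.2, Ht_ptK hC' _ z hv, mul_assoc, ← ENNReal.ofReal_mul (Real.rpow_nonneg
    (aN_nonneg _) _), Real.mul_rpow (inv_nonneg.2 (aN_nonneg _))
    (Finset.prod_nonneg fun i _ => by have := hv i; positivity), Real.inv_rpow (aN_nonneg _),
    ← Real.rpow_neg (aN_nonneg _)]
  simp only [h2]

/-- `lintegral_tsum`, `tsum_rowQ_ennreal` (invariance: `Ht_ups`), `Ht_zero`, `ht_ptK`, `ct_row` -/
theorem ct_eq (hI : I ≠ ⊥) {a : R K → R K → ℝ≥0∞} (hinv : UInv a) (hper : PerI I a) (σ : ℝ)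
    {v : Pl K → ℝ} (hv : ∀ i, 0 < v i) :
    ∫⁻ z in cellI I, EE a σ (ptK z v) =
      volume (cellI I) * ENNReal.ofReal ((∏ i, v i) ^ σ) * A0E a σ +
        ENNReal.ofReal ((∏ i, v i) ^ (2 - σ)) * JE K σ * A1E I a σ := by
  have hP : 0 < ∏ i, v i := Finset.prod_pos fun i _ => hv i
  have hG : UInv fun c d : R K => ∫⁻ z in cellI I, a c d *
      ENNReal.ofReal (Ht (ptK z v) (c : K) (d : K) ^ σ) := fun u hu c d => by
    simp only [hinv u hu, Ht_ups hu]
  have hm : ∀ r : RowQ K, Measurable fun z : Pl K → ℂ => a r.out.1 r.out.2 *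
      ENNReal.ofReal (Ht (ptK z v) (r.out.1 : K) (r.out.2 : K) ^ σ) := fun r =>
    ((((measurable_Ht _ _).comp (continuous_ptK v).measurable).pow_const σ).ennreal_ofReal).const_mul _
  unfold EE
  rw [lintegral_tsum fun r => (hm r).aemeasurable, tsum_rowQ_ennreal hG, A0E, A1E,
    ← ENNReal.tsum_mul_left, ← ENNReal.tsum_mul_left]
  congr 1
  · refine tsum_congr fun D => ?_
    simp only [ZeroMemClass.coe_zero, Ht_zero, ht_ptK _ hv]
    rw [setLIntegral_const, Real.div_rpow hP.le (aN_nonneg _), div_eq_mul_inv,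
      ← Real.rpow_neg (aN_nonneg _), ENNReal.ofReal_mul (by positivity)]
    ring
  · refine tsum_congr fun C => ?_
    split_ifs with hC
    · rw [mul_zero]
    · exact ct_row hI hper σ hv hC

/-- `ct_eq` at `v = 1`; the left side is `≤ B · vol` (`exists_inB_cellI 1`, `EE_chiL_le`); the factors
`volume (cellI I)`, `JE K σ` are non-zero -/
theorem A_ne_top (hI : I ≠ ⊥) {a : R K → R K → ℝ≥0∞} (hinv : UInv a) (hper : PerI I a) {e : ℕ}
    (ha : ∀ c d, a c d ≤ chiL e c d) {σ : ℝ} (hσ : 2 < σ) : A0E a σ ≠ ∞ ∧ A1E I a σ ≠ ∞ := by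
  obtain ⟨ρ, hρ⟩ := exists_inB_cellI (1 : Pl K → SL ℂ) I fun _ => 1
  obtain ⟨B, hB, hb⟩ := EE_chiL_le (K := K) e hσ ρ
  have h1 := ct_eq hI hinv hper σ (v := fun _ => 1) fun _ => one_pos
  have h2 : ∫⁻ z in cellI I, EE a σ (ptK z fun _ => 1) ≠ ∞ := by
    refine ne_top_of_le_ne_top (ENNReal.mul_ne_top hB (volume_cellI_lt_top I).ne) ?_
    rw [← setLIntegral_const]
    refine setLIntegral_mono' (measurableSet_cellI I) fun z hz => le_trans ?_ (hb _ (hρ z hz))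
    rw [actP_one]
    exact ENNReal.tsum_le_tsum fun r => mul_le_mul' (ha _ _) le_rfl
  simp only [Finset.prod_const_one, Real.one_rpow, ENNReal.ofReal_one, mul_one, one_mul] at h1
  rw [h1, ENNReal.add_ne_top] at h2
  exact ⟨fun h => h2.1 (by rw [h, ENNReal.mul_top (volume_cellI_ne_zero hI)]),
    fun h => h2.2 (by rw [h, ENNReal.mul_top (JE_ne_zero σ)])⟩

/-- **(CT)**: `t^σ = t^{2-σ} t^{2σ-2} ≤ t^{2-σ} |B|^{2σ-2}` -/
theorem ct_bound (hI : I ≠ ⊥) (e : ℕ) {σ : ℝ} (hσ : 2 < σ) (B : ℝ) : ∃ C : ℝ≥0∞, C ≠ ∞ ∧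
    ∀ v : Pl K → ℝ, (∀ i, 0 < v i) → ∏ i, v i ≤ B →
      ∫⁻ z in cellI I, EE (chiL e) σ (ptK z v) ≤ C * ENNReal.ofReal ((∏ i, v i) ^ (2 - σ)) := by
  obtain ⟨h0, h1⟩ := A_ne_top hI (uInv_chiL e) (perI_chiL e I) (fun _ _ => le_rfl) hσ
  refine ⟨volume (cellI I) * ENNReal.ofReal (|B| ^ (2 * σ - 2)) * A0E (K := K) (chiL e) σ +
    JE K σ * A1E I (chiL e) σ, ENNReal.add_ne_top.2 ⟨ENNReal.mul_ne_top (ENNReal.mul_ne_top
      (volume_cellI_lt_top I).ne ENNReal.ofReal_ne_top) h0,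
      ENNReal.mul_ne_top (JE_ne_top (by linarith)) h1⟩, fun v hv hB => ?_⟩
  have hP : 0 < ∏ i, v i := Finset.prod_pos fun i _ => hv i
  have h2 : ENNReal.ofReal ((∏ i, v i) ^ σ) ≤
      ENNReal.ofReal (|B| ^ (2 * σ - 2)) * ENNReal.ofReal ((∏ i, v i) ^ (2 - σ)) := by
    rw [← ENNReal.ofReal_mul (by positivity)]
    refine ENNReal.ofReal_le_ofReal ?_
    calc (∏ i, v i) ^ σ = (∏ i, v i) ^ (2 * σ - 2) * (∏ i, v i) ^ (2 - σ) := by
          rw [← Real.rpow_add hP]; congr 1; ring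
      _ ≤ _ := mul_le_mul_of_nonneg_right (Real.rpow_le_rpow hP.le (hB.trans (le_abs_self B))
          (by linarith)) (by positivity)
  rw [ct_eq hI (uInv_chiL e) (perI_chiL e I) σ hv, add_mul]
  refine add_le_add ((mul_le_mul' (mul_le_mul' le_rfl h2) le_rfl).trans (le_of_eq ?_)) (le_of_eq ?_)
  · ring
  · ring

/-- absolute convergence of `DS`: `A_ne_top` for `a = ‖κ‖ₑ`, `enorm_tsum_le_tsum_enorm`, `norm_eT`,
`tsum_enorm_ne_top_iff_summable_norm` (or `ENNReal.summable_toReal`) -/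
theorem summable_DS (h : RowBd κ) (hI : I ≠ ⊥) (hper : Per3 I κ) (n : K) {s : ℂ} (hs : 2 < s.re) :
    Summable fun C : EltQ K (M0 K) => ‖if C.out = 0 then 0 else
      ((aN ((C.out : R K) : K) : ℝ) : ℂ) ^ (-s) * KS I κ C.out n‖ := by
  obtain ⟨e, he⟩ := h.le_chiL
  have h1 := (A_ne_top hI (a := fun c d => ‖κ c d‖ₑ) (fun u hu c d => by simp only [h.inv u hu])
    (fun C D t ht0 => by simp only [hper C D t ht0]) he hs).2
  refine tsum_enorm_ne_top_iff_summable_norm.1 (ne_top_of_le_ne_top h1 ?_)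
  refine ENNReal.tsum_le_tsum fun C => ?_
  split_ifs with hC
  · simp
  · rw [enorm_mul, ← ofReal_norm, Complex.norm_cpow_eq_rpow_re_of_pos
      (aN_pos fun h => hC (Subtype.ext h)), Complex.neg_re]
    refine mul_le_mul' le_rfl (enorm_tsum_le_tsum_enorm.trans_eq (tsum_congr fun D => ?_))
    rw [enorm_mul, ← ofReal_norm (eT _), norm_eT, ENNReal.ofReal_one, mul_one]

end Crest.Agent.R312.Th
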