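import Crest.Agent.R312.B5AGeo

/-!
# R312 / B5ACell : the parallelotope `cellI I`, unfolding on `K_∞`, Fourier series
(port of `R17/VoCell`, `VoFour`; everything follows from `exists_ideal_basis` and `B3PoisZ`)
-/

set_option autoImplicit false
set_option linter.unusedSectionVars false

noncomputable section

open scoped Classical ComplexConjugate NumberField Topology ENNReal InnerProductSpace
open MeasureTheory Filter
open Crest.Agent.R17.Vor (SL X vc zc pt o hr act uu kk hh Tt pw hi lo mid W Vr nn SS Adm LocBd)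

namespace Crest.Agent.R312.Th

section arch
variable {K : Type} [Field K] [NumberField K] [Fld K] {I : Ideal (𝓞 K)}

/-- unpack the definition of `cellI` (`dif_pos`, `choose_spec`) -/
theorem cellI_spec (hI : I ≠ ⊥) : ∃ (ι : Type) (_ : Fintype ι) (b : Module.Basis ι ℝ (Pl K → ℂ))
    (e : (ι → ℤ) ≃ I) (e' : (ι → ℤ) ≃ dualI I), cellI I = ZSpan.fundamentalDomain b ∧
      (∀ n, embv (((e n : I) : 𝓞 K) : K) = ∑ i, (n i : ℝ) • b i) ∧ e' 0 = 0 ∧
      (∀ m y, eI (embv ((e' m : dualI I) : K) * y) = eR (∑ i, m i * b.repr y i)) ∧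
      (∏ v : Pl K, 2 / dl v) * (volume : Measure (Pl K → ℂ)).real (ZSpan.fundamentalDomain b) =
        Ideal.absNorm I := by
  obtain ⟨b', e, e', h1, h2, h3, h4⟩ := (exists_ideal_basis hI).choose_spec.choose_spec.choose_spec
  refine ⟨_, _, _, e, e', dif_pos hI, h1, Subtype.ext (po_embv_inj ?_), h3, h4⟩
  rw [h2]
  simp

theorem measurableSet_cellI (I : Ideal (𝓞 K)) : MeasurableSet (cellI I) := by
  by_cases hI : I = ⊥
  · rw [cellI, dif_neg (not_not.2 hI)]
    exact MeasurableSet.empty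
  obtain ⟨ι, _, b, e, e', h, -⟩ := cellI_spec hI
  rw [h]
  exact ZSpan.fundamentalDomain_measurableSet b
theorem cell_bdd (I : Ideal (𝓞 K)) : Bornology.IsBounded (cellI I) := by
  by_cases hI : I = ⊥
  · rw [cellI, dif_neg (not_not.2 hI)]
    exact Bornology.isBounded_empty
  obtain ⟨ι, _, b, e, e', h, -⟩ := cellI_spec hI
  rw [h]
  exact ZSpan.fundamentalDomain_isBounded b

/-- `ZSpan.fundamentalDomain_isBounded` -/
theorem exists_bound_cellI (I : Ideal (𝓞 K)) : ∃ A : ℝ, ∀ z ∈ cellI I, ‖z‖ ≤ A := (cell_bdd I).exists_norm_le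
theorem volume_cellI_lt_top (I : Ideal (𝓞 K)) : volume (cellI I) < ∞ := (cell_bdd I).measure_lt_top
theorem volume_cellI_ne_zero (hI : I ≠ ⊥) : volume (cellI I) ≠ 0 := by
  obtain ⟨ι, _, b, e, e', h, -⟩ := cellI_spec hI
  rw [h]
  exact ZSpan.measure_fundamentalDomain_ne_zero b
theorem ivol_mul_vol (hI : I ≠ ⊥) : ivol I * (volume : Measure (Pl K → ℂ)).real (cellI I) = 1 := by
  obtain ⟨ι, _, b, e, e', h, -, -, -, h4⟩ := cellI_spec hI
  rw [h, ivol, div_mul_eq_mul_div, h4, div_self]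
  exact Nat.cast_ne_zero.2 (Ideal.absNorm_eq_zero_iff.not.2 hI)
theorem integrableOn_cellI {f : (Pl K → ℂ) → ℂ} (hf : Continuous f) (I : Ideal (𝓞 K)) :
    IntegrableOn f (cellI I) :=   (hf.continuousOn.integrableOn_compact (cell_bdd I).isCompact_closure).mono_set subset_closure
theorem existsUnique_cellI (hI : I ≠ ⊥) (z : Pl K → ℂ) :
    ∃! t : I, z + embv ((t : 𝓞 K) : K) ∈ cellI I := by
  obtain ⟨ι, _, b, e, e', h, h1, -⟩ := cellI_spec hI
  have h2 : ∀ n, z + embv (((e n : I) : 𝓞 K) : K) ∈ cellI I ↔ n = fun i => -⌊b.repr z i⌋ := fun n => by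
    rw [h, h1, ZSpan.mem_fundamentalDomain, funext_iff]
    refine forall_congr' fun i => ?_
    rw [map_add, Finsupp.add_apply, b.repr_sum_self, eq_neg_iff_add_eq_zero, add_comm (n i),
      ← Int.floor_add_intCast, Int.floor_eq_zero_iff]
  refine (e.existsUnique_congr fun n => Iff.rfl).1 ?_
  simp only [h2]
  exact existsUnique_eq
/-- `hasSum_unfold` with `ℓ = b.equivFun` -/
theorem hasSum_cellI (hI : I ≠ ⊥) {f : (Pl K → ℂ) → ℂ} (hf : Integrable f) :
    HasSum (fun t : I => ∫ z in cellI I, f (z + embv ((t : 𝓞 K) : K))) (∫ z, f z) := by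
  obtain ⟨ι, _, b, e, e', h, h1, -⟩ := cellI_spec hI
  rw [← e.hasSum_iff, h]
  exact hasSum_unfold volume b.equivFun.toAddMonoidHom b.equivFunL.continuous.measurable
    (fun n => embv (((e n : I) : 𝓞 K) : K)) (fun n i => by
      rw [h1]; exact congrFun (b.repr_sum_self _) i) hf
/-- `lintegral_unfold` -/
theorem lintegral_cellI (hI : I ≠ ⊥) (f : (Pl K → ℂ) → ℝ≥0∞) :
    ∑' t : I, ∫⁻ z in cellI I, f (z + embv ((t : 𝓞 K) : K)) = ∫⁻ z, f z := by
  obtain ⟨ι, _, b, e, e', h, h1, -⟩ := cellI_spec hI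
  rw [← e.tsum_eq, h]
  exact lintegral_unfold volume b.equivFun.toAddMonoidHom b.equivFunL.continuous.measurable
    (fun n => embv (((e n : I) : 𝓞 K) : K)) (fun n i => by
      rw [h1]; exact congrFun (b.repr_sum_self _) i) f
/-- `eT_eq_eI`, `eT_of_isIntegral` -/
theorem eI_dual {n : K} (hn : n ∈ dualI I) {t : 𝓞 K} (ht : t ∈ I) :
    eI (embv n * embv (t : K)) = 1 := by
  rw [← embv_mul, ← eT_eq_eI, eT_of_isIntegral (hn t ht)]
theorem eI_eq_ee (z : Pl K → ℂ) : eI z = ∏ v, R17.ee (lm v * z v) := by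
  rw [eI_eq_prod]
  refine Finset.prod_congr rfl fun v _ => ?_
  have h3 : (Real.sqrt 3 : ℂ) ≠ 0 := Complex.ofReal_ne_zero.2 (by positivity)
  rw [R17.ee, show lm v * z v = (Real.sqrt 3 : ℂ) * (Complex.I * (z v / dlt v)) by unfold lm; ring,
    Complex.im_ofReal_mul, Complex.I_mul_im]
  congr 1
  push_cast
  field_simp
  ring
/-- `integral_basis_coord` applied to an indicator function -/
theorem setIntegral_basis {ι : Type} [Fintype ι] (b : Module.Basis ι ℝ (Pl K → ℂ))
    (F : (Pl K → ℂ) → ℂ) : ∫ z in ZSpan.fundamentalDomain b, F z =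
      ((volume : Measure (Pl K → ℂ)).real (ZSpan.fundamentalDomain b) : ℂ) *
        ∫ t in {t : ι → ℝ | ∀ i, t i ∈ Set.Ico (0 : ℝ) 1}, F (∑ i, t i • b i) := by
  rw [← integral_indicator (ZSpan.fundamentalDomain_measurableSet b), integral_basis_coord volume b,
    ← integral_indicator measurableSet_cube]
  congr 2
  funext t
  simp only [Set.indicator, ZSpan.mem_fundamentalDomain, b.repr_sum_self, Set.mem_ofPred_eq]
/-- coordinates, then a product of `∫_0^1 e(-m t) dt` (`pz_cube_eq`, `integral_fintype_prod_eq_prod` for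
`Measure.pi` of the restrictions, `Measure.restrict_pi_pi`, `R17.Vor.vocell_integral_exp`) -/
theorem integral_cellI_eI (hI : I ≠ ⊥) {n : K} (hn : n ∈ dualI I) :
    ∫ z in cellI I, eI (-(embv n * z)) =
      if n = 0 then ((volume : Measure (Pl K → ℂ)).real (cellI I) : ℂ) else 0 := by
  obtain ⟨ι, _, b, e, e', h, -, h0, h3, -⟩ := cellI_spec hI
  obtain ⟨m, hm⟩ := e'.surjective ⟨n, hn⟩
  have hn' : n = (e' m : dualI I) := by rw [hm]
  have hm0 : n = 0 ↔ m = 0 := by
    rw [hn', ZeroMemClass.coe_eq_zero, ← h0, e'.apply_eq_iff_eq]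
  rw [h, setIntegral_basis, hm0]
  simp only [hn', ← mul_neg, h3, map_neg, Finsupp.neg_apply, b.repr_sum_self]
  have e1 : ∀ t : ι → ℝ, eR (∑ i, m i * -t i) =
      ∏ i, Complex.exp (2 * Real.pi * Complex.I * ((-m i : ℤ) : ℂ) * t i) := fun t => by
    rw [eR, ← Complex.exp_sum]
    congr 1
    push_cast
    rw [Finset.mul_sum]
    exact Finset.sum_congr rfl fun i _ => by ring
  simp only [e1]
  rw [pz_cube_eq, volume_pi (α := fun _ : ι => ℝ), Measure.restrict_pi_pi, integral_fintype_prod_eq_prod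
    (fun i (t : ℝ) => Complex.exp (2 * Real.pi * Complex.I * ((-m i : ℤ) : ℂ) * t))]
  simp only [integral_Ico_eq_integral_Ioo, ← integral_Ioc_eq_integral_Ioo,
    ← intervalIntegral.integral_of_le zero_le_one, R17.Vor.vocell_integral_exp, neg_eq_zero]
  rw [Finset.prod_ite_zero]
  simp [funext_iff]
/-- `hasSum_fourier_Z` for `t ↦ f (∑ t_i b_i)` -/
theorem fourier_cellI (hI : I ≠ ⊥) {f : (Pl K → ℂ) → ℂ} (hf : Continuous f)
    (hper : ∀ z, ∀ t ∈ I, f (z + embv ((t : 𝓞 K) : K)) = f z)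
    (hs : Summable fun n : dualI I => ∫ z in cellI I, f z * eI (-(embv (n : K) * z))) (z : Pl K → ℂ) :
    HasSum (fun n : dualI I => (ivol I : ℂ) * (∫ y in cellI I, f y * eI (-(embv (n : K) * y))) *
      eI (embv (n : K) * z)) (f z) := by
  obtain ⟨ι, _, b, e, e', h, h1, -, h3, -⟩ := cellI_spec hI
  have hv := ivol_mul_vol hI
  have hco : ∀ m : ι → ℤ, ∫ t in {t : ι → ℝ | ∀ i, t i ∈ Set.Ico (0 : ℝ) 1},
      f (∑ i, t i • b i) * eR (-∑ i, m i * t i) =
      (ivol I : ℂ) * ∫ y in cellI I, f y * eI (-(embv ((e' m : dualI I) : K) * y)) := fun m => by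
    rw [h] at hv
    rw [h, setIntegral_basis, ← mul_assoc, ← Complex.ofReal_mul, hv, Complex.ofReal_one, one_mul]
    simp only [← mul_neg, h3, map_neg, Finsupp.neg_apply, b.repr_sum_self]
    simp only [mul_neg, Finset.sum_neg_distrib]
  have h5 := hasSum_fourier_Z (F := fun t : ι → ℝ => f (∑ i, t i • b i)) (by fun_prop)
    (fun x n => by
      simp only [Pi.add_apply, add_smul, Finset.sum_add_distrib, ← h1]
      exact hper _ _ (e n).2)
    (by simp only [hco]; exact (e'.summable_iff.2 hs).mul_left _) (b.repr z)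
  simp only [hco, b.sum_repr, ← h3] at h5
  exact e'.hasSum_iff.1 h5
theorem continuous_eI_neg (n : K) : Continuous fun z : Pl K → ℂ => eI (-(embv n * z)) := continuous_eI.comp (by fun_prop)

theorem coef_sub (hI : I ≠ ⊥) {F F' : XX K → ℂ} (hF : Continuous F) (hF' : Continuous F') (c c' : ℂ)
    (n : K) {v : Pl K → ℝ} (hv : ∀ i, 0 < v i) :
    coef I n v (fun w => c * F w - c' * F' w) = c * coef I n v F - c' * coef I n v F' := by
  have h : ∀ {F : XX K → ℂ}, Continuous F →
      IntegrableOn (fun z => F (ptK z v) * eI (-(embv n * z))) (cellI I) := fun hF =>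
    integrableOn_cellI ((hF.comp (continuous_ptK v)).mul (continuous_eI_neg n)) I
  simp only [coef, sub_mul, mul_assoc]
  rw [integral_sub ((h hF).const_mul c) ((h hF').const_mul c'), integral_const_mul, integral_const_mul]

/-- the points `g (z, v)`, `z ∈ cellI I`, lie in a ball (`exists_inB_of_isCompact`) -/
theorem exists_inB_cellI (g : Pl K → SL ℂ) (I : Ideal (𝓞 K)) (v : Pl K → ℝ) :
    ∃ ρ : ℝ, ∀ z ∈ cellI I, InB ρ (actP g (ptK z v)) := by
  obtain ⟨ρ, h⟩ := exists_inB_of_isCompact ((cell_bdd I).isCompact_closure.image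
    ((continuous_actP g).comp (continuous_ptK v)))
  exact ⟨ρ, fun z hz => h _ ⟨z, subset_closure hz, rfl⟩⟩

end arch

end Crest.Agent.R312.Th
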