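import Crest.Agent.R312.B5ACT

/-!
# R312 / B5ACoef : Fourier coefficients of `Eis κ (pw s)`, `Re s > 2` (port of `R17/VoCoef`)
-/

set_option autoImplicit false
set_option linter.unusedSectionVars false

noncomputable section

open scoped Classical ComplexConjugate NumberField Topology ENNReal InnerProductSpace
open MeasureTheory Filter
open Crest.Agent.R17.Vor (SL X vc zc pt o hr act uu kk hh Tt pw hi lo mid W Vr nn SS Adm LocBd)

namespace Crest.Agent.R312.Th

variable {K : Type} [Field K] [NumberField K] [Fld K] [Loc K] [Setup K]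
variable {κ : R K → R K → ℂ} {I : Ideal (𝓞 K)}

/-- the summand of the Fourier coefficient -/
def cT (n : K) (κ : R K → R K → ℂ) (s : ℂ) (v : Pl K → ℝ) (c d : R K) (z : Pl K → ℂ) : ℂ :=
  κ c d * pw s (Ht (ptK z v) (c : K) (d : K)) * eI (-(embv n * z))

theorem b5acoef_pw_mul (s : ℂ) {x y : ℝ} (hx : 0 ≤ x) (hy : 0 ≤ y) :
    pw s (x * y) = pw s x * pw s y := by
  unfold pw
  rw [Complex.ofReal_mul, Complex.mul_cpow_ofReal_nonneg hx hy]

theorem b5acoef_pw_inv (s : ℂ) {x : ℝ} (hx : 0 ≤ x) : pw s x⁻¹ = (x : ℂ) ^ (-s) := by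
  unfold pw
  rw [Complex.ofReal_inv, Complex.inv_cpow, Complex.cpow_neg]
  rw [Complex.arg_ofReal_of_nonneg hx]
  exact Real.pi_pos.ne

theorem b5acoef_pw_prod {ι : Type} (s : ℂ) (T : Finset ι) {f : ι → ℝ} (hf : ∀ i, 0 ≤ f i) :
    pw s (∏ i ∈ T, f i) = ∏ i ∈ T, pw s (f i) := by
  induction T using Finset.induction_on with
  | empty => simp [pw]
  | insert a T ha ih =>
    rw [Finset.prod_insert ha, Finset.prod_insert ha,
      b5acoef_pw_mul s (hf a) (Finset.prod_nonneg fun i _ => hf i), ih]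

omit [Loc K] [Setup K] in
theorem b5acoef_prod (s : ℂ) {v : Pl K → ℝ} (hv : ∀ i, 0 < v i) (a : Pl K → ℂ) (n : K)
    (z : Pl K → ℂ) :
    pw s (∏ i, v i / (‖z i + a i‖ ^ 2 + v i ^ 2)) * eI (-(embv n * z)) =
      ∏ i, (v i : ℂ) ^ s * (((‖z i + a i‖ ^ 2 + v i ^ 2 : ℝ) : ℂ) ^ (-s) *
        R17.ee (-(lm i * emb i n * z i))) := by
  rw [b5acoef_pw_prod s _ (fun i => div_nonneg (hv i).le (by positivity)), eI_eq_ee,
    ← Finset.prod_mul_distrib]
  refine Finset.prod_congr rfl fun i _ => ?_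
  rw [div_eq_mul_inv, b5acoef_pw_mul s (hv i).le (by positivity),
    b5acoef_pw_inv s (by positivity), mul_assoc]
  congr 3
  simp only [Pi.neg_apply, Pi.mul_apply, embv_apply]
  ring

omit [Loc K] [Setup K] in
/-- `eI_eq_ee`; product of the one-place integrands (`pw` of a product is the product of the `pw`;
`pw s (v/A) = v^s A^{-s}`), `Integrable.fintype_prod`, `R17.Vor.VoCoef_integrable` -/
theorem integrable_pw_eI {s : ℂ} (hs : 1 < s.re) {v : Pl K → ℝ} (hv : ∀ i, 0 < v i) (a : Pl K → ℂ)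
    (n : K) : Integrable fun z : Pl K → ℂ =>
      pw s (∏ i, v i / (‖z i + a i‖ ^ 2 + v i ^ 2)) * eI (-(embv n * z)) := by
  simp only [b5acoef_prod s hv]
  exact Integrable.fintype_prod (f := fun (i : Pl K) (z : ℂ) => (v i : ℂ) ^ s *
    (((‖z + a i‖ ^ 2 + v i ^ 2 : ℝ) : ℂ) ^ (-s) * R17.ee (-(lm i * emb i n * z))))
    fun i => (R17.Vor.VoCoef_integrable hs (hv i) (a i) (lm i * emb i n)).const_mul _
omit [Loc K] [Setup K] in
/-- `integral_fintype_prod_volume_eq_prod`, `R17.Vor.VoCoef_integral` with `ξ = lm i * emb i n` -/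
theorem integral_pw_eI {s : ℂ} (hs : 1 < s.re) {v : Pl K → ℝ} (hv : ∀ i, 0 < v i) (a : Pl K → ℂ)
    (n : K) : ∫ z : Pl K → ℂ, pw s (∏ i, v i / (‖z i + a i‖ ^ 2 + v i ^ 2)) * eI (-(embv n * z)) =
      eI (embv n * a) * AW n v s := by
  simp only [b5acoef_prod s hv]
  rw [integral_fintype_prod_volume_eq_prod (fun (i : Pl K) (z : ℂ) => (v i : ℂ) ^ s *
    (((‖z + a i‖ ^ 2 + v i ^ 2 : ℝ) : ℂ) ^ (-s) * R17.ee (-(lm i * emb i n * z)))), eI_eq_ee, AW,
    ← Finset.prod_mul_distrib]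
  refine Finset.prod_congr rfl fun i _ => ?_
  have hv' : (v i : ℂ) ≠ 0 := by exact_mod_cast (hv i).ne'
  have e4 : pw (2 - s) (v i) = (v i : ℂ) ^ s * (v i : ℂ) ^ (2 - 2 * s) := by
    unfold pw
    rw [← Complex.cpow_add _ _ hv']; congr 1; ring
  rw [integral_const_mul, R17.Vor.VoCoef_integral hs (hv i), e4, Pi.mul_apply, embv_apply,
    ← mul_assoc (lm i)]
  ring

theorem continuous_cT (h : RowBd κ) (n : K) (s : ℂ) (v : Pl K → ℝ) (c d : R K) :
    Continuous (cT n κ s v c d) := by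
  unfold cT
  by_cases h0 : κ c d = 0
  · simp only [h0, zero_mul]; exact continuous_const
  · have hc : (c : K) ≠ 0 ∨ (d : K) ≠ 0 := by
      by_contra hh
      push Not at hh
      have h1 : c = 0 := Subtype.ext hh.1
      have h2 : d = 0 := Subtype.ext hh.2
      have := h.cop _ _ h0
      rw [h1, h2] at this
      exact not_isCoprime_zero_zero this
    refine (continuous_const.mul ?_).mul (continuous_eI_neg n)
    unfold pw
    refine Continuous.cpow
      (Complex.continuous_ofReal.comp ((continuous_Ht hc).comp (continuous_ptK v)))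
      continuous_const fun z => ?_
    exact Complex.ofReal_mem_slitPlane.2 (Ht_pos _ hc)
/-- `hasSum_integral_of_summable_integral_norm`, `Eis_dom`, `exists_inB_cellI 1` -/
theorem hasSum_cT (h : RowBd κ) (I : Ideal (𝓞 K)) (n : K) {s : ℂ} (hs : 2 < s.re) (v : Pl K → ℝ) :
    HasSum (fun r : RowQ K => ∫ z in cellI I, cT n κ s v r.out.1 r.out.2 z)
      (coef I n v (Eis κ (pw s))) := by
  have hint : ∀ r : RowQ K, Integrable (cT n κ s v r.out.1 r.out.2) (volume.restrict (cellI I)) :=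
    fun r => integrableOn_cellI (continuous_cT h n s v _ _) I
  obtain ⟨ρ, hρ⟩ := exists_inB_cellI 1 I v
  obtain ⟨g, hg, hB⟩ := Eis_dom h (R17.Vor.adm_pw hs) ρ
  have hsum : Summable (fun r : RowQ K => ∫ z in cellI I, ‖cT n κ s v r.out.1 r.out.2 z‖) := by
    refine Summable.of_nonneg_of_le (fun r => integral_nonneg fun z => norm_nonneg _) (fun r => ?_)
      (hg.mul_left ((volume : Measure (Pl K → ℂ)).real (cellI I)))
    rw [← smul_eq_mul, ← setIntegral_const]
    refine setIntegral_mono_on (hint r).norm (integrableOn_const (volume_cellI_lt_top I).ne)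
      (measurableSet_cellI I) fun z hz => ?_
    have h1 := hρ z hz
    rw [actP_one] at h1
    unfold cT
    rw [norm_mul, norm_eI, mul_one]
    exact hB _ h1 r
  have h1 := hasSum_integral_of_summable_integral_norm hint hsum
  have e : coef I n v (Eis κ (pw s)) = ∫ z in cellI I, ∑' r : RowQ K, cT n κ s v r.out.1 r.out.2 z := by
    unfold coef Eis cT
    simp only [tsum_mul_right]
  rw [e]
  exact h1
/-- `Ht_zero`, `ht_ptK`, `integral_cellI_eI` (`κ 0 0 = 0` by coprimality) -/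
theorem cT_zero (h : RowBd κ) (hI : I ≠ ⊥) {n : K} (hn : n ∈ dualI I) (s : ℂ) {v : Pl K → ℝ}
    (hv : ∀ i, 0 < v i) :
    ∑' D : EltQ K (M0 K), ∫ z in cellI I, cT n κ s v 0 D.out z =
      if n = 0 then ((volume : Measure (Pl K → ℂ)).real (cellI I) : ℂ) * pw s (∏ i, v i) * A0 κ s
      else 0 := by
  have h1 : ∀ D : R K, ∫ z in cellI I, cT n κ s v 0 D z =
      κ 0 D * ((aN (D : K) : ℝ) : ℂ) ^ (-s) * (pw s (∏ i, v i) *
        if n = 0 then ((volume : Measure (Pl K → ℂ)).real (cellI I) : ℂ) else 0) := by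
    intro D
    have h2 : ∀ z, pw s (Ht (ptK z v) ((0 : R K) : K) (D : K)) =
        pw s (∏ i, v i) * ((aN (D : K) : ℝ) : ℂ) ^ (-s) := fun z => by
      rw [ZeroMemClass.coe_zero, Ht_zero, ht_ptK z hv, div_eq_mul_inv,
        b5acoef_pw_mul s (Finset.prod_nonneg fun i _ => (hv i).le) (inv_nonneg.2 (aN_nonneg _)),
        b5acoef_pw_inv s (aN_nonneg _)]
    unfold cT
    simp only [h2]
    rw [integral_const_mul, integral_cellI_eI hI hn]
    ring
  simp only [h1]
  rw [tsum_mul_right, A0]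
  split_ifs
  · ring
  · simp
omit [Setup K] in
/-- `exists_latEquiv`, `Summable.tsum_prod`, `Ht_ptK`, `eI_dual`, `hasSum_cellI`, `integral_pw_eI`,
`eT_eq_eI` -/
theorem cT_ne (hI : I ≠ ⊥) (hper : Per3 I κ) {n : K} (hn : n ∈ dualI I) {s : ℂ} (hs : 1 < s.re)
    {v : Pl K → ℝ} (hv : ∀ i, 0 < v i) {C : R K} (hC : C ≠ 0)
    (hsum : Summable fun D : R K => ∫ z in cellI I, cT n κ s v C D z) :
    ∑' D : R K, ∫ z in cellI I, cT n κ s v C D z =
      AW n v s * (((aN (C : K) : ℝ) : ℂ) ^ (-s) * KS I κ C n) := by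
  have hc : (C : K) ≠ 0 := fun h => hC (Subtype.ext h)
  obtain ⟨e, he⟩ := exists_latEquiv hC I
  have hs' : Summable fun x : (R K ⧸ latI C I) × I => ∫ z in cellI I, cT n κ s v C (e x) z :=
    e.summable_iff.2 hsum
  rw [← e.tsum_eq, hs'.tsum_prod, KS, ← tsum_mul_left, ← tsum_mul_left]
  refine tsum_congr fun D => ?_
  obtain ⟨x, hx⟩ : ∃ x : R K, x = D.out := ⟨_, rfl⟩
  simp only [he, ← hx]
  have hJ := (integrable_pw_eI hs hv (embv ((x : K) / (C : K))) n).const_mul
    (κ C x * ((aN (C : K) : ℝ) : ℂ) ^ (-s))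
  have hU := hasSum_cellI hI hJ
  have hT : ∀ t : I, ∫ z in cellI I, cT n κ s v C (x + C * toR (t : 𝓞 K)) z =
      ∫ z in cellI I, κ C x * ((aN (C : K) : ℝ) : ℂ) ^ (-s) *
        (pw s (∏ i, v i / (‖(z + embv ((t : 𝓞 K) : K)) i + embv ((x : K) / (C : K)) i‖ ^ 2 + v i ^ 2)) *
          eI (-(embv n * (z + embv ((t : 𝓞 K) : K))))) := by
    intro t
    refine integral_congr_ae (Eventually.of_forall fun z => ?_)
    unfold cT
    simp only
    have e0 : ((x + C * toR (t : 𝓞 K) : R K) : K) / (C : K) = ((t : 𝓞 K) : K) + (x : K) / (C : K) := by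
      rw [AddMemClass.coe_add, MulMemClass.coe_mul, coe_toR]
      field_simp
      ring
    have e1 : ∀ i, z i + emb i (((x + C * toR (t : 𝓞 K) : R K) : K) / (C : K)) =
        (z + embv ((t : 𝓞 K) : K)) i + embv ((x : K) / (C : K)) i := fun i => by
      rw [e0, emb_add, Pi.add_apply, embv_apply, embv_apply, add_assoc]
    have e2 : -(embv n * (z + embv ((t : 𝓞 K) : K))) =
        -(embv n * z) + embv (-n) * embv ((t : 𝓞 K) : K) := by
      rw [embv_neg]; ring
    rw [hper C x t t.2, Ht_ptK hc _ z hv, e2, eI_add, eI_dual (neg_mem hn) t.2,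
      b5acoef_pw_mul s (inv_nonneg.2 (aN_nonneg _))
        (Finset.prod_nonneg fun i _ => div_nonneg (hv i).le (by positivity)),
      b5acoef_pw_inv s (aN_nonneg _)]
    simp only [e1]
    ring
  simp only [hT]
  rw [hU.tsum_eq, integral_const_mul, integral_pw_eI hs hv, eT_eq_eI, mul_div_assoc, embv_mul]
  ring
/-- `tsum_rowQ` -/
theorem coef_Eis (h : RowBd κ) (hI : I ≠ ⊥) (hper : Per3 I κ) {n : K} (hn : n ∈ dualI I) {s : ℂ}
    (hs : 2 < s.re) {v : Pl K → ℝ} (hv : ∀ i, 0 < v i) :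
    coef I n v (Eis κ (pw s)) =
      (if n = 0 then ((volume : Measure (Pl K → ℂ)).real (cellI I) : ℂ) * pw s (∏ i, v i) * A0 κ s
        else 0) + AW n v s * DS I κ n s := by
  have h1 := hasSum_cT h I n hs v
  have hG : UInv fun c d : R K => ∫ z in cellI I, cT n κ s v c d z := fun u hu c d => by
    simp only [cT, h.inv u hu, Ht_ups hu]
  obtain ⟨h2, h3⟩ := tsum_rowQ hG h1.summable
  rw [← h1.tsum_eq, h2, cT_zero h hI hn s hv]
  congr 1
  unfold DS
  rw [← tsum_mul_left]
  refine tsum_congr fun C => ?_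
  split_ifs with hC
  · rw [mul_zero]
  · exact cT_ne hI hper hn (by linarith) hv hC (h3 C hC)
/-- `Complex.differentiableOn_tsum_of_summable_norm` on strips `1 < β < Re s < β'`: for `x ≥ m > 0`
(`Lat.le_aN`), `x^{-Re s} ≤ x^{-β} + x^{-β'}`; `summable_elts` -/
theorem differentiableOn_A0 (h : RowBd κ) : DifferentiableOn ℂ (A0 κ) {s | 1 < s.re} := by
  intro s0 hs0
  have hs1 : 1 < s0.re := hs0
  obtain ⟨e, he⟩ := h.lat
  have hU : IsOpen {s : ℂ | (1 + s0.re) / 2 < s.re ∧ s.re < s0.re + 1} :=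
    (isOpen_lt continuous_const Complex.continuous_re).inter
      (isOpen_lt Complex.continuous_re continuous_const)
  have hD0 : ∀ D : R K, κ 0 D ≠ 0 → 0 < aN (D : K) := fun D hD => aN_pos fun h0 =>
    (isCoprime_zero_left.1 (h.cop _ _ hD)).ne_zero (Subtype.ext h0)
  have hd := Complex.differentiableOn_tsum_of_summable_norm
    (F := fun (D : EltQ K (M0 K)) (s : ℂ) => κ 0 D.out * ((aN ((D.out : R K) : K) : ℝ) : ℂ) ^ (-s))
    ((summable_elts (K := K) e (σ := (1 + s0.re) / 2) (by linarith)).add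
      (summable_elts (K := K) e (σ := s0.re + 1) (by linarith))) (fun D => ?_) hU (fun D s hs => ?_)
  · exact (hd.differentiableAt (hU.mem_nhds ⟨by linarith, by linarith⟩)).differentiableWithinAt
  · by_cases h0 : κ 0 D.out = 0
    · simp only [h0, zero_mul]
      exact differentiableOn_const _
    · refine Differentiable.differentiableOn (Differentiable.const_mul ?_ _)
      exact differentiable_neg.const_cpow (Or.inl (Complex.ofReal_ne_zero.2 (hD0 _ h0).ne'))
  · by_cases h0 : κ 0 D.out = 0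
    · simp only [h0, zero_mul, norm_zero]
      split_ifs
      · exact add_nonneg (Real.rpow_nonneg (aN_nonneg _) _) (Real.rpow_nonneg (aN_nonneg _) _)
      · simp
    · have hx := hD0 _ h0
      have hL : Lat e D.out := (he _ _ h0).2
      rw [if_pos hL, if_pos hL, norm_mul, Complex.norm_cpow_eq_rpow_re_of_pos hx, Complex.neg_re]
      refine (mul_le_of_le_one_left (Real.rpow_nonneg hx.le _) (h.le _ _)).trans ?_
      rcases le_total (aN ((D.out : R K) : K)) 1 with h1 | h1
      · exact (Real.rpow_le_rpow_of_exponent_ge hx h1 (by linarith [hs.2])).trans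
          (le_add_of_nonneg_left (Real.rpow_nonneg hx.le _))
      · exact (Real.rpow_le_rpow_of_exponent_le h1 (by linarith [hs.1])).trans
          (le_add_of_nonneg_right (Real.rpow_nonneg hx.le _))

end Crest.Agent.R312.Th
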