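import Crest.Agent.R312.B5Defs

/-!
# R312 / B5Kub : Kubota's character, the formula (K), conjugation invariance (`ReadB5` section B)
-/

set_option autoImplicit false

noncomputable section

open scoped Classical ComplexConjugate NumberField Topology
open Crest.Agent.R17.Vor (SL nn SS)

namespace Crest.Agent.R312.Th

variable {K : Type} [Field K] [NumberField K] [Fld K] [Loc K] [Setup K]

omit [Fld K] [Setup K] in
theorem InJ.mono {m n : ℕ} (h : m ≤ n) {x : K} (hx : InJ n x) : InJ m x := by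
  obtain ⟨s, hs, rfl⟩ := hx
  obtain ⟨k, rfl⟩ := Nat.exists_eq_add_of_le h
  exact ⟨_, ((SInt.natCast (Loc.Q K)).pow k).mul hs, by ring⟩

omit [Fld K] [Setup K] in
theorem InJ.sub {n : ℕ} {x y : K} (hx : InJ n x) (hy : InJ n y) : InJ n (x - y) := by
  rw [sub_eq_add_neg]
  exact hx.add hy.neg

omit [NumberField K] [Fld K] [Setup K] in
theorem inU_iff_inJ {n : ℕ} {x : K} : InU n x ↔ InJ n (x - 1) :=
  exists_congr fun _ => and_congr_right fun _ => by
    constructor <;> intro h <;> linear_combination h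

omit [Fld K] [Setup K] in
theorem ev_inJ_mul (x : K) (n : ℕ) : ∀ᶠ e in Filter.atTop, ∀ z : K, InJ e z → InJ n (x * z) := by
  obtain ⟨k, hk⟩ := exists_pow_mul_sInt x
  filter_upwards [Filter.eventually_ge_atTop (n + k)] with e he z hz
  obtain ⟨s, hs, rfl⟩ := hz.mono he
  exact ⟨_, hk.mul hs, by ring⟩

omit [Fld K] [Setup K] in
/-- `S`-adically small elements in a residue class -/
theorem exists_inJ (m : ℕ) {q : R K} (hq : q ≠ 0) (a : R K) :
    ∃ x : R K, q ∣ x - a ∧ InJ m (x : K) := by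
  have hq' : (q : K) ≠ 0 := fun h => hq (Subtype.ext h)
  have hQ : ((Loc.Q K : ℕ) : K) ^ m ≠ 0 := pow_ne_zero _ loc_Q_ne
  obtain ⟨r, hr⟩ := approx0 (div_ne_zero hQ hq') ((a : K) / q)
  refine ⟨a - q * r, ⟨-r, by ring⟩, _, hr, ?_⟩
  push_cast
  field_simp

omit [Fld K] [Setup K] in
theorem GamN_mono {m n : ℕ} (h : m ≤ n) {p q : R K} (hpq : p ∣ q) : GamN K n q ≤ GamN K m p := by
  rintro g ⟨h1, h2, h3, h4, h5⟩
  exact ⟨h1.mono h, h2.mono h, h3.mono h, h4.mono h, hpq.trans h5⟩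

omit [Fld K] [Setup K] in
theorem eM_pos (n : ℕ) : 0 < eM K n := by
  have := Ideal.finiteQuotientOfFreeOfNeBot (Ideal.span {((Loc.Q K : ℕ) : 𝓞 K) ^ n})
    (by rw [Ne, Ideal.span_singleton_eq_bot]; exact pow_ne_zero _ b0fin_Q_ne)
  exact Nat.card_pos

omit [Fld K] [Setup K] in
/-- `u ^ #G = 1` in the finite group `(𝓞/Q^n)ˣ` -/
theorem inU_of_mem_Ups {n M : ℕ} (hM : eM K n ∣ M) {u : (R K)ˣ} (hu : u ∈ Ups K M) :
    InU n ((u : R K) : K) := by
  obtain ⟨k, rfl⟩ := hu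
  obtain ⟨j, rfl⟩ := hM
  have e : upow (((eM K n * j : ℕ) : ℤ) • k) = (upow k ^ j) ^ eM K n := by
    simp only [upow, Pi.smul_apply, smul_eq_mul, ← Finset.prod_pow, ← pow_mul]
    refine Finset.prod_congr rfl fun i _ => ?_
    rw [← zpow_natCast, ← zpow_mul, mul_comm (k i), mul_comm j]
  have h1 : (Units.map (Ideal.Quotient.mk
      (Ideal.span {((Loc.Q K : ℕ) : 𝓞 K) ^ n})).toMonoidHom (upow k ^ j)) ^ eM K n = 1 :=
    pow_card_eq_one'
  rw [← map_pow, ← e] at h1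
  have h2 : Ideal.Quotient.mk (Ideal.span {((Loc.Q K : ℕ) : 𝓞 K) ^ n})
      ((upow (((eM K n * j : ℕ) : ℤ) • k) : (𝓞 K)ˣ) : 𝓞 K) = Ideal.Quotient.mk _ 1 :=
    congrArg Units.val h1
  exact InU.of_dvd (Ideal.mem_span_singleton.1 (Ideal.Quotient.eq.1 h2))

omit [Fld K] [Setup K] in
theorem SL_isCoprime_row (g : SL (R K)) : IsCoprime g.c g.d :=
  ⟨-g.b, g.a, by linear_combination g.det⟩

/-- `rec3` -/
theorem cub_swap {d c : R K} (hd : InU (Setup.lev K) (d : K)) (hc : c ≠ 0) : cub d c = cub c d :=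
  Setup.rec3 d c hd hc

/-- `cub (d + c x) c = cub d c` when both `d` and `d + c x` are in `U` (`c = 0` trivial) -/
theorem cub_shift {d c x : R K} (hd : InU (Setup.lev K) (d : K))
    (hd' : InU (Setup.lev K) ((d + c * x : R K) : K)) : cub (d + c * x) c = cub d c := by
  by_cases hc : c = 0
  · rw [hc, zero_mul, add_zero]
  · rw [cub_swap hd' hc, cub_swap hd hc]
    exact sym_per 3 c d x

theorem cub_unit_of_inU {d u : R K} (hd : InU (Setup.lev K) (d : K)) (hu : IsUnit u) : cub d u = 1 := by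
  rw [cub_swap hd hu.ne_zero]
  exact sym_unit 3 hu d

theorem kub_ne {d : R K} (hd : InU (Setup.lev K) (d : K)) : d ≠ 0 := fun h =>
  hd.ne_zero Setup.lev_pos (by rw [h]; rfl)

omit [Setup K] in
theorem kub_congr {n x y : R K} (t : R K) (h : x = y + n * t) : cub n x = cub n y := by
  rw [h]
  exact sym_per 3 n y t

omit [Setup K] in
theorem kub_inv {n x y : R K} (hn : n ≠ 0) (t : R K) (h : x * y = 1 + n * t) :
    cub n x * cub n y = 1 := by
  rw [← (cub_isChar hn).mul, kub_congr t h, (cub_isChar hn).one]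

omit [Setup K] in
theorem kub_neg {n : R K} (hn : n ≠ 0) (x : R K) : cub n (-x) = cub n x := by
  rw [← neg_one_mul, (cub_isChar hn).mul, cub_neg_one hn, one_mul]

theorem kub_cl {a a' : R K} (ha : a ≠ 0) (h : InU (Setup.lev K) ((a' : K) / a)) :
    a' ≠ 0 ∧ cl a' = cl a := by
  have h0 := h.ne_zero Setup.lev_pos
  refine ⟨fun e => h0 (by rw [e]; simp), ?_⟩
  have e : (a' : K) = a * (a' / a) := by rw [mul_div_cancel₀ _ (bc_ne ha)]
  rw [cl, e, clN_mul _ (bc_ne ha) h0, clN_of_inU h, GG_mul_one, cl]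

theorem kub_sg {a : R K} (ha : InU (Setup.lev K) (a : K)) (b : R K) : sg a b = 1 := by
  rw [sg, cl_of_inU ha, HH_one_left]

theorem kub_ab (σ : SL (R K)) (ha : σ.a ≠ 0) (hc : σ.c ≠ 0) :
    cub σ.a σ.b * sg σ.a σ.c ^ 2 = cub σ.c σ.d := by
  have h1 := kub_inv ha (x := -σ.b) (y := σ.c) (-σ.d) (by linear_combination σ.det)
  have h2 := kub_inv hc (x := σ.a) (y := σ.d) σ.b (by linear_combination σ.det)
  rw [kub_neg ha, cub_rec ha hc] at h1
  linear_combination cub σ.c σ.d * h1 - cub σ.a σ.b * sg σ.a σ.c ^ 2 * h2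

theorem kub_cop (σ : SL (R K)) (ha : σ.a ≠ 0) {c d C D : R K} (hd : InU (Setup.lev K) (d : K))
    (eC : C = c * σ.a + d * σ.c) (eD : D = c * σ.b + d * σ.d) (hC : C ≠ 0) (h : IsCoprime σ.a C) :
    cub C D = cub d c * cub σ.a σ.b * sg σ.a C ^ 2 := by
  have e : σ.a * D = d + C * σ.b := by rw [eC, eD]; linear_combination d * σ.det
  have h1 : cub C σ.a * cub C D = cub d c * cub d σ.a := by
    rw [← (cub_isChar hC).mul, kub_congr _ e, ← cub_swap hd hC, kub_congr _ eC,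
      (cub_isChar (kub_ne hd)).mul]
  have h2 : cub d σ.a = cub σ.a σ.b * (sg σ.a C ^ 2 * cub C σ.a) := by
    rw [cub_swap hd ha, ← cub_rec ha hC, ← (cub_isChar ha).mul, ← kub_neg ha (σ.b * C)]
    exact kub_congr D (by linear_combination -e)
  have h3 : cub C σ.a ≠ 0 := fun h0 => ((cub_isChar hC).zero_iff _).1 h0 h
  refine mul_left_cancel₀ h3 ?_
  rw [h1, h2]
  ring

theorem norm_kap {g : SL (R K)} (hg : g ∈ Gam K 1) : ‖kap g‖ = 1 :=
  (cub_isChar (kub_ne hg.2.2.2.1)).norm_eq_one (kub_ne hg.2.2.2.1) (SL_isCoprime_row g)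

/-- **(K)** -/
theorem kap_formula (σ : SL (R K)) (ha : σ.a ≠ 0) {γ : SL (R K)} (hγ : γ ∈ Gam K 1)
    (hc : (γ * σ).c ≠ 0) :
    cub (γ * σ).c (γ * σ).d = kap γ * cub σ.a σ.b * sg σ.a (γ * σ).c ^ 2 := by
  obtain ⟨n0, n1, j, h0, h1, e⟩ := prim_split (q := σ.a) hc
  obtain ⟨m, hm1, hm2⟩ := ((ev_inJ_mul ((σ.c : K) / σ.a) (Setup.lev K)).and
    (Filter.eventually_ge_atTop (Setup.lev K))).exists
  obtain ⟨x, ⟨t, ht⟩, hx⟩ := exists_inJ m hc n1
  have hcop : IsCoprime (σ.a + x * σ.c) (γ * σ).c := by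
    have k0 : IsCoprime σ.c σ.a := ⟨-σ.b, σ.d, by linear_combination σ.det⟩
    have k1 : IsCoprime (σ.a + n1 * σ.c) (γ * σ).c := by
      rw [e]
      refine IsCoprime.mul_right (IsCoprime.of_isCoprime_of_dvd_right (IsCoprime.pow_right ?_) h0)
        (h1.symm.add_mul_left_left _)
      have := (h1.mul_left k0).add_mul_left_left 1
      rwa [mul_one, add_comm] at this
    have := k1.add_mul_left_left (t * σ.c)
    rwa [show σ.a + n1 * σ.c + (γ * σ).c * (t * σ.c) = σ.a + x * σ.c by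
      linear_combination -σ.c * ht] at this
  obtain ⟨ha', hcl⟩ := kub_cl (a' := σ.a + x * σ.c) ha (inU_iff_inJ.2 (by
    convert hm1 x hx using 1
    have := bc_ne ha
    push_cast
    field_simp
    ring))
  have hd' : InU (Setup.lev K) ((γ.d + γ.c * -x : R K) : K) := by
    push_cast
    exact inU_add hγ.2.2.2.1 (hγ.2.2.1.mul_right hx.sInt.neg)
  let σ' : SL (R K) := ⟨σ.a + x * σ.c, σ.b + x * σ.d, σ.c, σ.d, by linear_combination σ.det⟩
  have h2 := kub_cop σ' ha' (c := γ.c) (C := (γ * σ).c) (D := (γ * σ).d) hd'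
    (by simp only [σ', SL.mul_c]; ring) (by simp only [σ', SL.mul_d]; ring) hc hcop
  have h3 : cub σ'.a σ'.b = cub σ.a σ.b := by
    by_cases hc0 : σ.c = 0
    · have hu : IsUnit σ.a := IsUnit.of_mul_eq_one σ.d (by linear_combination σ.det + σ.b * hc0)
      have : σ'.a = σ.a := by simp only [σ', hc0, mul_zero, add_zero]
      rw [this, cub, cub, sym_unit 3 hu, sym_unit 3 hu]
    · have k1 := kub_ab σ' ha' hc0
      have k2 := kub_ab σ ha hc0
      have k3 : sg σ'.a σ'.c = sg σ.a σ.c := sg_congr hcl rfl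
      have k4 : sg σ.a σ.c ≠ 0 := norm_ne_zero_iff.1 (by rw [norm_sg]; exact one_ne_zero)
      rw [k3] at k1
      exact mul_right_cancel₀ (pow_ne_zero 2 k4) (k1.trans k2.symm)
  rw [h2, h3, cub_shift hγ.2.2.2.1 hd', sg_congr (a := σ'.a) hcl rfl, kap]

theorem kap_ab {h : SL (R K)} (hh : h ∈ Gam K 1) : cub h.a h.b = kap h := by
  by_cases hc : h.c = 0
  · have hdet : h.a * h.d = 1 := by linear_combination h.det + h.b * hc
    rw [kap, cub, cub, sym_unit 3 (IsUnit.of_mul_eq_one _ hdet),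
      sym_unit 3 (IsUnit.of_mul_eq_one h.a (by rw [mul_comm, hdet]))]
  · rw [kap, cub_swap hh.2.2.2.1 hc, ← kub_ab h (kub_ne hh.1) hc, kub_sg hh.1, one_pow, mul_one]

/-- **Kubota**: from (K) with `σ = h ∈ Γ`: `σ.a ∈ U`, `cub h.a h.b = cub h.b h.a = conj (cub h.b h.d) =
conj (cub h.d h.b) = cub h.d h.c`; the case `(g h).c = 0` by `h = g⁻¹ t`, `t` upper triangular. -/
theorem kap_mul {g h : SL (R K)} (hg : g ∈ Gam K 1) (hh : h ∈ Gam K 1) :
    kap (g * h) = kap g * kap h := by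
  have hgh := (Gam K 1).mul_mem hg hh
  by_cases hc : (g * h).c = 0
  · have hdet : (g * h).a * (g * h).d = 1 := by linear_combination (g * h).det + (g * h).b * hc
    have hu : IsUnit (g * h).d := IsUnit.of_mul_eq_one (g * h).a (by rw [mul_comm, hdet])
    have hu' : IsUnit (g * h).a := IsUnit.of_mul_eq_one (g * h).d hdet
    have hd := kub_ne hg.2.2.2.1
    have e1 : h.a = g.d * (g * h).a := by
      rw [SL.mul_c] at hc
      rw [SL.mul_a]
      linear_combination -h.a * g.det - g.b * hc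
    have e2 : h.b = -g.b * (g * h).d + g.d * (g * h).b := by
      rw [SL.mul_b, SL.mul_d]
      linear_combination -h.b * g.det
    have e3 : cub h.a h.b = cub g.d h.b :=
      sym_assoc 3 (by rw [e1]; exact associated_mul_unit_left _ _ hu') _
    rw [← kap_ab hh, e3, kub_congr _ e2, (cub_isChar hd).mul, cub_unit_of_inU hg.2.2.2.1 hu, mul_one,
      kap, kap, kub_inv hd (-g.a) (by linear_combination g.det)]
    exact sym_unit 3 hu _
  · rw [kap, cub_swap hgh.2.2.2.1 hc, kap_formula h (kub_ne hh.1) hg hc, kub_sg hh.1, kap_ab hh]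
    ring

theorem kap_one : kap (1 : SL (R K)) = 1 :=
  sym_one 3 _

theorem kap_inv {g : SL (R K)} (hg : g ∈ Gam K 1) : kap g⁻¹ = conj (kap g) := by
  have h := kap_mul hg ((Gam K 1).inv_mem hg)
  rw [mul_inv_cancel, kap_one] at h
  linear_combination conj (kap g) * -h - kap g⁻¹ * bc_mul_conj (norm_kap hg)

/-- `κ(σ n(x) σ⁻¹) = 1` -/
theorem kap_conj_nn (σ : SL (R K)) {x : R K} (h : σ * nn x * σ⁻¹ ∈ Gam K 1) :
    kap (σ * nn x * σ⁻¹) = 1 := by
  have e1 : (σ * nn x * σ⁻¹).d = 1 + σ.c * x * σ.a := by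
    simp only [nn, SL.mul_c, SL.mul_d, SL.inv_b, SL.inv_d]
    linear_combination σ.det
  have e2 : (σ * nn x * σ⁻¹).c = -(σ.c * (σ.c * x)) := by
    simp only [nn, SL.mul_c, SL.mul_d, SL.inv_a, SL.inv_c]
    ring
  have hd := h.2.2.2.1
  rw [kap, e2]
  rw [e1] at hd ⊢
  by_cases h0 : σ.c * x = 0
  · rw [h0, zero_mul, add_zero]
    exact sym_one 3 _
  · have hc := left_ne_zero_of_mul h0
    rw [kub_neg (kub_ne hd), (cub_isChar (kub_ne hd)).mul, cub_swap hd hc, cub_swap hd h0,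
      kub_congr _ rfl, kub_congr (x * σ.a) (by rw [mul_assoc]), (cub_isChar hc).one,
      (cub_isChar h0).one, one_mul]

omit [Fld K] [Setup K] in
theorem conj_mem (τ : SL (R K)) (n : ℕ) : ∃ e : ℕ, n ≤ e ∧ ∀ γ ∈ GamN K e 1, τ * γ * τ⁻¹ ∈ GamN K n 1 := by
  let S : Finset K := {(τ.a : K), (τ.b : K), (τ.c : K), (τ.d : K)}
  obtain ⟨e, he, h⟩ := ((Filter.eventually_ge_atTop n).and ((Filter.eventually_all_finset S).2
    fun x _ => (Filter.eventually_all_finset S).2 fun y _ => ev_inJ_mul (x * y) n)).exists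
  refine ⟨e, he, fun γ hγ => ?_⟩
  obtain ⟨h1, h2, h3, h4, -⟩ := hγ
  rw [inU_iff_inJ] at h1 h4
  have ha : (τ.a : K) ∈ S := by simp [S]
  have hb : (τ.b : K) ∈ S := by simp [S]
  have hc : (τ.c : K) ∈ S := by simp [S]
  have hd : (τ.d : K) ∈ S := by simp [S]
  have hdet : (τ.a : K) * τ.d - τ.b * τ.c = 1 := by exact_mod_cast congrArg Subtype.val τ.det
  refine ⟨inU_iff_inJ.2 ?_, ?_, ?_, inU_iff_inJ.2 ?_, one_dvd _⟩
  · convert (((h _ ha _ hd _ h1).add (h _ hb _ hd _ h3)).sub (h _ ha _ hc _ h2)).sub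
      (h _ hb _ hc _ h4) using 1
    simp only [SL.mul_a, SL.mul_b, SL.inv_a, SL.inv_c]
    push_cast
    linear_combination hdet
  · convert (((h _ ha _ ha _ h2).add (h _ ha _ hb _ h4)).sub (h _ ha _ hb _ h1)).sub
      (h _ hb _ hb _ h3) using 1
    simp only [SL.mul_a, SL.mul_b, SL.inv_b, SL.inv_d]
    push_cast
    ring
  · convert (((h _ hc _ hd _ h1).add (h _ hd _ hd _ h3)).sub (h _ hc _ hc _ h2)).sub
      (h _ hc _ hd _ h4) using 1
    simp only [SL.mul_c, SL.mul_d, SL.inv_a, SL.inv_c]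
    push_cast
    ring
  · convert (((h _ ha _ hc _ h2).add (h _ ha _ hd _ h4)).sub (h _ hb _ hc _ h1)).sub
      (h _ hb _ hd _ h3) using 1
    simp only [SL.mul_c, SL.mul_d, SL.inv_b, SL.inv_d]
    push_cast
    linear_combination hdet

/-- the anti-automorphism `(a b; c d) ↦ (d b; c a)` -/
def kubT (g : SL (R K)) : SL (R K) := ⟨g.d, g.b, g.c, g.a, by linear_combination g.det⟩

theorem kub_conj (τ : SL (R K)) (ha : τ.a ≠ 0) (hc : τ.c ≠ 0) (hd : τ.d ≠ 0) :
    ∃ e : ℕ, Setup.lev K ≤ e ∧ ∀ γ ∈ GamN K e 1,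
      τ * γ * τ⁻¹ ∈ Gam K 1 ∧ kap (τ * γ * τ⁻¹) = kap γ := by
  obtain ⟨e1, l1, k1⟩ := conj_mem τ (Setup.lev K)
  obtain ⟨e, l2, k2⟩ := ((Filter.eventually_ge_atTop e1).and
    (ev_inJ_mul ((τ.d : K) / τ.c) (Setup.lev K))).exists
  refine ⟨e, l1.trans l2, fun γ hγ => ?_⟩
  have h1 := k1 γ (GamN_mono l2 dvd_rfl hγ)
  have h2 : γ ∈ Gam K 1 := GamN_mono (l1.trans l2) dvd_rfl hγ
  refine ⟨h1, ?_⟩
  obtain ⟨hC, hcl⟩ := kub_cl (a' := (τ * γ).c) hc (by
    convert inU_add h2.1 (k2 _ hγ.2.2.1) using 1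
    have := bc_ne hc
    rw [SL.mul_c]
    push_cast
    field_simp)
  have h3 := kap_formula τ ha h1 (by rwa [inv_mul_cancel_right])
  rw [inv_mul_cancel_right, sg_congr rfl hcl, mul_assoc, kub_ab τ ha hc] at h3
  have e1 : kubT γ * kubT τ = kubT (τ * γ) := by ext <;> simp [kubT] <;> ring
  have h4 := kap_formula (kubT τ) hd (γ := kubT γ) ⟨h2.2.2.2.1, h2.2.1, h2.2.2.1, h2.1, one_dvd _⟩
    (by rw [e1]; exact hC)
  rw [e1, sg_congr (b := (kubT (τ * γ)).c) rfl hcl, mul_assoc] at h4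
  replace h4 : cub (τ * γ).c (τ * γ).a = cub γ.a γ.c * cub τ.c τ.a :=
    h4.trans (congrArg _ (kub_ab (kubT τ) hd hc))
  have h5 := kub_inv hC (x := (τ * γ).a) (y := (τ * γ).d) (τ * γ).b
    (by linear_combination (τ * γ).det)
  have h6 := kub_inv hc (x := τ.a) (y := τ.d) τ.b (by linear_combination τ.det)
  have h7 := kub_inv (kub_ne h2.1) (x := -γ.b) (y := γ.c) (-γ.d) (by linear_combination γ.det)
  rw [kub_neg (kub_ne h2.1), kap_ab h2] at h7
  rw [h3, h4] at h5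
  linear_combination kap γ * h5 - kap γ * cub γ.a γ.c * kap (τ * γ * τ⁻¹) * h6 -
    kap (τ * γ * τ⁻¹) * h7

omit [Fld K] [Setup K] in
theorem kub_aff {a b : R K} (h : a ≠ 0 ∨ b ≠ 0) : ∀ᶠ y : ℕ in Filter.atTop, a - b * y ≠ 0 := by
  by_cases hex : ∃ y : ℕ, a - b * y = 0
  · obtain ⟨y0, h0⟩ := hex
    filter_upwards [Filter.eventually_gt_atTop y0] with y hy h1
    have h2 : b * ((y : R K) - y0) = 0 := by linear_combination h0 - h1
    rcases mul_eq_zero.1 h2 with h3 | h3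
    · rw [h3, zero_mul, sub_zero] at h0
      exact h.elim (fun k => k h0) fun k => k h3
    · exact hy.ne' (Nat.cast_injective (sub_eq_zero.1 h3))
  · exact Filter.Eventually.of_forall fun y hy => hex ⟨y, hy⟩

/-- **(Conj)** -/
theorem kap_conj (τ : SL (R K)) : ∃ e : ℕ, Setup.lev K ≤ e ∧ ∀ γ ∈ GamN K e 1,
    τ * γ * τ⁻¹ ∈ Gam K 1 ∧ kap (τ * γ * τ⁻¹) = kap γ := by
  obtain ⟨y, hy1, hy2, hy3⟩ := ((kub_aff (a := τ.a) (b := τ.b) (by
      by_contra h
      push Not at h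
      have := τ.det
      rw [h.1, h.2] at this
      simp at this)).and ((kub_aff (a := τ.c) (b := τ.d) (by
      by_contra h
      push Not at h
      have := τ.det
      rw [h.1, h.2] at this
      simp at this)).and (kub_aff (a := (0 : R K)) (b := -1) (Or.inr (by simp))))).exists
  obtain ⟨t, ht1, ht2⟩ := ((kub_aff (a := τ.d) (Or.inr hy2)).and
    (kub_aff (a := (1 : R K)) (b := -y) (Or.inl one_ne_zero))).exists
  let τ2 : SL (R K) := ⟨1 - -y * t, t, y, 1, by ring⟩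
  obtain ⟨e1, l1, k1⟩ := kub_conj (τ * τ2⁻¹)
    (by simpa [τ2, sub_eq_add_neg] using hy1) (by simpa [τ2, sub_eq_add_neg] using hy2)
    (by
      convert ht1 using 1
      simp only [τ2, SL.mul_d, SL.inv_b, SL.inv_d]
      ring)
  obtain ⟨e2, l2, k2⟩ := kub_conj τ2 ht2 (by simpa [τ2] using hy3) one_ne_zero
  obtain ⟨e3, l3, k3⟩ := conj_mem τ2 e1
  refine ⟨max e2 e3, l2.trans (le_max_left _ _), fun γ hγ => ?_⟩
  have e : τ * γ * τ⁻¹ = τ * τ2⁻¹ * (τ2 * γ * τ2⁻¹) * (τ * τ2⁻¹)⁻¹ := by group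
  obtain ⟨a1, a2⟩ := k1 _ (k3 γ (GamN_mono (le_max_right _ _) dvd_rfl hγ))
  rw [e]
  exact ⟨a1, a2.trans (k2 γ (GamN_mono (le_max_left _ _) dvd_rfl hγ)).2⟩

/-- a coprime row `≡ (0,1)` is the bottom row of an element of `Gam 1`, of `Gam p` if `p` is coprime to `d` -/
theorem exists_Gam_row {p c d : R K} (hp : p ≠ 0) (hc : InJ (Setup.lev K) (c : K))
    (hd : InU (Setup.lev K) (d : K)) (h : IsCoprime c d) (hpd : IsCoprime p d) :
    ∃ γ ∈ Gam K p, γ.c = c ∧ γ.d = d := by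
  obtain ⟨u, v, huv⟩ := h
  obtain ⟨b1, hb1, hb2⟩ := crt hpd 0 (-u)
  obtain ⟨b, hb, hbJ⟩ := exists_inJ (Setup.lev K) (mul_ne_zero hp (kub_ne hd)) b1
  obtain ⟨t, ht⟩ : d ∣ b + u := by
    have := dvd_add ((dvd_mul_left d p).trans hb) hb2
    rwa [show b - b1 + (b1 - -u) = b + u by ring] at this
  have hdet : (v + t * c) * d - b * c = 1 := by linear_combination huv - c * ht
  refine ⟨⟨v + t * c, b, c, d, hdet⟩, ⟨?_, hbJ, hc, hd, ?_⟩, rfl, rfl⟩
  · have h1 := (inU_add (InU.one _) (hbJ.mul_right hc.sInt)).div Setup.lev_pos hd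
    have h2 : ((v + t * c : R K) : K) * d - b * c = 1 := by exact_mod_cast congrArg Subtype.val hdet
    convert h1 using 1
    rw [eq_div_iff (bc_ne (kub_ne hd))]
    linear_combination h2
  · have := dvd_add ((dvd_mul_right p d).trans hb) hb1
    rwa [show b - b1 + (b1 - 0) = b by ring] at this

end Crest.Agent.R312.Th
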