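import Crest.Agent.R312.B5Res
import Crest.Agent.R312.B5Kub
import Crest.Agent.R17.VoOp
import Crest.Agent.R17.VoAbs
import Crest.Agent.R17.VoCoef
import Crest.Agent.R17.VoVr

/-!
# R312 / B5ADefs : auxiliary definitions for the files `B5A*` (owner helper40).  DO NOT EDIT.

The files `B5A*` port `R17/Vo*` to the product `XX K`.  One-place lemmas are cited as `R17.Vor.foo`.
* `InB ρ w` replaces `uu w o ≤ R`.  `TtP K φ t = TX (φ (t · ht ·)) oK` replaces `Tt` (no iteration needed).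
* `nu p` is only σ-finite.  The bound `Eis_bound` is replaced by `memLp_EisR` (file `B5AL2`).
-/

set_option autoImplicit false
set_option linter.unusedSectionVars false

noncomputable section

open scoped Classical ComplexConjugate NumberField Topology ENNReal InnerProductSpace
open MeasureTheory Filter
open Crest.Agent.R17.Vor (SL X vc zc pt o hr act uu kk hh Tt pw hi lo mid W Vr nn SS Adm LocBd)

namespace Crest.Agent.R312.Th

section arch
variable {K : Type} [Field K] [NumberField K] [Fld K]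

/-- the ball of radius `ρ` around `oK` -/
def InB (ρ : ℝ) (w : XX K) : Prop := ∀ v, uu (w v) o ≤ ρ
/-- the horizontal coordinates -/
def zv (w : XX K) : Pl K → ℂ := fun i => zc (w i)
/-- the logarithms of the heights -/
def xv (w : XX K) : Pl K → ℝ := fun i => (w i).2

variable (K) in
/-- `TX` on functions of the total height -/
def TtP (φ : ℝ → ℂ) (t : ℝ) : ℂ := ∫ w' : XX K, (kP oK w' : ℂ) * φ (t * ht w')

variable (K) in
/-- `(TtP - hh s ^ d) (hi s)`, supported in `[10 / 4^d, 10 · 4^d]` -/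
def phs (s : ℂ) (t : ℝ) : ℂ := TtP K (hi s) t - hh s ^ dd K * hi s t

/-- the truncated power `t^σ 1_{t ≤ B}` -/
def gB (σ B t : ℝ) : ℝ := if t ≤ B then t ^ σ else 0

/-- the Whittaker factor in the Fourier coefficients of `Eis κ (pw s)` -/
def AW (n : K) (v : Pl K → ℝ) (s : ℂ) : ℂ := ∏ i, pw (2 - s) (v i) * W s (lm i * emb i n * v i)

variable (K) in
/-- `∫ ∏ (1 + |z_v|²)^{-σ}` -/
def JE (σ : ℝ) : ℝ≥0∞ := ∫⁻ z : Pl K → ℂ, ENNReal.ofReal (∏ v, (1 + ‖z v‖ ^ 2) ^ (-σ))

end arch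

section loc
variable {K : Type} [Field K] [NumberField K] [Loc K]

/-- the lattice `Q^{-e} 𝓞` inside `R K` -/
def Lat (e : ℕ) (x : R K) : Prop := SInt ((Loc.Q K : K) ^ e * (x : K))

/-- the indicator function of the rows in the lattice -/
def chiL (e : ℕ) (c d : R K) : ℝ≥0∞ := if Lat e c ∧ Lat e d then 1 else 0

/-- periodicity in `D` modulo `C · I` (any codomain; `Per3 I κ` is `PerI I κ`) -/
def PerI {β : Type} (I : Ideal (𝓞 K)) (a : R K → R K → β) : Prop :=
  ∀ (C D : R K) (t : 𝓞 K), t ∈ I → a C (D + C * toR t) = a C D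

end loc

section setup
variable {K : Type} [Field K] [NumberField K] [Fld K] [Loc K] [Setup K]

/-- invariance of a function of rows under `Ups K (M0 K)` (`RowBd.inv` is `UInv κ`) -/
def UInv {β : Type} (G : R K → R K → β) : Prop :=
  ∀ u ∈ Ups K (M0 K), ∀ c d : R K, G (u * c) (u * d) = G c d

/-- the class of a row -/
def rq (c d : R K) : RowQ K := Quotient.mk (MulAction.orbitRel (Ups K (M0 K)) (R K × R K)) (c, d)

/-- a fundamental domain for `{n(x) dg(u) : x ∈ I, u ∈ Ups K (M0 K)}` -/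
def FF (I : Ideal (𝓞 K)) : Set (XX K) := {w | zv w ∈ cellI I ∧ xv w ∈ FDM K (M0 K)}

/-- the real majorant of incomplete Eisenstein series -/
def EisR (κ : R K → R K → ℂ) (σ B : ℝ) (w : XX K) : ℝ :=
  ∑' r : RowQ K, ‖κ r.out.1 r.out.2‖ * gB σ B (Ht w (r.out.1 : K) (r.out.2 : K))

/-- Eisenstein series with values in `ℝ≥0∞` -/
def EE (a : R K → R K → ℝ≥0∞) (σ : ℝ) (w : XX K) : ℝ≥0∞ :=
  ∑' r : RowQ K, a r.out.1 r.out.2 * ENNReal.ofReal (Ht w (r.out.1 : K) (r.out.2 : K) ^ σ)

/-- the rows with `c = 0` in the constant term of `EE` -/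
def A0E (a : R K → R K → ℝ≥0∞) (σ : ℝ) : ℝ≥0∞ :=
  ∑' D : EltQ K (M0 K), a 0 D.out * ENNReal.ofReal (aN ((D.out : R K) : K) ^ (-σ))

/-- the rows with `c ≠ 0` in the constant term of `EE` -/
def A1E (I : Ideal (𝓞 K)) (a : R K → R K → ℝ≥0∞) (σ : ℝ) : ℝ≥0∞ :=
  ∑' C : EltQ K (M0 K), if C.out = 0 then 0 else
    ENNReal.ofReal (aN ((C.out : R K) : K) ^ (-σ)) * ∑' D : R K ⧸ latI C.out I, a C.out D.out

/-- the rows with `c = 0` in the constant term of `Eis κ (pw s)` -/
def A0 (κ : R K → R K → ℂ) (s : ℂ) : ℂ :=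
  ∑' D : EltQ K (M0 K), κ 0 D.out * ((aN ((D.out : R K) : K) : ℝ) : ℂ) ^ (-s)

instance (p : R K) : SFinite (nu p) := by unfold nu; infer_instance

end setup

end Crest.Agent.R312.Th
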