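import Crest.Agent.R312.B5ANu

/-!
# R312 / B5AEis : basic properties of `Eis κ φ` (port of `R17/VoEis`)
-/

set_option autoImplicit false
set_option linter.unusedSectionVars false

noncomputable section

open scoped Classical ComplexConjugate NumberField Topology ENNReal InnerProductSpace
open MeasureTheory Filter
open Crest.Agent.R17.Vor (SL X vc zc pt o hr act uu kk hh Tt pw hi lo mid W Vr nn SS Adm LocBd)

namespace Crest.Agent.R312.Th

variable {K : Type} [Field K] [NumberField K] [Fld K] [Loc K] [Setup K]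
variable {p : R K} {κ κ' : R K → R K → ℂ}

theorem RowBd.Ht_pos (h : RowBd κ) {c d : R K} (h0 : κ c d ≠ 0) (w : XX K) :
    0 < Ht w (c : K) (d : K) := Ht_pos_of_isCoprime w (h.cop c d h0)

theorem RowBd.uInv (h : RowBd κ) (φ : ℝ → ℂ) (w : XX K) :
    UInv fun c d => κ c d * φ (Ht w (c : K) (d : K)) := by
  intro u hu c d
  simp only [h.inv u hu, Ht_ups hu]
/-- if `(C,D)σ⁻¹ = (c,d)` is in the lattice `e` then `(C,D) = (c,d)σ` is in the lattice `e + e'`
(`exists_lat`, `Lat.mul`, `Lat.mono`) -/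
theorem RowBd.tr (h : RowBd κ) (σ : SL (R K)) : RowBd (tr σ κ) := by
  refine ⟨fun c d => h.le _ _, fun c d h0 => ?_, ?_, fun u hu c d => ?_⟩
  · obtain ⟨u, v, huv⟩ := h.cop _ _ h0
    exact ⟨u * σ.d - v * σ.b, -(u * σ.c) + v * σ.a, by linear_combination huv⟩
  · obtain ⟨e, he⟩ := h.lat
    obtain ⟨a, ha⟩ := exists_lat σ.a
    obtain ⟨b, hb⟩ := exists_lat σ.b
    obtain ⟨c, hc⟩ := exists_lat σ.c
    obtain ⟨d, hd⟩ := exists_lat σ.d
    refine ⟨e + (a + b + c + d), fun C D h0 => ?_⟩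
    obtain ⟨h1, h2⟩ := he _ _ h0
    have h3 := (Lat.mul h1 (ha.mono (e' := a + b + c + d) (by omega))).add
      (Lat.mul h2 (hc.mono (by omega)))
    have h4 := (Lat.mul h1 (hb.mono (e' := a + b + c + d) (by omega))).add
      (Lat.mul h2 (hd.mono (by omega)))
    rw [show (C * σ.d - D * σ.c) * σ.a + (-(C * σ.b) + D * σ.a) * σ.c = C by
      linear_combination C * σ.det] at h3
    rw [show (C * σ.d - D * σ.c) * σ.b + (-(C * σ.b) + D * σ.a) * σ.d = D by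
      linear_combination D * σ.det] at h4
    exact ⟨h3, h4⟩
  · unfold Th.tr
    rw [← h.inv u hu (c * σ.d - d * σ.c)]
    congr 1 <;> ring
theorem RowBd.le_chiL (h : RowBd κ) : ∃ e, ∀ c d, ‖κ c d‖ₑ ≤ chiL e c d := by
  obtain ⟨e, he⟩ := h.lat
  refine ⟨e, fun c d => ?_⟩
  by_cases h0 : κ c d = 0
  · rw [h0, enorm_zero]; exact zero_le
  · rw [chiL, if_pos (show Lat e c ∧ Lat e d from he c d h0), ← ofReal_norm]
    exact ENNReal.ofReal_le_one.2 (h.le c d)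
theorem RowBd.exists_A (h : RowBd κ) (ρ : ℝ) : ∃ A : ℝ, ∀ w : XX K, InB ρ w → ∀ c d : R K,
    κ c d ≠ 0 → Ht w (c : K) (d : K) ≤ A := by
  obtain ⟨e, he⟩ := h.lat
  obtain ⟨A, hA⟩ := Ht_bdd (K := K) e ρ
  exact ⟨A, fun w hw c d h0 => hA w hw c d (he c d h0).1 (he c d h0).2⟩
omit [NumberField K] [Fld K] [Setup K] in
theorem tr_rowMul (σ : SL (R K)) (κ : R K → R K → ℂ) (c d : R K) :
    tr σ κ (c * σ.a + d * σ.c) (c * σ.b + d * σ.d) = κ c d := by
  unfold Th.tr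
  congr 1
  · linear_combination c * σ.det
  · linear_combination d * σ.det
/-- `tsum_rowMul`, `Ht_actR` -/
theorem Eis_actR (h : RowBd κ) (φ : ℝ → ℂ) (σ : SL (R K)) (w : XX K) :
    Eis κ φ (actR σ w) = Eis (tr σ κ) φ w := by
  rw [Eis, Eis, ← tsum_rowMul ((h.tr σ).uInv φ w) σ]
  refine tsum_congr fun r => ?_
  rw [tr_rowMul, Ht_actR]
/-- **normal convergence on balls**: `‖φ(Ht w)‖ ≤ C (Ht w)^σ ≤ C (2ρ)^{dσ} (Ht oK)^σ`, `summable_rows` -/
theorem Eis_dom (h : RowBd κ) {φ : ℝ → ℂ} (hφ : Adm φ) (ρ : ℝ) : ∃ g : RowQ K → ℝ, Summable g ∧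
    ∀ w, InB ρ w → ∀ r : RowQ K, ‖κ r.out.1 r.out.2 * φ (Ht w (r.out.1 : K) (r.out.2 : K))‖ ≤ g r := by
  obtain ⟨-, σ, hσ, hφ⟩ := hφ
  obtain ⟨A, hA⟩ := h.exists_A ρ
  obtain ⟨C, hC⟩ := hφ A
  obtain ⟨e, he⟩ := h.lat
  refine ⟨_, (summable_rows (K := K) e hσ).mul_left (|C| * ((2 * ρ) ^ dd K) ^ σ), fun w hw r => ?_⟩
  have hρ := hw.one_le
  by_cases h0 : κ r.out.1 r.out.2 = 0
  · rw [h0, zero_mul, norm_zero]
    refine mul_nonneg (by positivity) ?_
    split_ifs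
    · exact Real.rpow_nonneg (Ht_nonneg _ _ _) _
    · exact le_rfl
  · rw [if_pos (show Lat e _ ∧ Lat e _ from he _ _ h0), norm_mul, mul_assoc,
      ← Real.mul_rpow (by positivity) (Ht_nonneg _ _ _)]
    refine (mul_le_of_le_one_left (norm_nonneg _) (h.le _ _)).trans
      ((hC _ (h.Ht_pos h0 w) (hA w hw _ _ h0)).trans ?_)
    exact mul_le_mul (le_abs_self C) (Real.rpow_le_rpow (Ht_nonneg _ _ _) (Ht_le hw _ _) (by linarith))
      (Real.rpow_nonneg (Ht_nonneg _ _ _) _) (abs_nonneg C)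
theorem summable_norm_Eis (h : RowBd κ) {φ : ℝ → ℂ} (hφ : Adm φ) (w : XX K) :
    Summable fun r : RowQ K => ‖κ r.out.1 r.out.2 * φ (Ht w (r.out.1 : K) (r.out.2 : K))‖ := by
  obtain ⟨ρ, hρ⟩ := exists_inB w
  obtain ⟨g, hg, hb⟩ := Eis_dom h hφ ρ
  exact Summable.of_nonneg_of_le (fun _ => norm_nonneg _) (hb w hρ) hg
theorem summable_Eis (h : RowBd κ) {s : ℂ} (hs : 2 < s.re) (w : XX K) :
    Summable fun r : RowQ K => ‖κ r.out.1 r.out.2 * pw s (Ht w (r.out.1 : K) (r.out.2 : K))‖ :=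
  summable_norm_Eis h (R17.Vor.adm_pw hs) w
omit [Setup K] in
theorem eis_meas_term (κ : R K → R K → ℂ) {φ : ℝ → ℂ} (hφ : Measurable φ) (c d : R K) :
    Measurable fun w : XX K => κ c d * φ (Ht w (c : K) (d : K)) :=
  (hφ.comp (measurable_Ht _ _)).const_mul _
theorem measurable_Eis (κ : R K → R K → ℂ) {φ : ℝ → ℂ} (hφ : Measurable φ) : Measurable (Eis κ φ) := by
  exact Measurable.tsum fun r : RowQ K => eis_meas_term κ hφ r.out.1 r.out.2
theorem Eis_congr {φ ψ : ℝ → ℂ} {w : XX K}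
    (h : ∀ c d : R K, κ c d ≠ 0 → φ (Ht w (c : K) (d : K)) = ψ (Ht w (c : K) (d : K))) :
    Eis κ φ w = Eis κ ψ w := by
  refine tsum_congr fun r => ?_
  by_cases h0 : κ r.out.1 r.out.2 = 0
  · rw [h0, zero_mul, zero_mul]
  · rw [h _ _ h0]
theorem Eis_add (h : RowBd κ) {φ ψ : ℝ → ℂ} (hφ : Adm φ) (hψ : Adm ψ) (w : XX K) :
    Eis κ (fun v => φ v + ψ v) w = Eis κ φ w + Eis κ ψ w := by
  simp only [Eis, mul_add]
  exact (summable_norm_Eis h hφ w).of_norm.tsum_add (summable_norm_Eis h hψ w).of_norm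
theorem Eis_const_mul (κ : R K → R K → ℂ) (φ : ℝ → ℂ) (a : ℂ) (w : XX K) :
    Eis κ (fun v => a * φ v) w = a * Eis κ φ w := by
  unfold Eis
  rw [← tsum_mul_left]
  exact tsum_congr fun r => by ring
theorem Eis_mul_sub (h : RowBd κ) {φ ψ : ℝ → ℂ} (hφ : Adm φ) (hψ : Adm ψ) (a : ℂ) (w : XX K) :
    Eis κ (fun v => a * φ v - ψ v) w = a * Eis κ φ w - Eis κ ψ w := by
  rw [Eis, Eis, Eis, ← tsum_mul_left, ← ((summable_norm_Eis h hφ w).of_norm.mul_left a).tsum_sub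
    (summable_norm_Eis h hψ w).of_norm]
  exact tsum_congr fun r => by ring
theorem thK_actR (h : RowBd κ) (σ : SL (R K)) (w : XX K) : thK κ (actR σ w) = thK (tr σ κ) w := by
  simp only [thK, Eis_actR h]
/-- `Equi` for `γ⁻¹`, `kap_inv` -/
theorem Equi.tr_eq (he : Equi p κ) {γ : SL (R K)} (hγ : γ ∈ Gam K p) (c d : R K) :
    tr γ κ c d = κ c d * conj (kap γ) := by
  have h1 := he γ⁻¹ (inv_mem hγ) c d
  rw [kap_inv (Gam_le p hγ)] at h1
  rw [← h1, Th.tr]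
  congr 1 <;> simp [sub_eq_add_neg]
theorem aut_Eis (h : RowBd κ) (he : Equi p κ) (φ : ℝ → ℂ) : Aut p (Eis κ φ) := by
  intro γ hγ w
  rw [Eis_actR h, Eis, Eis, ← tsum_mul_left]
  refine tsum_congr fun r => ?_
  rw [he.tr_eq hγ]; ring
/-- interchange `∫` and `∑'` (`Eis_dom` on `InB (4ρ)`, `lintegral_kP`), then `TX_Ht` -/
theorem TX_Eis (h : RowBd κ) {φ : ℝ → ℂ} (hφ : Adm φ) (w : XX K) :
    TX (Eis κ φ) w = Eis κ (TtP K φ) w := by
  have hk : Measurable (kP w) := (continuous_kP' w).measurable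
  have hm : ∀ r : RowQ K, Measurable fun w' => (kP w w' : ℂ) *
      (κ r.out.1 r.out.2 * φ (Ht w' (r.out.1 : K) (r.out.2 : K))) := fun r =>
    (Complex.measurable_ofReal.comp hk).mul (eis_meas_term κ hφ.1 _ _)
  obtain ⟨ρ, hρ⟩ := exists_inB w
  obtain ⟨g, hg, hb⟩ := Eis_dom h hφ (4 * ρ)
  obtain ⟨M, -, hM⟩ := lintegral_kP (K := K)
  have hg0 : ∀ r, 0 ≤ g r := fun r =>
    (norm_nonneg _).trans (hb w (hρ.mono (by linarith [hρ.one_le])) r)
  rw [TX, Eis]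
  simp only [Eis, ← tsum_mul_left]
  rw [integral_tsum fun r => (hm r).aestronglyMeasurable]
  · refine tsum_congr fun r => ?_
    by_cases h0 : κ r.out.1 r.out.2 = 0
    · simp [h0]
    · rw [← TX_Ht φ (h.cop _ _ h0), TX, ← integral_const_mul]
      exact integral_congr_ae (Eventually.of_forall fun w' => mul_left_comm _ _ _)
  · refine ne_top_of_le_ne_top (b := ∑' r, ENNReal.ofReal M * ENNReal.ofReal (g r)) ?_
      (ENNReal.tsum_le_tsum fun r => ?_)
    · rw [ENNReal.tsum_mul_left, ← ENNReal.ofReal_tsum_of_nonneg hg0 hg]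
      exact ENNReal.mul_ne_top ENNReal.ofReal_ne_top ENNReal.ofReal_ne_top
    · refine le_trans (lintegral_mono (g := fun w' => ENNReal.ofReal (kP w w') * ENNReal.ofReal (g r))
        fun w' => ?_) ?_
      · by_cases h1 : kP w w' = 0
        · simp [h1]
        · simp only
          rw [enorm_mul, ← ofReal_norm, ← ofReal_norm, Complex.norm_real,
            Real.norm_of_nonneg (kP_nonneg _ _)]
          exact mul_le_mul' le_rfl (ENNReal.ofReal_le_ofReal (hb w' (hρ.of_kP h1) r))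
      · rw [lintegral_mul_const _ hk.ennreal_ofReal]
        exact mul_le_mul' (hM w) le_rfl
theorem measurable_EE (a : R K → R K → ℝ≥0∞) (σ : ℝ) : Measurable (EE a σ) := by
  exact Measurable.tsum fun r : RowQ K =>
    (((measurable_Ht (r.out.1 : K) (r.out.2 : K)).pow_const σ).ennreal_ofReal).const_mul _

end Crest.Agent.R312.Th
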