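import Crest.Agent.R312.B5ATh
import Crest.Agent.R312.B5ACoef

/-!
# R312 / B5AExp : Fourier coefficients and expansion of the residue `thK` (port of `R17/VoExp`, `VoRho*`)
-/

set_option autoImplicit false
set_option linter.unusedSectionVars false

noncomputable section

open scoped Classical ComplexConjugate NumberField Topology ENNReal InnerProductSpace
open MeasureTheory Filter
open Crest.Agent.R17.Vor (SL X vc zc pt o hr act uu kk hh Tt pw hi lo mid W Vr nn SS Adm LocBd)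

namespace Crest.Agent.R312.Th

section arch
variable {K : Type} [Field K] [NumberField K] [Fld K]

theorem b5aexp_BB_pos (n : K) {v : Pl K → ℝ} (hv : ∀ i, 0 < v i) : 0 < BB n v :=
  Finset.prod_pos fun i _ => mul_pos (Real.rpow_pos_of_pos (hv i) _) (R17.Vor.Vr_pos _)

/-- `R17.Vor.differentiableOn_W`, `R17.Vor.differentiable_pw` -/
theorem differentiableOn_AW (n : K) {v : Pl K → ℝ} (hv : ∀ i, 0 < v i) :
    DifferentiableOn ℂ (AW n v) {s | 1 < s.re} := by
  unfold AW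
  refine DifferentiableOn.fun_finsetProd fun i _ => DifferentiableOn.mul ?_ (R17.Vor.differentiableOn_W _)
  exact ((R17.Vor.differentiable_pw (hv i)).comp
    ((differentiable_const _).sub differentiable_id)).differentiableOn
/-- `R17.Vor.exists_W_ne` at every place -/
theorem exists_AW_ne (n : K) {s : ℂ} (hs : 1 < s.re) :
    ∃ v : Pl K → ℝ, (∀ i, 0 < v i) ∧ AW n v s ≠ 0 := by
  choose v hv h using fun i : Pl K => R17.Vor.exists_W_ne hs (lm i * emb i n)
  refine ⟨v, hv, Finset.prod_ne_zero_iff.2 fun i _ => mul_ne_zero ?_ (h i)⟩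
  rw [← norm_ne_zero_iff, R17.Vor.norm_pw _ (hv i)]
  exact (Real.rpow_pos_of_pos (hv i) _).ne'
/-- `R17.Vor.W_43` -/
theorem AW_43 (n : K) {v : Pl K → ℝ} (hv : ∀ i, 0 < v i) : AW n v (4 / 3) = (BB n v : ℂ) := by
  rw [AW, BB, Complex.ofReal_prod]
  refine Finset.prod_congr rfl fun i _ => ?_
  rw [R17.Vor.W_43, norm_mul _ (v i : ℂ), Complex.norm_real, Real.norm_of_nonneg (hv i).le,
    Complex.ofReal_mul, Complex.ofReal_cpow (hv i).le, pw]
  congr 2
  push_cast
  ring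
/-- `R17.Vor.Vr_le`: `BB n v ≤ C exp (-c ∑ |n_i|) ≤ C exp (-c ‖n‖)`, `aN n ≤ ‖n‖^{2d}`, and
`x^k ≤ C exp (c x / 2)` (`Real.pow_div_factorial_le_exp`) -/
theorem BB_le {v : Pl K → ℝ} (hv : ∀ i, 0 < v i) (j : ℕ) : ∃ C c : ℝ, 0 < c ∧ ∀ n : K,
    aN n ^ j * BB n v ≤ C * Real.exp (-(c * ‖embv n‖)) := by
  obtain ⟨C, hC⟩ := R17.Vor.Vr_le
  have hC0 : 0 ≤ C := by simpa using (R17.Vor.Vr_pos 0).le.trans (hC 0 le_rfl)
  have hf : ∀ i : Pl K, 0 < ‖lm i‖ * v i := fun i => mul_pos (norm_pos_iff.2 (div_ne_zero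
    (mul_ne_zero (Complex.ofReal_ne_zero.2 (by positivity)) Complex.I_ne_zero) (dlt_ne_zero i))) (hv i)
  obtain ⟨c, hc, hc'⟩ : ∃ c : ℝ, 0 < c ∧ ∀ i : Pl K, c ≤ ‖lm i‖ * v i := by
    have h0 : 0 ≤ ∑ i : Pl K, (‖lm i‖ * v i)⁻¹ := Finset.sum_nonneg fun i _ => (inv_pos.2 (hf i)).le
    refine ⟨(1 + ∑ i : Pl K, (‖lm i‖ * v i)⁻¹)⁻¹, by positivity, fun i => ?_⟩
    rw [inv_le_comm₀ (by positivity) (hf i)]
    exact (Finset.single_le_sum (f := fun i : Pl K => (‖lm i‖ * v i)⁻¹)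
      (fun i _ => (inv_pos.2 (hf i)).le) (Finset.mem_univ i)).trans (le_add_of_nonneg_left zero_le_one)
  refine ⟨((2 * dd K * j).factorial : ℝ) / (c / 2) ^ (2 * dd K * j) * ∏ i, v i ^ (2 / 3 : ℝ) * C,
    c / 2, half_pos hc, fun n => ?_⟩
  obtain ⟨x, hx⟩ : ∃ x, x = ‖embv n‖ := ⟨_, rfl⟩
  have hx0 : 0 ≤ x := hx ▸ norm_nonneg _
  have hP : 0 ≤ ∏ i, v i ^ (2 / 3 : ℝ) * C :=
    Finset.prod_nonneg fun i _ => mul_nonneg (Real.rpow_nonneg (hv i).le _) hC0
  have h1 : aN n ≤ x ^ (2 * dd K) := by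
    rw [aN_eq_prod, pow_mul, dd, ← Finset.card_univ, ← Finset.prod_const]
    exact Finset.prod_le_prod (fun i _ => sq_nonneg _) fun i _ =>
      pow_le_pow_left₀ (norm_nonneg _) (hx ▸ norm_le_pi_norm (embv n) i) 2
  have h2 : x ≤ ∑ i, ‖emb i n‖ := by
    rw [hx]
    exact (pi_norm_le_iff_of_nonneg (Finset.sum_nonneg fun i _ => norm_nonneg _)).2 fun i =>
      Finset.single_le_sum (f := fun i : Pl K => ‖emb i n‖) (fun i _ => norm_nonneg _)
        (Finset.mem_univ i)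
  have h3 : BB n v ≤ (∏ i, v i ^ (2 / 3 : ℝ) * C) * Real.exp (-(c * x)) := by
    refine le_trans ?_ (mul_le_mul_of_nonneg_left (Real.exp_le_exp.2
      (neg_le_neg (mul_le_mul_of_nonneg_left h2 hc.le))) hP)
    rw [Finset.mul_sum, ← Finset.sum_neg_distrib, Real.exp_sum, ← Finset.prod_mul_distrib, BB]
    refine Finset.prod_le_prod (fun i _ => mul_nonneg (Real.rpow_nonneg (hv i).le _)
      (R17.Vor.Vr_pos _).le) fun i _ => ?_
    rw [mul_assoc]
    refine mul_le_mul_of_nonneg_left ((hC _ (mul_nonneg (norm_nonneg _) (hv i).le)).trans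
      (mul_le_mul_of_nonneg_left (Real.exp_le_exp.2 (neg_le_neg ?_)) hC0))
      (Real.rpow_nonneg (hv i).le _)
    rw [norm_mul, mul_right_comm]
    exact mul_le_mul_of_nonneg_right (hc' i) (norm_nonneg _)
  have h4 : x ^ (2 * dd K * j) ≤
      ((2 * dd K * j).factorial : ℝ) / (c / 2) ^ (2 * dd K * j) * Real.exp (c / 2 * x) := by
    have h5 := Real.pow_div_factorial_le_exp (c / 2 * x) (by positivity) (2 * dd K * j)
    rw [div_le_iff₀ (by positivity), mul_pow] at h5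
    rw [div_mul_eq_mul_div, le_div_iff₀ (by positivity)]
    linarith
  rw [← hx]
  refine (mul_le_mul (((pow_le_pow_left₀ (aN_nonneg n) h1 j).trans_eq (pow_mul _ _ _).symm).trans h4)
    h3 (b5aexp_BB_pos n hv).le (by positivity)).trans_eq ?_
  rw [show -(c / 2 * x) = c / 2 * x + -(c * x) by ring, Real.exp_add]
  ring

end arch

variable {K : Type} [Field K] [NumberField K] [Fld K] [Loc K] [Setup K]
variable {p : R K} {κ κ' : R K → R K → ℂ} {δ : SL (R K)} {I : Ideal (𝓞 K)}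

/-- **Fourier coefficients** of the residue at any cusp.  `theta_main`, `coef_Eis`, the constant term has
residue `0` (`hasRes_of_hol`, `differentiableOn_A0`), `HasRes.of_mul` with
`ι = {v // ∀ i, 0 < v i}`, `A v = AW n v`. -/
theorem hasRes_DS (hp : p ≠ 0) (h : Cusp p κ δ I) (σ : SL (R K)) {J : Ideal (𝓞 K)} (hJ : J ≠ ⊥)
    (hper : Per3 J (tr σ κ)) {n : K} (hn : n ∈ dualI J) :
    HasRes K (DS J (tr σ κ) n) (res43 K (DS J (tr σ κ) n)) ∧ ∀ v : Pl K → ℝ, (∀ i, 0 < v i) →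
      coef J n v (fun w => thK κ (actR σ w)) = res43 K (DS J (tr σ κ) n) * (BB n v : ℂ) := by
  have hres : ∀ v : Pl K → ℝ, (∀ i, 0 < v i) → HasRes K (fun s => AW n v s * DS J (tr σ κ) n s)
      (coef J n v (fun w => thK κ (actR σ w))) := fun v hv => by
    have h1 := (theta_main h).2.2.1 σ J n v
    have h2 : HasRes K (fun s => if n = 0 then ((volume : Measure (Pl K → ℂ)).real (cellI J) : ℂ) *
        pw s (∏ i, v i) * A0 (tr σ κ) s else 0) 0 := by
      refine hasRes_of_hol ?_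
      split_ifs
      · exact ((R17.Vor.differentiable_pw (Finset.prod_pos fun i _ => hv i)).const_mul
          _).differentiableOn.mul (differentiableOn_A0 (h.bd.tr σ))
      · exact differentiableOn_const _
    have h3 := h1.sub h2
    rw [sub_zero] at h3
    refine h3.congr fun s _ hs => ?_
    rw [coef_Eis (h.bd.tr σ) hJ hper hn hs hv]
    ring
  have h1 := (HasRes.of_mul (ι := {v : Pl K → ℝ // ∀ i, 0 < v i}) (A := fun v => AW n v.1)
    (fun v => differentiableOn_AW n v.2) (fun s hs => by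
      obtain ⟨v, hv, h⟩ := exists_AW_ne n hs
      exact ⟨⟨v, hv⟩, h⟩) (fun v => hres v.1 v.2) (i0 := ⟨fun _ => 1, fun _ => one_pos⟩) (by
      show AW n (fun _ => 1) (4 / 3) ≠ 0
      rw [AW_43 n fun _ => one_pos, Complex.ofReal_ne_zero]
      exact (b5aexp_BB_pos n fun _ => one_pos).ne')).hasRes_res43
  refine ⟨h1, fun v hv => ?_⟩
  rw [← AW_43 n hv, mul_comm]
  exact (hres v hv).unique (h1.hol_mul (differentiableOn_AW n hv))

omit [Fld K] [Setup K] in
theorem QI_ne_bot (e : ℕ) : QI K e ≠ ⊥ := by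
  rw [QI, Ne, Ideal.span_singleton_eq_bot]
  exact pow_ne_zero e (Nat.cast_ne_zero.2 Loc.Q_ne)
omit [Fld K] [Setup K] in
theorem mem_dualI_QI {e : ℕ} {n : K} :
    n ∈ dualI (QI K e) ↔ IsIntegral ℤ ((Loc.Q K : K) ^ e * n) := by
  have e1 : (((((Loc.Q K : ℕ) : 𝓞 K) ^ e : 𝓞 K)) : K) = (Loc.Q K : K) ^ e := by simp
  constructor
  · intro h
    have h1 := h _ (Ideal.mem_span_singleton_self _)
    rwa [e1, mul_comm] at h1
  · intro h x hx
    obtain ⟨y, rfl⟩ := Ideal.mem_span_singleton'.1 hx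
    refine loc_of_eq (h.mul y.isIntegral_coe) ?_
    rw [← e1]
    push_cast
    ring
omit [Fld K] [Setup K] in
/-- `dualI (QI K e)` is the lattice `Lat e` in `R K` -/
theorem exists_dual_emb (e : ℕ) : ∃ f : dualI (QI K e) → R K, (∀ n, ((f n : R K) : K) = n) ∧
    Function.Injective f ∧ ∀ x, x ∈ Set.range f ↔ Lat e x := by
  refine ⟨fun n => ⟨n, e, mem_dualI_QI.1 n.2⟩, fun n => rfl, fun n m h => ?_, fun x => ⟨?_, fun hx => ?_⟩⟩
  · exact Subtype.ext (congrArg (fun x : R K => (x : K)) h)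
  · rintro ⟨n, rfl⟩
    exact SInt.of_isIntegral (mem_dualI_QI.1 n.2)
  · obtain ⟨y, hy⟩ := hx.exists_int
    exact ⟨⟨x, mem_dualI_QI.2 (hy ▸ y.isIntegral_coe)⟩, rfl⟩
/-- `thK_actR` twice, `actR_nn_ptK`; `tr (nn t) κ' = κ'` by `Per3` (for `-t`) -/
theorem thK_per (h : RowBd κ) (σ : SL (R K)) {J : Ideal (𝓞 K)} (hper : Per3 J (tr σ κ))
    {v : Pl K → ℝ} (hv : ∀ i, 0 < v i) (z : Pl K → ℂ) {t : 𝓞 K} (ht0 : t ∈ J) :
    thK κ (actR σ (ptK (z + embv (t : K)) v)) = thK κ (actR σ (ptK z v)) := by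
  have e : tr (nn (toR t)) (tr σ κ) = tr σ κ := by
    funext C D
    rw [← hper C D (-t) (J.neg_mem ht0), tr]
    congr 1
    · simp [nn]
    · simp only [nn, map_neg]
      ring
  rw [← coe_toR, ← actR_nn_ptK _ z hv, thK_actR h, thK_actR (h.tr σ), e, thK_actR h]

/-- **Fourier expansion**: `fourier_cellI`, `hasRes_DS`, `BB_le`, `summable_exp_dual` (the term `n = 0`
separately: `Summable.of_norm_bounded_eventually`), `Function.Injective.hasSum_iff` -/
theorem hasExp_thK (hp : p ≠ 0) (h : Cusp p κ δ I) (σ : SL (R K)) {e : ℕ}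
    (hper : Per3 (QI K e) (tr σ κ)) {C : ℝ} {j : ℕ}
    (hb : ∀ n : R K, n ≠ 0 → SInt ((Loc.Q K : K) ^ e * (n : K)) →
      ‖res43 K (DS (QI K e) (tr σ κ) (n : K))‖ ≤ C * aN (n : K) ^ j) :
    HasExp (fun w => thK κ (actR σ w)) (fun n => if SInt ((Loc.Q K : K) ^ e * (n : K)) then
      (ivol (QI K e) : ℂ) * res43 K (DS (QI K e) (tr σ κ) (n : K)) else 0) := by
  intro z v hv
  obtain ⟨f, hf, hinj, hrange⟩ := exists_dual_emb (K := K) e
  have hI := QI_ne_bot (K := K) e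
  obtain ⟨C', c, hc, hB⟩ := BB_le hv j
  have hcoef : ∀ n : dualI (QI K e), ∫ y in cellI (QI K e),
      thK κ (actR σ (ptK y v)) * eI (-(embv (n : K) * y)) =
      res43 K (DS (QI K e) (tr σ κ) (n : K)) * (BB (n : K) v : ℂ) := fun n =>
    (hasRes_DS hp h σ hI hper n.2).2 v hv
  have hL : ∀ n : dualI (QI K e), SInt ((Loc.Q K : K) ^ e * ((f n : R K) : K)) := fun n =>
    (hrange _).1 ⟨n, rfl⟩
  have h1 := fourier_cellI hI (f := fun y => thK κ (actR σ (ptK y v)))
    (((eig_thK hp h).cont.comp (continuous_actR σ)).comp (continuous_ptK v))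
    (fun y t ht0 => thK_per h.bd σ hper hv y ht0) (by
      simp only [hcoef]
      refine Summable.of_norm_bounded_eventually ((summable_exp_dual hI hc).mul_left (|C| * C')) ?_
      filter_upwards [eventually_cofinite_ne 0] with n hn
      have h2 := hb (f n) (fun h0 => hn (Subtype.ext (by rw [← hf, h0]; rfl))) (hL n)
      have h3 := b5aexp_BB_pos (n : K) hv
      rw [hf] at h2
      rw [norm_mul, Complex.norm_real, Real.norm_of_nonneg h3.le]
      refine (mul_le_mul_of_nonneg_right (h2.trans (mul_le_mul_of_nonneg_right (le_abs_self C)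
        (pow_nonneg (aN_nonneg _) j))) h3.le).trans ?_
      rw [mul_assoc, mul_assoc]
      exact mul_le_mul_of_nonneg_left (hB _) (abs_nonneg C)) z
  refine (hinj.hasSum_iff fun x hx => ?_).1 (h1.congr_fun fun n => ?_)
  · beta_reduce
    have h0 : ¬ SInt ((Loc.Q K : K) ^ e * (x : K)) := fun h0 => hx ((hrange x).2 h0)
    rw [if_neg h0, zero_mul, zero_mul]
  · simp only [Function.comp_apply]
    rw [if_pos (hL n), hf, hcoef]
    ring

end Crest.Agent.R312.Th
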