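import Crest.Agent.R312.B5ADefs

/-!
# R312 / B5AGeo : geometry of the product `XX K` (no measure theory)

Everything is the coordinatewise version of `R17/VoGeo1.lean` (cite `R17.Vor.act_mul`, `hr_act`, `uu_act`,
`le_Qf`, ...) combined with `Finset.prod_congr`, `Finset.prod_le_prod`, `aN_eq_prod`.
-/

set_option autoImplicit false
set_option linter.unusedSectionVars false

noncomputable section

open scoped Classical ComplexConjugate NumberField Topology ENNReal InnerProductSpace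
open MeasureTheory Filter
open Crest.Agent.R17.Vor (SL X vc zc pt o hr act uu kk hh Tt pw hi lo mid W Vr nn SS Adm LocBd)

namespace Crest.Agent.R312.Th

section arch
variable {K : Type} [Field K] [NumberField K] [Fld K]

theorem actP_mul (g h : Pl K → SL ℂ) (w : XX K) : actP (g * h) w = actP g (actP h w) := by
  funext v
  exact R17.Vor.act_mul (g v) (h v) (w v)
theorem actP_one (w : XX K) : actP 1 w = w := by
  funext v
  exact R17.Vor.act_one (w v)
theorem actP_inv_actP (g : Pl K → SL ℂ) (w : XX K) : actP g⁻¹ (actP g w) = w := by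
  rw [← actP_mul, inv_mul_cancel, actP_one]
theorem actP_actP_inv (g : Pl K → SL ℂ) (w : XX K) : actP g (actP g⁻¹ w) = w := by
  rw [← actP_mul, mul_inv_cancel, actP_one]
theorem continuous_actP (g : Pl K → SL ℂ) : Continuous (actP g) := by
  exact continuous_pi fun v => (R17.Vor.continuous_act (g v)).comp (continuous_apply v)

theorem ht_pos (w : XX K) : 0 < ht w := by
  exact Finset.prod_pos fun v _ => R17.Vor.vc_pos (w v)
theorem continuous_ht : Continuous (ht : XX K → ℝ) := by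
  exact continuous_finsetProd _ fun v _ => R17.Vor.continuous_vc.comp (continuous_apply v)
theorem ht_eq_exp (w : XX K) : ht w = Real.exp (∑ v, xv w v) := by
  rw [Real.exp_sum]
  rfl
theorem ht_ptK (z : Pl K → ℂ) {v : Pl K → ℝ} (hv : ∀ i, 0 < v i) : ht (ptK z v) = ∏ i, v i := by
  exact Finset.prod_congr rfl fun i _ => R17.Vor.vc_pt (z i) (hv i)
theorem zv_ptK (z : Pl K → ℂ) {v : Pl K → ℝ} (hv : ∀ i, 0 < v i) : zv (ptK z v) = z := by
  funext i
  exact R17.Vor.zc_pt (z i) (hv i)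
theorem xv_ptK (z : Pl K → ℂ) (v : Pl K → ℝ) : xv (ptK z v) = fun i => Real.log (v i) := by
  rfl
theorem ptK_zv (w : XX K) : ptK (zv w) (fun i => Real.exp (xv w i)) = w := by
  funext i
  exact R17.Vor.pt_zc_vc (w i)
theorem ptK_zero_one : ptK (0 : Pl K → ℂ) (fun _ => 1) = oK := by
  funext i
  simp [ptK, oK, pt, o]
theorem continuous_zv : Continuous (zv : XX K → Pl K → ℂ) := by
  exact continuous_pi fun v => R17.Vor.continuous_zc.comp (continuous_apply v)
theorem continuous_xv : Continuous (xv : XX K → Pl K → ℝ) := by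
  exact continuous_pi fun v => continuous_snd.comp (continuous_apply v)
theorem continuous_ptK (v : Pl K → ℝ) : Continuous fun z : Pl K → ℂ => ptK z v := by
  exact continuous_pi fun i => (R17.Vor.continuous_pt (v i)).comp (continuous_apply i)

theorem geo_row (v : Pl K) {c d : K} (h : c ≠ 0 ∨ d ≠ 0) : emb v c ≠ 0 ∨ emb v d ≠ 0 :=
  h.imp (emb_ne_zero v) (emb_ne_zero v)
theorem geo_ne : Nonempty (Pl K) := Fintype.card_pos_iff.1 dd_pos
theorem geo_const (a : ℝ) : ∏ _v : Pl K, a = a ^ dd K := by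
  rw [Finset.prod_const, Finset.card_univ, dd]

theorem Ht_nonneg (w : XX K) (c d : K) : 0 ≤ Ht w c d := by
  exact Finset.prod_nonneg fun v _ => R17.Vor.hr_nonneg _ _ _
theorem Ht_pos (w : XX K) {c d : K} (h : c ≠ 0 ∨ d ≠ 0) : 0 < Ht w c d := by
  exact Finset.prod_pos fun v _ => R17.Vor.hr_pos _ (geo_row v h)
theorem Ht_zero_zero (w : XX K) : Ht w 0 0 = 0 := by
  obtain ⟨v⟩ := geo_ne (K := K)
  refine Finset.prod_eq_zero (Finset.mem_univ v) ?_
  rw [R17.Vor.hr_eq]
  simp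
theorem measurable_Ht (c d : K) : Measurable fun w : XX K => Ht w c d := by
  exact Finset.measurable_prod _ fun v _ =>
    (R17.Vor.measurable_hr _ _).comp (measurable_pi_apply v)
theorem continuous_Ht {c d : K} (h : c ≠ 0 ∨ d ≠ 0) : Continuous fun w : XX K => Ht w c d := by
  exact continuous_finsetProd _ fun v _ =>
    (R17.Vor.continuous_hr (geo_row v h)).comp (continuous_apply v)
/-- `hr w (u c) (u d) = hr w c d / |u|²` (`R17.Vor.hr_eq`) -/
theorem Ht_mul (w : XX K) (u c d : K) : Ht w (u * c) (u * d) = Ht w c d / aN u := by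
  rw [Ht, Ht, aN_eq_prod, ← Finset.prod_div_distrib]
  refine Finset.prod_congr rfl fun v _ => ?_
  rw [R17.Vor.hr_eq, R17.Vor.hr_eq, emb_mul, emb_mul, mul_assoc, ← mul_add, norm_mul, norm_mul,
    div_div]
  congr 1
  ring
theorem Ht_zero (w : XX K) (d : K) : Ht w 0 d = ht w / aN d := by
  rw [Ht, ht, aN_eq_prod, ← Finset.prod_div_distrib]
  refine Finset.prod_congr rfl fun v _ => ?_
  rw [R17.Vor.hr_eq]
  simp
theorem Ht_oK (c d : K) : Ht oK c d = (∏ v, (‖emb v c‖ ^ 2 + ‖emb v d‖ ^ 2))⁻¹ := by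
  rw [Ht, ← Finset.prod_inv_distrib]
  exact Finset.prod_congr rfl fun v _ => by rw [oK, hr, R17.Vor.geo1_Qf_o]
/-- `R17.Vor.le_Qf` at every place (both sides vanish for `c = d = 0`) -/
theorem Ht_le {ρ : ℝ} {w : XX K} (hw : InB ρ w) (c d : K) :
    Ht w c d ≤ (2 * ρ) ^ dd K * Ht oK c d := by
  by_cases h : c ≠ 0 ∨ d ≠ 0
  swap
  · push Not at h
    rw [h.1, h.2, Ht_zero_zero, Ht_zero_zero, mul_zero]
  rw [← geo_const, Ht, Ht, ← Finset.prod_mul_distrib]
  refine Finset.prod_le_prod (fun v _ => R17.Vor.hr_nonneg _ _ _) fun v _ => ?_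
  have h1 := R17.Vor.le_Qf (w v) (emb v c) (emb v d)
  have h2 := R17.Vor.Qf_pos (w v) (geo_row v h)
  have h3 := R17.Vor.Qf_pos o (geo_row v h)
  rw [← R17.Vor.geo1_Qf_o] at h1
  rw [oK, hr, hr, ← div_eq_mul_inv, inv_eq_one_div, div_le_div_iff₀ h2 h3, one_mul]
  exact h1.trans (by gcongr; exact hw v)
theorem Ht_ptK {C : K} (hC : C ≠ 0) (D : K) (z : Pl K → ℂ) {v : Pl K → ℝ} (hv : ∀ i, 0 < v i) :
    Ht (ptK z v) C D = (aN C)⁻¹ * ∏ i, v i / (‖z i + emb i (D / C)‖ ^ 2 + v i ^ 2) := by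
  rw [Ht, aN_eq_prod, ← Finset.prod_inv_distrib, ← Finset.prod_mul_distrib]
  refine Finset.prod_congr rfl fun i _ => ?_
  have h0 := emb_ne_zero i hC
  have e : emb i C * z i + emb i D = emb i C * (z i + emb i (D / C)) := by
    rw [emb_div]
    field_simp
  rw [ptK, R17.Vor.hr_eq, R17.Vor.zc_pt _ (hv i), R17.Vor.vc_pt _ (hv i), e, norm_mul, mul_pow,
    ← mul_add, ← div_div, div_right_comm, div_eq_inv_mul]

theorem kP_nonneg (w w' : XX K) : 0 ≤ kP w w' := by
  exact Finset.prod_nonneg fun v _ => R17.Vor.kk_nonneg _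
theorem kP_le_one (w w' : XX K) : kP w w' ≤ 1 := by
  exact Finset.prod_le_one (fun v _ => R17.Vor.kk_nonneg _) fun v _ => R17.Vor.kk_uu_le _ _
theorem kP_symm (w w' : XX K) : kP w w' = kP w' w := by
  exact Finset.prod_congr rfl fun v _ => by rw [R17.Vor.uu_symm]
theorem kP_actP (g : Pl K → SL ℂ) (w w' : XX K) : kP (actP g w) (actP g w') = kP w w' := by
  exact Finset.prod_congr rfl fun v _ => by rw [actP, actP, R17.Vor.uu_act]
theorem continuous_kP : Continuous fun q : XX K × XX K => kP q.1 q.2 := by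
  exact continuous_finsetProd _ fun v _ => R17.Vor.continuous_kk.comp
    (R17.Vor.continuous_uu.comp (f := fun q : XX K × XX K => (q.1 v, q.2 v)) (by fun_prop))
theorem continuous_kP' (w : XX K) : Continuous (kP w) := by
  exact continuous_kP.comp (f := fun w' : XX K => (w, w')) (by fun_prop)
theorem kP_eq_zero {w w' : XX K} (h : ¬ ∀ v, uu (w v) (w' v) ≤ 2) : kP w w' = 0 := by
  push Not at h
  obtain ⟨v, hv⟩ := h
  exact Finset.prod_eq_zero (Finset.mem_univ v) (R17.Vor.kk_eq_zero hv.le)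

theorem exists_inB (w : XX K) : ∃ ρ : ℝ, InB ρ w := by
  exact ⟨∑ v, uu (w v) o, fun v => Finset.single_le_sum (f := fun v => uu (w v) o)
    (fun i _ => zero_le_one.trans (R17.Vor.one_le_uu _ _)) (Finset.mem_univ v)⟩
theorem InB.mono {ρ ρ' : ℝ} {w : XX K} (h : InB ρ w) (h' : ρ ≤ ρ') : InB ρ' w := by
  exact fun v => (h v).trans h'
theorem InB.one_le {ρ : ℝ} {w : XX K} (h : InB ρ w) : 1 ≤ ρ := by
  obtain ⟨v⟩ := geo_ne (K := K)
  exact (R17.Vor.one_le_uu _ _).trans (h v)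
theorem inB_oK : InB 1 (oK : XX K) := by
  exact fun v => (R17.Vor.uu_self o).le
/-- `R17.Vor.uu_le` -/
theorem InB.near {ρ : ℝ} {w w' : XX K} (hw : InB ρ w) (h : ∀ v, uu (w v) (w' v) ≤ 2) :
    InB (4 * ρ) w' := by
  intro v
  have h1 := R17.Vor.uu_le (w' v) (w v) o
  rw [R17.Vor.uu_symm (w' v) (w v)] at h1
  have h2 := R17.Vor.one_le_uu (w v) o
  calc _ ≤ _ := h1
    _ ≤ 2 * 2 * ρ := by gcongr; exacts [h v, hw v]
    _ = _ := by ring
theorem InB.of_kP {ρ : ℝ} {w w' : XX K} (hw : InB ρ w) (h : kP w w' ≠ 0) : InB (4 * ρ) w' := by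
  exact hw.near (by by_contra hc; exact h (kP_eq_zero hc))
theorem geo_cont (v : Pl K) : Continuous fun w : XX K => uu (w v) o :=
  R17.Vor.continuous_uu.comp (f := fun w : XX K => (w v, o)) (by fun_prop)
theorem eventually_inB (w₀ : XX K) : ∃ ρ : ℝ, ∀ᶠ w in 𝓝 w₀, InB ρ w := by
  obtain ⟨ρ, hρ⟩ := exists_inB w₀
  refine ⟨ρ + 1, eventually_all.2 fun v => ?_⟩
  exact ((geo_cont v).continuousAt.eventually_lt continuousAt_const
    (show uu (w₀ v) o < ρ + 1 by linarith [hρ v])).mono fun w hw => hw.le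
/-- `isCompact_univ_pi`, `R17.Vor.isCompact_ball` -/
theorem isCompact_inB (ρ : ℝ) : IsCompact {w : XX K | InB ρ w} := by
  have h := isCompact_univ_pi fun _ : Pl K => R17.Vor.isCompact_ball o ρ
  convert h using 1
  ext w
  simp only [InB, Set.mem_ofPred_eq, Set.mem_pi, Set.mem_univ, forall_true_left,
    R17.Vor.uu_symm o]
theorem measurableSet_inB (ρ : ℝ) : MeasurableSet {w : XX K | InB ρ w} := by
  exact (isCompact_inB ρ).measurableSet
theorem exists_inB_of_isCompact {S : Set (XX K)} (hS : IsCompact S) : ∃ ρ : ℝ, ∀ w ∈ S, InB ρ w := by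
  have hc : Continuous fun w : XX K => ∑ v, uu (w v) o :=
    continuous_finsetSum _ fun v _ => geo_cont v
  obtain ⟨ρ, hρ⟩ := hS.bddAbove_image hc.continuousOn
  refine ⟨ρ, fun w hw v => le_trans ?_ (hρ ⟨w, hw, rfl⟩)⟩
  exact Finset.single_le_sum (f := fun v => uu (w v) o)
    (fun i _ => zero_le_one.trans (R17.Vor.one_le_uu _ _)) (Finset.mem_univ v)
/-- `uu w o = (|z|² + v² + 1)/(2v)` (`R17.Vor.geo1_uu_o`) -/
theorem exists_inB_box (A B : ℝ) : ∃ ρ : ℝ, ∀ w : XX K, ‖zv w‖ ≤ A → ‖xv w‖ ≤ B → InB ρ w := by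
  refine ⟨(A ^ 2 + Real.exp B ^ 2 + 1) / (2 * Real.exp (-B)), fun w hz hx v => ?_⟩
  have h1 : ‖zc (w v)‖ ≤ A := (norm_le_pi_norm (zv w) v).trans hz
  have h2 : |(w v).2| ≤ B := (norm_le_pi_norm (xv w) v).trans hx
  have h3 : vc (w v) ≤ Real.exp B := Real.exp_le_exp.2 (abs_le.1 h2).2
  have h4 : Real.exp (-B) ≤ vc (w v) := Real.exp_le_exp.2 (abs_le.1 h2).1
  have h5 := R17.Vor.vc_pos (w v)
  rw [R17.Vor.geo1_uu_o]
  gcongr
/-- `R17.Vor.exists_act_o` at every place -/
theorem exists_actP_o (w : XX K) : ∃ g : Pl K → SL ℂ, actP g oK = w ∧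
    ∀ w', ht (actP g w') = ht w * ht w' := by
  choose g _ h1 h2 using fun v => R17.Vor.exists_act_o (w v)
  refine ⟨g, funext h1, fun w' => ?_⟩
  rw [ht, ht, ht, ← Finset.prod_mul_distrib]
  exact Finset.prod_congr rfl fun v _ => h2 v (w' v)
/-- on the support of `kP oK`: `1/4 ≤ vc ≤ 4` at every place (as in the proof of `R17.Vor.TX_vc`) -/
theorem ht_range {w : XX K} (h : kP oK w ≠ 0) : (4 ^ dd K)⁻¹ ≤ ht w ∧ ht w ≤ 4 ^ dd K := by
  have h1 : ∀ v, uu (oK v) (w v) ≤ 2 := by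
    by_contra hc
    exact h (kP_eq_zero hc)
  have h2 : ∀ v, 4⁻¹ ≤ vc (w v) ∧ vc (w v) ≤ 4 := fun v => by
    have h3 := h1 v
    have h4 := R17.Vor.vc_pos (w v)
    rw [oK, R17.Vor.uu_symm, R17.Vor.geo1_uu_o, div_le_iff₀ (by positivity)] at h3
    constructor <;> nlinarith [sq_nonneg ‖zc (w v)‖]
  rw [← inv_pow, ← geo_const, ← geo_const]
  exact ⟨Finset.prod_le_prod (fun _ _ => by norm_num) fun v _ => (h2 v).1,
    Finset.prod_le_prod (fun v _ => (R17.Vor.vc_pos _).le) fun v _ => (h2 v).2⟩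

end arch

section loc
variable {K : Type} [Field K] [NumberField K] [Fld K] [Loc K]

theorem actR_eq (g : SL (R K)) : actR g = actP fun v : Pl K => SL.map v.1 (ιR g) := rfl

theorem actR_mul (g h : SL (R K)) (w : XX K) : actR (g * h) w = actR g (actR h w) := by
  funext v
  simp only [actR_eq, actP, map_mul, R17.Vor.act_mul]
theorem actR_one (w : XX K) : actR (1 : SL (R K)) w = w := by
  funext v
  simp only [actR_eq, actP, map_one, R17.Vor.act_one]
theorem actR_inv_actR (g : SL (R K)) (w : XX K) : actR g⁻¹ (actR g w) = w := by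
  rw [← actR_mul, inv_mul_cancel, actR_one]
theorem actR_actR_inv (g : SL (R K)) (w : XX K) : actR g (actR g⁻¹ w) = w := by
  rw [← actR_mul, mul_inv_cancel, actR_one]
theorem continuous_actR (g : SL (R K)) : Continuous (actR g : XX K → XX K) := by
  exact continuous_actP _
theorem ht_actR (g : SL (R K)) (w : XX K) : ht (actR g w) = Ht w (g.c : K) (g.d : K) := by
  exact Finset.prod_congr rfl fun v _ => R17.Vor.vc_act _ _
theorem Ht_actR (g : SL (R K)) (w : XX K) (c d : R K) : Ht (actR g w) (c : K) (d : K) =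
    Ht w ((c * g.a + d * g.c : R K) : K) ((c * g.b + d * g.d : R K) : K) := by
  refine Finset.prod_congr rfl fun v _ => ?_
  rw [actR_eq, actP, R17.Vor.hr_act]
  push_cast
  rw [emb_add, emb_add, emb_mul, emb_mul, emb_mul, emb_mul]
  rfl
theorem uu_actR (g : SL (R K)) (w w' : XX K) (v : Pl K) :
    uu (actR g w v) (actR g w' v) = uu (w v) (w' v) := by
  exact R17.Vor.uu_act _ _ _
theorem kP_actR (g : SL (R K)) (w w' : XX K) : kP (actR g w) (actR g w') = kP w w' := by
  exact kP_actP _ _ _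
theorem uu_actR_o (g : SL (R K)) (v : Pl K) : uu (actR g oK v) o =
    (‖emb v (g.a : K)‖ ^ 2 + ‖emb v (g.b : K)‖ ^ 2 + ‖emb v (g.c : K)‖ ^ 2 +
      ‖emb v (g.d : K)‖ ^ 2) / 2 := by
  exact R17.Vor.uu_act_o _
theorem geo_nn (x : R K) (v : Pl K) : SL.map v.1 (ιR (nn x)) = nn (emb v (x : K)) := by
  ext1 <;> simp [nn, ιR, emb]
theorem zv_nn (x : R K) (w : XX K) : zv (actR (nn x) w) = zv w + embv (x : K) := by
  funext v
  rw [actR_eq, zv, actP, geo_nn, R17.Vor.zc_act_nn]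
  rfl
theorem xv_nn (x : R K) (w : XX K) : xv (actR (nn x) w) = xv w := by
  funext v
  refine Real.exp_injective ?_
  have := R17.Vor.vc_act_nn (emb v (x : K)) (w v)
  rw [← geo_nn] at this
  exact this
/-- `vc (act g w) = hr w 0 u⁻¹ = |u|² vc w` -/
theorem xv_dgR (u : (R K)ˣ) (w : XX K) : xv (actR (dgR u) w) = xv w + lg ((u : R K) : K) := by
  funext v
  refine Real.exp_injective ?_
  have hu : ((u : R K) : K) ≠ 0 := fun h => u.ne_zero (Subtype.ext h)
  have hi : (((u⁻¹ : (R K)ˣ) : R K) : K) = ((u : R K) : K)⁻¹ := by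
    refine eq_inv_of_mul_eq_one_left ?_
    rw [← Subring.coe_mul, Units.inv_mul, Subring.coe_one]
  have h1 : Real.exp (xv (actR (dgR u) w) v) =
      hr (w v) (emb v ((0 : R K) : K)) (emb v (((u⁻¹ : (R K)ˣ) : R K) : K)) := R17.Vor.vc_act _ _
  rw [h1, Pi.add_apply, Real.exp_add, exp_lg hu, hi, R17.Vor.hr_eq, emb_inv]
  simp [vc, xv]
theorem actR_nn_ptK (x : R K) (z : Pl K → ℂ) {v : Pl K → ℝ} (hv : ∀ i, 0 < v i) :
    actR (nn x) (ptK z v) = ptK (z + embv (x : K)) v := by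
  funext i
  rw [actR_eq, actP, geo_nn, ptK, R17.Vor.act_nn _ _ (hv i)]
  rfl

omit [NumberField K] [Fld K] in
theorem exists_row {c d : R K} (h : IsCoprime c d) : ∃ g : SL (R K), g.c = c ∧ g.d = d := by
  obtain ⟨u, v, huv⟩ := h
  exact ⟨⟨v, -u, c, d, by linear_combination huv⟩, rfl, rfl⟩
omit [NumberField K] [Fld K] in
/-- as `R17.Vor.exists_nn_of_row` -/
theorem exists_nn_of_row {g h : SL (R K)} (hc : g.c = h.c) (hd : g.d = h.d) :
    ∃ x : R K, g = nn x * h := by
  refine ⟨(g * h⁻¹).b, ?_⟩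
  have h1 := g.det
  have h2 := h.det
  rw [hc, hd] at h1
  ext1 <;> simp only [SL.mul_a, SL.mul_b, SL.mul_c, SL.mul_d, SL.inv_b, nn, hc, hd]
  · linear_combination (-g.a) * h2 + h.a * h1
  · linear_combination (-g.b) * h2 + h.b * h1
  · ring
  · ring
theorem Ht_pos_of_isCoprime (w : XX K) {c d : R K} (h : IsCoprime c d) : 0 < Ht w (c : K) (d : K) := by
  refine Ht_pos w ?_
  by_contra hc
  push Not at hc
  have h1 : c = 0 := Subtype.ext hc.1
  have h2 : d = 0 := Subtype.ext hc.2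
  rw [h1, h2] at h
  exact not_isCoprime_zero_zero h

theorem BB_pos (n : K) {v : Pl K → ℝ} (hv : ∀ i, 0 < v i) : 0 < BB n v := by
  exact Finset.prod_pos fun i _ => mul_pos (Real.rpow_pos_of_pos (hv i) _) (R17.Vor.Vr_pos _)

end loc

end Crest.Agent.R312.Th
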