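import Crest.Agent.R312.B5ADefs

/-!
# R312 / B5AHh : the eigenvalue `hh s ^ d` and the truncated powers `gB` (real analysis on `ℝ`)
-/

set_option autoImplicit false
set_option linter.unusedSectionVars false

noncomputable section

open scoped Classical ComplexConjugate NumberField Topology ENNReal InnerProductSpace
open MeasureTheory Filter
open Crest.Agent.R17.Vor (SL X vc zc pt o hr act uu kk hh Tt pw hi lo mid W Vr nn SS Adm LocBd)

namespace Crest.Agent.R312.Th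

open Crest.Agent.R17.Vor (Qk)

theorem b5hh_int (s : ℂ) : Integrable fun x : ℝ => (Qk x : ℂ) * Complex.exp ((s - 1) * x) :=
  R17.Vor.vohh_int (by fun_prop) fun x hx => by
    simpa using R17.Vor.vohh_exp (s := s - 1) (c := 0) le_rfl hx

section arch
variable {K : Type} [Field K] [NumberField K] [Fld K]

theorem Omg_sub : Omg K ⊆ R17.Vor.Omg := by
  rintro s ⟨h1, h2, h3⟩
  refine ⟨h1, h2, h3.trans_le ?_⟩
  have h : (1 : ℝ) ≤ dd K := by exact_mod_cast dd_pos (K := K)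
  exact (div_le_one (by linarith)).2 h

/-- `Re hh(1+a+ib) = ∫ Qk e^{ax} cos (bx) > 0` since `|bx| ≤ 3/2 < π/2` on the support (`R17.Vor.vohh_pos`,
compare `R17.Vor.hh_im_pos`) -/
theorem hh_re_pos {s : ℂ} (hs : s ∈ R17.Vor.Omg) : 0 < (hh s).re := by
  obtain ⟨h1, h2, h3⟩ := hs
  have e : (hh s).re = ∫ x : ℝ, Qk x * (Real.exp ((s.re - 1) * x) * Real.cos (s.im * x)) := by
    refine (integral_re (b5hh_int s)).symm.trans (integral_congr_ae (Eventually.of_forall fun x => ?_))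
    simp [Complex.exp_re]
  have key : ∀ x : ℝ, |x| ≤ 3 / 2 → 0 < Real.exp ((s.re - 1) * x) * Real.cos (s.im * x) := fun x hx => by
    obtain ⟨a, b⟩ := abs_le.1 hx
    refine mul_pos (Real.exp_pos _) (Real.cos_pos_of_mem_Ioo ⟨?_, ?_⟩)
    · nlinarith [Real.pi_gt_three]
    · nlinarith [Real.pi_gt_three]
  rw [e]
  refine R17.Vor.vohh_pos (by fun_prop) (fun x hx hx' => ?_) ?_
  · exact (add_pos (key x (abs_le.2 ⟨by linarith, hx'⟩)) (key (-x) (abs_le.2 ⟨by linarith, by linarith⟩))).le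
  · exact add_pos (key 1 (by norm_num)) (key (-1) (by norm_num))

/-- with `θ = 3b/2`: `Im (hh s · e^{-iθ}) = ∫ Qk e^{ax} sin (bx - θ) ≤ 0`, as `bx - θ ∈ [-π, 0]` for
`|x| ≤ 3/2` (`R17.Vor.Qk_eq_zero`) -/
theorem hh_rot_im {s : ℂ} (hs : s ∈ R17.Vor.Omg) :
    (hh s * Complex.exp (-((3 / 2 * s.im : ℝ) : ℂ) * Complex.I)).im ≤ 0 := by
  obtain ⟨h1, h2, h3⟩ := hs
  rw [R17.Vor.hh, ← integral_mul_const]
  have i1 := (b5hh_int s).mul_const (Complex.exp (-((3 / 2 * s.im : ℝ) : ℂ) * Complex.I))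
  refine (integral_im i1).symm.le.trans (integral_nonpos fun x => ?_)
  have e : ((Qk x : ℂ) * Complex.exp ((s - 1) * x) *
      Complex.exp (-((3 / 2 * s.im : ℝ) : ℂ) * Complex.I)).im =
      Qk x * (Real.exp ((s.re - 1) * x) * Real.sin (s.im * x - 3 / 2 * s.im)) := by
    rw [mul_assoc, ← Complex.exp_add, Complex.im_ofReal_mul, Complex.exp_im]
    congr 3
    · simp
    · simp; ring
  change ((Qk x : ℂ) * Complex.exp ((s - 1) * x) *
      Complex.exp (-((3 / 2 * s.im : ℝ) : ℂ) * Complex.I)).im ≤ 0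
  rw [e]
  rcases le_total |x| (3 / 2) with h | h
  · obtain ⟨a, b⟩ := abs_le.1 h
    refine mul_nonpos_of_nonneg_of_nonpos (R17.Vor.Qk_nonneg x)
      (mul_nonpos_of_nonneg_of_nonpos (Real.exp_pos _).le ?_)
    exact Real.sin_nonpos_of_nonpos_of_neg_pi_le (by nlinarith) (by nlinarith [Real.pi_gt_three])
  · simp [R17.Vor.Qk_eq_zero h]

/-- `hh s = r e^{iα}`, `α = arg ∈ (0, π/2)` and `sin (α - θ) ≤ 0` give `α ≤ θ = 3b/2`, so
`0 < d α ≤ 3/2 < π` and `Im (hh s ^ d) = r^d sin (d α) > 0` (`Complex.norm_mul_exp_arg_mul_I`,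
`Complex.abs_arg_lt_pi_div_two_iff`, `Complex.arg_nonneg_iff`) -/
theorem hh_pow_im_pos {s : ℂ} (hs : s ∈ Omg K) : 0 < (hh s ^ dd K).im := by
  have hs' := Omg_sub hs
  have h1 := hh_re_pos hs'
  have h2 := R17.Vor.hh_im_pos hs'
  have h3 := hh_rot_im hs'
  obtain ⟨-, b0, b1⟩ := hs
  have hd : (0 : ℝ) < dd K := by exact_mod_cast dd_pos (K := K)
  set z := hh s with hz
  have hz0 : z ≠ 0 := fun h => by rw [h] at h1; simp at h1
  have hn : 0 < ‖z‖ := norm_pos_iff.2 hz0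
  have a1 : |z.arg| < Real.pi / 2 := Complex.abs_arg_lt_pi_div_two_iff.2 (Or.inl h1)
  have a2 : 0 < z.arg := by
    refine lt_of_le_of_ne (Complex.arg_nonneg_iff.2 h2.le) fun h => ?_
    exact h2.ne' (Complex.arg_eq_zero_iff.1 h.symm).2
  have e := Complex.norm_mul_exp_arg_mul_I z
  have e1 : (z * Complex.exp (-((3 / 2 * s.im : ℝ) : ℂ) * Complex.I)).im =
      ‖z‖ * Real.sin (z.arg - 3 / 2 * s.im) := by
    conv_lhs => rw [← e]
    rw [mul_assoc, ← Complex.exp_add, Complex.im_ofReal_mul, ← add_mul, ← sub_eq_add_neg,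
      ← Complex.ofReal_sub, Complex.exp_ofReal_mul_I_im]
  have a3 : z.arg ≤ 3 / 2 * s.im := by
    by_contra h
    have h' := not_le.1 h
    have : 0 < Real.sin (z.arg - 3 / 2 * s.im) :=
      Real.sin_pos_of_pos_of_lt_pi (by linarith) (by linarith [(abs_lt.1 a1).2, Real.pi_pos])
    rw [e1] at h3
    exact absurd (mul_pos hn this) (not_lt.2 h3)
  have e2 : (z ^ dd K).im = ‖z‖ ^ dd K * Real.sin (dd K * z.arg) := by
    conv_lhs => rw [← e]
    rw [mul_pow, ← Complex.exp_nat_mul, ← Complex.ofReal_pow, Complex.im_ofReal_mul, ← mul_assoc,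
      ← Complex.ofReal_natCast, ← Complex.ofReal_mul, Complex.exp_ofReal_mul_I_im]
  rw [e2]
  refine mul_pos (pow_pos hn _) (Real.sin_pos_of_pos_of_lt_pi (mul_pos hd a2) ?_)
  have b2 : s.im * dd K < 1 := (lt_div_iff₀ hd).1 b1
  nlinarith [Real.pi_gt_three]

/-- `R17.Vor.hh_43`, `R17.Vor.deriv_hh_43`, `HasDerivAt.pow` -/
theorem hh_pow_43 : ∃ μ0 h1 : ℝ, 0 < μ0 ∧ 0 < h1 ∧ hh (4 / 3) ^ dd K = μ0 ∧
    HasDerivAt (fun s => hh s ^ dd K) (h1 : ℂ) (4 / 3) := by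
  obtain ⟨μ, hμ, e⟩ := R17.Vor.hh_43
  obtain ⟨h1, hh1, hd⟩ := R17.Vor.deriv_hh_43
  have hdd : (0 : ℝ) < dd K := by exact_mod_cast dd_pos (K := K)
  refine ⟨μ ^ dd K, dd K * μ ^ (dd K - 1) * h1, by positivity, by positivity, by rw [e]; push_cast; rfl, ?_⟩
  refine (hd.pow (dd K)).congr_deriv ?_
  rw [e]
  push_cast
  rfl

end arch

theorem gB_nonneg (σ B : ℝ) {t : ℝ} (ht : 0 ≤ t) : 0 ≤ gB σ B t := by
  unfold gB
  split_ifs
  · positivity
  · exact le_rfl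
theorem measurable_gB (σ B : ℝ) : Measurable (gB σ B) := by
  exact Measurable.ite measurableSet_Iic (measurable_id.pow_const σ) measurable_const
theorem gB_le_rpow (σ B : ℝ) {t : ℝ} (ht : 0 ≤ t) : gB σ B t ≤ t ^ σ := by
  unfold gB
  split_ifs
  · exact le_rfl
  · positivity
theorem gB_le {σ σ' : ℝ} (h : σ' ≤ σ) (h0 : 0 < σ') (B : ℝ) {t : ℝ} (ht : 0 ≤ t) :
    gB σ B t ≤ |B| ^ (σ - σ') * t ^ σ' := by
  unfold gB
  split_ifs with hB
  · rcases ht.eq_or_lt with h1 | h1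
    · rw [← h1, Real.zero_rpow (by linarith : σ ≠ 0)]
      positivity
    · have e : t ^ σ = t ^ (σ - σ') * t ^ σ' := by
        rw [← Real.rpow_add h1]
        congr 1
        ring
      rw [e]
      exact mul_le_mul_of_nonneg_right
        (Real.rpow_le_rpow ht (hB.trans (le_abs_self B)) (by linarith)) (by positivity)
  · positivity
theorem adm_gB {σ : ℝ} (hσ : 2 < σ) (B : ℝ) : Adm fun t => (gB σ B t : ℂ) := by
  refine ⟨Complex.measurable_ofReal.comp (measurable_gB σ B), σ, hσ, fun _ => ⟨1, fun v hv _ => ?_⟩⟩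
  rw [Complex.norm_real, Real.norm_of_nonneg (gB_nonneg σ B hv.le), one_mul]
  exact gB_le_rpow σ B hv.le
theorem lo_le (s : ℂ) {t : ℝ} (ht : 0 < t) : ‖lo s t‖ ≤ 1 * gB s.re 10 t := by
  rw [one_mul]
  unfold R17.Vor.lo
  split_ifs with h
  · rw [R17.Vor.norm_pw s ht, gB, if_pos h.le]
  · rw [norm_zero]
    exact gB_nonneg _ _ ht.le
/-- `R17.Vor.vohh_pw_le` -/
theorem mid_le (A ρ : ℝ) : ∃ C : ℝ, 0 ≤ C ∧ ∀ s : ℂ, ‖s‖ ≤ ρ → ∀ t, 0 < t →
    ‖mid A s t‖ ≤ C * gB 3 A t := by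
  refine ⟨|A| ^ ρ, by positivity, fun s hs t ht => ?_⟩
  unfold R17.Vor.mid
  split_ifs with h
  · rw [gB, if_pos h.2]
    exact (R17.Vor.vohh_pw_le hs (by linarith [h.1]) h.2).trans
      (le_mul_of_one_le_right (by positivity) (Real.one_le_rpow (by linarith [h.1]) (by norm_num)))
  · rw [norm_zero]
    exact mul_nonneg (by positivity) (gB_nonneg _ _ ht.le)
/-- a bounded function supported in `[a, B]` is dominated by `gB 3 B` -/
theorem le_gB_of_supp {a B C : ℝ} (ha : 0 < a) (hC : 0 ≤ C) {z : ℂ} {t : ℝ} (ht : 0 < t) (hz : ‖z‖ ≤ C)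
    (h0 : t < a ∨ B < t → z = 0) : ‖z‖ ≤ C / a ^ 3 * gB 3 B t := by
  by_cases h : t < a ∨ B < t
  · rw [h0 h, norm_zero]
    exact mul_nonneg (by positivity) (gB_nonneg _ _ ht.le)
  · push Not at h
    rw [gB, if_pos h.2]
    refine hz.trans ?_
    have e : t ^ (3 : ℝ) = t ^ 3 := by exact_mod_cast Real.rpow_natCast t 3
    rw [e, div_mul_eq_mul_div, le_div_iff₀ (by positivity)]
    exact mul_le_mul_of_nonneg_left (pow_le_pow_left₀ ha.le h.1 3) hC
theorem adm_of_le_gB {φ : ℝ → ℂ} (hm : Measurable φ) {σ B C : ℝ} (hσ : 2 < σ) (hC : 0 ≤ C)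
    (h : ∀ t, 0 < t → ‖φ t‖ ≤ C * gB σ B t) : Adm φ := by
  exact ⟨hm, σ, hσ, fun _ => ⟨C, fun v hv _ => (h v hv).trans
    (mul_le_mul_of_nonneg_left (gB_le_rpow σ B hv.le) hC)⟩⟩

end Crest.Agent.R312.Th
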