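import Crest.Agent.R312.B5AUnf
import Crest.Agent.R312.B5ACT
import Crest.Agent.R312.B5AAbs
import Crest.Agent.R312.B5AHh

/-!
# R312 / B5AL2 : incomplete Eisenstein series are in `L²(nu p)` (replaces `R17/VoRed`)
-/

set_option autoImplicit false
set_option linter.unusedSectionVars false

noncomputable section

open scoped Classical ComplexConjugate NumberField Topology ENNReal InnerProductSpace
open MeasureTheory Filter
open Crest.Agent.R17.Vor (SL X vc zc pt o hr act uu kk hh Tt pw hi lo mid W Vr nn SS Adm LocBd)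

namespace Crest.Agent.R312.Th

variable {K : Type} [Field K] [NumberField K] [Fld K] [Loc K] [Setup K]
variable {p : R K} {κ : R K → R K → ℂ} {δ : SL (R K)} {I : Ideal (𝓞 K)}

/-- `lintegral_XX` for the indicator of `FF I`; at `x` with `t = exp (∑ x) ≤ B` the inner integral is
`≤ t^σ · C t^{2-σ'}` (`ct_bound`), so the integrand is `≤ C exp ((σ - σ') ∑ x)`; `lintegral_FDM_exp` with
`b = log B` -/
theorem lintegral_FF_lt_top (hI : I ≠ ⊥) (e : ℕ) {σ σ' : ℝ} (h2 : 2 < σ') (h : σ' < σ) (B : ℝ) :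
    ∫⁻ w in FF I, ENNReal.ofReal (gB σ B (ht w)) * EE (chiL e) σ' w < ∞ := by
  obtain ⟨C, hC, hb⟩ := ct_bound (K := K) hI e h2 B
  have hm : Measurable fun w : XX K => ENNReal.ofReal (gB σ B (ht w)) * EE (chiL e) σ' w :=
    ((measurable_gB σ B).comp continuous_ht.measurable).ennreal_ofReal.mul (measurable_EE _ _)
  rw [← lintegral_indicator (measurableSet_FF I), lintegral_XX (hm.indicator (measurableSet_FF I))]
  refine lt_of_le_of_lt (lintegral_mono (g := (FDM K (M0 K)).indicator fun η => C *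
    if ∑ v, η v ≤ Real.log B then ENNReal.ofReal (Real.exp ((σ - σ') * ∑ v, η v)) else 0)
    fun x => ?_) ?_
  · have hv : ∀ i, 0 < Real.exp (x i) := fun i => Real.exp_pos _
    have hx : ∀ z : Pl K → ℂ, xv (ptK z fun i => Real.exp (x i)) = x := fun z => by
      rw [xv_ptK]; simp
    have ht1 : ∀ z : Pl K → ℂ, ht (ptK z fun i => Real.exp (x i)) = Real.exp (∑ v, x v) := fun z => by
      rw [ht_eq_exp, hx]
    by_cases h1 : x ∈ FDM K (M0 K)
    · have h3 : ∀ z : Pl K → ℂ, (FF I).indicator (fun w : XX K => ENNReal.ofReal (gB σ B (ht w)) *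
          EE (chiL e) σ' w) (ptK z fun i => Real.exp (x i)) = (cellI I).indicator (fun z =>
            ENNReal.ofReal (gB σ B (Real.exp (∑ v, x v))) *
              EE (chiL e) σ' (ptK z fun i => Real.exp (x i))) z := fun z => by
        simp only [Set.indicator_apply, FF, Set.mem_ofPred_eq, zv_ptK z hv, hx, h1, and_true, ht1]
      simp only [h3]
      rw [Set.indicator_of_mem h1, lintegral_indicator (measurableSet_cellI I),
        lintegral_const_mul' _ _ ENNReal.ofReal_ne_top]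
      by_cases h4 : Real.exp (∑ v, x v) ≤ B
      · have h5 := hb _ hv (by rwa [← Real.exp_sum])
        rw [← Real.exp_sum] at h5
        rw [gB, if_pos h4, if_pos ((Real.le_log_iff_exp_le ((Real.exp_pos _).trans_le h4)).2 h4)]
        refine (mul_le_mul' le_rfl (mul_le_mul' le_rfl h5)).trans (le_of_eq ?_)
        rw [mul_left_comm _ C, mul_left_comm _ C, ← ENNReal.ofReal_mul (by positivity),
          ← ENNReal.ofReal_mul (by positivity), ← Real.exp_mul, ← Real.exp_mul, ← Real.exp_add,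
          ← Real.exp_add]
        congr 3
        ring
      · rw [gB, if_neg h4]
        simp
    · have h3 : ∀ z : Pl K → ℂ, (ptK z fun i => Real.exp (x i)) ∉ FF I := fun z hz =>
        h1 (hx z ▸ hz.2)
      simp only [Set.indicator_of_notMem (h3 _)]
      simp
  · rw [lintegral_indicator (measurableSet_FDM _), lintegral_const_mul' _ _ hC]
    exact ENNReal.mul_lt_top hC.lt_top (lintegral_FDM_exp _ (sub_pos.2 h) _)

theorem summable_EisR (h : RowBd κ) {σ : ℝ} (hσ : 2 < σ) (B : ℝ) (w : XX K) :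
    Summable fun r : RowQ K => ‖κ r.out.1 r.out.2‖ * gB σ B (Ht w (r.out.1 : K) (r.out.2 : K)) := by
  refine (summable_norm_Eis h (adm_gB hσ B) w).congr fun r => ?_
  rw [norm_mul, Complex.norm_real, Real.norm_of_nonneg (gB_nonneg _ _ (Ht_nonneg _ _ _))]
theorem EisR_nonneg (κ : R K → R K → ℂ) (σ B : ℝ) (w : XX K) : 0 ≤ EisR κ σ B w := by
  exact tsum_nonneg fun r => mul_nonneg (norm_nonneg _) (gB_nonneg _ _ (Ht_nonneg _ _ _))
theorem measurable_EisR (κ : R K → R K → ℂ) (σ B : ℝ) : Measurable (EisR κ σ B) := by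
  exact Measurable.tsum fun r : RowQ K =>
    ((measurable_gB σ B).comp (measurable_Ht (r.out.1 : K) (r.out.2 : K))).const_mul _
/-- `tsum_rowMul`, `Ht_actR` (as `Eis_actR`) -/
theorem EisR_actR (h : RowBd κ) (σ B : ℝ) (g : SL (R K)) (w : XX K) :
    EisR κ σ B (actR g w) = EisR (tr g κ) σ B w := by
  have h1 : UInv fun c d : R K => ‖tr g κ c d‖ * gB σ B (Ht w (c : K) (d : K)) := fun u hu c d => by
    simp only [(h.tr g).inv u hu, Ht_ups hu]
  rw [EisR, EisR, ← tsum_rowMul h1 g]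
  refine tsum_congr fun r => ?_
  rw [tr_rowMul, Ht_actR]
theorem EisR_Gam (h : RowBd κ) (he : Equi p κ) (σ B : ℝ) {γ : SL (R K)} (hγ : γ ∈ Gam K p) (w : XX K) :
    EisR κ σ B (actR γ w) = EisR κ σ B w := by
  rw [EisR_actR h, EisR, EisR]
  refine tsum_congr fun r => ?_
  rw [he.tr_eq hγ, norm_mul, Complex.norm_conj, norm_kap (Gam_le p hγ), mul_one]
theorem ofReal_EisR (h : RowBd κ) {σ : ℝ} (hσ : 2 < σ) (B : ℝ) (w : XX K) :
    ENNReal.ofReal (EisR κ σ B w) = ∑' r : RowQ K, ‖κ r.out.1 r.out.2‖ₑ *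
      ENNReal.ofReal (gB σ B (Ht w (r.out.1 : K) (r.out.2 : K))) := by
  rw [EisR, ENNReal.ofReal_tsum_of_nonneg (fun r => mul_nonneg (norm_nonneg _)
    (gB_nonneg _ _ (Ht_nonneg _ _ _))) (summable_EisR h hσ B w)]
  refine tsum_congr fun r => ?_
  rw [ENNReal.ofReal_mul (norm_nonneg _), ofReal_norm]
/-- `RowBd.le_chiL`, `gB_le` -/
theorem EisR_le_EE (h : RowBd κ) {σ σ' : ℝ} (h2 : 2 < σ') (hσ : σ' ≤ σ) (B : ℝ) : ∃ e, ∀ w,
    ENNReal.ofReal (EisR κ σ B w) ≤ ENNReal.ofReal (|B| ^ (σ - σ')) * EE (chiL e) σ' w := by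
  obtain ⟨e, he⟩ := h.le_chiL
  refine ⟨e, fun w => ?_⟩
  rw [ofReal_EisR h (h2.trans_le hσ), EE, ← ENNReal.tsum_mul_left]
  refine ENNReal.tsum_le_tsum fun r => ?_
  rw [mul_left_comm, ← ENNReal.ofReal_mul (by positivity)]
  exact mul_le_mul' (he _ _) (ENNReal.ofReal_le_ofReal (gB_le hσ (by linarith) B (Ht_nonneg _ _ _)))
/-- **(L2)**.  Let `E = ofReal ∘ EisR κ σ B`, `Φ w = 1_{FF I}(w) · ofReal (gB σ B (ht w)) · E (δ⁻¹ w)`.  By
`unf_tsum` (in `ℝ≥0∞`, `G c d = ‖κ c d‖ₑ · ofReal (gB (Ht w c d))`), `‖κ‖ ≤ 1`, `ht_actR` and `EisR_Gam`: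
`E w · E w ≤ ∑_γ Φ (δ γ w)`.  So `∫ E² dν ≤ ∫ Φ (δ w) dw = ∫ Φ` (`unfold_lintegral`, `lintegral_actR`), and
`E (δ⁻¹ w) ≤ C · EE (chiL e) σ' w` (`EisR_actR`, `EisR_le_EE` for `tr δ⁻¹ κ`, `σ' = (2 + σ)/2`);
`lintegral_FF_lt_top`, `R17.Vor.VoSchur_sq`-style formula for `eLpNorm`. -/
theorem memLp_EisR (h : Cusp p κ δ I) {σ : ℝ} (hσ : 2 < σ) (B : ℝ) : MemLp (EisR κ σ B) 2 (nu p) := by
  refine ⟨(measurable_EisR κ σ B).aestronglyMeasurable, ?_⟩
  obtain ⟨e, he⟩ := EisR_le_EE (h.bd.tr δ⁻¹) (σ := σ) (σ' := (2 + σ) / 2) (by linarith) (by linarith) B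
  obtain ⟨Φ, hΦ⟩ : ∃ Φ : XX K → ℝ≥0∞, Φ = (FF I).indicator fun w =>
    ENNReal.ofReal (gB σ B (ht w)) * ENNReal.ofReal (EisR κ σ B (actR δ⁻¹ w)) := ⟨_, rfl⟩
  have hΦm : Measurable Φ := by
    rw [hΦ]
    exact (((measurable_gB σ B).comp continuous_ht.measurable).ennreal_ofReal.mul
      ((measurable_EisR κ σ B).comp (continuous_actR _).measurable).ennreal_ofReal).indicator
      (measurableSet_FF I)
  have hΦi : ∫⁻ w, Φ w < ∞ := by
    rw [hΦ, lintegral_indicator (measurableSet_FF I)]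
    refine lt_of_le_of_lt (lintegral_mono (g := fun w => ENNReal.ofReal (|B| ^ (σ - (2 + σ) / 2)) *
      (ENNReal.ofReal (gB σ B (ht w)) * EE (chiL e) ((2 + σ) / 2) w)) fun w => ?_) ?_
    · simp only
      rw [mul_left_comm, EisR_actR h.bd]
      exact mul_le_mul' le_rfl (he w)
    · rw [lintegral_const_mul' _ _ ENNReal.ofReal_ne_top]
      exact ENNReal.mul_lt_top ENNReal.ofReal_lt_top
        (lintegral_FF_lt_top h.ne e (by linarith) (by linarith) B)
  have hpt : ∀ w, ‖EisR κ σ B w‖ₑ ^ 2 ≤ ∑' γ : Gam K p, Φ (actR δ (actR γ w)) := by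
    intro w
    have h1 : UInv fun c d : R K => ‖κ c d‖ₑ * ENNReal.ofReal (gB σ B (Ht w (c : K) (d : K))) :=
      fun u hu c d => by simp only [h.bd.inv u hu, Ht_ups hu]
    rw [Real.enorm_eq_ofReal (EisR_nonneg _ _ _ _), sq]
    nth_rewrite 1 [ofReal_EisR h.bd hσ]
    rw [← unf_tsum h w h1 fun c d h0 h2 => h0 (by rw [h2, enorm_zero, zero_mul]),
      ← ENNReal.tsum_mul_right]
    refine ENNReal.tsum_le_tsum fun γ => ?_
    rw [hΦ, Set.indicator_apply, actR_inv_actR, ← actR_mul, EisR_Gam h.bd h.equi σ B γ.2, ht_actR]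
    split_ifs
    · refine mul_le_mul' (mul_le_of_le_one_left zero_le ?_) le_rfl
      rw [← ofReal_norm]
      exact ENNReal.ofReal_le_one.2 (h.bd.le _ _)
    · rw [zero_mul]
  have h3 : ∫⁻ w, ‖EisR κ σ B w‖ₑ ^ 2 ∂(nu p) < ∞ := by
    refine lt_of_le_of_lt (lintegral_mono hpt) ?_
    rw [unfold_lintegral p (f := fun w => Φ (actR δ w)) (hΦm.comp (continuous_actR _).measurable),
      lintegral_actR]
    exact hΦi
  rw [eLpNorm_lt_top_iff_lintegral_rpow_enorm_lt_top two_ne_zero ENNReal.ofNat_ne_top]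
  simpa using h3
theorem l2_term (h : RowBd κ) {σ B C : ℝ} (hC : 0 ≤ C) {z : ℂ} {c d : R K} {w : XX K}
    (hz : 0 < Ht w (c : K) (d : K) → ‖z‖ ≤ C * gB σ B (Ht w (c : K) (d : K))) :
    ‖κ c d * z‖ ≤ C * (‖κ c d‖ * gB σ B (Ht w (c : K) (d : K))) := by
  by_cases h0 : κ c d = 0
  · simp [h0]
  · rw [norm_mul, mul_left_comm]
    exact mul_le_mul_of_nonneg_left (hz (h.Ht_pos h0 w)) (norm_nonneg _)
theorem norm_Eis_le (h : RowBd κ) {σ B C : ℝ} (hσ : 2 < σ) (hC : 0 ≤ C) {φ : ℝ → ℂ}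
    (hφ : ∀ t, 0 < t → ‖φ t‖ ≤ C * gB σ B t) (w : XX K) : ‖Eis κ φ w‖ ≤ C * EisR κ σ B w := by
  rw [EisR, ← tsum_mul_left]
  exact tsum_of_norm_bounded ((summable_EisR h hσ B w).mul_left C).hasSum fun r =>
    l2_term h hC (hφ _)
theorem memLp_Eis (h : Cusp p κ δ I) {σ B C : ℝ} (hσ : 2 < σ) (hC : 0 ≤ C) {φ : ℝ → ℂ}
    (hm : Measurable φ) (hφ : ∀ t, 0 < t → ‖φ t‖ ≤ C * gB σ B t) : MemLp (Eis κ φ) 2 (nu p) := by
  refine (memLp_EisR h hσ B).of_le_mul (c := C) (measurable_Eis κ hm).aestronglyMeasurable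
    (Eventually.of_forall fun w => ?_)
  rw [Real.norm_of_nonneg (EisR_nonneg _ _ _ _)]
  exact norm_Eis_le h.bd hσ hC hφ w
/-- as `R17.Vor.exists_Lp_Eis`, with `differentiable_toLp` and the majorant `EisR κ 3 B` -/
theorem exists_Lp_Eis (h : Cusp p κ δ I) {φ : ℂ → ℝ → ℂ} (hm : ∀ s, Measurable (φ s))
    (hd : ∀ t, 0 < t → Differentiable ℂ fun s => φ s t) {B : ℝ}
    (hb : ∀ ρ : ℝ, ∃ C : ℝ, 0 ≤ C ∧ ∀ s : ℂ, ‖s‖ ≤ ρ → ∀ t, 0 < t → ‖φ s t‖ ≤ C * gB 3 B t) :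
    ∃ U : ℂ → Lp ℂ 2 (nu p), Differentiable ℂ U ∧ ∀ s, U s =ᵐ[nu p] Eis κ (φ s) := by
  refine differentiable_toLp (fun s => (measurable_Eis κ (hm s)).aestronglyMeasurable)
    (fun w s => ?_) (EisR_nonneg κ 3 B) (memLp_EisR h (by norm_num) B) fun ρ => ?_
  · obtain ⟨C, hC, hb⟩ := hb (‖s‖ + 1)
    refine (Complex.differentiableOn_tsum_of_summable_norm (U := Metric.ball 0 (‖s‖ + 1))
      (F := fun (r : RowQ K) (s : ℂ) => κ r.out.1 r.out.2 * φ s (Ht w (r.out.1 : K) (r.out.2 : K)))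
      ((summable_EisR h.bd (σ := 3) (by norm_num) B w).mul_left C) (fun r => ?_) Metric.isOpen_ball
      fun r z hz => ?_).differentiableAt (Metric.isOpen_ball.mem_nhds (by simp))
    · by_cases h0 : κ r.out.1 r.out.2 = 0
      · simp only [h0, zero_mul]
        exact differentiableOn_const _
      · exact ((hd _ (h.bd.Ht_pos h0 w)).const_mul _).differentiableOn
    · exact l2_term h.bd hC (hb z (mem_ball_zero_iff.1 hz).le _)
  · obtain ⟨C, hC, hb⟩ := hb ρ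
    exact ⟨C, fun s hs w => norm_Eis_le h.bd (by norm_num) hC (hb s hs) w⟩

end Crest.Agent.R312.Th
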