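import Crest.Agent.R312.B5ADefs

/-!
# R312 / B5AUps : the group `Ups`, its fundamental domain `FDM`, sums over `RowQ`, `EltQ`, `R / latI`
-/

set_option autoImplicit false
set_option linter.unusedSectionVars false

noncomputable section

open scoped Classical ComplexConjugate NumberField Topology ENNReal InnerProductSpace
open MeasureTheory Filter
open Crest.Agent.R17.Vor (SL X vc zc pt o hr act uu kk hh Tt pw hi lo mid W Vr nn SS Adm LocBd)

namespace Crest.Agent.R312.Th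

section arch
variable {K : Type} [Field K] [NumberField K] [Fld K]

theorem measurableSet_FDM (M : ℕ) : MeasurableSet (FDM K M) := by
  have : FDM K M = (fun η => (uco K η).2) ⁻¹' (Set.univ.pi fun _ => Set.Ico (0 : ℝ) M) := by
    ext η
    simp only [FDM, Set.mem_ofPred_eq, Set.mem_preimage, Set.mem_univ_pi]
  rw [this]
  exact (uco K).continuous.measurable.snd (MeasurableSet.univ_pi fun _ => measurableSet_Ico)
/-- `(uco (η + lam (M • k))).2 i = (uco η).2 i + M k_i` (`uco_lam`); `k_i = -⌊(uco η).2 i / M⌋` -/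
theorem existsUnique_FDM {M : ℕ} (hM : 0 < M) (η : Pl K → ℝ) :
    ∃! k : UI K → ℤ, η + lam ((M : ℤ) • k) ∈ FDM K M := by
  have hM' : (0 : ℝ) < M := Nat.cast_pos.2 hM
  have h : ∀ k : UI K → ℤ, η + lam ((M : ℤ) • k) ∈ FDM K M ↔ k = fun i => -⌊(uco K η).2 i / M⌋ := fun k => by
    simp only [FDM, Set.mem_ofPred_eq, map_add, uco_lam, Prod.snd_add, Pi.add_apply, funext_iff]
    refine forall_congr' fun i => ?_
    rw [eq_neg_iff_add_eq_zero, add_comm (k i), ← Int.floor_add_intCast, Int.floor_eq_zero_iff,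
      show (uco K η).2 i / M + k i = ((uco K η).2 i + (((M : ℤ) • k) i : ℤ)) / M by
        simp only [Pi.smul_apply, smul_eq_mul]; push_cast; field_simp,
      Set.mem_Ico, Set.mem_Ico, le_div_iff₀ hM', div_lt_one hM', zero_mul]
  simp only [h]
  exact existsUnique_eq
/-- `uco_symm_apply` applied to `uco K η`, `uco_fst` -/
theorem FDM_bound (M : ℕ) : ∃ C : ℝ, ∀ η ∈ FDM K M, ∀ v, |η v - (∑ v, η v) / dd K| ≤ C := by
  refine ⟨∑ j, M * ‖lam (Pi.single j 1 : UI K → ℤ)‖, fun η hη v => ?_⟩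
  have h := congrFun (uco_symm_apply (uco K η).1 (uco K η).2) v
  rw [Prod.mk.eta, ContinuousLinearEquiv.symm_apply_apply, uco_fst] at h
  rw [h, add_sub_cancel_left]
  refine (Finset.abs_sum_le_sum_abs _ _).trans (Finset.sum_le_sum fun j _ => ?_)
  rw [abs_mul, ← lam_single, abs_of_nonneg (hη j).1]
  exact mul_le_mul (hη j).2.le (norm_le_pi_norm (lam (Pi.single j 1 : UI K → ℤ)) v) (abs_nonneg _)
    (Nat.cast_nonneg _)
/-- `map_uco` (`lintegral_map`), then Tonelli on `ℝ × (UI K → ℝ)`: `ucJ · (∫_{-∞}^b e^{a t} dt) · M^r`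
(`integrableOn_exp_mul_Iic`, `Real.volume_pi_Ico`) -/
theorem lintegral_FDM_exp (M : ℕ) {a : ℝ} (ha : 0 < a) (b : ℝ) :
    ∫⁻ η in FDM K M, (if ∑ v, η v ≤ b then ENNReal.ofReal (Real.exp (a * ∑ v, η v)) else 0) < ∞ := by
  set f : ℝ → ℝ≥0∞ := (Set.Iic b).indicator fun t => ENNReal.ofReal (Real.exp (a * t)) with hf
  set S : Set (UI K → ℝ) := Set.univ.pi fun _ => Set.Ico (0 : ℝ) M with hS
  have mS : MeasurableSet S := MeasurableSet.univ_pi fun _ => measurableSet_Ico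
  have mf : Measurable f := Measurable.indicator (by fun_prop) measurableSet_Iic
  have mg : Measurable (S.indicator (1 : (UI K → ℝ) → ℝ≥0∞)) := measurable_one.indicator mS
  have h1 : ∫⁻ η in FDM K M, (if ∑ v, η v ≤ b then ENNReal.ofReal (Real.exp (a * ∑ v, η v)) else 0) =
      ∫⁻ η, f (uco K η).1 * S.indicator 1 (uco K η).2 := by
    rw [← lintegral_indicator (measurableSet_FDM M)]
    refine lintegral_congr fun η => ?_
    have : η ∈ FDM K M ↔ (uco K η).2 ∈ S := Set.mem_univ_pi.symm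
    simp only [hf, Set.indicator_apply, this, uco_fst, Set.mem_Iic, Pi.one_apply, mul_ite, mul_one, mul_zero]
  have mF : Measurable fun p : ℝ × (UI K → ℝ) => f p.1 * S.indicator 1 p.2 :=
    (mf.comp measurable_fst).mul (mg.comp measurable_snd)
  rw [h1, ← lintegral_map mF (uco K).continuous.measurable, map_uco, lintegral_smul_measure,
    Measure.volume_eq_prod, lintegral_prod_mul mf.aemeasurable mg.aemeasurable, lintegral_indicator_one mS, hS,
    Real.volume_pi_Ico, hf, lintegral_indicator measurableSet_Iic]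
  exact ENNReal.mul_lt_top ENNReal.ofReal_lt_top (ENNReal.mul_lt_top
    (integrableOn_exp_mul_Iic ha b).lintegral_lt_top (ENNReal.prod_lt_top fun _ _ => ENNReal.ofReal_lt_top))

end arch

section loc
variable {K : Type} [Field K] [NumberField K] [Loc K]

theorem coe_upR (k : UI K → ℤ) : (((upR k : (R K)ˣ) : R K) : K) = ((upow k : (𝓞 K)ˣ) : 𝓞 K) := by
  rfl
theorem sInt_Ups {M : ℕ} {u : (R K)ˣ} (hu : u ∈ Ups K M) : SInt ((u : R K) : K) := by
  obtain ⟨k, rfl⟩ := hu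
  exact SInt.coe _
theorem Lat.mono {e e' : ℕ} (h : e ≤ e') {x : R K} (hx : Lat e x) : Lat e' x := by
  obtain ⟨j, rfl⟩ := Nat.exists_eq_add_of_le' h
  have := (loc_Qp j).mul hx
  rwa [← mul_assoc, ← pow_add] at this
theorem Lat.zero (e : ℕ) : Lat e (0 : R K) := by
  simpa [Lat] using SInt.zero
theorem Lat.add {e : ℕ} {x y : R K} (hx : Lat e x) (hy : Lat e y) : Lat e (x + y) := by
  have := SInt.add hx hy
  rwa [← mul_add] at this
theorem Lat.neg {e : ℕ} {x : R K} (hx : Lat e x) : Lat e (-x) := by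
  have := SInt.neg hx
  rwa [← mul_neg] at this
theorem Lat.mul {e e' : ℕ} {x y : R K} (hx : Lat e x) (hy : Lat e' y) : Lat (e + e') (x * y) := by
  have := SInt.mul hx hy
  rwa [mul_mul_mul_comm, ← pow_add] at this
theorem Lat.mul_toR {e : ℕ} {x : R K} (hx : Lat e x) (t : 𝓞 K) : Lat e (x * toR t) := by
  have := SInt.mul hx (SInt.coe t)
  rwa [mul_assoc] at this
theorem exists_lat (x : R K) : ∃ e, Lat e x := by
  exact exists_pow_mul_sInt _
theorem lat_ups_mul {M e : ℕ} {u : (R K)ˣ} (hu : u ∈ Ups K M) {x : R K} :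
    Lat e ((u : R K) * x) ↔ Lat e x := by
  have h : ∀ {u : (R K)ˣ}, u ∈ Ups K M → ∀ {x : R K}, Lat e x → Lat e ((u : R K) * x) := fun hu x hx => by
    have := SInt.mul (sInt_Ups hu) hx
    rwa [mul_left_comm] at this
  refine ⟨fun hx => ?_, h hu⟩
  have := h (inv_mem hu) hx
  rwa [Units.inv_mul_cancel_left] at this
/-- `SInt.isIntegral` -/
theorem Lat.exists_int {e : ℕ} {x : R K} (hx : Lat e x) :
    ∃ y : 𝓞 K, (y : K) = (Loc.Q K : K) ^ e * (x : K) := by
  have h : SInt ((((Loc.Q K : R K) ^ e * x : R K)) : K) := by simpa [Lat] using hx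
  obtain ⟨y, hy⟩ := loc_mk h.isIntegral
  exact ⟨y, by simpa using hy⟩
theorem perI_chiL (e : ℕ) (I : Ideal (𝓞 K)) : PerI I (chiL (K := K) e) := by
  intro C D t _
  unfold chiL
  refine if_congr (and_congr_right fun hC => ⟨fun h => ?_, fun h => h.add (hC.mul_toR t)⟩) rfl rfl
  have := h.add (hC.mul_toR t).neg
  rwa [add_neg_cancel_right] at this
/-- `AddSubgroup.addGroupEquivQuotientProdAddSubgroup`-style; directly: injective since `C ≠ 0` and
`toR_injective`, surjective by `QuotientAddGroup.mk_out_eq_mul`/`QuotientAddGroup.eq` -/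
theorem exists_latEquiv {C : R K} (hC : C ≠ 0) (I : Ideal (𝓞 K)) :
    ∃ e : (R K ⧸ latI C I) × I ≃ R K, ∀ D t, e (D, t) = D.out + C * toR (t : 𝓞 K) := by
  have h1 : ∀ (D : R K ⧸ latI C I) (t : I), ((D.out + C * toR (t : 𝓞 K) : R K) : R K ⧸ latI C I) = D := fun D t => by
    rw [QuotientAddGroup.mk_add_of_mem _ (show C * toR (t : 𝓞 K) ∈ latI C I from ⟨t, t.2, rfl⟩),
      QuotientAddGroup.out_eq']
  refine ⟨Equiv.ofBijective (fun p => p.1.out + C * toR (p.2 : 𝓞 K)) ⟨?_, fun x => ?_⟩, fun _ _ => rfl⟩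
  · rintro ⟨D, t⟩ ⟨D', t'⟩ h
    have h' : D.out + C * toR (t : 𝓞 K) = D'.out + C * toR (t' : 𝓞 K) := h
    obtain rfl : D = D' := by rw [← h1 D t, h', h1]
    rw [Subtype.ext (toR_injective (mul_left_cancel₀ hC (add_left_cancel h')))]
  · obtain ⟨t, ht, e⟩ := QuotientAddGroup.eq.1 (QuotientAddGroup.out_eq' (x : R K ⧸ latI C I))
    refine ⟨(x, ⟨t, ht⟩), ?_⟩
    have e' : C * toR t = -(x : R K ⧸ latI C I).out + x := e
    change (x : R K ⧸ latI C I).out + C * toR t = x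
    rw [e', add_neg_cancel_left]

variable [Fld K]

theorem lg_upR (k : UI K → ℤ) : lg (((upR k : (R K)ˣ) : R K) : K) = lam k := by
  rfl
theorem aN_Ups {M : ℕ} {u : (R K)ˣ} (hu : u ∈ Ups K M) : aN ((u : R K) : K) = 1 := by
  obtain ⟨k, rfl⟩ := hu
  exact aN_unit _
theorem Lat.le_aN {e : ℕ} {x : R K} (hx : Lat e x) (h0 : x ≠ 0) :
    (((Loc.Q K : ℝ) ^ (2 * dd K)) ^ e)⁻¹ ≤ aN (x : K) := by
  obtain ⟨y, hy⟩ := hx.exists_int
  have hy0 : y ≠ 0 := fun h => by
    rw [h, eq_comm] at hy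
    exact mul_ne_zero (pow_ne_zero _ loc_Q_ne) (fun h => h0 (Subtype.ext h)) hy
  have h1 := one_le_aN hy0
  rw [hy, aN_mul, ← Nat.cast_pow, aN_natCast, Nat.cast_pow, ← pow_mul, mul_comm e, pow_mul] at h1
  have hQ : (0 : ℝ) < Loc.Q K := Nat.cast_pos.2 (Nat.pos_of_ne_zero Loc.Q_ne)
  rwa [inv_le_iff_one_le_mul₀' (by positivity)]
/-- **balanced representatives**: move `log η` into `FDM K M` (`existsUnique_FDM`, `FDM_bound`, `sum_lam`,
`exp_lg`); `c = exp (log m / d - C)` -/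
theorem exists_bal {M : ℕ} (hM : 0 < M) {m : ℝ} (hm : 0 < m) : ∃ c : ℝ, 0 < c ∧ ∀ η : Pl K → ℝ,
    (∀ v, 0 < η v) → m ≤ ∏ v, η v → ∃ u ∈ Ups K M, ∀ v, c ≤ ‖emb v ((u : R K) : K)‖ ^ 2 * η v := by
  obtain ⟨C, hC⟩ := FDM_bound (K := K) M
  refine ⟨Real.exp (Real.log m / dd K - C), Real.exp_pos _, fun η h0 h1 => ?_⟩
  obtain ⟨k, hk⟩ := (existsUnique_FDM hM fun v => Real.log (η v)).exists
  refine ⟨upR ((M : ℤ) • k), ⟨k, rfl⟩, fun v => ?_⟩
  have h2 := (abs_le.1 (hC _ hk v)).1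
  simp only [Pi.add_apply, Finset.sum_add_distrib, sum_lam, add_zero] at h2
  rw [← Real.log_prod fun v _ => (h0 v).ne'] at h2
  have h3 : Real.log m / dd K ≤ Real.log (∏ v, η v) / dd K :=
    div_le_div_of_nonneg_right (Real.log_le_log hm h1) (Nat.cast_nonneg _)
  rw [← exp_lg (x := ((upR ((M : ℤ) • k) : R K) : K)) (un_ne _), lg_upR, ← Real.exp_log (h0 v), ← Real.exp_add]
  exact Real.exp_le_exp.2 (by linarith)

end loc

/-- choose `u q` for every orbit; `q ↦ u q • q.out` is injective (`Summable.comp_injective`) -/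
theorem summable_quot {G α : Type} [Group G] [MulAction G α] {f g : α → ℝ} (hf : ∀ x, 0 ≤ f x)
    (hg0 : ∀ x, 0 ≤ g x) (hg : Summable g) (h : ∀ x, ∃ u : G, f x ≤ g (u • x)) :
    Summable fun q : MulAction.orbitRel.Quotient G α => f q.out := by
  choose u hu using h
  have h1 : ∀ q : MulAction.orbitRel.Quotient G α, Quotient.mk (MulAction.orbitRel G α) (u q.out • q.out) = q :=
    fun q => (Quotient.sound (MulAction.mem_orbit _ _)).trans q.out_eq
  have h2 : Function.Injective fun q : MulAction.orbitRel.Quotient G α => u q.out • q.out := fun q q' e => by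
    rw [← h1 q, ← h1 q']
    exact congrArg _ e
  exact Summable.of_nonneg_of_le (fun _ => hf _) (fun _ => hu _) (hg.comp_injective h2)

section setup
variable {K : Type} [Field K] [NumberField K] [Fld K] [Loc K] [Setup K]

theorem M0_pos : 0 < M0 K := eM_pos _

instance : Countable (RowQ K) := Quotient.countable
instance (M : ℕ) : Countable (EltQ K M) := Quotient.countable

theorem rq_out (r : RowQ K) : rq r.out.1 r.out.2 = r := by
  exact r.out_eq
theorem rq_eq_iff {c d c' d' : R K} :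
    rq c d = rq c' d' ↔ ∃ u ∈ Ups K (M0 K), c = u * c' ∧ d = u * d' := by
  rw [rq, rq, Quotient.eq, MulAction.orbitRel_apply, MulAction.mem_orbit_iff]
  constructor
  · rintro ⟨⟨u, hu⟩, h⟩
    exact ⟨u, hu, (congrArg Prod.fst h).symm, (congrArg Prod.snd h).symm⟩
  · rintro ⟨u, hu, rfl, rfl⟩
    exact ⟨⟨u, hu⟩, rfl⟩
theorem UInv.out {β : Type} {G : R K → R K → β} (hG : UInv G) (c d : R K) :
    G (rq c d).out.1 (rq c d).out.2 = G c d := by
  obtain ⟨u, hu, h1, h2⟩ := rq_eq_iff.1 (rq_out (rq c d))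
  rw [h1, h2, hG u hu]
theorem uInv_chiL (e : ℕ) : UInv (chiL (K := K) e) := by
  intro u hu c d
  simp only [chiL, lat_ups_mul hu]
/-- right multiplication by `σ` permutes `RowQ K` (`Quotient.congr` or `Equiv.ofBijective`) -/
theorem exists_rowMul (σ : SL (R K)) : ∃ e : RowQ K ≃ RowQ K, ∀ r,
    e r = rq (r.out.1 * σ.a + r.out.2 * σ.c) (r.out.1 * σ.b + r.out.2 * σ.d) := by
  let f : SL (R K) → RowQ K → RowQ K := fun σ r =>
    rq (r.out.1 * σ.a + r.out.2 * σ.c) (r.out.1 * σ.b + r.out.2 * σ.d)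
  have h1 : ∀ (σ : SL (R K)) (c d : R K), f σ (rq c d) = rq (c * σ.a + d * σ.c) (c * σ.b + d * σ.d) := fun σ =>
    UInv.out (G := fun c d => rq (c * σ.a + d * σ.c) (c * σ.b + d * σ.d)) fun u hu c d =>
      rq_eq_iff.2 ⟨u, hu, by ring, by ring⟩
  have h2 : ∀ (σ : SL (R K)) (r : RowQ K), f σ⁻¹ (f σ r) = r := fun σ r => by
    rw [h1]
    refine Eq.trans ?_ (rq_out r)
    simp only [SL.inv_a, SL.inv_b, SL.inv_c, SL.inv_d]
    congr 1
    · linear_combination r.out.1 * σ.det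
    · linear_combination r.out.2 * σ.det
  exact ⟨⟨f σ, f σ⁻¹, h2 σ, fun r => by simpa only [inv_inv] using h2 σ⁻¹ r⟩, fun _ => rfl⟩
theorem tsum_rowMul {E : Type} [AddCommMonoid E] [TopologicalSpace E] {G : R K → R K → E}
    (hG : UInv G) (σ : SL (R K)) :
    ∑' r : RowQ K, G (r.out.1 * σ.a + r.out.2 * σ.c) (r.out.1 * σ.b + r.out.2 * σ.d) =
      ∑' r : RowQ K, G r.out.1 r.out.2 := by
  obtain ⟨e, he⟩ := exists_rowMul σ
  rw [← e.tsum_eq fun r => G r.out.1 r.out.2]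
  exact tsum_congr fun r => by rw [he, hG.out]
/-- `Equiv.ofBijective`.  Injective: `C.out = u * C'.out` gives `C = C'`, then `u = 1` as `R K` is a domain. -/
theorem exists_rowEquiv : ∃ e : EltQ K (M0 K) ⊕ ({C : EltQ K (M0 K) // C.out ≠ 0} × R K) ≃ RowQ K,
    (∀ D, e (Sum.inl D) = rq 0 D.out) ∧ ∀ C D, e (Sum.inr (C, D)) = rq C.1.out D := by
  have h1 : ∀ x : R K, ∃ u ∈ Ups K (M0 K), ∃ D : EltQ K (M0 K), D.out = u * x := fun x => by
    obtain ⟨⟨u, hu⟩, h⟩ := MulAction.orbitRel_apply.1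
      (Quotient.exact (Quotient.mk (MulAction.orbitRel (Ups K (M0 K)) (R K)) x).out_eq)
    exact ⟨u, hu, _, h.symm⟩
  have h2 : ∀ {D D' : EltQ K (M0 K)} {u : (R K)ˣ}, u ∈ Ups K (M0 K) → D.out = u * D'.out → D = D' :=
    fun {D D' u} hu h => Quotient.out_equiv_out.1 (MulAction.orbitRel_apply.2 ⟨⟨u, hu⟩, h.symm⟩)
  refine ⟨Equiv.ofBijective (Sum.elim (fun D => rq 0 D.out) fun p => rq p.1.1.out p.2) ⟨?_, fun r => ?_⟩,
    fun _ => rfl, fun _ _ => rfl⟩
  · rintro (D | ⟨C, D⟩) (D' | ⟨C', D'⟩) h <;> obtain ⟨u, hu, e1, e2⟩ := rq_eq_iff.1 h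
    · rw [h2 hu e2]
    · exact absurd ((Units.mul_right_eq_zero u).1 e1.symm) C'.2
    · exact absurd (e1.trans (mul_zero _)) C.2
    · obtain rfl : C = C' := Subtype.ext (h2 hu e1)
      have h3 : (u : R K) = 1 := (mul_left_eq_self₀.1 e1.symm).resolve_right C.2
      have e3 : D = (u : R K) * D' := e2
      rw [e3, h3, one_mul]
  · by_cases hc : r.out.1 = 0
    · obtain ⟨u, hu, D, hD⟩ := h1 r.out.2
      exact ⟨Sum.inl D, (rq_eq_iff.2 ⟨u, hu, by rw [hc, mul_zero], hD⟩).trans (rq_out r)⟩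
    · obtain ⟨u, hu, C, hC⟩ := h1 r.out.1
      exact ⟨Sum.inr (⟨C, by rw [hC]; exact mul_ne_zero u.ne_zero hc⟩, u * r.out.2),
        (rq_eq_iff.2 ⟨u, hu, hC, rfl⟩).trans (rq_out r)⟩
theorem ups_sub {E : Type} [AddCommMonoid E] [TopologicalSpace E] (f : EltQ K (M0 K) → E) :
    ∑' C : {C : EltQ K (M0 K) // C.out ≠ 0}, f C = ∑' C : EltQ K (M0 K), if C.out = 0 then 0 else f C :=
  (tsum_subtype {C : EltQ K (M0 K) | C.out ≠ 0} f).trans (tsum_congr fun C => by
    simp only [Set.indicator_apply, Set.mem_ofPred_eq, ite_not])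
theorem tsum_rowQ_ennreal {G : R K → R K → ℝ≥0∞} (hG : UInv G) :
    ∑' r : RowQ K, G r.out.1 r.out.2 = ∑' D : EltQ K (M0 K), G 0 D.out +
      ∑' C : EltQ K (M0 K), if C.out = 0 then 0 else ∑' D : R K, G C.out D := by
  obtain ⟨e, h1, h2⟩ := exists_rowEquiv (K := K)
  rw [← e.tsum_eq, Summable.tsum_sum ENNReal.summable ENNReal.summable, ENNReal.tsum_prod', ← ups_sub]
  simp only [h1, h2, hG.out]
theorem tsum_rowQ {G : R K → R K → ℂ} (hG : UInv G)
    (hs : Summable fun r : RowQ K => G r.out.1 r.out.2) :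
    (∑' r : RowQ K, G r.out.1 r.out.2 = ∑' D : EltQ K (M0 K), G 0 D.out +
      ∑' C : EltQ K (M0 K), if C.out = 0 then 0 else ∑' D : R K, G C.out D) ∧
    ∀ C : EltQ K (M0 K), C.out ≠ 0 → Summable fun D : R K => G C.out D := by
  obtain ⟨e, h1, h2⟩ := exists_rowEquiv (K := K)
  have h3 := e.summable_iff.2 hs
  have h4 := h3.comp_injective Sum.inr_injective
  refine ⟨?_, fun C hC => ?_⟩
  · have h5 := h4.tsum_prod
    have h6 := Summable.tsum_sum (h3.comp_injective Sum.inl_injective) h4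
    simp only [Function.comp_apply] at h5 h6
    rw [← e.tsum_eq, h6, h5, ← ups_sub]
    simp only [h1, h2, hG.out]
  · simpa only [Function.comp_apply, h2, hG.out] using h4.prod_factor ⟨C, hC⟩

end setup

end Crest.Agent.R312.Th
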