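import Crest.Agent.R312.B5ACell
import Crest.Agent.R312.B5AUps

/-!
# R312 / B5ALat : convergence of sums over `𝓞`, over elements and over rows modulo units
-/

set_option autoImplicit false
set_option linter.unusedSectionVars false

noncomputable section

open scoped Classical ComplexConjugate NumberField Topology ENNReal InnerProductSpace
open MeasureTheory Filter
open Crest.Agent.R17.Vor (SL X vc zc pt o hr act uu kk hh Tt pw hi lo mid W Vr nn SS Adm LocBd)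

namespace Crest.Agent.R312.Th

theorem lat_rpow {a b c α : ℝ} (ha : 0 < a) (hb : 0 < b) (hα : 0 ≤ α) (h : b ≤ c * a) :
    a ^ (-α) ≤ c ^ α * b ^ (-α) := by
  have hc : 0 < c := (mul_pos_iff_of_pos_right ha).1 (hb.trans_le h)
  have h1 := Real.rpow_le_rpow hb.le h hα
  rw [Real.mul_rpow hc.le ha.le] at h1
  rw [Real.rpow_neg ha.le, Real.rpow_neg hb.le, ← div_eq_mul_inv, le_div_iff₀ (by positivity),
    inv_mul_le_iff₀ (by positivity), mul_comm]
  exact h1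

theorem lat_prod {ι : Type} [Fintype ι] {a b : ι → ℝ} {c α : ℝ} (ha : ∀ i, 0 < a i) (hb : ∀ i, 0 < b i)
    (hα : 0 ≤ α) (h : ∀ i, b i ≤ c * a i) :
    ∏ i, a i ^ (-α) ≤ (c ^ α) ^ Fintype.card ι * ∏ i, b i ^ (-α) := by
  rw [← Finset.card_univ, ← Finset.prod_const, ← Finset.prod_mul_distrib]
  exact Finset.prod_le_prod (fun i _ => Real.rpow_nonneg (ha i).le _) fun i _ => lat_rpow (ha i) (hb i) hα (h i)

theorem lat_one_add {c a n : ℝ} (hc : 0 < c) (h : c ≤ n) (ha : a ≤ n) : 1 + a ≤ (c⁻¹ + 1) * n := by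
  have : 1 ≤ c⁻¹ * n := by rwa [le_inv_mul_iff₀ hc, mul_one]
  linarith

section arch
variable {K : Type} [Field K] [NumberField K] [Fld K]

/-- `Integrable.fintype_prod` / `integrable_fintype_prod`, `R17.Vor.VoW_integrable_real` -/
theorem integrable_J {α : ℝ} (hα : 1 < α) :
    Integrable fun z : Pl K → ℂ => ∏ v, (1 + ‖z v‖ ^ 2) ^ (-α) := by
  exact Integrable.fintype_prod (f := fun (_ : Pl K) (y : ℂ) => (1 + ‖y‖ ^ 2 : ℝ) ^ (-α))
    fun _ => R17.Vor.VoW_integrable_real hα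
theorem JE_ne_top {σ : ℝ} (hσ : 1 < σ) : JE K σ ≠ ∞ := by
  exact (integrable_J hσ).lintegral_lt_top.ne
theorem JE_ne_zero (σ : ℝ) : JE K σ ≠ 0 := by
  refine ((lintegral_pos_iff_support (by fun_prop)).2 ?_).ne'
  rw [show (Function.support fun z : Pl K → ℂ => ENNReal.ofReal (∏ v, (1 + ‖z v‖ ^ 2) ^ (-σ))) = Set.univ from
    Set.eq_univ_of_forall fun z => (ENNReal.ofReal_pos.2 (Finset.prod_pos fun v _ => by positivity)).ne']
  exact isOpen_univ.measure_pos _ Set.univ_nonempty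
/-- Let `f y = ∏ (1+|y_v|²)^{-α}`.  For `‖h‖ ≤ A`: `1 + |h+x|² ≤ 2(1+A²)(1+|x|²)`, so `f x ≤ C f (h + x)`.
Integrate over `h ∈ cellI ⊤`: `vol · f x ≤ C ∫_{cell} f (h + x)`, summable by `hasSum_cellI` (or do it with
`lintegral_cellI` in `ℝ≥0∞`). -/
theorem summable_lat {α : ℝ} (hα : 1 < α) :
    Summable fun x : 𝓞 K => ∏ v, (1 + ‖emb v (x : K)‖ ^ 2) ^ (-α) := by
  have hT : (⊤ : Ideal (𝓞 K)) ≠ ⊥ := top_ne_bot
  obtain ⟨A, hA⟩ := exists_bound_cellI (⊤ : Ideal (𝓞 K))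
  set C : ℝ := ((2 * (1 + A ^ 2)) ^ α) ^ Fintype.card (Pl K) with hC
  have h1 : ∀ t : (⊤ : Ideal (𝓞 K)),
      ENNReal.ofReal (∏ v, (1 + ‖emb v ((t : 𝓞 K) : K)‖ ^ 2) ^ (-α)) * volume (cellI (⊤ : Ideal (𝓞 K))) ≤
        ENNReal.ofReal C * ∫⁻ z in cellI (⊤ : Ideal (𝓞 K)),
          ENNReal.ofReal (∏ v, (1 + ‖(z + embv ((t : 𝓞 K) : K)) v‖ ^ 2) ^ (-α)) := fun t => by
    rw [← setLIntegral_const, ← lintegral_const_mul' _ _ ENNReal.ofReal_ne_top]
    refine setLIntegral_mono' (measurableSet_cellI _) fun z hz => ?_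
    rw [← ENNReal.ofReal_mul (by positivity)]
    refine ENNReal.ofReal_le_ofReal (lat_prod (fun v => by positivity) (fun v => by positivity)
      (by linarith) fun v => ?_)
    have a1 : ‖z v‖ ≤ A := (norm_le_pi_norm z v).trans (hA z hz)
    have a2 : ‖(z + embv ((t : 𝓞 K) : K)) v‖ ≤ ‖z v‖ + ‖emb v ((t : 𝓞 K) : K)‖ := norm_add_le _ _
    have a3 := pow_le_pow_left₀ (norm_nonneg _) a2 2
    have a4 := pow_le_pow_left₀ (norm_nonneg _) a1 2
    nlinarith [sq_nonneg (‖z v‖ - ‖emb v ((t : 𝓞 K) : K)‖), mul_nonneg (sq_nonneg A)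
      (sq_nonneg ‖emb v ((t : 𝓞 K) : K)‖)]
  have h2 := ENNReal.tsum_le_tsum h1
  rw [ENNReal.tsum_mul_right, ENNReal.tsum_mul_left,
    lintegral_cellI hT fun z => ENNReal.ofReal (∏ v, (1 + ‖z v‖ ^ 2) ^ (-α))] at h2
  have h3 := ne_top_of_le_ne_top (ENNReal.mul_ne_top ENNReal.ofReal_ne_top (JE_ne_top (K := K) hα)) h2
  have h4 := ENNReal.summable_toReal (f := fun t : (⊤ : Ideal (𝓞 K)) =>
      ENNReal.ofReal (∏ v, (1 + ‖emb v ((t : 𝓞 K) : K)‖ ^ 2) ^ (-α))) fun h5 => by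
    rw [h5, ENNReal.top_mul (volume_cellI_ne_zero hT)] at h3
    exact h3 rfl
  exact ((po_top' (K := K)).summable_iff.2 h4).congr fun x =>
    ENNReal.toReal_ofReal (Finset.prod_nonneg fun v _ => by positivity)

end arch

section loc
variable {K : Type} [Field K] [NumberField K] [Fld K] [Loc K]

/-- `x ↦ Q^e x` is injective from the lattice to `𝓞` (`Lat.exists_int`), and
`1 + |Q^e x|² ≤ Q^{2e} (1 + |x|²)` -/
theorem summable_latR (e : ℕ) {α : ℝ} (hα : 1 < α) :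
    Summable fun x : R K => if Lat e x then ∏ v, (1 + ‖emb v (x : K)‖ ^ 2) ^ (-α) else 0 := by
  choose y hy using fun x : {x : R K | Lat e x} => Lat.exists_int x.2
  have hQ : (Loc.Q K : K) ^ e ≠ 0 := pow_ne_zero _ loc_Q_ne
  have hinj : Function.Injective y := fun x x' h =>
    Subtype.ext (Subtype.ext (mul_left_cancel₀ hQ (by rw [← hy, ← hy, h])))
  have h1 := ((summable_lat hα).comp_injective hinj).mul_left
    ((((((Loc.Q K : ℝ)) ^ e) ^ 2) ^ α) ^ Fintype.card (Pl K))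
  have h2 := (summable_subtype_iff_indicator
    (f := fun x : R K => ∏ v, (1 + ‖emb v (x : K)‖ ^ 2) ^ (-α)) (s := {x : R K | Lat e x})).1
    (h1.of_nonneg_of_le (fun x => Finset.prod_nonneg fun v _ => by positivity) fun x =>
      lat_prod (fun v => by positivity) (fun v => by positivity) (by linarith) fun v => ?_)
  · exact h2.congr fun x => by simp only [Set.indicator_apply, Set.mem_ofPred_eq]
  · have q1 : (1 : ℝ) ≤ ((Loc.Q K : ℝ) ^ e) ^ 2 :=
      one_le_pow₀ (one_le_pow₀ (Nat.one_le_cast.2 (Nat.pos_of_ne_zero Loc.Q_ne)))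
    rw [hy, emb_mul, emb_pow, emb_natCast, norm_mul, norm_pow, Complex.norm_natCast, mul_pow]
    linarith
/-- `∏ (|c_v|² + |d_v|²) ≥ max (aN c, aN d) ≥ Q^{-2de}` for a non-zero row -/
theorem le_prod_row {e : ℕ} {c d : R K} (hc : Lat e c) (hd : Lat e d) (h : c ≠ 0 ∨ d ≠ 0) :
    (((Loc.Q K : ℝ) ^ (2 * dd K)) ^ e)⁻¹ ≤ ∏ v, (‖emb v (c : K)‖ ^ 2 + ‖emb v (d : K)‖ ^ 2) := by
  rcases h with h | h
  · refine (hc.le_aN h).trans ?_
    rw [aN_eq_prod]
    exact Finset.prod_le_prod (fun v _ => sq_nonneg _) fun v _ => le_add_of_nonneg_right (sq_nonneg _)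
  · refine (hd.le_aN h).trans ?_
    rw [aN_eq_prod]
    exact Finset.prod_le_prod (fun v _ => sq_nonneg _) fun v _ => le_add_of_nonneg_left (sq_nonneg _)

theorem lat_m_pos (e : ℕ) : 0 < (((Loc.Q K : ℝ) ^ (2 * dd K)) ^ e)⁻¹ := by
  have : (0 : ℝ) < Loc.Q K := Nat.cast_pos.2 (Nat.pos_of_ne_zero Loc.Q_ne)
  positivity
theorem Ht_bdd (e : ℕ) (ρ : ℝ) : ∃ A : ℝ, ∀ w : XX K, InB ρ w → ∀ c d : R K, Lat e c → Lat e d →
    Ht w (c : K) (d : K) ≤ A := by
  refine ⟨(2 * ρ) ^ dd K * ((Loc.Q K : ℝ) ^ (2 * dd K)) ^ e, fun w hw c d hc hd => ?_⟩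
  have h1 := hw.one_le
  by_cases h : c ≠ 0 ∨ d ≠ 0
  · refine (Ht_le hw _ _).trans (mul_le_mul_of_nonneg_left ?_ (by positivity))
    rw [Ht_oK]
    exact inv_le_of_inv_le₀ (inv_pos.1 (lat_m_pos e)) (le_prod_row hc hd h)
  · rw [not_or, not_not, not_not] at h
    rw [h.1, h.2, Subring.coe_zero, Ht_zero_zero]
    positivity
theorem Ht_ups {M : ℕ} {u : (R K)ˣ} (hu : u ∈ Ups K M) (w : XX K) (c d : R K) :
    Ht w (((u : R K) * c : R K) : K) (((u : R K) * d : R K) : K) = Ht w (c : K) (d : K) := by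
  rw [Subring.coe_mul, Subring.coe_mul, Ht_mul, aN_Ups hu, div_one]

variable [Setup K]

/-- `summable_quot`.  For `x ≠ 0` take `u` from `exists_bal` (`η_v = |x_v|²`), so `|(ux)_v|² ≥ c` and
`|(ux)_v|^{-2σ} ≤ (1 + 1/c)^σ (1 + |(ux)_v|²)^{-σ}`; `aN (u x) = aN x`; `summable_latR`. -/
theorem summable_elts (e : ℕ) {σ : ℝ} (hσ : 1 < σ) : Summable fun D : EltQ K (M0 K) =>
    if Lat e D.out then aN ((D.out : R K) : K) ^ (-σ) else 0 := by
  obtain ⟨c, hc, H⟩ := exists_bal (K := K) (M0_pos (K := K)) (lat_m_pos (K := K) e)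
  have g0 : ∀ x : R K, 0 ≤ ((c⁻¹ + 1) ^ σ) ^ Fintype.card (Pl K) *
      if Lat e x then ∏ v, (1 + ‖emb v (x : K)‖ ^ 2) ^ (-σ) else 0 := fun x => by
    split_ifs
    · exact mul_nonneg (by positivity) (Finset.prod_nonneg fun v _ => by positivity)
    · rw [mul_zero]
  refine summable_quot (G := Ups K (M0 K)) (f := fun x : R K => if Lat e x then aN (x : K) ^ (-σ) else 0)
    (fun x => ?_) g0 ((summable_latR e hσ).mul_left _) fun x => ?_
  · split_ifs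
    · exact Real.rpow_nonneg (aN_nonneg _) _
    · exact le_rfl
  split_ifs with hx
  swap
  · exact ⟨1, g0 _⟩
  by_cases h0 : x = 0
  · refine ⟨1, le_trans (le_of_eq ?_) (g0 _)⟩
    rw [h0, Subring.coe_zero, aN, Algebra.norm_zero, Rat.cast_zero, abs_zero, Real.zero_rpow (by linarith)]
  obtain ⟨u, hu, h⟩ := H (fun v => ‖emb v (x : K)‖ ^ 2)
    (fun v => pow_pos (norm_pos_iff.2 (emb_ne_zero v (b4_coe_ne_zero h0))) 2)
    ((hx.le_aN h0).trans (aN_eq_prod _).le)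
  refine ⟨⟨u, hu⟩, ?_⟩
  change _ ≤ _ * if Lat e ((u : R K) * x) then ∏ v, (1 + ‖emb v (((u : R K) * x : R K) : K)‖ ^ 2) ^ (-σ) else 0
  have e1 : aN (x : K) = ∏ v, ‖emb v (((u : R K) * x : R K) : K)‖ ^ 2 := by
    rw [← aN_eq_prod, Subring.coe_mul, aN_mul, aN_Ups hu, one_mul]
  have h' : ∀ v, c ≤ ‖emb v (((u : R K) * x : R K) : K)‖ ^ 2 := fun v => by
    rw [Subring.coe_mul, emb_mul, norm_mul, mul_pow]; exact h v
  rw [if_pos ((lat_ups_mul hu).2 hx), e1, ← Real.finsetProd_rpow _ _ fun v _ => sq_nonneg _]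
  exact lat_prod (fun v => hc.trans_le (h' v)) (fun v => by positivity) (by linarith) fun v =>
    lat_one_add hc (h' v) le_rfl
/-- `summable_quot`.  With `n_v = |c_v|² + |d_v|² ≥ c₀` (balanced representative):
`(1+|c_v|²)(1+|d_v|²) ≤ (1 + 1/c₀)² n_v²`, so `n_v^{-σ} ≤ C (1+|c_v|²)^{-σ/2} (1+|d_v|²)^{-σ/2}`;
`Summable.mul_of_nonneg` for `summable_latR e (σ/2)`. -/
theorem summable_rows (e : ℕ) {σ : ℝ} (hσ : 2 < σ) : Summable fun r : RowQ K =>
    if Lat e r.out.1 ∧ Lat e r.out.2 then Ht oK (r.out.1 : K) (r.out.2 : K) ^ σ else 0 := by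
  obtain ⟨c, hc, H⟩ := exists_bal (K := K) (M0_pos (K := K)) (lat_m_pos (K := K) e)
  let F : R K → ℝ := fun x => ((c⁻¹ + 1) ^ (σ / 2)) ^ Fintype.card (Pl K) *
    if Lat e x then ∏ v, (1 + ‖emb v (x : K)‖ ^ 2) ^ (-(σ / 2)) else 0
  have F0 : ∀ x : R K, 0 ≤ F x := fun x => by
    simp only [F]
    split_ifs
    · exact mul_nonneg (by positivity) (Finset.prod_nonneg fun v _ => by positivity)
    · rw [mul_zero]
  have hF : Summable F := (summable_latR e (by linarith)).mul_left _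
  have g0 : ∀ x : R K × R K, 0 ≤ F x.1 * F x.2 := fun x => mul_nonneg (F0 _) (F0 _)
  refine summable_quot (G := Ups K (M0 K))
    (f := fun x : R K × R K => if Lat e x.1 ∧ Lat e x.2 then Ht oK (x.1 : K) (x.2 : K) ^ σ else 0)
    (fun x => ?_) g0 (hF.mul_of_nonneg hF F0 F0) fun x => ?_
  · split_ifs
    · exact Real.rpow_nonneg (Ht_nonneg _ _ _) _
    · exact le_rfl
  obtain ⟨x, y⟩ := x
  simp only
  split_ifs with hx
  swap
  · exact ⟨1, g0 _⟩
  by_cases h0 : x ≠ 0 ∨ y ≠ 0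
  swap
  · refine ⟨1, le_trans (le_of_eq ?_) (g0 _)⟩
    rw [not_or, not_not, not_not] at h0
    rw [h0.1, h0.2, Subring.coe_zero, Ht_zero_zero, Real.zero_rpow (by linarith)]
  obtain ⟨u, hu, h⟩ := H (fun v => ‖emb v (x : K)‖ ^ 2 + ‖emb v (y : K)‖ ^ 2)
    (fun v => h0.elim
      (fun h => add_pos_of_pos_of_nonneg (pow_pos (norm_pos_iff.2 (emb_ne_zero v (b4_coe_ne_zero h))) 2)
        (sq_nonneg _))
      fun h => add_pos_of_nonneg_of_pos (sq_nonneg _)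
        (pow_pos (norm_pos_iff.2 (emb_ne_zero v (b4_coe_ne_zero h))) 2))
    (le_prod_row hx.1 hx.2 h0)
  refine ⟨⟨u, hu⟩, ?_⟩
  change _ ≤ F ((u : R K) * x) * F ((u : R K) * y)
  have h' : ∀ v, c ≤ ‖emb v (((u : R K) * x : R K) : K)‖ ^ 2 + ‖emb v (((u : R K) * y : R K) : K)‖ ^ 2 :=
    fun v => by
    rw [Subring.coe_mul, Subring.coe_mul, emb_mul, emb_mul, norm_mul, norm_mul, mul_pow, mul_pow, ← mul_add]
    exact h v
  have p0 : 0 < ∏ v, (‖emb v (((u : R K) * x : R K) : K)‖ ^ 2 + ‖emb v (((u : R K) * y : R K) : K)‖ ^ 2) :=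
    Finset.prod_pos fun v _ => hc.trans_le (h' v)
  simp only [F]
  rw [if_pos ((lat_ups_mul hu).2 hx.1), if_pos ((lat_ups_mul hu).2 hx.2), ← Ht_ups hu, Ht_oK,
    Real.inv_rpow p0.le, ← Real.rpow_neg p0.le, show -σ = -(σ / 2) + -(σ / 2) by ring, Real.rpow_add p0,
    ← Real.finsetProd_rpow _ _ fun v _ => (hc.trans_le (h' v)).le]
  refine mul_le_mul (lat_prod (fun v => hc.trans_le (h' v)) (fun v => by positivity) (by linarith) fun v =>
    lat_one_add hc (h' v) (le_add_of_nonneg_right (sq_nonneg _)))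
    (lat_prod (fun v => hc.trans_le (h' v)) (fun v => by positivity) (by linarith) fun v =>
    lat_one_add hc (h' v) (le_add_of_nonneg_left (sq_nonneg _)))
    (Finset.prod_nonneg fun v _ => by positivity)
    (mul_nonneg (by positivity) (Finset.prod_nonneg fun v _ => by positivity))
/-- `Ht_le`, `summable_rows`, `ENNReal.ofReal_tsum_of_nonneg` -/
theorem EE_chiL_le (e : ℕ) {σ : ℝ} (hσ : 2 < σ) (ρ : ℝ) : ∃ B : ℝ≥0∞, B ≠ ∞ ∧
    ∀ w : XX K, InB ρ w → EE (chiL e) σ w ≤ B := by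
  refine ⟨_, ((summable_rows (K := K) e hσ).mul_left (((2 * ρ) ^ dd K) ^ σ)).tsum_ofReal_ne_top,
    fun w hw => ENNReal.tsum_le_tsum fun r => ?_⟩
  have h1 := hw.one_le
  rw [chiL]
  split_ifs
  · rw [one_mul, ← Real.mul_rpow (by positivity) (Ht_nonneg _ _ _)]
    exact ENNReal.ofReal_le_ofReal (Real.rpow_le_rpow (Ht_nonneg _ _ _) (Ht_le hw _ _) (by linarith))
  · rw [zero_mul]
    exact zero_le

end loc

end Crest.Agent.R312.Th
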