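import Crest.Agent.R312.B5AGeo

/-!
# R312 / B5AMeas : the invariant measure on `XX K`, coordinates, the operator `TX`
(product version of `R17/VoGeo2.lean`)
-/

set_option autoImplicit false
set_option linter.unusedSectionVars false

noncomputable section

open scoped Classical ComplexConjugate NumberField Topology ENNReal InnerProductSpace
open MeasureTheory Filter
open Crest.Agent.R17.Vor (SL X vc zc pt o hr act uu kk hh Tt pw hi lo mid W Vr nn SS Adm LocBd)

namespace Crest.Agent.R312.Th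

section arch
variable {K : Type} [Field K] [NumberField K] [Fld K]

/-- `measurePreserving_pi` / `volume_preserving_pi` and `R17.Vor.measurePreserving_act` -/
theorem measurePreserving_actP (g : Pl K → SL ℂ) : MeasurePreserving (actP g) volume volume := by
  exact volume_preserving_pi fun v => R17.Vor.measurePreserving_act (g v)
/-- `actP g` as a homeomorphism -/
def b5m_homeo (g : Pl K → SL ℂ) : XX K ≃ₜ XX K where
  toFun := actP g
  invFun := actP g⁻¹
  left_inv := actP_inv_actP g
  right_inv := actP_actP_inv g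
  continuous_toFun := continuous_actP g
  continuous_invFun := continuous_actP g⁻¹

theorem measurableEmbedding_actP (g : Pl K → SL ℂ) : MeasurableEmbedding (actP g) := by
  exact (b5m_homeo g).measurableEmbedding
theorem integral_actP (g : Pl K → SL ℂ) (f : XX K → ℂ) : ∫ w, f (actP g w) = ∫ w, f w := by
  exact (measurePreserving_actP g).integral_comp (measurableEmbedding_actP g) f
theorem lintegral_actP (g : Pl K → SL ℂ) (f : XX K → ℝ≥0∞) : ∫⁻ w, f (actP g w) = ∫⁻ w, f w := by
  exact (measurePreserving_actP g).lintegral_comp_emb (measurableEmbedding_actP g) f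
theorem integrable_actP (g : Pl K → SL ℂ) {f : XX K → ℂ} (hf : Integrable f) :
    Integrable fun w => f (actP g w) := by
  exact ((measurePreserving_actP g).integrable_comp_emb (measurableEmbedding_actP g)).2 hf

/-- `Measure.map_linearMap_addHaar_eq_smul_addHaar`, `LinearMap.det_pi`, and the determinant of the
multiplication by `κ` on `ℂ` is `‖κ‖²` (`Algebra.norm_complex_apply`, `Algebra.norm_apply`) -/
theorem map_mul_pi {κ : Pl K → ℂ} (hκ : ∀ v, κ v ≠ 0) :
    Measure.map (fun y : Pl K → ℂ => κ * y) volume =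
      ENNReal.ofReal ((∏ v, ‖κ v‖ ^ 2)⁻¹) • (volume : Measure (Pl K → ℂ)) := by
  let L : (Pl K → ℂ) →ₗ[ℝ] (Pl K → ℂ) :=
    LinearMap.pi fun v => (Algebra.lmul ℝ ℂ (κ v)).comp (LinearMap.proj v)
  have hL : LinearMap.det L = ∏ v, ‖κ v‖ ^ 2 := by
    rw [LinearMap.det_pi]
    refine Finset.prod_congr rfl fun v _ => ?_
    rw [← Complex.normSq_eq_norm_sq, ← Algebra.norm_complex_apply, Algebra.norm_apply]
  have h0 : 0 < ∏ v, ‖κ v‖ ^ 2 := Finset.prod_pos fun v _ => pow_pos (norm_pos_iff.2 (hκ v)) 2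
  have h := Measure.map_linearMap_addHaar_eq_smul_addHaar (volume : Measure (Pl K → ℂ)) (f := L)
    (by rw [hL]; exact h0.ne')
  rw [hL, abs_of_pos (inv_pos.2 h0)] at h
  exact h

theorem b5m_emb {κ : Pl K → ℂ} (hκ : ∀ v, κ v ≠ 0) :
    MeasurableEmbedding (fun y : Pl K → ℂ => κ * y) := by
  let e : (Pl K → ℂ) ≃ₜ (Pl K → ℂ) :=
    { toFun := fun y => κ * y
      invFun := fun y => κ⁻¹ * y
      left_inv := fun y => funext fun v => by simp [hκ v]
      right_inv := fun y => funext fun v => by simp [hκ v]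
      continuous_toFun := by fun_prop
      continuous_invFun := by fun_prop }
  exact e.measurableEmbedding

/-- the scaling factors -/
def b5m_k (x : Pl K → ℝ) : Pl K → ℂ := fun i => ((Real.exp (x i) : ℝ) : ℂ)⁻¹

theorem b5m_k_ne (x : Pl K → ℝ) (i : Pl K) : b5m_k x i ≠ 0 :=
  inv_ne_zero (Complex.ofReal_ne_zero.2 (Real.exp_pos _).ne')

theorem b5m_k_prod (x : Pl K → ℝ) : Real.exp (-2 * ∑ v, x v) * (∏ v, ‖b5m_k x v‖ ^ 2)⁻¹ = 1 := by
  have h : ∏ v, ‖b5m_k x v‖ ^ 2 = Real.exp (-2 * ∑ v, x v) := by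
    rw [Finset.mul_sum, Real.exp_sum]
    refine Finset.prod_congr rfl fun v _ => ?_
    rw [b5m_k, norm_inv, Complex.norm_real, Real.norm_of_nonneg (Real.exp_pos _).le, ← Real.exp_neg,
      ← Real.exp_nat_mul]
    congr 1
    push_cast
    ring
  rw [h, mul_inv_cancel₀ (Real.exp_pos _).ne']

theorem b5m_pt (z : Pl K → ℂ) (x : Pl K → ℝ) : ptK z (fun i => Real.exp (x i)) =
    (MeasurableEquiv.arrowProdEquivProdArrow ℂ ℝ (Pl K)).symm (b5m_k x * z, x) := by
  funext i
  show pt (z i) (Real.exp (x i)) = (b5m_k x i * z i, x i)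
  rw [pt, Real.log_exp, div_eq_inv_mul, b5m_k]

/-- `volume_measurePreserving_arrowProdEquivProdArrow`, Fubini, and `y = e^{-x} z` (`map_mul_pi`);
note `ptK z (exp x) i = (z i / exp (x i), x i)` -/
theorem integral_XX {f : XX K → ℂ} (hf : Integrable f) :
    ∫ w, f w = ∫ x : Pl K → ℝ, ((Real.exp (-2 * ∑ v, x v) : ℝ) : ℂ) *
      ∫ z : Pl K → ℂ, f (ptK z fun i => Real.exp (x i)) := by
  have hp := (volume_measurePreserving_arrowProdEquivProdArrow ℂ ℝ (Pl K)).symm
  have hf' := (hp.integrable_comp_emb (MeasurableEquiv.measurableEmbedding _)).2 hf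
  rw [← hp.integral_comp' f]
  rw [Measure.volume_eq_prod] at hf' ⊢
  refine (integral_prod_symm _ hf').trans (integral_congr_ae (Eventually.of_forall fun x => ?_))
  have h1 := (b5m_emb (b5m_k_ne x)).integral_map (μ := volume)
    (fun y => f ((MeasurableEquiv.arrowProdEquivProdArrow ℂ ℝ (Pl K)).symm (y, x)))
  rw [map_mul_pi (b5m_k_ne x), integral_smul_measure, ENNReal.toReal_ofReal
    (inv_nonneg.2 (Finset.prod_nonneg fun _ _ => sq_nonneg _))] at h1
  simp only [b5m_pt]
  rw [← h1, Complex.real_smul, ← mul_assoc, ← Complex.ofReal_mul, b5m_k_prod, Complex.ofReal_one,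
    one_mul]
  rfl
theorem lintegral_XX {f : XX K → ℝ≥0∞} (hf : Measurable f) :
    ∫⁻ w, f w = ∫⁻ x : Pl K → ℝ, ENNReal.ofReal (Real.exp (-2 * ∑ v, x v)) *
      ∫⁻ z : Pl K → ℂ, f (ptK z fun i => Real.exp (x i)) := by
  have hp := (volume_measurePreserving_arrowProdEquivProdArrow ℂ ℝ (Pl K)).symm
  rw [← hp.lintegral_comp hf, Measure.volume_eq_prod]
  refine (lintegral_prod_symm' _ (hf.comp (MeasurableEquiv.measurable _))).trans
    (lintegral_congr fun x => ?_)
  have h1 := (b5m_emb (b5m_k_ne x)).lintegral_map (μ := volume)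
    (fun y => f ((MeasurableEquiv.arrowProdEquivProdArrow ℂ ℝ (Pl K)).symm (y, x)))
  rw [map_mul_pi (b5m_k_ne x), lintegral_smul_measure] at h1
  simp only [b5m_pt]
  rw [← h1, smul_eq_mul, ← mul_assoc, ← ENNReal.ofReal_mul (Real.exp_pos _).le, b5m_k_prod,
    ENNReal.ofReal_one, one_mul]
  rfl

theorem volume_inB_lt_top (ρ : ℝ) : volume {w : XX K | InB ρ w} < ∞ := by
  exact (isCompact_inB ρ).measure_lt_top
theorem integrable_of_inB {f : XX K → ℂ} (hf : AEStronglyMeasurable f volume) (ρ C : ℝ)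
    (hb : ∀ w, InB ρ w → ‖f w‖ ≤ C) (h0 : ∀ w, ¬ InB ρ w → f w = 0) : Integrable f := by
  refine (integrableOn_iff_integrable_of_support_subset (s := {w | InB ρ w}) ?_).1 ?_
  · intro w' hw'
    by_contra h
    exact hw' (h0 w' h)
  · refine Measure.integrableOn_of_bounded (M := C) (volume_inB_lt_top ρ).ne hf ?_
    exact (ae_restrict_iff' (measurableSet_inB ρ)).2 (Eventually.of_forall hb)
/-- `exists_actP_o`, `lintegral_actP`, `kP ≤ 1` supported in `InB 4` -/
theorem lintegral_kP : ∃ M : ℝ, 0 ≤ M ∧ ∀ w : XX K,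
    ∫⁻ w', ENNReal.ofReal (kP w w') ≤ ENNReal.ofReal M := by
  refine ⟨(volume {w' : XX K | InB (4 * 1) w'}).toReal, ENNReal.toReal_nonneg, fun w => ?_⟩
  obtain ⟨g, hg, -⟩ := exists_actP_o w
  rw [ENNReal.ofReal_toReal (volume_inB_lt_top _).ne, ← lintegral_actP g,
    ← lintegral_indicator_one (measurableSet_inB _)]
  refine lintegral_mono fun w' => ?_
  rw [← hg, kP_actP]
  by_cases h : kP oK w' = 0
  · rw [h]
    simp
  · rw [Set.indicator_of_mem (s := {w' : XX K | InB (4 * 1) w'}) (inB_oK.of_kP h)]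
    exact ENNReal.ofReal_le_one.2 (kP_le_one _ _)
theorem integrable_kP_mul_cont {D : XX K → ℂ} (hD : Continuous D) (w : XX K) :
    Integrable fun w' => (kP w w' : ℂ) * D w' := by
  obtain ⟨ρ, hρ⟩ := exists_inB w
  have hc : Continuous fun w' => (kP w w' : ℂ) * D w' :=
    (Complex.continuous_ofReal.comp (continuous_kP' w)).mul hD
  obtain ⟨C, hC⟩ := (isCompact_inB (K := K) (4 * ρ)).exists_bound_of_continuousOn hc.continuousOn
  refine integrable_of_inB hc.aestronglyMeasurable (4 * ρ) C hC fun w' hw' => ?_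
  have : kP w w' = 0 := by_contra fun h => hw' (hρ.of_kP h)
  rw [this, Complex.ofReal_zero, zero_mul]
theorem TX_actP (g : Pl K → SL ℂ) (f : XX K → ℂ) (w : XX K) :
    TX (fun w' => f (actP g w')) w = TX f (actP g w) := by
  unfold TX
  rw [← integral_actP g (fun w' => (kP (actP g w) w' : ℂ) * f w')]
  simp only [kP_actP]
theorem TX_congr {f g : XX K → ℂ} {w : XX K} (h : ∀ w', kP w w' ≠ 0 → f w' = g w') :
    TX f w = TX g w := by
  unfold TX
  refine integral_congr_ae (Eventually.of_forall fun w' => ?_)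
  by_cases h0 : kP w w' = 0
  · simp [h0]
  · simp only [h w' h0]
/-- substitute `w' = g w''` with `g` from `exists_actP_o` -/
theorem TX_ht (φ : ℝ → ℂ) (w : XX K) : TX (fun w' => φ (ht w')) w = TtP K φ (ht w) := by
  obtain ⟨g, hg, hv⟩ := exists_actP_o w
  unfold TX TtP
  rw [← integral_actP g]
  refine integral_congr_ae (Eventually.of_forall fun w' => ?_)
  simp only
  rw [hv, ← kP_actP g oK w', hg]

end arch

section loc
variable {K : Type} [Field K] [NumberField K] [Fld K] [Loc K]

theorem integral_actR (g : SL (R K)) (f : XX K → ℂ) : ∫ w, f (actR g w) = ∫ w, f w :=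
  integral_actP _ f
theorem lintegral_actR (g : SL (R K)) (f : XX K → ℝ≥0∞) : ∫⁻ w, f (actR g w) = ∫⁻ w, f w :=
  lintegral_actP _ f
theorem integrable_actR (g : SL (R K)) {f : XX K → ℂ} (hf : Integrable f) :
    Integrable fun w => f (actR g w) := integrable_actP _ hf
/-- `exists_row`, `ht_actR`, `TX_actP`, `TX_ht` -/
theorem TX_Ht (φ : ℝ → ℂ) {c d : R K} (h : IsCoprime c d) (w : XX K) :
    TX (fun w' => φ (Ht w' (c : K) (d : K))) w = TtP K φ (Ht w (c : K) (d : K)) := by
  obtain ⟨g, rfl, rfl⟩ := exists_row h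
  simp only [← ht_actR]
  rw [← TX_ht, actR_eq]
  exact TX_actP _ (fun w' => φ (ht w')) w

end loc

end Crest.Agent.R312.Th
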