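import Crest.Agent.R312.B5AMeas
import Crest.Agent.R312.B5ALat

/-!
# R312 / B5ANu : the weight `rho`, the measure `nu`, unfolding (port of `R17/VoNu`, end of `VoGrp`)
-/

set_option autoImplicit false
set_option linter.unusedSectionVars false

noncomputable section

open scoped Classical ComplexConjugate NumberField Topology ENNReal InnerProductSpace
open MeasureTheory Filter
open Crest.Agent.R17.Vor (SL X vc zc pt o hr act uu kk hh Tt pw hi lo mid W Vr nn SS Adm LocBd)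

namespace Crest.Agent.R312.Th

variable {K : Type} [Field K] [NumberField K] [Fld K] [Loc K] [Setup K]

theorem Gam_le (p : R K) : Gam K p ≤ Gam K 1 := GamN_mono le_rfl (one_dvd p)

theorem norm_kap' {p : R K} (γ : Gam K p) : ‖kap (γ : SL (R K))‖ = 1 := norm_kap (Gam_le p γ.2)

theorem lat_of_mem_Gam {p : R K} {g : SL (R K)} (hg : g ∈ Gam K p) :
    Lat 0 g.a ∧ Lat 0 g.b ∧ Lat 0 g.c ∧ Lat 0 g.d := by
  obtain ⟨h1, h2, h3, h4, -⟩ := hg
  refine ⟨?_, ?_, ?_, ?_⟩ <;> rw [Lat, pow_zero, one_mul]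
  exacts [h1.sInt, h2.sInt, h3.sInt, h4.sInt]

theorem wa_pos (w : XX K) : 0 < wa w := by
  exact Finset.prod_pos fun v _ => pow_pos (inv_pos.2 (R17.Vor.nu_uu_pos _ _)) _
theorem continuous_wa : Continuous (wa : XX K → ℝ) := by
  exact continuous_finsetProd _ fun v _ => R17.Vor.continuous_wa.comp (continuous_apply v)
theorem nu_one {a b c d u t ρ : ℝ} (a0 : 0 ≤ a) (b0 : 0 ≤ b) (c0 : 0 ≤ c) (d0 : 0 ≤ d)
    (h5 : u = (a + b + c + d) / 2) (hu1 : 1 ≤ u) (ht0 : 0 < t) (hρ : 0 < ρ) (h4 : u ≤ 2 * ρ * t) :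
    t⁻¹ ^ 5 ≤ (6 * ρ) ^ 5 * ((1 + a) ^ (-(5 / 4) : ℝ) * (1 + b) ^ (-(5 / 4) : ℝ) *
      ((1 + c) ^ (-(5 / 4) : ℝ) * (1 + d) ^ (-(5 / 4) : ℝ))) := by
  have h6 : ∀ n : ℝ, 0 ≤ n → n ≤ 2 * u → (3 * u) ^ (-(5 / 4) : ℝ) ≤ (1 + n) ^ (-(5 / 4) : ℝ) :=
    fun n hn0 hn => Real.rpow_le_rpow_of_nonpos (by linarith) (by linarith) (by norm_num)
  have h7 : 0 ≤ (3 * u) ^ (-(5 / 4) : ℝ) := Real.rpow_nonneg (by linarith) _
  have h8 : ((3 * u)⁻¹) ^ 5 = (3 * u) ^ (-(5 / 4) : ℝ) * (3 * u) ^ (-(5 / 4) : ℝ) *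
      ((3 * u) ^ (-(5 / 4) : ℝ) * (3 * u) ^ (-(5 / 4) : ℝ)) := by
    rw [← Real.rpow_add (by linarith), ← Real.rpow_add (by linarith), inv_pow, ← Real.rpow_natCast,
      ← Real.rpow_neg (by linarith)]
    norm_num
  have h9 : t⁻¹ ≤ 6 * ρ * (3 * u)⁻¹ := by
    rw [← div_eq_mul_inv, inv_eq_one_div, div_le_div_iff₀ ht0 (by linarith)]
    linarith
  calc t⁻¹ ^ 5 ≤ (6 * ρ * (3 * u)⁻¹) ^ 5 := pow_le_pow_left₀ (inv_nonneg.2 ht0.le) h9 5
    _ = (6 * ρ) ^ 5 * ((3 * u)⁻¹) ^ 5 := mul_pow _ _ _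
    _ ≤ _ := by
      rw [h8]
      refine mul_le_mul_of_nonneg_left ?_ (by positivity)
      exact mul_le_mul (mul_le_mul (h6 _ a0 (by linarith)) (h6 _ b0 (by linarith)) h7 (by positivity))
        (mul_le_mul (h6 _ c0 (by linarith)) (h6 _ d0 (by linarith)) h7 (by positivity))
        (mul_nonneg h7 h7) (by positivity)
/-- as `R17.Vor.summable_wa`, place by place, with `summable_latR 0 (5/4)` (`uu_actR_o`, `uu_actR`) -/
theorem summable_wa (p : R K) (w : XX K) : Summable fun γ : Gam K p => wa (actR γ w) := by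
  obtain ⟨f, hf⟩ : ∃ f : R K → ℝ, f = fun x =>
    if Lat 0 x then ∏ v, (1 + ‖emb v (x : K)‖ ^ 2) ^ (-(5 / 4) : ℝ) else 0 := ⟨_, rfl⟩
  have h0 : ∀ n, 0 ≤ f n := fun n => by
    rw [hf]; dsimp only; split_ifs
    · exact Finset.prod_nonneg fun v _ => by positivity
    · exact le_rfl
  have h1 : Summable f := hf ▸ summable_latR 0 (by norm_num)
  have h2 := h1.mul_of_nonneg h1 h0 h0
  have h3 := h2.mul_of_nonneg h2 (fun _ => mul_nonneg (h0 _) (h0 _)) fun _ => mul_nonneg (h0 _) (h0 _)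
  have hinj : Function.Injective fun g : Gam K p => ((g.1.a, g.1.b), (g.1.c, g.1.d)) := fun g h e => by
    simp only [Prod.mk.injEq] at e
    exact Subtype.ext (R17.Vor.SL.ext e.1.1 e.1.2 e.2.1 e.2.2)
  obtain ⟨ρ, hρ⟩ := exists_inB w
  have hρ1 := hρ.one_le
  refine Summable.of_nonneg_of_le (fun g => (wa_pos _).le)
    (fun g => ?_) ((h3.comp_injective hinj).mul_left (((6 * ρ) ^ 5) ^ dd K))
  obtain ⟨la, lb, lc, ld⟩ := lat_of_mem_Gam g.2
  simp only [Function.comp_apply, hf, if_pos la, if_pos lb, if_pos lc, if_pos ld]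
  rw [← Finset.prod_mul_distrib, ← Finset.prod_mul_distrib, ← Finset.prod_mul_distrib, dd,
    ← Finset.card_univ, ← Finset.prod_const, ← Finset.prod_mul_distrib]
  refine Finset.prod_le_prod (fun v _ => pow_nonneg (inv_nonneg.2 (R17.Vor.nu_uu_pos _ _).le) _)
    fun v _ => nu_one (by positivity) (by positivity) (by positivity) (by positivity)
      (uu_actR_o g.1 v) (R17.Vor.one_le_uu _ _) (R17.Vor.nu_uu_pos _ _) (by linarith) ?_
  refine (R17.Vor.uu_le _ (actR g.1 w v) _).trans ?_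
  rw [uu_actR, R17.Vor.uu_symm]
  have := hρ v
  have := R17.Vor.nu_uu_pos (actR g.1 w v) o
  change 2 * uu (w v) o * _ ≤ _
  gcongr
theorem nu_den_pos (p : R K) (w : XX K) : 0 < ∑' γ : Gam K p, wa (actR γ w) :=
  (summable_wa p w).tsum_pos (fun _ => (wa_pos _).le) 1 (wa_pos _)
theorem rho_pos (p : R K) (w : XX K) : 0 < rho p w := by
  exact div_pos (wa_pos w) (nu_den_pos p w)
theorem measurable_rho (p : R K) : Measurable (rho p) := by
  have h : (fun w : XX K => ∑' γ : Gam K p, wa (actR γ w)) =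
      fun w => (∑' γ : Gam K p, ENNReal.ofReal (wa (actR γ w))).toReal := by
    funext w
    rw [← ENNReal.ofReal_tsum_of_nonneg (fun _ => (wa_pos _).le) (summable_wa p w),
      ENNReal.toReal_ofReal (nu_den_pos p w).le]
  refine continuous_wa.measurable.div ?_
  rw [h]
  exact (Measurable.tsum fun γ =>
    (continuous_wa.comp (continuous_actR _)).measurable.ennreal_ofReal).ennreal_toReal
theorem hasSum_rho (p : R K) (w : XX K) : HasSum (fun γ : Gam K p => rho p (actR γ w)) 1 := by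
  have h : ∀ δ : Gam K p, ∑' γ : Gam K p, wa (actR γ (actR δ w)) = ∑' γ : Gam K p, wa (actR γ w) := by
    intro δ
    rw [← (Equiv.mulRight δ).tsum_eq fun γ : Gam K p => wa (actR γ w)]
    refine tsum_congr fun γ => ?_
    rw [Equiv.coe_mulRight, Subgroup.coe_mul, actR_mul]
  simp only [rho, h]
  rw [← div_self (nu_den_pos p w).ne']
  exact (summable_wa p w).hasSum.div_const _
theorem nu_hasSum_inv (p : R K) (w : XX K) :
    HasSum (fun γ : Gam K p => rho p (actR (γ⁻¹ : Gam K p) w)) 1 :=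
  (Equiv.inv (Gam K p)).hasSum_iff.2 (hasSum_rho p w)

theorem nu_tsum_inv (p : R K) (w : XX K) :
    ∑' γ : Gam K p, ENNReal.ofReal (rho p (actR (γ⁻¹ : Gam K p) w)) = 1 := by
  rw [← ENNReal.ofReal_tsum_of_nonneg (fun _ => (rho_pos p _).le) (nu_hasSum_inv p w).summable,
    (nu_hasSum_inv p w).tsum_eq, ENNReal.ofReal_one]
theorem unfold_lintegral (p : R K) {f : XX K → ℝ≥0∞} (hf : Measurable f) :
    ∫⁻ w, ∑' γ : Gam K p, f (actR γ w) ∂(nu p) = ∫⁻ w, f w := by
  have hm : ∀ γ : Gam K p, Measurable fun w => f (actR γ w) := fun γ =>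
    hf.comp (continuous_actR _).measurable
  have hρ := (measurable_rho p).ennreal_ofReal
  rw [lintegral_tsum fun γ => (hm γ).aemeasurable]
  have h1 : ∀ γ : Gam K p, ∫⁻ w, f (actR γ w) ∂(nu p) =
      ∫⁻ w, ENNReal.ofReal (rho p (actR (γ⁻¹ : Gam K p) w)) * f w := by
    intro γ
    rw [nu, lintegral_withDensity_eq_lintegral_mul _ hρ (hm γ),
      ← lintegral_actR γ fun w => ENNReal.ofReal (rho p (actR (γ⁻¹ : Gam K p) w)) * f w]
    refine lintegral_congr fun w => ?_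
    rw [Subgroup.coe_inv, actR_inv_actR]; rfl
  simp only [h1]
  have h2 : ∀ γ : Gam K p, Measurable fun w => ENNReal.ofReal (rho p (actR (γ⁻¹ : Gam K p) w)) * f w :=
    fun γ => (hρ.comp (continuous_actR _).measurable).mul hf
  rw [← lintegral_tsum fun γ => (h2 γ).aemeasurable]
  refine lintegral_congr fun w => ?_
  rw [ENNReal.tsum_mul_right, nu_tsum_inv, one_mul]
theorem unfold_integral (p : R K) {f : XX K → ℂ} (hm : Measurable f) (hf : Integrable f) :
    ∫ w, ∑' γ : Gam K p, f (actR γ w) ∂(nu p) = ∫ w, f w := by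
  have hm' : ∀ γ : Gam K p, Measurable fun w => f (actR γ w) := fun γ =>
    hm.comp (continuous_actR _).measurable
  have hρ := (measurable_rho p).ennreal_ofReal
  have hfin : ∫⁻ w, ‖f w‖ₑ ≠ ∞ := hf.2.ne
  rw [integral_tsum (fun γ => (hm' γ).aestronglyMeasurable) (by
    rw [← lintegral_tsum fun γ => (hm' γ).enorm.aemeasurable,
      unfold_lintegral p (f := fun w => ‖f w‖ₑ) hm.enorm]
    exact hfin)]
  have h1 : ∀ γ : Gam K p, ∫ w, f (actR γ w) ∂(nu p) =
      ∫ w, (rho p (actR (γ⁻¹ : Gam K p) w) : ℂ) * f w := by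
    intro γ
    rw [nu, integral_withDensity_eq_integral_toReal_smul hρ (Eventually.of_forall fun _ => by simp),
      ← integral_actR γ fun w => (rho p (actR (γ⁻¹ : Gam K p) w) : ℂ) * f w]
    refine integral_congr_ae (Eventually.of_forall fun w => ?_)
    simp only
    rw [Subgroup.coe_inv, actR_inv_actR, ENNReal.toReal_ofReal (rho_pos p w).le,
      Complex.real_smul]
  simp only [h1]
  have h2 : ∀ γ : Gam K p, Measurable fun w => (rho p (actR (γ⁻¹ : Gam K p) w) : ℂ) * f w := fun γ =>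
    (Complex.measurable_ofReal.comp ((measurable_rho p).comp (continuous_actR _).measurable)).mul hm
  rw [← integral_tsum (fun γ => (h2 γ).aestronglyMeasurable)]
  · refine integral_congr_ae (Eventually.of_forall fun w => ?_)
    simp only
    rw [tsum_mul_right, ← Complex.ofReal_tsum, (nu_hasSum_inv p w).tsum_eq]
    simp
  · rw [← lintegral_tsum fun γ => (h2 γ).enorm.aemeasurable]
    refine ne_of_eq_of_ne (lintegral_congr fun w => ?_) hfin
    have h3 : ∀ γ : Gam K p, ‖(rho p (actR (γ⁻¹ : Gam K p) w) : ℂ) * f w‖ₑ =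
        ENNReal.ofReal (rho p (actR (γ⁻¹ : Gam K p) w)) * ‖f w‖ₑ := by
      intro γ
      rw [enorm_mul, ← ofReal_norm, Complex.norm_real, Real.norm_of_nonneg (rho_pos p _).le]
    simp only [h3]
    rw [ENNReal.tsum_mul_right, nu_tsum_inv, one_mul]
theorem volume_ac (p : R K) : (volume : Measure (XX K)) ≪ nu p := by
  exact withDensity_absolutelyContinuous' (measurable_rho p).ennreal_ofReal.aemeasurable
    (Eventually.of_forall fun w => (ENNReal.ofReal_pos.2 (rho_pos p w)).ne')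
theorem eq_of_ae_nu (p : R K) {f g : XX K → ℂ} (hf : Continuous f) (hg : Continuous g)
    (h : f =ᵐ[nu p] g) : f = g := by
  exact (Continuous.ae_eq_iff_eq volume hf hg).1 (volume_ac p h)
/-- on the set `wa (γ oK) ≥ ρ^{-5d}`; `summable_wa`, `Summable.tendsto_cofinite_zero` -/
theorem finite_inB (p : R K) (ρ : ℝ) : {γ : Gam K p | InB ρ (actR (γ : SL (R K)) oK)}.Finite := by
  rcases lt_or_ge ρ 1 with h | h
  · exact Set.finite_empty.subset fun γ hγ => absurd (InB.one_le hγ) (not_le.2 h)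
  have h1 := (summable_wa p oK).tendsto_cofinite_zero.eventually
    (gt_mem_nhds (show (0 : ℝ) < (ρ⁻¹ ^ 5) ^ dd K by positivity))
  refine (eventually_cofinite.1 h1).subset fun γ hγ => not_lt.2 ?_
  rw [dd, ← Finset.card_univ, ← Finset.prod_const]
  exact Finset.prod_le_prod (fun _ _ => by positivity) fun v _ => pow_le_pow_left₀ (by positivity)
    (inv_anti₀ (R17.Vor.nu_uu_pos _ _) (hγ v)) 5
/-- as `R17.Vor.card_ball_bound` -/
theorem card_ball_bound (p : R K) (ρ : ℝ) : ∃ M : ℕ, ∀ w' : XX K,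
    {γ : Gam K p | InB ρ (actR γ w')}.Finite ∧ {γ : Gam K p | InB ρ (actR γ w')}.ncard ≤ M := by
  refine ⟨{γ : Gam K p | InB (2 * ρ * ρ) (actR (γ : SL (R K)) oK)}.ncard, fun w' => ?_⟩
  rcases Set.eq_empty_or_nonempty {γ : Gam K p | InB ρ (actR γ w')} with h | ⟨g₁, h₁⟩
  · rw [h]
    simp
  · have h1 : InB ρ (actR g₁ w') := h₁
    have hm : Set.MapsTo (fun g : Gam K p => g * g₁⁻¹) {γ : Gam K p | InB ρ (actR γ w')}
        {γ : Gam K p | InB (2 * ρ * ρ) (actR (γ : SL (R K)) oK)} := by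
      intro g hg v
      have h2 : uu (actR g w' v) o ≤ ρ := hg v
      have h3 : uu (actR ((g * g₁⁻¹ : Gam K p) : SL (R K)) oK v) (actR g w' v) ≤ ρ := by
        have : actR (g : SL (R K)) w' = actR ((g * g₁⁻¹ : Gam K p) : SL (R K)) (actR g₁ w') := by
          rw [← actR_mul, ← Subgroup.coe_mul, inv_mul_cancel_right]
        rw [this, uu_actR, R17.Vor.uu_symm]
        exact h1 v
      have h4 := R17.Vor.one_le_uu (actR g w' v) o
      refine (R17.Vor.uu_le _ (actR g w' v) _).trans ?_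
      exact mul_le_mul (by linarith) h2 (by linarith) (by linarith)
    have hi : Set.InjOn (fun g : Gam K p => g * g₁⁻¹) {γ : Gam K p | InB ρ (actR γ w')} :=
      (mul_left_injective g₁⁻¹).injOn
    exact ⟨Set.Finite.of_injOn hm hi (finite_inB _ _),
      Set.ncard_le_ncard_of_injOn _ hm hi (finite_inB _ _)⟩
/-- `1_S ≤ ∑_γ 1_{ball}(γ ·)`, `unfold_lintegral`, `volume_inB_lt_top` -/
theorem nu_orbit_lt_top (p : R K) (ρ : ℝ) :
    MeasurableSet {w : XX K | ∃ γ : Gam K p, InB ρ (actR γ w)} ∧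
      nu p {w : XX K | ∃ γ : Gam K p, InB ρ (actR γ w)} < ∞ := by
  have hm : MeasurableSet {w : XX K | ∃ γ : Gam K p, InB ρ (actR γ w)} := by
    rw [Set.setOf_exists]
    exact MeasurableSet.iUnion fun γ => (continuous_actR _).measurable (measurableSet_inB ρ)
  refine ⟨hm, ?_⟩
  have h2 := unfold_lintegral p (f := {w : XX K | InB ρ w}.indicator 1)
    (measurable_one.indicator (measurableSet_inB ρ))
  rw [lintegral_indicator_one (measurableSet_inB ρ)] at h2
  rw [← lintegral_indicator_one hm]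
  refine lt_of_le_of_lt (lintegral_mono fun w => ?_) (h2 ▸ volume_inB_lt_top ρ)
  by_cases hw : w ∈ {w : XX K | ∃ γ : Gam K p, InB ρ (actR γ w)}
  · rw [Set.indicator_of_mem hw]
    obtain ⟨γ, hγ⟩ := hw
    refine le_trans ?_ (ENNReal.le_tsum γ)
    rw [Set.indicator_of_mem (show actR γ w ∈ {w : XX K | InB ρ w} from hγ)]
    rfl
  · rw [Set.indicator_of_notMem hw]
    exact zero_le

end Crest.Agent.R312.Th
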