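import Crest.Agent.R312.B5ANu
import Crest.Agent.R312.B5AAbs

/-!
# R312 / B5AOp : the automorphic kernel, the operators `TK`, `TX`, the class `Eig` (port of `R17/VoOp`)

Finite measure is replaced by `exists_dom`: on balls the kernel is dominated by an `L²(nu p)` function.
-/

set_option autoImplicit false
set_option linter.unusedSectionVars false

noncomputable section

open scoped Classical ComplexConjugate NumberField Topology ENNReal InnerProductSpace
open MeasureTheory Filter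
open Crest.Agent.R17.Vor (SL X vc zc pt o hr act uu kk hh Tt pw hi lo mid W Vr nn SS Adm LocBd)

namespace Crest.Agent.R312.Th

variable {K : Type} [Field K] [NumberField K] [Fld K] [Loc K] [Setup K] {p : R K}

/-- `card_ball_bound p (4ρ)`, `InB.of_kP` -/
theorem exists_supp (p : R K) (ρ : ℝ) : ∃ M : ℕ, ∀ w' : XX K, ∃ s : Finset (Gam K p), s.card ≤ M ∧
    ∀ w, InB ρ w → ∀ γ ∉ s, kP w (actR γ w') = 0 := by
  obtain ⟨M, hM⟩ := card_ball_bound p (4 * ρ)
  refine ⟨M, fun w' => ?_⟩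
  obtain ⟨h1, h2⟩ := hM w'
  refine ⟨h1.toFinset, ?_, fun w hw γ hγ => ?_⟩
  · rwa [← Set.ncard_eq_toFinset_card _ h1]
  · by_contra hc
    exact hγ (h1.mem_toFinset.2 (hw.of_kP hc))
theorem op_norm_term (γ : Gam K p) (w w' : XX K) :
    ‖conj (kap (γ : SL (R K))) * (kP w w' : ℂ)‖ = kP w w' := by
  rw [norm_mul, Complex.norm_conj, norm_kap', one_mul, Complex.norm_real,
    Real.norm_of_nonneg (kP_nonneg _ _)]

theorem op_cont (g : SL (R K)) : Continuous fun q : XX K × XX K => kP q.1 (actR g q.2) :=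
  continuous_kP.comp (f := fun q : XX K × XX K => (q.1, actR g q.2))
    (continuous_fst.prodMk ((continuous_actR g).comp continuous_snd))
/-- `G = M · 1_S`, `S` from `nu_orbit_lt_top p (4ρ)` (`memLp_indicator_const`) -/
theorem exists_dom (p : R K) (ρ : ℝ) : ∃ G : XX K → ℝ, MemLp G 2 (nu p) ∧ ∀ w, InB ρ w → ∀ w',
    Summable (fun γ : Gam K p => kP w (actR γ w')) ∧ ∑' γ : Gam K p, kP w (actR γ w') ≤ G w' ∧
      ‖Ker p w w'‖ ≤ G w' := by
  obtain ⟨M, hM⟩ := exists_supp p ρ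
  obtain ⟨S, hm, hfin, hS⟩ : ∃ S : Set (XX K), MeasurableSet S ∧ nu p S < ∞ ∧
      ∀ (w : XX K) (γ : Gam K p), InB (4 * ρ) (actR γ w) → w ∈ S :=
    ⟨_, (nu_orbit_lt_top p (4 * ρ)).1, (nu_orbit_lt_top p (4 * ρ)).2, fun w γ h => ⟨γ, h⟩⟩
  refine ⟨S.indicator fun _ => (M : ℝ),
    memLp_indicator_const 2 hm _ (Or.inr hfin.ne), fun w hw w' => ?_⟩
  obtain ⟨s, hs, h0⟩ := hM w'
  have h1 : Summable fun γ : Gam K p => kP w (actR γ w') :=
    summable_of_ne_finset_zero (s := s) (h0 w hw)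
  have h2 : ∑' γ : Gam K p, kP w (actR γ w') ≤ S.indicator (fun _ => (M : ℝ)) w' := by
    by_cases h : w' ∈ S
    · rw [Set.indicator_of_mem h, tsum_eq_sum (s := s) (h0 w hw)]
      refine (Finset.sum_le_card_nsmul _ _ 1 fun γ _ => kP_le_one _ _).trans ?_
      rw [nsmul_eq_mul, mul_one]
      exact_mod_cast hs
    · have h3 : ∀ γ : Gam K p, kP w (actR γ w') = 0 := fun γ => by
        by_contra hc
        exact h (hS w' γ (hw.of_kP hc))
      rw [Set.indicator_of_notMem h]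
      simp only [h3, tsum_zero, le_refl]
  refine ⟨h1, h2, le_trans ?_ h2⟩
  unfold Ker
  exact tsum_of_norm_bounded h1.hasSum fun γ => (op_norm_term γ w (actR γ w')).le
theorem measurable_Ker (p : R K) : Measurable (Function.uncurry (Ker p)) := by
  have h : ∀ γ : Gam K p, Measurable fun q : XX K × XX K =>
      conj (kap (γ : SL (R K))) * (kP q.1 (actR γ q.2) : ℂ) := fun γ =>
    (Complex.measurable_ofReal.comp (op_cont γ.1).measurable).const_mul _
  exact Measurable.tsum h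
theorem Ker_symm (p : R K) (w w' : XX K) : Ker p w' w = conj (Ker p w w') := by
  rw [Ker, Ker, Complex.conj_tsum, ← (Equiv.inv (Gam K p)).tsum_eq]
  refine tsum_congr fun γ => ?_
  rw [Equiv.inv_apply, Subgroup.coe_inv, kap_inv (Gam_le p γ.2), ← kP_actR γ,
    actR_actR_inv, kP_symm, map_mul, Complex.conj_ofReal]
theorem Ker_act {γ : SL (R K)} (hγ : γ ∈ Gam K p) (w w' : XX K) :
    Ker p (actR γ w) w' = conj (kap γ) * Ker p w w' := by
  rw [Ker, Ker, ← tsum_mul_left, ← (Equiv.mulLeft (⟨γ, hγ⟩ : Gam K p)).tsum_eq]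
  refine tsum_congr fun δ => ?_
  rw [Equiv.coe_mulLeft, Subgroup.coe_mul, kap_mul (Gam_le p hγ) (Gam_le p δ.2), map_mul,
    actR_mul, kP_actR, mul_assoc]
theorem continuous_Ker (p : R K) (w' : XX K) : Continuous fun w => Ker p w w' := by
  refine continuous_iff_continuousAt.2 fun w₀ => ?_
  obtain ⟨ρ, hρ⟩ := eventually_inB w₀
  obtain ⟨M, hM⟩ := exists_supp p ρ
  obtain ⟨s, -, h0⟩ := hM w'
  have h1 : Continuous fun w => ∑ γ ∈ s, conj (kap (γ : SL (R K))) * (kP w (actR γ w') : ℂ) :=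
    continuous_finsetSum _ fun γ _ => by
      simp only [kP_symm _ (actR γ.1 w')]
      exact continuous_const.mul (Complex.continuous_ofReal.comp (continuous_kP' _))
  refine h1.continuousAt.congr (hρ.mono fun w hw => ?_)
  exact (tsum_eq_sum fun γ hγ => by rw [h0 w hw γ hγ]; simp).symm
theorem lintegral_Ker (p : R K) : ∃ M : ℝ, 0 ≤ M ∧ ∀ w,
    ∫⁻ w', ‖Ker p w w'‖ₑ ∂(nu p) ≤ ENNReal.ofReal M := by
  obtain ⟨M, hM, h⟩ := lintegral_kP (K := K)
  refine ⟨M, hM, fun w => le_trans ?_ (h w)⟩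
  rw [← unfold_lintegral p (f := fun w' => ENNReal.ofReal (kP w w'))
    (continuous_kP' w).measurable.ennreal_ofReal]
  refine lintegral_mono fun w' => enorm_tsum_le_tsum_enorm.trans_eq (tsum_congr fun γ => ?_)
  rw [← ofReal_norm, op_norm_term]
theorem memLp_Ker (p : R K) (w : XX K) : MemLp (Ker p w) 2 (nu p) := by
  obtain ⟨ρ, hρ⟩ := exists_inB w
  obtain ⟨G, hG, h⟩ := exists_dom p ρ
  exact hG.of_le (measurable_Ker p).of_uncurry_left.aestronglyMeasurable
    (Eventually.of_forall fun w' => (h w hρ w').2.2.trans (le_abs_self _))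
/-- `schur` (`MemLp.integrable_mul`) -/
theorem exists_T (p : R K) : ∃ T : Lp ℂ 2 (nu p) →L[ℂ] Lp ℂ 2 (nu p),
    IsSelfAdjoint T ∧ ∀ f : Lp ℂ 2 (nu p), T f =ᵐ[nu p] TK p f := by
  obtain ⟨M, hM, h⟩ := lintegral_Ker p
  exact schur (measurable_Ker p) hM h (fun x y => Ker_symm p x y)
    fun x f => (memLp_Ker p x).integrable_mul (Lp.memLp f)
/-- `exists_functional`, `exists_dom` -/
theorem exists_ev (p : R K) : ∃ ev : XX K → (Lp ℂ 2 (nu p) →L[ℂ] ℂ),
    (∀ w (f : Lp ℂ 2 (nu p)), ev w f = TK p f w) ∧ ∀ ρ : ℝ, ∃ M : ℝ, ∀ w, InB ρ w → ‖ev w‖ ≤ M := by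
  have hm : ∀ w, AEStronglyMeasurable (Ker p w) (nu p) := fun w =>
    (measurable_Ker p).of_uncurry_left.aestronglyMeasurable
  have h1 : ∀ w, ∃ Λ : Lp ℂ 2 (nu p) →L[ℂ] ℂ, ∀ f : Lp ℂ 2 (nu p), Λ f = TK p f w := fun w => by
    obtain ⟨Λ, h, -⟩ := exists_functional (hm w) (memLp_Ker p w).norm fun _ => le_rfl
    exact ⟨Λ, h⟩
  choose ev hev using h1
  refine ⟨ev, hev, fun ρ => ?_⟩
  obtain ⟨G, hG, h⟩ := exists_dom p ρ
  refine ⟨(eLpNorm G 2 (nu p)).toReal, fun w hw => ?_⟩
  obtain ⟨Λ, h2, h3⟩ := exists_functional (hm w) hG fun w' => (h w hw w').2.2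
  rwa [show ev w = Λ from ContinuousLinearMap.ext fun f => (hev w f).trans (h2 f).symm]
theorem TK_congr {f g : XX K → ℂ} (h : f =ᵐ[nu p] g) : TK p f = TK p g := by
  exact funext fun _ => integral_congr_ae (h.mono fun _ h' => by simp only [h'])
/-- dominated convergence with the majorant `G · ‖f‖` -/
theorem continuous_TK {f : XX K → ℂ} (hf : MemLp f 2 (nu p)) : Continuous (TK p f) := by
  refine continuous_iff_continuousAt.2 fun w₀ => ?_
  obtain ⟨ρ, hρ⟩ := eventually_inB w₀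
  obtain ⟨G, hG, h⟩ := exists_dom p ρ
  refine continuousAt_of_dominated (bound := fun w' => G w' * ‖f w'‖) (Eventually.of_forall fun w =>
    (measurable_Ker p).of_uncurry_left.aestronglyMeasurable.mul hf.1)
    (hρ.mono fun w hw => Eventually.of_forall fun w' => ?_) (hG.integrable_mul hf.norm)
    (Eventually.of_forall fun w' => ((continuous_Ker p w').mul continuous_const).continuousAt)
  rw [norm_mul]
  exact mul_le_mul_of_nonneg_right (h w hw w').2.2 (norm_nonneg _)
theorem aut_TK (p : R K) (f : XX K → ℂ) : Aut p (TK p f) := by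
  intro γ hγ w
  simp only [TK, Ker_act hγ, mul_assoc]
  exact integral_const_mul _ _
theorem integrable_kP_mul {f : XX K → ℂ} (hm : Measurable f) (ha : Aut p f) (hf : MemLp f 2 (nu p))
    (w : XX K) : Integrable fun w' => (kP w w' : ℂ) * f w' := by
  have h1 : Measurable fun w' => (kP w w' : ℂ) * f w' :=
    (Complex.continuous_ofReal.comp (continuous_kP' w)).measurable.mul hm
  refine ⟨h1.aestronglyMeasurable, ?_⟩
  obtain ⟨ρ, hρ⟩ := exists_inB w
  obtain ⟨G, hG, h⟩ := exists_dom p ρ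
  rw [hasFiniteIntegral_iff_enorm, ← unfold_lintegral p h1.enorm]
  refine lt_of_le_of_lt (lintegral_mono fun w' => ?_) (hG.integrable_mul hf.norm).2
  have h2 : ∀ γ : Gam K p, ‖(kP w (actR γ w') : ℂ) * f (actR γ w')‖ₑ =
      ENNReal.ofReal (kP w (actR γ w')) * ‖f w'‖ₑ := fun γ => by
    rw [ha γ γ.2, ← mul_assoc, mul_comm _ (conj _), enorm_mul, ← ofReal_norm, op_norm_term]
  simp only [h2]
  rw [ENNReal.tsum_mul_right, ← ENNReal.ofReal_tsum_of_nonneg (fun _ => kP_nonneg _ _)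
    (h w hρ w').1, Pi.mul_apply, enorm_mul, enorm_norm]
  gcongr
  rw [← ofReal_norm]
  exact ENNReal.ofReal_le_ofReal ((h w hρ w').2.1.trans (le_abs_self _))
theorem TK_eq_TX {f : XX K → ℂ} (hm : Measurable f) (ha : Aut p f) (hf : MemLp f 2 (nu p))
    (w : XX K) : TK p f w = TX f w := by
  rw [TX, ← unfold_integral p (f := fun w' => (kP w w' : ℂ) * f w')
    ((Complex.continuous_ofReal.comp (continuous_kP' w)).measurable.mul hm)
    (integrable_kP_mul hm ha hf w), TK]
  refine integral_congr_ae (Eventually.of_forall fun w' => ?_)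
  simp only [Ker]
  rw [← tsum_mul_right]
  refine tsum_congr fun γ => ?_
  rw [ha γ γ.2]
  ring

theorem Eig.add {D D' : XX K → ℂ} (h : Eig p D) (h' : Eig p D') : Eig p (fun w => D w + D' w) := by
  exact ⟨h.cont.add h'.cont, fun γ hγ w => by simp only [h.aut γ hγ w, h'.aut γ hγ w, mul_add],
    h.mem.add h'.mem, fun w => by
      rw [mul_add, ← h.eig, ← h'.eig, TX, TX, TX,
        ← integral_add (integrable_kP_mul_cont h.cont w) (integrable_kP_mul_cont h'.cont w)]
      simp only [mul_add]⟩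
theorem Eig.smul {D : XX K → ℂ} (h : Eig p D) (c : ℂ) : Eig p (fun w => c * D w) := by
  exact ⟨continuous_const.mul h.cont, fun γ hγ w => by simp only [h.aut γ hγ w, mul_left_comm],
    h.mem.const_mul c, fun w => by
      rw [mul_left_comm, ← h.eig, TX, TX, ← integral_const_mul]
      simp only [mul_left_comm]⟩
theorem Eig.sub {D D' : XX K → ℂ} (h : Eig p D) (h' : Eig p D') : Eig p (fun w => D w - D' w) := by
  simpa [sub_eq_add_neg] using h.add (h'.smul (-1))
theorem Eig.integrable {D D' : XX K → ℂ} (h : Eig p D) (h' : Eig p D') :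
    Integrable (fun w => conj (D w) * D' w) (nu p) := by
  exact h.mem.star.integrable_mul h'.mem
theorem Eig.eq_zero (hp : p ≠ 0) {D : XX K → ℂ} (h : Eig p D)
    (h0 : ∫ w, conj (D w) * D w ∂(nu p) = 0) (w : XX K) : D w = 0 := by
  have h1 : ∀ w, conj (D w) * D w = ((‖D w‖ ^ 2 : ℝ) : ℂ) := fun w => by
    rw [Complex.conj_mul']; push_cast; rfl
  simp only [h1] at h0
  rw [integral_complex_ofReal, Complex.ofReal_eq_zero, integral_eq_zero_iff_of_nonneg
    (fun _ => sq_nonneg _) ((memLp_two_iff_integrable_sq_norm h.mem.1).1 h.mem)] at h0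
  exact congrFun (eq_of_ae_nu p h.cont continuous_const (g := fun _ => 0)
    (h0.mono fun w hw => by simpa using hw)) w

end Crest.Agent.R312.Th
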