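import Crest.Agent.R312.B5AMeas
import Crest.Agent.R312.B5AHh

/-!
# R312 / B5APhs : the transform `TtP` and the profile `phs` (port of the second half of `R17/VoHh`)

On the support of `kP oK` the height lies in `[4^{-d}, 4^d]` (`ht_range`) and the point in `InB 4`
(`inB_oK.of_kP`).
-/

set_option autoImplicit false
set_option linter.unusedSectionVars false

noncomputable section

open scoped Classical ComplexConjugate NumberField Topology ENNReal InnerProductSpace
open MeasureTheory Filter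
open Crest.Agent.R17.Vor (SL X vc zc pt o hr act uu kk hh Tt pw hi lo mid W Vr nn SS Adm LocBd)

namespace Crest.Agent.R312.Th

section arch
variable {K : Type} [Field K] [NumberField K] [Fld K]

theorem phs_range {w : XX K} (h : kP oK w ≠ 0) {t : ℝ} (ht0 : 0 < t) :
    t / 4 ^ dd K ≤ t * ht w ∧ t * ht w ≤ t * 4 ^ dd K :=
  ⟨(div_eq_mul_inv _ _).trans_le (mul_le_mul_of_nonneg_left (ht_range h).1 ht0.le),
    mul_le_mul_of_nonneg_left (ht_range h).2 ht0.le⟩

theorem phs_intK : Integrable fun w : XX K => kP oK w :=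
  (continuous_kP' oK).integrable_of_hasCompactSupport (HasCompactSupport.intro (isCompact_inB (4 * 1))
    fun _ hw => by_contra fun h => hw (inB_oK.of_kP h))

theorem phs_norm {g : XX K → ℂ} {C : ℝ} (hb : ∀ w, kP oK w ≠ 0 → ‖g w‖ ≤ C) (w : XX K) :
    ‖(kP oK w : ℂ) * g w‖ ≤ kP oK w * C := by
  by_cases h : kP oK w = 0
  · simp [h]
  · rw [norm_mul, Complex.norm_real, Real.norm_of_nonneg (kP_nonneg _ _)]
    exact mul_le_mul_of_nonneg_left (hb w h) (kP_nonneg _ _)

theorem phs_meas {g : XX K → ℂ} (hg : Measurable g) :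
    AEStronglyMeasurable (fun w => (kP oK w : ℂ) * g w) volume :=
  ((Complex.continuous_ofReal.comp (continuous_kP' oK)).measurable.mul hg).aestronglyMeasurable

theorem phs_int {g : XX K → ℂ} (hg : Measurable g) {C : ℝ} (hb : ∀ w, kP oK w ≠ 0 → ‖g w‖ ≤ C) :
    Integrable fun w => (kP oK w : ℂ) * g w :=
  (phs_intK.mul_const C).mono' (phs_meas hg) (Eventually.of_forall (phs_norm hb))

theorem phs_hi_deriv (u : ℝ) (z : ℂ) : HasDerivAt (fun z => hi z u) (hi z u * Complex.log u) z := by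
  unfold hi
  split_ifs with h
  · exact (Complex.hasStrictDerivAt_const_cpow
      (Or.inl (Complex.ofReal_ne_zero.2 (by linarith)))).hasDerivAt
  · simpa using hasDerivAt_const z (0 : ℂ)

theorem phs_hi_le {s : ℂ} {ρ A u : ℝ} (hs : ‖s‖ ≤ ρ) (h2 : u ≤ A) : ‖hi s u‖ ≤ |A| ^ ρ := by
  unfold hi
  split_ifs with h
  · exact R17.Vor.vohh_pw_le hs (by linarith) h2
  · rw [norm_zero]
    positivity

theorem phs_hi_log_le {s : ℂ} {ρ A u : ℝ} (hs : ‖s‖ ≤ ρ) (h2 : u ≤ A) :
    ‖hi s u * Complex.log u‖ ≤ |A| ^ ρ * |A| := by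
  by_cases h : 10 ≤ u
  · have h0 := Real.log_nonneg (show 1 ≤ u by linarith)
    rw [norm_mul, ← Complex.ofReal_log (by linarith), Complex.norm_real, Real.norm_of_nonneg h0]
    exact mul_le_mul (phs_hi_le hs h2) ((Real.log_le_self (by linarith)).trans (h2.trans (le_abs_self A)))
      h0 (by positivity)
  · rw [hi, if_neg h, zero_mul, norm_zero]
    positivity

/-- `integrable_of_inB` -/
theorem integrable_TtP {φ : ℝ → ℂ} (hm : Measurable φ) (hb : LocBd φ) {t : ℝ} (ht0 : 0 < t) :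
    Integrable fun w' : XX K => (kP oK w' : ℂ) * φ (t * ht w') := by
  obtain ⟨C, hC⟩ := hb (t / 4 ^ dd K) (t * 4 ^ dd K) (by positivity)
  exact phs_int (hm.comp (continuous_ht.measurable.const_mul t)) fun w h =>
    hC _ (phs_range h ht0).1 (phs_range h ht0).2
/-- `StronglyMeasurable.integral_prod_right` -/
theorem measurable_TtP {φ : ℝ → ℂ} (hφ : Measurable φ) : Measurable (TtP K φ) := by
  have hk := (continuous_kP' (oK : XX K)).measurable
  have hh := (continuous_ht (K := K)).measurable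
  refine (StronglyMeasurable.integral_prod_right (f := fun (t : ℝ) (w : XX K) =>
    (kP oK w : ℂ) * φ (t * ht w)) (Measurable.stronglyMeasurable ?_)).measurable
  unfold Function.uncurry
  fun_prop
theorem TtP_congr {φ ψ : ℝ → ℂ} {t : ℝ} (ht0 : 0 < t)
    (h : ∀ u, t / 4 ^ dd K ≤ u → u ≤ t * 4 ^ dd K → φ u = ψ u) : TtP K φ t = TtP K ψ t := by
  refine integral_congr_ae (Eventually.of_forall fun w => ?_)
  by_cases h' : kP oK w = 0
  · simp [h']
  · simp only [h _ (phs_range h' ht0).1 (phs_range h' ht0).2]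
/-- `‖TtP φ t‖ ≤ C ∫ kP oK` -/
theorem norm_TtP_le : ∃ M : ℝ, 0 ≤ M ∧ ∀ (φ : ℝ → ℂ) (t C : ℝ), 0 < t → 0 ≤ C →
    (∀ u, t / 4 ^ dd K ≤ u → u ≤ t * 4 ^ dd K → ‖φ u‖ ≤ C) → ‖TtP K φ t‖ ≤ M * C := by
  refine ⟨∫ w : XX K, kP oK w, integral_nonneg fun w => kP_nonneg _ _, fun φ t C ht0 _ h => ?_⟩
  rw [← integral_mul_const]
  exact norm_integral_le_of_norm_le (phs_intK.mul_const C) (Eventually.of_forall
    (phs_norm fun w hw => h _ (phs_range hw ht0).1 (phs_range hw ht0).2))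
theorem pw_prod {ι : Type} (S : Finset ι) (s : ℂ) {f : ι → ℝ} (hf : ∀ i, 0 ≤ f i) :
    pw s (∏ i ∈ S, f i) = ∏ i ∈ S, pw s (f i) := by
  induction S using Finset.induction_on with
  | empty => simp [pw]
  | insert a S ha ih =>
    rw [Finset.prod_insert ha, Finset.prod_insert ha, ← ih]
    unfold pw
    rw [Complex.ofReal_mul, Complex.mul_cpow_ofReal_nonneg (hf a) (Finset.prod_nonneg fun i _ => hf i)]
/-- `(t ∏ v_i)^s = t^s ∏ v_i^s`, `integral_fintype_prod_volume_eq_prod`, and at one place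
`R17.Vor.TX_vc`, `R17.Vor.Tt_pw` at `w = o` (`vc o = 1`, `pw s 1 = 1`) -/
theorem TtP_pw (s : ℂ) {t : ℝ} (ht0 : 0 < t) : TtP K (pw s) t = hh s ^ dd K * pw s t := by
  have h1 : ∫ x : X, (kk (uu o x) : ℂ) * pw s (vc x) = hh s := by
    have h := R17.Vor.TX_vc (R17.Vor.measurable_pw s) (R17.Vor.locBd_pw s) o
    rw [show vc o = 1 by simp [vc, o], R17.Vor.Tt_pw s one_pos] at h
    simpa [R17.Vor.TX, pw] using h
  have h2 := integral_fintype_prod_volume_eq_pow (ι := Pl K) fun x : X => (kk (uu o x) : ℂ) * pw s (vc x)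
  rw [TtP, dd, ← h1, ← h2, ← integral_mul_const]
  refine integral_congr_ae (Eventually.of_forall fun w => ?_)
  have h3 : pw s (t * ht w) = pw s t * pw s (ht w) := by
    unfold pw
    rw [Complex.ofReal_mul, Complex.mul_cpow_ofReal_nonneg ht0.le (ht_pos w).le]
  simp only [h3]
  rw [Finset.prod_mul_distrib, ht, pw_prod _ _ fun v => (R17.Vor.vc_pos _).le, kP, Complex.ofReal_prod]
  simp only [oK]
  ring
/-- `lo = pw - hi` -/
theorem TtP_lo (s : ℂ) {t : ℝ} (ht0 : 0 < t) :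
    TtP K (lo s) t = hh s ^ dd K * lo s t - phs K s t := by
  have e : ∀ u, lo s u = pw s u - hi s u := fun u => by
    unfold lo hi
    rcases lt_or_ge u 10 with h | h
    · simp [h, not_le.2 h]
    · simp [h]
  have h := TtP_pw (K := K) s ht0
  rw [phs, e, TtP]
  simp only [e, mul_sub]
  rw [integral_sub (integrable_TtP (R17.Vor.measurable_pw s) (R17.Vor.locBd_pw s) ht0)
    (integrable_TtP (R17.Vor.adm_hi s).1 (R17.Vor.adm_hi s).locBd ht0)]
  change TtP K (pw s) t - TtP K (hi s) t = _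
  rw [h]
  ring
theorem phs_eq_zero (s : ℂ) {t : ℝ} (ht0 : 0 < t) (h : t < 10 / 4 ^ dd K ∨ 10 * 4 ^ dd K < t) :
    phs K s t = 0 := by
  have h4 : (1 : ℝ) ≤ 4 ^ dd K := one_le_pow₀ (by norm_num)
  rcases h with h | h
  · rw [lt_div_iff₀ (by positivity)] at h
    rw [phs, TtP_congr (φ := hi s) (ψ := fun _ => 0) ht0 fun u _ hu =>
      if_neg (not_le.2 (hu.trans_lt h)), hi,
      if_neg (by nlinarith)]
    simp [TtP]
  · rw [phs, TtP_congr (φ := hi s) (ψ := pw s) ht0 fun u hu _ =>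
      if_pos (le_trans ((le_div_iff₀ (by positivity)).2 h.le) hu), TtP_pw s ht0, hi, if_pos (by nlinarith),
      sub_self]
theorem measurable_phs (s : ℂ) : Measurable (phs K s) := by
  exact (measurable_TtP (R17.Vor.adm_hi s).1).sub ((R17.Vor.adm_hi s).1.const_mul _)
/-- `hasDerivAt_integral_of_dominated_loc_of_deriv_le`; `hi s u = 1_{u ≥ 10} exp (s log u)` with `log u`
bounded on the support -/
theorem differentiable_phs {t : ℝ} (ht0 : 0 < t) : Differentiable ℂ fun s => phs K s t := by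
  refine Differentiable.sub (fun s => ?_)
    ((R17.Vor.differentiable_hh.pow _).mul fun s => (phs_hi_deriv t s).differentiableAt)
  have hm : Measurable fun w : XX K => t * ht w := continuous_ht.measurable.const_mul t
  exact (hasDerivAt_integral_of_dominated_loc_of_deriv_le (Metric.ball_mem_nhds s one_pos)
    (F := fun z (w : XX K) => (kP oK w : ℂ) * hi z (t * ht w))
    (F' := fun z (w : XX K) => (kP oK w : ℂ) * (hi z (t * ht w) * Complex.log (t * ht w : ℝ)))
    (Eventually.of_forall fun z => phs_meas ((R17.Vor.adm_hi z).1.comp hm))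
    (integrable_TtP (R17.Vor.adm_hi s).1 (R17.Vor.adm_hi s).locBd ht0)
    (phs_meas (((R17.Vor.adm_hi s).1.comp hm).mul
      (Complex.measurable_log.comp (Complex.measurable_ofReal.comp hm))))
    (Eventually.of_forall fun w z hz => phs_norm
      (g := fun w => hi z (t * ht w) * Complex.log (t * ht w : ℝ)) (fun w hw => phs_hi_log_le (ρ := ‖s‖ + 1)
        (by linarith [norm_sub_norm_le z s, mem_ball_iff_norm.1 hz]) (phs_range hw ht0).2) w)
    (phs_intK.mul_const _)
    (Eventually.of_forall fun w z _ => (phs_hi_deriv _ z).const_mul _)).2.differentiableAt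
/-- `norm_TtP_le`, `R17.Vor.vohh_pw_le`; `hh` is continuous, so bounded on `‖s‖ ≤ ρ` -/
theorem phs_bdd (ρ : ℝ) : ∃ C : ℝ, 0 ≤ C ∧ ∀ s : ℂ, ‖s‖ ≤ ρ → ∀ t, 0 < t → ‖phs K s t‖ ≤ C := by
  obtain ⟨M, hM, h⟩ := norm_TtP_le (K := K)
  obtain ⟨H, hH⟩ := (isCompact_closedBall (0 : ℂ) ρ).exists_bound_of_continuousOn
    (R17.Vor.differentiable_hh.pow (dd K)).continuous.continuousOn
  refine ⟨M * |10 * 4 ^ dd K * 4 ^ dd K| ^ ρ + |H| * |10 * 4 ^ dd K * 4 ^ dd K| ^ ρ, by positivity,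
    fun s hs t ht0 => ?_⟩
  rcases lt_or_ge (10 * 4 ^ dd K) t with h' | h'
  · rw [phs_eq_zero s ht0 (Or.inr h'), norm_zero]
    positivity
  · have h4 : (1 : ℝ) ≤ 4 ^ dd K := one_le_pow₀ (by norm_num)
    refine (norm_sub_le _ _).trans (add_le_add
      (h _ t _ ht0 (by positivity) fun u _ hu => phs_hi_le hs (hu.trans (by gcongr))) ?_)
    rw [norm_mul]
    exact mul_le_mul ((hH s (mem_closedBall_zero_iff.2 hs)).trans (le_abs_self H))
      (phs_hi_le hs (h'.trans (le_mul_of_one_le_right (by positivity) h4))) (norm_nonneg _) (abs_nonneg _)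
/-- `le_gB_of_supp` -/
theorem phs_le (ρ : ℝ) : ∃ C : ℝ, 0 ≤ C ∧ ∀ s : ℂ, ‖s‖ ≤ ρ → ∀ t, 0 < t →
    ‖phs K s t‖ ≤ C * gB 3 (10 * 4 ^ dd K) t := by
  obtain ⟨C, hC, h⟩ := phs_bdd (K := K) ρ
  exact ⟨C / (10 / 4 ^ dd K) ^ 3, by positivity, fun s hs t ht0 =>
    le_gB_of_supp (by positivity) hC ht0 (h s hs t ht0) (phs_eq_zero s ht0)⟩
theorem adm_phs (s : ℂ) : Adm (phs K s) := by
  obtain ⟨C, hC, h⟩ := phs_le (K := K) ‖s‖
  exact adm_of_le_gB (measurable_phs s) (by norm_num) hC (h s le_rfl)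

end arch

end Crest.Agent.R312.Th
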