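import Crest.Agent.R312.B5AL2
import Crest.Agent.R312.B5AOp
import Crest.Agent.R312.B5APhs

/-!
# R312 / B5ATh : continuation of the Eisenstein series in `L²(nu p)` and the residue `thK`
(port of `R17/VoTheta1`, `VoTheta2`; `hh s` becomes `hh s ^ dd K`, `8 R` becomes the bound `A` of
`RowBd.exists_A (4 ρ)`, `Integrable _ (nu p)` becomes `MemLp _ 2 (nu p)`)
-/

set_option autoImplicit false
set_option linter.unusedSectionVars false

noncomputable section

open scoped Classical ComplexConjugate NumberField Topology ENNReal InnerProductSpace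
open MeasureTheory Filter
open Crest.Agent.R17.Vor (SL X vc zc pt o hr act uu kk hh Tt pw hi lo mid W Vr nn SS Adm LocBd)

namespace Crest.Agent.R312.Th

variable {K : Type} [Field K] [NumberField K] [Fld K] [Loc K] [Setup K]
variable {p : R K} {κ : R K → R K → ℂ} {δ : SL (R K)} {I : Ideal (𝓞 K)}

theorem th_inner (f g : Lp ℂ 2 (nu p)) : ⟪f, g⟫_ℂ = ∫ w, conj (f w) * g w ∂(nu p) := by
  rw [L2.inner_def]
  simp only [RCLike.inner_apply']

theorem th_memLp (h : Cusp p κ δ I) {s : ℂ} (hs : 2 < s.re) : MemLp (Eis κ (lo s)) 2 (nu p) :=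
  memLp_Eis h hs zero_le_one (R17.Vor.adm_lo hs).1 fun _ ht0 => lo_le s ht0

theorem th_TK_lo (h : Cusp p κ δ I) {s : ℂ} (hs : 2 < s.re) (w : XX K) :
    TK p (Eis κ (lo s)) w = hh s ^ dd K * Eis κ (lo s) w - Eis κ (phs K s) w := by
  rw [TK_eq_TX (measurable_Eis κ (R17.Vor.adm_lo hs).1) (aut_Eis h.bd h.equi _) (th_memLp h hs),
    TX_Eis h.bd (R17.Vor.adm_lo hs), ← Eis_mul_sub h.bd (R17.Vor.adm_lo hs) (adm_phs s)]
  exact Eis_congr fun c d h0 => TtP_lo s (h.bd.Ht_pos h0 w)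

theorem th_TK_sum (h : Cusp p κ δ I) {s : ℂ} (hs : 2 < s.re) {ρ A : ℝ}
    (hA : ∀ w : XX K, InB (4 * ρ) w → ∀ c d : R K, κ c d ≠ 0 → Ht w (c : K) (d : K) ≤ A)
    (hi : MemLp (fun w => Eis κ (mid A s) w + Eis κ (lo s) w) 2 (nu p)) {w : XX K} (hw : InB ρ w) :
    TK p (fun w => Eis κ (mid A s) w + Eis κ (lo s) w) w = hh s ^ dd K * Eis κ (pw s) w := by
  have hF : (fun w => Eis κ (mid A s) w + Eis κ (lo s) w) = Eis κ (fun v => mid A s v + lo s v) :=
    funext fun w => (Eis_add h.bd (R17.Vor.adm_mid _ s) (R17.Vor.adm_lo hs) w).symm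
  have hm : Measurable (fun w => Eis κ (mid A s) w + Eis κ (lo s) w) :=
    (measurable_Eis κ (R17.Vor.adm_mid _ s).1).add (measurable_Eis κ (R17.Vor.adm_lo hs).1)
  have ha : Aut p (fun w => Eis κ (mid A s) w + Eis κ (lo s) w) := by
    rw [hF]
    exact aut_Eis h.bd h.equi _
  rw [TK_eq_TX hm ha hi, TX_congr (g := Eis κ (pw s)), TX_Eis h.bd (R17.Vor.adm_pw hs),
    Eis_congr (ψ := fun v => hh s ^ dd K * pw s v) fun c d h0 => TtP_pw s (h.bd.Ht_pos h0 w),
    Eis_const_mul]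
  intro w' hw'
  rw [← Eis_add h.bd (R17.Vor.adm_mid _ s) (R17.Vor.adm_lo hs)]
  exact Eis_congr fun c d h0 => (R17.Vor.pw_eq_mid_add_lo s (hA w' (hw.of_kP hw') c d h0)).symm
theorem exists_cont (h : Cusp p κ δ I) :
    ∃ u : Lp ℂ 2 (nu p), (TK p u =ᵐ[nu p] fun w => hh (4 / 3) ^ dd K * u w) ∧
      (∀ ρ : ℝ, ∃ U : ℂ → Lp ℂ 2 (nu p), DifferentiableOn ℂ U (Omg K) ∧
        Tendsto (fun ε : ℝ => ((ε : ℂ) * Complex.I) • U (4 / 3 + ε * Complex.I)) (𝓝[>] 0) (𝓝 u) ∧
        ∀ s ∈ Omg K, 2 < s.re → ∀ w, InB ρ w → TK p (U s) w = Eis κ (pw s) w) ∧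
      ∀ D : Lp ℂ 2 (nu p), (TK p D =ᵐ[nu p] fun w => hh (4 / 3) ^ dd K * D w) →
        ∫ w, conj (Eis κ (phs K (4 / 3)) w) * D w ∂(nu p) = 0 →
        ∫ w, conj (u w) * D w ∂(nu p) = 0 := by
  obtain ⟨T, hT, hTK⟩ := exists_T p
  obtain ⟨ev, hev, -⟩ := exists_ev p
  obtain ⟨f, hf, hfae⟩ := exists_Lp_Eis h (φ := phs K) measurable_phs
    (fun v hv => differentiable_phs hv) phs_le
  obtain ⟨μ0, h1, hμ0, hh1, h0, hd⟩ := hh_pow_43 (K := K)
  have hdiff : Differentiable ℂ fun s => hh s ^ dd K := R17.Vor.differentiable_hh.pow _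
  obtain ⟨g, u0, hg, hsol, hTu, hlim, hinner⟩ := resolvent_main T hT (eventually_mem_Omg (K := K)) hdiff
    (fun s hs => (hh_pow_im_pos hs).ne') h0 hd hh1.ne' hf
  have hne : ∀ s ∈ Omg K, hh s ^ dd K ≠ 0 := by
    intro s hs h
    have := hh_pow_im_pos hs
    rw [h] at this
    simp at this
  refine ⟨((μ0 : ℂ)⁻¹ * (h1 : ℂ)⁻¹) • u0, ?_, fun ρ => ?_, fun D hD hI => ?_⟩
  · have e : T (((μ0 : ℂ)⁻¹ * (h1 : ℂ)⁻¹) • u0) = (μ0 : ℂ) • (((μ0 : ℂ)⁻¹ * (h1 : ℂ)⁻¹) • u0) := by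
      rw [map_smul, hTu, smul_comm]
    have e1 := hTK (((μ0 : ℂ)⁻¹ * (h1 : ℂ)⁻¹) • u0)
    rw [e] at e1
    filter_upwards [e1, Lp.coeFn_smul (μ0 : ℂ) (((μ0 : ℂ)⁻¹ * (h1 : ℂ)⁻¹) • u0)] with w a1 a2
    rw [← a1, a2, h0, Pi.smul_apply, smul_eq_mul]
  · obtain ⟨A, hA⟩ := h.bd.exists_A (4 * ρ)
    obtain ⟨H, hH, hHae⟩ := exists_Lp_Eis h (R17.Vor.measurable_mid A)
      (fun v hv => R17.Vor.differentiable_mid A hv) (mid_le A)
    refine ⟨fun s => (hh s ^ dd K)⁻¹ • (H s - g s), ?_, ?_, fun s hs hs2 w hw => ?_⟩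
    · exact (hdiff.differentiableOn.inv hne).smul (hH.differentiableOn.sub hg)
    · have t0 : Tendsto (fun ε : ℝ => (4 / 3 : ℂ) + ε * Complex.I) (𝓝[>] 0) (𝓝 (4 / 3)) := by
        have : Continuous (fun ε : ℝ => (4 / 3 : ℂ) + ε * Complex.I) := by fun_prop
        simpa using (this.tendsto 0).mono_left nhdsWithin_le_nhds
      have t1 : Tendsto (fun ε : ℝ => (ε : ℂ) * Complex.I) (𝓝[>] 0) (𝓝 0) := by
        have : Continuous (fun ε : ℝ => (ε : ℂ) * Complex.I) := by fun_prop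
        simpa using (this.tendsto 0).mono_left nhdsWithin_le_nhds
      have t2 : Tendsto (fun ε : ℝ => (hh (4 / 3 + ε * Complex.I) ^ dd K)⁻¹) (𝓝[>] 0) (𝓝 (μ0 : ℂ)⁻¹) := by
        refine Tendsto.inv₀ ?_ (Complex.ofReal_ne_zero.mpr hμ0.ne')
        rw [← h0]
        exact (hdiff.continuous.tendsto _).comp t0
      have t3 := t1.smul ((hH.continuous.tendsto _).comp t0)
      have t4 := t2.smul (t3.sub hlim)
      rw [zero_smul, zero_sub, neg_neg, smul_smul] at t4
      refine t4.congr fun ε => ?_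
      simp only [Function.comp_apply]
      rw [← smul_sub, smul_comm]
    · have hL := th_memLp h hs2
      have hLae := hL.coeFn_toLp
      set L := hL.toLp _ with hLdef
      have hx : T (-L) - hh s ^ dd K • (-L) = f s := by
        rw [map_neg, smul_neg, sub_neg_eq_add, neg_add_eq_sub]
        refine Lp.ext ?_
        have e1 := hTK L
        rw [TK_congr hLae] at e1
        filter_upwards [e1, hLae, hfae s, Lp.coeFn_sub (hh s ^ dd K • L) (T L), Lp.coeFn_smul (hh s ^ dd K) L]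
          with x a1 a2 a3 a4 a5
        rw [a4, Pi.sub_apply, a5, a1, a3, Pi.smul_apply, a2, th_TK_lo h hs2,
          smul_eq_mul, sub_sub_cancel]
      have hgs := hsol s hs _ hx
      have hsum : (H s + L : Lp ℂ 2 (nu p)) =ᵐ[nu p]
          fun w => Eis κ (mid A s) w + Eis κ (lo s) w := by
        filter_upwards [Lp.coeFn_add (H s) L, hHae s, hLae] with x a1 a2 a3
        rw [a1, Pi.add_apply, a2, a3]
      have hi : MemLp (fun w => Eis κ (mid A s) w + Eis κ (lo s) w) 2 (nu p) :=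
        (memLp_congr_ae hsum).1 (Lp.memLp (H s + L))
      beta_reduce
      rw [← hev, ← hgs, sub_neg_eq_add, map_smul, hev, TK_congr hsum,
        th_TK_sum h hs2 hA hi hw, smul_eq_mul, inv_mul_cancel_left₀ (hne s hs)]
  · have hTD : T D = (μ0 : ℂ) • D := by
      refine Lp.ext ?_
      filter_upwards [hTK D, hD, Lp.coeFn_smul (μ0 : ℂ) D] with x a1 a2 a3
      rw [a1, a2, a3, h0, Pi.smul_apply, smul_eq_mul]
    have e1 := hinner D hTD
    have e2 : ⟪f (4 / 3), D⟫_ℂ = 0 := by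
      rw [th_inner, ← hI]
      refine integral_congr_ae ?_
      filter_upwards [hfae (4 / 3)] with x a1
      rw [a1]
    rw [← th_inner, inner_smul_left, ← e1, e2, mul_zero]

/-- the coefficient functional -/
theorem exists_coef_fun (p : R K) (σ : SL (R K)) (J : Ideal (𝓞 K)) (n : K) (v : Pl K → ℝ) :
    ∃ Λ : Lp ℂ 2 (nu p) →L[ℂ] ℂ, ∀ f : Lp ℂ 2 (nu p),
      Λ f = coef J n v (fun w => TK p f (actR σ w)) := by
  obtain ⟨ev, hev, hb⟩ := exists_ev p
  obtain ⟨ρ, hR⟩ := exists_inB_cellI (fun i : Pl K => R17.Vor.SL.map i.1 (ιR σ)) J v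
  obtain ⟨M, hM⟩ := hb ρ
  have hcont : ∀ f : Lp ℂ 2 (nu p),
      Continuous fun z : Pl K → ℂ => ev (actR σ (ptK z v)) f * eI (-(embv n * z)) := fun f => by
    simp only [hev]
    exact (((continuous_TK (Lp.memLp f)).comp (continuous_actR σ)).comp (continuous_ptK v)).mul
      (continuous_eI_neg n)
  let L : Lp ℂ 2 (nu p) →ₗ[ℂ] ℂ :=
    { toFun := fun f => ∫ z in cellI J, ev (actR σ (ptK z v)) f * eI (-(embv n * z))
      map_add' := fun f f' => by
        rw [← integral_add (integrableOn_cellI (hcont f) J) (integrableOn_cellI (hcont f') J)]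
        simp only [map_add, add_mul]
      map_smul' := fun a f => by
        simp only [map_smul, smul_eq_mul, RingHom.id_apply, mul_assoc]
        exact integral_const_mul _ _ }
  refine ⟨L.mkContinuous (M * (volume (cellI J)).toReal) fun f => ?_, fun f => ?_⟩
  · have := norm_setIntegral_le_of_norm_le_const (μ := volume) (s := cellI J) (volume_cellI_lt_top J)
      (f := fun z => ev (actR σ (ptK z v)) f * eI (-(embv n * z))) (C := M * ‖f‖)
      (fun z hz => by
        rw [norm_mul, norm_eI, mul_one]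
        exact ((ev _).le_opNorm f).trans
          (mul_le_mul_of_nonneg_right (hM _ (hR z hz)) (norm_nonneg _)))
    refine le_trans this (le_of_eq ?_)
    rw [Measure.real]; ring
  · simp only [LinearMap.mkContinuous_apply, L, LinearMap.coe_mk, AddHom.coe_mk, coef, hev]

theorem theta_main (h : Cusp p κ δ I) :
    Eig p (thK κ) ∧ (∀ w, HasRes K (fun s => Eis κ (pw s) w) (thK κ w)) ∧
      (∀ (σ : SL (R K)) (J : Ideal (𝓞 K)) (n : K) (v : Pl K → ℝ),
        HasRes K (fun s => coef J n v (Eis (tr σ κ) (pw s)))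
          (coef J n v (fun w => thK κ (actR σ w)))) ∧
      ∀ D, Eig p D → ∫ w, conj (Eis κ (phs K (4 / 3)) w) * D w ∂(nu p) = 0 →
        ∫ w, conj (thK κ w) * D w ∂(nu p) = 0 := by
  obtain ⟨u, hu, hU, hD⟩ := exists_cont h
  obtain ⟨ev, hev, -⟩ := exists_ev p
  have hres : ∀ w, HasRes K (fun s => Eis κ (pw s) w) (TK p u w) := fun w => by
    obtain ⟨ρ, hρ⟩ := exists_inB w
    obtain ⟨U, h1, h2, h3⟩ := hU ρ
    have := hasRes_clm (ev w) h1 h2 (F := fun s => Eis κ (pw s) w)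
      (fun s hs h2s => by rw [hev]; exact h3 s hs h2s w hρ)
    rwa [hev] at this
  have hth : thK κ = TK p u := funext fun w => (hres w).res43_eq
  have hc : Continuous (TK p u) := continuous_TK (Lp.memLp u)
  have hmem : MemLp (TK p u) 2 (nu p) :=
    (memLp_congr_ae hu).2 ((Lp.memLp u).const_mul _)
  have hTK : ∀ w, TK p (fun w => hh (4 / 3) ^ dd K * u w) w = hh (4 / 3) ^ dd K * TK p u w := fun w => by
    unfold TK
    rw [← integral_const_mul]
    exact integral_congr_ae (Eventually.of_forall fun w' => by ring)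
  refine ⟨?_, ?_, ?_, ?_⟩
  · rw [hth]
    refine ⟨hc, aut_TK p u, hmem, fun w => ?_⟩
    rw [← TK_eq_TX hc.measurable (aut_TK p u) hmem, TK_congr hu, hTK]
  · intro w; rw [hth]; exact hres w
  · intro σ J n v
    obtain ⟨Λ, hΛ⟩ := exists_coef_fun p σ J n v
    obtain ⟨ρ, hR⟩ := exists_inB_cellI (fun i : Pl K => R17.Vor.SL.map i.1 (ιR σ)) J v
    obtain ⟨U, h1, h2, h3⟩ := hU ρ
    have := hasRes_clm Λ h1 h2 (F := fun s => coef J n v (Eis (tr σ κ) (pw s)))
      (fun s hs h2s => by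
        rw [hΛ]
        unfold coef
        refine setIntegral_congr_fun (measurableSet_cellI J) fun z hz => ?_
        beta_reduce
        rw [h3 s hs h2s (actR σ (ptK z v)) (hR z hz), Eis_actR h.bd])
    rw [hth]
    rwa [hΛ] at this
  · intro D hE h0
    have hae : (hE.mem.toLp D : XX K → ℂ) =ᵐ[nu p] D := hE.mem.coeFn_toLp
    have h1 : TK p (hE.mem.toLp D) =ᵐ[nu p] fun w => hh (4 / 3) ^ dd K * (hE.mem.toLp D) w := by
      rw [TK_congr hae]
      filter_upwards [hae] with w hw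
      rw [hw, TK_eq_TX hE.cont.measurable hE.aut hE.mem, hE.eig]
    have h2 := hD _ h1 (by
      rw [← h0]
      refine integral_congr_ae ?_
      filter_upwards [hae] with w hw
      rw [hw])
    have h3 : ∫ w, conj (thK κ w) * D w ∂(nu p) =
        conj (hh (4 / 3) ^ dd K) * ∫ w, conj (u w) * (hE.mem.toLp D) w ∂(nu p) := by
      rw [← integral_const_mul, hth]
      refine integral_congr_ae ?_
      filter_upwards [hae, hu] with w hw hw'
      rw [hw, hw', map_mul, mul_assoc]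
    rw [h3, h2, mul_zero]

/-- the residue of the Eisenstein series exists -/
theorem hasRes_thK (hp : p ≠ 0) (h : Cusp p κ δ I) (w : XX K) :
    HasRes K (fun s => Eis κ (pw s) w) (thK κ w) := (theta_main h).2.1 w

theorem eig_thK (hp : p ≠ 0) (h : Cusp p κ δ I) : Eig p (thK κ) := (theta_main h).1

/-- orthogonality to eigenfunctions without constant term at the cusp -/
theorem thK_orth (hp : p ≠ 0) (h : Cusp p κ δ I) {D : XX K → ℂ} (hD : Eig p D)
    (h0 : ∀ v : Pl K → ℝ, (∀ i, 0 < v i) → coef I 0 v (fun w => D (actR δ⁻¹ w)) = 0) :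
    ∫ w, conj (thK κ w) * D w ∂(nu p) = 0 := by
  obtain ⟨C, -, hC⟩ := phs_bdd (K := K) ‖(4 / 3 : ℂ)‖
  exact (theta_main h).2.2.2 D hD (pairing_zero h (measurable_phs _) (a := 10 / 4 ^ dd K)
    (by positivity) (hC _ le_rfl) (fun t ht0 => phs_eq_zero _ ht0) hD.cont hD.aut h0)

end Crest.Agent.R312.Th
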