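import Crest.Agent.R312.B5AEis

/-!
# R312 / B5AUnf : unfolding against the stabiliser of a cusp (port of `R17/VoUnf`)
-/

set_option autoImplicit false
set_option linter.unusedSectionVars false

noncomputable section

open scoped Classical ComplexConjugate NumberField Topology ENNReal InnerProductSpace
open MeasureTheory Filter
open Crest.Agent.R17.Vor (SL X vc zc pt o hr act uu kk hh Tt pw hi lo mid W Vr nn SS Adm LocBd)

namespace Crest.Agent.R312.Th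

variable {K : Type} [Field K] [NumberField K] [Fld K] [Loc K] [Setup K]
variable {p : R K} {κ : R K → R K → ℂ} {δ : SL (R K)} {I : Ideal (𝓞 K)}

theorem measurableSet_FF (I : Ideal (𝓞 K)) : MeasurableSet (FF I) := by
  exact (continuous_zv.measurable (measurableSet_cellI I)).inter
    (continuous_xv.measurable (measurableSet_FDM _))
/-- `∑ xv w = log (ht w) ∈ [log a, log b]`, `FDM_bound`, `exists_bound_cellI`, `exists_inB_box` -/
theorem FF_inB (I : Ideal (𝓞 K)) {a : ℝ} (ha : 0 < a) (b : ℝ) :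
    ∃ ρ : ℝ, ∀ w ∈ FF I, a ≤ ht w → ht w ≤ b → InB ρ w := by
  obtain ⟨A, hA⟩ := exists_bound_cellI I
  obtain ⟨C, hC⟩ := FDM_bound (K := K) (M0 K)
  obtain ⟨ρ, hρ⟩ := exists_inB_box (K := K) A (|C| + (|Real.log a| + |Real.log b|))
  refine ⟨ρ, fun w hw h1 h2 => hρ w (hA _ hw.1) ?_⟩
  refine (pi_norm_le_iff_of_nonneg (by positivity)).2 fun v => ?_
  have h3 := hC _ hw.2 v
  rw [ht_eq_exp] at h1 h2
  have h4 := (Real.log_le_iff_le_exp ha).2 h1
  have h5 := (Real.le_log_iff_exp_le ((Real.exp_pos _).trans_le h2)).2 h2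
  have h6 : |∑ v, xv w v| ≤ |Real.log a| + |Real.log b| := by
    rw [abs_le]
    constructor
    · linarith [neg_abs_le (Real.log a), abs_nonneg (Real.log b)]
    · linarith [le_abs_self (Real.log b), abs_nonneg (Real.log a)]
  have h7 : |(∑ v, xv w v) / dd K| ≤ |∑ v, xv w v| := by
    rw [abs_div, Nat.abs_cast]
    exact div_le_self (abs_nonneg _) (by exact_mod_cast dd_pos (K := K))
  rw [Real.norm_eq_abs]
  have h8 := abs_sub_abs_le_abs_sub (xv w v) ((∑ v, xv w v) / dd K)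
  linarith [le_abs_self C]
omit [NumberField K] [Fld K] [Setup K] in
theorem unf_dg_row (u : (R K)ˣ) (g : SL (R K)) :
    (dgR u * g).c = (u⁻¹ : (R K)ˣ) * g.c ∧ (dgR u * g).d = (u⁻¹ : (R K)ˣ) * g.d := by
  simp [dgR]

omit [NumberField K] [Fld K] [Setup K] in
theorem unf_nn_row (x : R K) (g : SL (R K)) : (nn x * g).c = g.c ∧ (nn x * g).d = g.d := by
  simp [nn]
/-- If the rows of `δγ₁`, `δγ₂` are equivalent, `row (δγ₁) = u · row (δγ₂) = row (dg u⁻¹ · δγ₂)`, so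
`δγ₁ = n(x) dg(u⁻¹) δγ₂` (`exists_nn_of_row`).  `xv (δγ₁ w) = xv (δγ₂ w) + lam (M k)` with `u⁻¹ = upR (M k)`
(`xv_nn`, `xv_dgR`, `lg_upR`), so `k = 0` by `existsUnique_FDM`, `u = 1`.  Then `δ⁻¹ n(x) δ = γ₁γ₂⁻¹`, `x ∈ I`
(`Cusp.stab`), `x = 0` by `existsUnique_cellI` (`zv_nn`). -/
theorem unf_inj (h : Cusp p κ δ I) (w : XX K) {γ₁ γ₂ : Gam K p} (h₁ : actR (δ * γ₁.1) w ∈ FF I)
    (h₂ : actR (δ * γ₂.1) w ∈ FF I) (e : rq (δ * γ₁.1).c (δ * γ₁.1).d = rq (δ * γ₂.1).c (δ * γ₂.1).d) :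
    γ₁ = γ₂ := by
  obtain ⟨u, hu, hc, hd⟩ := rq_eq_iff.1 e
  obtain ⟨k, hk⟩ := inv_mem hu
  obtain ⟨x, hx⟩ := exists_nn_of_row (g := δ * γ₁.1) (h := dgR u⁻¹ * (δ * γ₂.1))
    (by rw [(unf_dg_row _ _).1, inv_inv, hc]) (by rw [(unf_dg_row _ _).2, inv_inv, hd])
  have h3 : k = 0 := by
    refine (existsUnique_FDM (M0_pos (K := K)) (xv (actR (δ * γ₂.1) w))).unique ?_ ?_
    · have := h₁.2
      rwa [hx, actR_mul, xv_nn, actR_mul, xv_dgR, hk, lg_upR] at this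
    · rw [← lg_upR, smul_zero, upR_zero]
      have : lg (((1 : (R K)ˣ) : R K) : K) = 0 := funext fun v => lg_one v
      rw [this, add_zero]
      exact h₂.2
  have h4 : dgR u⁻¹ = 1 := by
    rw [hk, h3, smul_zero, upR_zero]
    rfl
  rw [h4, one_mul] at hx
  have h5 : δ⁻¹ * nn x * δ = γ₁.1 * (γ₂.1)⁻¹ := by
    rw [eq_mul_inv_iff_mul_eq, mul_assoc, mul_assoc, ← hx, inv_mul_cancel_left]
  obtain ⟨y, hy, rfl⟩ := (h.stab x).1 (h5 ▸ mul_mem γ₁.2 (inv_mem γ₂.2))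
  have h6 : (⟨y, hy⟩ : I) = 0 := by
    refine (existsUnique_cellI h.ne (zv (actR (δ * γ₂.1) w))).unique ?_ ?_
    · have := h₁.1
      rwa [hx, actR_mul, zv_nn] at this
    · simpa using h₂.1
  have h7 : nn (toR y) = 1 := by
    rw [show y = 0 from congrArg Subtype.val h6, map_zero]; rfl
  rw [h7, one_mul] at hx
  exact Subtype.ext (mul_left_cancel hx)
/-- `γ₀` from `Cusp.supp`; `u = upR (M k)` moves `xv (δγ₀ w)` into `FDM`, `x ∈ I` moves `zv (dg(u) δγ₀ w)`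
into the cell; `γ = (δ⁻¹ n(x) δ)(δ⁻¹ dg(u) δ) γ₀` (`Cusp.stab`, `Cusp.diag`), `row (δγ) = u⁻¹ (c, d)`. -/
theorem unf_surj (h : Cusp p κ δ I) (w : XX K) {c d : R K} (h0 : κ c d ≠ 0) :
    ∃ γ : Gam K p, actR (δ * γ.1) w ∈ FF I ∧ rq (δ * γ.1).c (δ * γ.1).d = rq c d := by
  obtain ⟨γ, hγ, h2, h3⟩ := h.supp c d h0
  obtain ⟨k, hk, -⟩ := existsUnique_FDM (M0_pos (K := K)) (xv (actR (δ * γ) w))
  have hu : upR ((M0 K : ℤ) • k) ∈ Ups K (M0 K) := ⟨k, rfl⟩
  obtain ⟨u, hu'⟩ : ∃ u, u = upR ((M0 K : ℤ) • k) := ⟨_, rfl⟩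
  rw [← lg_upR, ← hu', ← xv_dgR, ← actR_mul] at hk
  rw [← hu'] at hu
  obtain ⟨t, ht0, -⟩ := existsUnique_cellI h.ne (zv (actR (dgR u * (δ * γ)) w))
  have h4 : δ * (δ⁻¹ * nn (toR t.1) * δ * (δ⁻¹ * dgR u * δ) * γ) = nn (toR t.1) * (dgR u * (δ * γ)) := by
    group
  refine ⟨⟨δ⁻¹ * nn (toR t.1) * δ * (δ⁻¹ * dgR u * δ) * γ,
    mul_mem (mul_mem ((h.stab _).2 ⟨t.1, t.2, rfl⟩) (h.diag u hu)) hγ⟩, ?_, ?_⟩
  · simp only [h4]
    rw [actR_mul]
    exact ⟨by rw [zv_nn]; exact ht0, by rw [xv_nn]; exact hk⟩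
  · simp only [h4]
    rw [(unf_nn_row _ _).1, (unf_nn_row _ _).2, (unf_dg_row _ _).1, (unf_dg_row _ _).2, h2, h3]
    exact rq_eq_iff.2 ⟨u⁻¹, inv_mem hu, rfl, rfl⟩
/-- `tsum_subtype`, `Function.Injective.tsum_eq`, `UInv.out`, `rq_out` -/
theorem unf_tsum {E : Type} [AddCommMonoid E] [TopologicalSpace E] [T2Space E] (h : Cusp p κ δ I)
    (w : XX K) {G : R K → R K → E} (hG : UInv G) (h0 : ∀ c d, G c d ≠ 0 → κ c d ≠ 0) :
    ∑' γ : Gam K p, (if actR (δ * γ.1) w ∈ FF I then G (δ * γ.1).c (δ * γ.1).d else 0) =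
      ∑' r : RowQ K, G r.out.1 r.out.2 := by
  have h1 := tsum_subtype {γ : Gam K p | actR (δ * γ.1) w ∈ FF I} fun γ => G (δ * γ.1).c (δ * γ.1).d
  simp only [Set.indicator_apply, Set.mem_ofPred_eq] at h1
  rw [← h1, ← Function.Injective.tsum_eq (f := fun r : RowQ K => G r.out.1 r.out.2)
    (g := fun γ : {γ : Gam K p | actR (δ * γ.1) w ∈ FF I} => rq (δ * γ.1.1).c (δ * γ.1.1).d)]
  · exact tsum_congr fun γ => (hG.out _ _).symm
  · rintro ⟨γ₁, h₁⟩ ⟨γ₂, h₂⟩ e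
    exact Subtype.ext (unf_inj h w h₁ h₂ e)
  · intro r hr'
    obtain ⟨γ, h2, h3⟩ := unf_surj h w (h0 _ _ hr')
    exact ⟨⟨γ, h2⟩, h3.trans (rq_out r)⟩
/-- As `R17.Vor.pairing_zero` with `Ψ w = if w ∈ FF I then conj (φ (ht w)) * D (δ⁻¹ w) else 0`
(`integrable_of_inB`, `FF_inB`, `integral_XX`, `unf_tsum`, `unfold_integral`). -/
theorem pairing_zero (h : Cusp p κ δ I) {φ : ℝ → ℂ} (hm : Measurable φ) {C a b : ℝ} (ha : 0 < a)
    (hb : ∀ t, 0 < t → ‖φ t‖ ≤ C) (h0 : ∀ t, 0 < t → t < a ∨ b < t → φ t = 0) {D : XX K → ℂ}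
    (hD : Continuous D) (hA : Aut p D)
    (hz : ∀ v : Pl K → ℝ, (∀ i, 0 < v i) → coef I 0 v (fun w => D (actR δ⁻¹ w)) = 0) :
    ∫ w, conj (Eis κ φ w) * D w ∂(nu p) = 0 := by
  obtain ⟨Ψ, hΨ⟩ : ∃ Ψ : XX K → ℂ, Ψ = fun w =>
    if w ∈ FF I then conj (φ (ht w)) * D (actR δ⁻¹ w) else 0 := ⟨_, rfl⟩
  have hD' : Continuous fun w => D (actR δ⁻¹ w) := hD.comp (continuous_actR _)
  have hΨm : Measurable Ψ := by
    rw [hΨ]
    exact Measurable.ite (measurableSet_FF I)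
      ((Complex.continuous_conj.measurable.comp (hm.comp continuous_ht.measurable)).mul hD'.measurable)
      measurable_const
  have hΨi : Integrable Ψ := by
    obtain ⟨ρ, hρ⟩ := FF_inB I ha b
    obtain ⟨B, hB⟩ := (isCompact_inB (K := K) ρ).exists_bound_of_continuousOn hD'.continuousOn
    have hC : 0 ≤ C := (norm_nonneg _).trans (hb 1 one_pos)
    refine integrable_of_inB hΨm.aestronglyMeasurable ρ (C * B) (fun w hw => ?_) fun w hw => ?_
    · have h1 := hB w hw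
      rw [hΨ]
      dsimp only
      split_ifs
      · rw [norm_mul, Complex.norm_conj]
        exact mul_le_mul (hb _ (ht_pos w)) h1 (norm_nonneg _) hC
      · rw [norm_zero]
        exact mul_nonneg hC ((norm_nonneg _).trans h1)
    · rw [hΨ]
      dsimp only
      split_ifs with h1
      · rw [h0 _ (ht_pos w), map_zero, zero_mul]
        by_contra h2
        push Not at h2
        exact hw (hρ w h1 h2.1 h2.2)
      · rfl
  have hint : ∫ w, Ψ w = 0 := by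
    rw [integral_XX hΨi]
    refine integral_eq_zero_of_ae (Eventually.of_forall fun x => ?_)
    have hv : ∀ i, 0 < Real.exp (x i) := fun i => Real.exp_pos _
    have hx : ∀ z : Pl K → ℂ, xv (ptK z fun i => Real.exp (x i)) = x := fun z => by
      rw [xv_ptK]; simp
    have h1 : (fun z => Ψ (ptK z fun i => Real.exp (x i))) = (cellI I).indicator fun z =>
        (if x ∈ FDM K (M0 K) then conj (φ (∏ i, Real.exp (x i))) else 0) *
          (D (actR δ⁻¹ (ptK z fun i => Real.exp (x i))) * eI (-(embv (0 : K) * z))) := by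
      funext z
      rw [hΨ, Set.indicator_apply]
      simp only [FF, Set.mem_ofPred_eq, zv_ptK z hv, hx, ht_ptK z hv, embv_zero, zero_mul, neg_zero,
        eI_zero, mul_one]
      by_cases a1 : z ∈ cellI I <;> by_cases a2 : x ∈ FDM K (M0 K) <;> simp [a1, a2]
    have h2 := hz _ hv
    rw [coef] at h2
    simp only [Pi.zero_apply]
    rw [h1, integral_indicator (measurableSet_cellI I), integral_const_mul, h2, mul_zero, mul_zero]
  have hpt : ∀ w, conj (Eis κ φ w) * D w =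
      conj (κ δ.c δ.d) * ∑' γ : Gam K p, Ψ (actR δ (actR γ w)) := by
    intro w
    have hG : UInv fun c d : R K => conj (κ c d * φ (Ht w (c : K) (d : K))) * D w := fun u hu c d => by
      simp only [h.bd.inv u hu, Ht_ups hu]
    rw [Eis, Complex.conj_tsum, ← tsum_mul_right, ← tsum_mul_left,
      ← unf_tsum h w hG fun c d hr' h1 => hr' (by rw [h1, zero_mul, map_zero, zero_mul])]
    refine tsum_congr fun γ => ?_
    rw [hΨ]
    dsimp only
    have h1 : κ (δ * γ.1).c (δ * γ.1).d = κ δ.c δ.d * kap γ.1 := h.equi γ γ.2 δ.c δ.d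
    rw [actR_inv_actR, ← actR_mul, hA γ γ.2, ht_actR, h1]
    split_ifs
    · simp only [map_mul]; ring
    · rw [mul_zero]
  simp only [hpt]
  rw [integral_const_mul, unfold_integral p (f := fun w => Ψ (actR δ w))
    (hΨm.comp (continuous_actR _).measurable) (integrable_actR _ hΨi), integral_actR, hint, mul_zero]

end Crest.Agent.R312.Th
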