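import Crest.Agent.R312.B5BTh

/-!
# R312 / B5B : the coefficients of the cubic theta function (head module, `ReadB5` section B and the first
lines of section C)
-/

set_option autoImplicit false

noncomputable section

open scoped Classical ComplexConjugate NumberField Topology
open MeasureTheory Filter
open Crest.Agent.R17.Vor (SL nn SS)

namespace Crest.Agent.R312.Th

variable {K : Type} [Field K] [NumberField K] [Fld K] [Loc K] [Setup K]

omit [Fld K] [Setup K] in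
theorem b5b_Q_ne : ((Loc.Q K : ℕ) : K) ≠ 0 := Nat.cast_ne_zero.2 Loc.Q_ne

omit [Setup K] in
theorem actR_nn (x : R K) (w : XX K) : actR (nn x) w = actK (nn (x : K)) w := by
  have : ιR (nn x) = nn (x : K) := by ext <;> simp [ιR, nn]
  rw [actR, this]

/-- the class of an element of `n₀ Q^{6j} U` -/
theorem b5b_cl {n0 n : R K} (hn0 : Prim n0) {j : ℕ}
    (h : InU (Setup.lev K) ((n : K) / ((n0 : K) * (Loc.Q K : K) ^ (6 * j)))) :
    ∃ η m : R K, IsUnit η ∧ Prim m ∧ n = η * m ∧ cl η = 1 ∧ cl m = cl n0 := by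
  have hQ : ((Loc.Q K : ℕ) : R K) ≠ 0 := isUnit_Q.ne_zero
  have h1 : n0 * (((Loc.Q K : ℕ) : R K) ^ j) ^ 6 ≠ 0 :=
    mul_ne_zero hn0.ne_zero (pow_ne_zero _ (pow_ne_zero _ hQ))
  have e : ((n0 * (((Loc.Q K : ℕ) : R K) ^ j) ^ 6 : R K) : K) = (n0 : K) * (Loc.Q K : K) ^ (6 * j) := by
    push_cast; ring
  obtain ⟨hn, hc⟩ := kub_cl h1 (a' := n) (by rwa [e])
  rw [cl_mul hn0.ne_zero (pow_ne_zero _ (pow_ne_zero _ hQ)), cl_pow_six (pow_ne_zero _ hQ)] at hc
  have hc' : cl n = cl n0 := hc.trans (mul_one (cl n0))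
  obtain ⟨η, m, hη, hm, rfl⟩ := exists_eq_unit_prim hn
  rw [cl_mul hη.ne_zero hm.ne_zero] at hc'
  have h2 : cl (n0 * m ^ 5) = cl η := by
    rw [cl_mul hn0.ne_zero (pow_ne_zero _ hm.ne_zero), cl_pow hm.ne_zero, ← hc']
    have := G_pow_six (cl m)
    calc cl η * cl m * cl m ^ 5 = cl η * cl m ^ 6 := by rw [mul_assoc, ← pow_succ']
      _ = cl η := by rw [this]; exact mul_one (cl η)
  have h3 : cl η = 1 := Prim.cl_eq_unit (hn0.mul (hm.pow 5)) hη h2
  refine ⟨η, m, hη, hm, rfl, h3, ?_⟩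
  rw [h3] at hc'
  exact (one_mul (cl m)).symm.trans hc'

/-- the coefficients of `θ ∘ sig k c₀` -/
theorem ath_sig {k e : ℕ} {c0 : R K} (h0 : c0 ≠ 0) (hk : SInt ((Loc.Q K : K) ^ k / (c0 : K)))
    (h : Good (sig k c0) e) : ∃ r : ℂ, r ≠ 0 ∧ ∀ n : R K, ath (sig k c0) e n =
      if SInt ((n : K) * (Loc.Q K : K) ^ Setup.lev K / (c0 : K) ^ 2) then
        r * eS ((n : K) / ((Loc.Q K : K) ^ k * (c0 : K))) * rho0 (cu (c0 : K)) n else 0 := by
  obtain ⟨r, hr, H⟩ := DS_sig h0 hk h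
  have h0' : (c0 : K) ≠ 0 := bc_ne h0
  have hs : ((sS (c0 : K) : ℝ) : ℂ) ≠ 0 := by exact_mod_cast (sS_pos h0').ne'
  have hiv : (0 : ℝ) < ivol (QI K e) := by
    unfold ivol
    refine div_pos (Finset.prod_pos fun v _ => div_pos two_pos (dl_pos v)) ?_
    have : Ideal.absNorm (QI K e) ≠ 0 := by
      rw [Ne, Ideal.absNorm_eq_zero_iff, QI, Ideal.span_singleton_eq_bot]
      exact pow_ne_zero _ (Nat.cast_ne_zero.2 Loc.Q_ne)
    positivity
  refine ⟨(ivol (QI K e) : ℂ) * r * ((sS (c0 : K) : ℝ) : ℂ) ^ (-(4 / 3 : ℂ)),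
    mul_ne_zero (mul_ne_zero (by exact_mod_cast hiv.ne') hr) (Complex.cpow_ne_zero_iff.2 (Or.inl hs)),
    fun n => ?_⟩
  have key : SInt ((Loc.Q K : K) ^ e * (n : K)) → res43 K (DS (QI K e) (tr (sig k c0) (k0 K)) (n : K)) =
      if SInt ((n : K) * (Loc.Q K : K) ^ Setup.lev K / (c0 : K) ^ 2) then
        r * eS ((n : K) / ((Loc.Q K : K) ^ k * (c0 : K))) * ((sS (c0 : K) : ℝ) : ℂ) ^ (-(4 / 3 : ℂ)) *
          rho0 (cu (c0 : K)) n else 0 := by
    intro hn
    refine HasRes.res43_eq ?_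
    rw [← kpi_all]
    split_ifs with h1
    · have hA : DifferentiableOn ℂ (fun s : ℂ => r * eS ((n : K) / ((Loc.Q K : K) ^ k * (c0 : K))) *
          ((sS (c0 : K) : ℝ) : ℂ) ^ (-s)) {s | 1 < s.re} :=
        ((differentiable_id.neg.const_cpow (Or.inl hs)).const_mul _).differentiableOn
      refine ((hasRes_psi (cu (c0 : K)) n).hol_mul hA).congr fun s _ hs2 => ?_
      rw [H all idl_all n hn s hs2, if_pos h1]
    · refine (hasRes_of_hol (differentiableOn_const (0 : ℂ))).congr fun s _ hs2 => ?_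
      rw [H all idl_all n hn s hs2, if_neg h1]
  unfold ath
  by_cases h1 : SInt ((n : K) * (Loc.Q K : K) ^ Setup.lev K / (c0 : K) ^ 2)
  · have hn : SInt ((Loc.Q K : K) ^ e * (n : K)) := by
      obtain ⟨e0, he, -, -, hc, -⟩ := h
      obtain ⟨t, rfl⟩ := Nat.exists_eq_add_of_le he
      have hc' : SInt ((Loc.Q K : K) ^ e0 * (c0 : K)) := hc
      have := (h1.mul (hc'.pow 2)).mul ((SInt.natCast (Loc.Q K)).pow t)
      convert this using 1
      field_simp
      ring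
    rw [if_pos hn, key hn, if_pos h1, if_pos h1]
    ring
  · rw [if_neg h1]
    split_ifs with hn
    · rw [key hn, if_neg h1, mul_zero]
    · rfl

/-- For every primary `n₀` there is a combination of translates of `theta` whose expansion is supported on
the class `n₀ Q^{6j} U` with coefficients `N(n)^{-1/6} tau`. -/
theorem exists_Theta {n0 : R K} (hn0 : Prim n0) : ∃ (j : ℕ) (Θ : XX K → ℂ), ThFn Θ ∧
    HasExp Θ (fun n => if InU (Setup.lev K) ((n : K) / ((n0 : K) * (Loc.Q K : K) ^ (6 * j))) then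
      ((N n ^ (-(1 / 6 : ℝ)) : ℝ) : ℂ) * tau (gen (idl n)) else 0) := by
  obtain ⟨r, hr⟩ := exists_rr (K := K)
  obtain ⟨g, hg⟩ := rr_ne hr
  obtain ⟨c, hc⟩ := toG_surj (g * (cl n0)⁻¹)
  have hcg : toG c * cl n0 = g := by rw [hc]; exact inv_mul_cancel_right g (cl n0)
  set c0 := rep c with hc0
  have h0 : c0 ≠ 0 := rep_ne c
  have h0' : (c0 : K) ≠ 0 := bc_ne h0
  have hn0' : (n0 : K) ≠ 0 := bc_ne hn0.ne_zero
  have hQ := b5b_Q_ne (K := K)
  have hQs := SInt.natCast (K := K) (Loc.Q K)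
  obtain ⟨k, hk⟩ := exists_pow_mul_sInt ((c0 : K)⁻¹)
  rw [← div_eq_mul_inv] at hk
  obtain ⟨e, -, he⟩ := exists_good (sig k c0) 0
  obtain ⟨a, ha, H⟩ := ath_sig h0 hk he
  rw [cu_rep] at H
  set w1 : K := (c0 : K) ^ 2 / (Loc.Q K : K) ^ Setup.lev K with hw1
  have hw1' : w1 ≠ 0 := div_ne_zero (pow_ne_zero _ h0') (pow_ne_zero _ hQ)
  have hw : ∀ n : K, n * (Loc.Q K : K) ^ Setup.lev K / (c0 : K) ^ 2 = n / w1 := fun n => by
    rw [hw1]; field_simp
  obtain ⟨j, hj⟩ := exists_pow_mul_sInt ((n0 : K) / w1)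
  set n1 : K := (n0 : K) * (Loc.Q K : K) ^ (6 * j) with hn1
  have hn1' : n1 ≠ 0 := mul_ne_zero hn0' (pow_ne_zero _ hQ)
  have hj' : SInt (n1 / w1) := by
    have := hj.mul (hQs.pow (5 * j))
    convert this using 1
    rw [hn1]; field_simp; ring
  obtain ⟨m', hm'⟩ := exists_pow_mul_sInt (n1 / ((Loc.Q K : K) ^ k * (c0 : K)))
  set w2 : K := n1 * (Loc.Q K : K) ^ Setup.lev K * (Loc.Q K : K) ^ m' with hw2
  have hw2' : w2 ≠ 0 := mul_ne_zero (mul_ne_zero hn1' (pow_ne_zero _ hQ)) (pow_ne_zero _ hQ)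
  have h21 : SInt (w2 / w1) := by
    have := (hj'.mul (hQs.pow (Setup.lev K))).mul (hQs.pow m')
    convert this using 1
    rw [hw2]; field_simp
  set A : ℂ := a * H3 (toG c) (cl n0) * r g with hA
  have hA0 : A ≠ 0 := mul_ne_zero (mul_ne_zero ha (by
    intro h; have := norm_H3 (toG c) (cl n0); rw [h] at this; simp at this)) hg
  let f : K → ℂ := fun x => if InU (Setup.lev K) (x / n1) then
    A⁻¹ * conj (eS (x / ((Loc.Q K : K) ^ k * (c0 : K)))) else 0
  obtain ⟨T, b, hT⟩ := exists_eS_expand hw1' hw2' h21 (g := f) (by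
    intro x y _ hy
    have hy1 : InJ (Setup.lev K) (y / n1) := ⟨y / w2 * (Loc.Q K : K) ^ m', hy.mul (hQs.pow m'), by
      rw [hw2]; field_simp⟩
    have hy2 : SInt (y / ((Loc.Q K : K) ^ k * (c0 : K))) := by
      have := (hy.mul (hQs.pow (Setup.lev K))).mul hm'
      convert this using 1
      rw [hw2]; field_simp
    have hiff : InU (Setup.lev K) ((x + y) / n1) ↔ InU (Setup.lev K) (x / n1) := by
      rw [add_div]
      exact ⟨fun h => by simpa using inU_add h hy1.neg, fun h => inU_add h hy1⟩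
    simp only [f, hiff]
    rw [add_div x y ((Loc.Q K : K) ^ k * (c0 : K)), eS_add, eS_of_sInt hy2, mul_one])
  have hσ : (sig k c0).a ≠ 0 := (isUnit_Q.unit ^ k).isUnit.ne_zero
  refine ⟨j, fun w => ∑ x ∈ T, b x * theta K (actR (sig k c0 * nn x) w),
    ThFn.sum T (fun x _ => thFn_theta _) b, ?_⟩
  have hE := HasExp.sum T (fun x _ => ((hasExp_theta hσ he).transl (x : K)).smul (b x))
  simp only [actR_mul, actR_nn]
  convert hE using 2 with n
  have e1 : ∑ x ∈ T, b x * (ath (sig k c0) e n * eT ((n : K) * (x : K))) =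
      ath (sig k c0) e n * ∑ x ∈ T, b x * eS ((n : K) * (x : K)) := by
    rw [Finset.mul_sum]
    refine Finset.sum_congr rfl fun x _ => ?_
    have := eS_coe (n * x)
    push_cast at this
    rw [this]; ring
  rw [e1, H n, hw]
  by_cases h1 : SInt ((n : K) / w1)
  · rw [if_pos h1, ← hT _ h1]
    simp only [f]
    split_ifs with h2
    · obtain ⟨η, m, hη, hm, rfl, hη1, hm1⟩ := b5b_cl hn0 h2
      have hass : Associated (η * m) m := (associated_unit_mul_left m η hη)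
      rw [rho0_hecke hr c hη hm, hη1, hm1, H3_one_right, map_one, hcg, idl_eq_iff.2 hass, gen_idl hm,
        N_assoc hass]
      have h3 := bc_mul_conj (norm_eS (((η * m : R K) : K) / ((Loc.Q K : K) ^ k * (c0 : K))))
      have h4 : A * A⁻¹ = 1 := mul_inv_cancel₀ hA0
      rw [hA] at h4 ⊢
      linear_combination (-((N m ^ (-(1 / 6 : ℝ)) : ℝ) : ℂ) * tau m) *
        ((a * H3 (toG c) (cl n0) * r g) * (a * H3 (toG c) (cl n0) * r g)⁻¹ * h3 + h4)
    · rw [mul_zero]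
  · rw [if_neg h1, zero_mul, if_neg]
    intro h2
    refine h1 ?_
    have := h2.sInt.mul hj'
    convert this using 1
    rw [← hn1]
    field_simp

end Crest.Agent.R312.Th
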