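import Crest.Agent.R312.B5BDefs

/-!
# R312 / B5BCU : the classes `K^*/U`, `sS`, `H3`
-/

set_option autoImplicit false

noncomputable section

open scoped Classical ComplexConjugate NumberField Topology
open MeasureTheory Filter
open Crest.Agent.R17.Vor (SL nn SS pw)

namespace Crest.Agent.R312.Th

variable {K : Type} [Field K] [NumberField K] [Fld K] [Loc K] [Setup K]

instance : Countable (CU K) := by
  have h1 : Countable K := Function.Surjective.countable (f := fun p : R K × R K => (p.1 : K) / (p.2 : K))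
    fun x => by
      obtain ⟨a, b, -, h⟩ := exists_div x
      exact ⟨(a, b), h.symm⟩
  have h2 : Countable Kˣ := Units.val_injective.countable
  exact (QuotientGroup.mk_surjective (s := Usub K)).countable

theorem bcu_mk {x : K} (hx : x ≠ 0) : cu x = (QuotientGroup.mk (Units.mk0 x hx) : Kˣ ⧸ Usub K) := dif_neg hx

theorem cu_mul {x y : K} (hx : x ≠ 0) (hy : y ≠ 0) : cu (x * y) = cu x * cu y := by
  rw [bcu_mk hx, bcu_mk hy, bcu_mk (mul_ne_zero hx hy), Units.mk0_mul]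
  rfl

theorem cu_one : cu (1 : K) = 1 := by
  rw [bcu_mk one_ne_zero, Units.mk0_one]
  rfl

theorem cu_pow {x : K} (hx : x ≠ 0) (j : ℕ) : cu (x ^ j) = cu x ^ j := by
  induction j with
  | zero => rw [pow_zero, pow_zero, cu_one]
  | succ j ih => rw [pow_succ, pow_succ, cu_mul (pow_ne_zero _ hx) hx, ih]

theorem cu_inv (x : K) : cu x⁻¹ = (cu x)⁻¹ := by
  by_cases hx : x = 0
  · rw [hx, inv_zero, cu, dif_pos rfl, inv_one]
  · rw [eq_inv_iff_mul_eq_one, ← cu_mul (inv_ne_zero hx) hx, inv_mul_cancel₀ hx, cu_one]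

theorem cu_eq_iff {x y : K} (hx : x ≠ 0) (hy : y ≠ 0) : cu x = cu y ↔ InU (Setup.lev K) (x / y) := by
  rw [bcu_mk hx, bcu_mk hy, eq_comm]
  refine QuotientGroup.eq.trans ?_
  change InU (Setup.lev K) (((Units.mk0 y hy)⁻¹ * Units.mk0 x hx : Kˣ) : K) ↔ _
  rw [Units.val_mul, Units.val_inv_eq_inv_val, Units.val_mk0, Units.val_mk0, div_eq_inv_mul]

theorem cu_of_inU {x : K} (hx : InU (Setup.lev K) x) : cu x = 1 := by
  rw [← cu_one, cu_eq_iff (hx.ne_zero Setup.lev_pos) one_ne_zero, div_one]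
  exact hx

/-- `approx` -/
theorem exists_cu (c : CU K) {q : R K} (hq : q ≠ 0) (a : R K) :
    ∃ C : R K, C ≠ 0 ∧ cu (C : K) = c ∧ q ∣ C - a := by
  obtain ⟨x, rfl⟩ := QuotientGroup.mk_surjective (s := Usub K) c
  obtain ⟨r, h1, h2⟩ := approx (Setup.lev K) x.ne_zero hq a
  have hr : (r : K) ≠ 0 := fun h => h2.ne_zero Setup.lev_pos (by rw [h, zero_div])
  refine ⟨r, fun h => hr (by rw [h]; rfl), ?_, h1⟩
  rw [(cu_eq_iff hr x.ne_zero).2 h2, bcu_mk x.ne_zero, Units.mk0_val]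

theorem bcu_rep (c : CU K) : rep c ≠ 0 ∧ cu (rep c : K) = c := by
  have h : ∃ C : R K, C ≠ 0 ∧ cu (C : K) = c := by
    obtain ⟨C, h1, h2, -⟩ := exists_cu c (q := 1) one_ne_zero 0
    exact ⟨C, h1, h2⟩
  rw [rep, dif_pos h]
  exact h.choose_spec

theorem rep_ne (c : CU K) : rep c ≠ 0 := by
  exact (bcu_rep c).1

theorem cu_rep (c : CU K) : cu (rep c : K) = c := by
  exact (bcu_rep c).2

theorem bcu_inU {x : K} (hx : x ≠ 0) : InU (Setup.lev K) ((rep (cu x) : K) / x) :=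
  (cu_eq_iff (bc_ne (rep_ne _)) hx).1 (cu_rep _)

theorem toG_cu {C : R K} (hC : C ≠ 0) : toG (cu (C : K)) = cl C := by
  exact (kub_cl hC (bcu_inU (bc_ne hC))).2

theorem toG_mul (c c' : CU K) : toG (c * c') = toG c * toG c' := by
  have h := toG_cu (mul_ne_zero (rep_ne c) (rep_ne c'))
  rw [Subring.coe_mul, cu_mul (bc_ne (rep_ne c)) (bc_ne (rep_ne c')), cu_rep, cu_rep,
    cl_mul (rep_ne c) (rep_ne c')] at h
  exact h

theorem toG_one : toG (1 : CU K) = 1 := by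
  have h := toG_cu (K := K) one_ne_zero
  rwa [Subring.coe_one, cu_one, cl_one] at h

theorem toG_surj (g : G K) : ∃ c : CU K, toG c = g := by
  obtain ⟨r, h1, h2, -⟩ := exists_cl g (q := 1) one_ne_zero 0
  exact ⟨cu (r : K), (toG_cu h1).trans h2⟩

/-- `clN_eq_iff` -/
theorem toG_eq {c c' : CU K} (h : toG c = toG c') : ∃ t : CU K, c' = c * t ^ 6 := by
  have h1 := bc_ne (rep_ne c)
  obtain ⟨u, z, hu, hz, e⟩ := (clN_eq_iff Setup.lev_pos (bc_ne (rep_ne c')) h1).1 h.symm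
  have hu0 := hu.ne_zero Setup.lev_pos
  refine ⟨cu z, ?_⟩
  rw [← cu_rep c', e, cu_mul (mul_ne_zero h1 hu0) (pow_ne_zero _ hz), cu_mul h1 hu0, cu_rep, cu_of_inU hu,
    mul_one, cu_pow hz]

theorem pick_spec {c : CU K} {m : R K} (h : Has c m) :
    pick c m ≠ 0 ∧ Associated (pick c m) m ∧ cu (pick c m : K) = c := by
  rw [pick, dif_pos h]
  exact h.choose_spec

/-- two generators in the same class differ by a unit in `U` -/
theorem exists_unit_of_cu {C C' : R K} (hC : C ≠ 0) (ha : Associated C C') (h : cu (C : K) = cu (C' : K)) :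
    ∃ u : (R K)ˣ, InU (Setup.lev K) ((u : R K) : K) ∧ C' = u * C := by
  obtain ⟨u, rfl⟩ := ha
  have h1 := bc_ne hC
  have h2 := (cu_eq_iff (bc_ne (mul_ne_zero hC u.ne_zero)) h1).1 h.symm
  rw [Subring.coe_mul, mul_div_cancel_left₀ _ h1] at h2
  exact ⟨u, h2, mul_comm _ _⟩

theorem H3_mul_left (g g' h : G K) : H3 (g * g') h = H3 g h * H3 g' h := by
  rw [H3, H3, H3, HH_mul_left, mul_pow]

theorem H3_mul_right (g h h' : G K) : H3 g (h * h') = H3 g h * H3 g h' := by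
  rw [H3, H3, H3, HH_mul_right, mul_pow]

theorem H3_one_left (h : G K) : H3 1 h = 1 := by
  rw [H3, HH_one_left, one_pow]

theorem H3_one_right (g : G K) : H3 g 1 = 1 := by
  rw [H3, HH_one_right, one_pow]

theorem H3_self (g : G K) : H3 g g = 1 := by
  rw [H3, sq]
  nth_rewrite 2 [HH_swap g g]
  exact bc_mul_conj (norm_HH g g)

theorem H3_swap (g h : G K) : H3 h g = conj (H3 g h) := by
  rw [H3, H3, HH_swap, map_pow]

theorem H3_cube (g h : G K) : H3 g h ^ 3 = 1 := by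
  rw [H3, ← pow_mul]
  exact HH_pow_six g h

theorem norm_H3 (g h : G K) : ‖H3 g h‖ = 1 := by
  rw [H3, norm_pow, norm_HH, one_pow]

theorem cub_rec3 {a b : R K} (ha : a ≠ 0) (hb : b ≠ 0) : cub a b = H3 (cl a) (cl b) * cub b a := by
  exact cub_rec ha hb

theorem cub_unit3 {a u : R K} (ha : a ≠ 0) (hu : IsUnit u) : cub a u = H3 (cl a) (cl u) := by
  rw [cub_rec3 ha hu.ne_zero, cub, sym_unit 3 hu, mul_one]

/-- `gs (u C) (cub m) n = gs C (cub m) n` for a unit `u ∈ U` (`gs_unit_mul`, `gs_mul_unit`) -/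
theorem gs_pick {c : CU K} {m C : R K} (hC : C ≠ 0) (ha : Associated C m) (h : cu (C : K) = c) (n : R K) :
    gs (pick c m) (cub m) n = gs C (cub C) n := by
  obtain ⟨h1, h2, h3⟩ := pick_spec (c := c) (m := m) ⟨C, hC, ha, h⟩
  obtain ⟨u, hu, e⟩ := exists_unit_of_cu hC (ha.trans h2.symm) (h.trans h3.symm)
  have e1 : cub m = cub C := funext fun d => (sym_assoc 3 ha d).symm
  have hu' : InU (Setup.lev K) (((u⁻¹ : (R K)ˣ) : R K) : K) := by
    rw [wv_unit_inv]; exact hu.inv Setup.lev_pos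
  have e2 := gs_unit_mul hC (cub_isChar hC).per u.isUnit ((u⁻¹ : (R K)ˣ) * n)
  rw [Units.mul_inv_cancel_left, gs_mul_unit hC (cub_isChar hC) (prim_unit_coprime (u⁻¹).isUnit C),
    cub_unit3 hC (u⁻¹).isUnit, cl_of_inU hu', H3_one_right, map_one, one_mul] at e2
  rw [e, e1, e2]

omit [Setup K] in
theorem sS_pos {x : K} (hx : x ≠ 0) : 0 < sS x := by
  exact div_pos (aN_pos hx) (NK_pos hx)

omit [Setup K] in
theorem sS_mul (x y : K) : sS (x * y) = sS x * sS y := by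
  rw [sS, sS, sS, aN_mul, NK_mul, mul_div_mul_comm]

omit [Setup K] in
theorem sS_of_isW {w : K} (hw : IsW w) : sS w = 1 := by
  rw [sS, NK_of_isW hw, div_self (aN_pos hw.1).ne']

omit [Setup K] in
theorem aN_eq {C : R K} (hC : C ≠ 0) : aN (C : K) = N C * sS (C : K) := by
  rw [sS, NK_coe, mul_div_cancel₀ _ (N_pos hC).ne']

theorem sS_rep {x : K} (hx : x ≠ 0) : sS (rep (cu x) : K) = sS x := by
  rw [← mul_div_cancel₀ (rep (cu x) : K) hx, sS_mul, sS_of_isW ((bcu_inU hx).isW Setup.lev_pos), mul_one]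

theorem bcu_fin (M : ℕ) : {c : CU K | ∃ y : 𝓞 K, y ≠ 0 ∧ cu (y : K) = c ∧
    SInt ((Loc.Q K : K) ^ M / (y : K))}.Finite := by
  have := Ideal.finiteQuotientOfFreeOfNeBot (Ideal.span {((Loc.Q K : ℕ) : 𝓞 K) ^ (Setup.lev K + M)})
    (by rw [Ne, Ideal.span_singleton_eq_bot]; exact pow_ne_zero _ b0fin_Q_ne)
  rw [← Set.finite_coe_iff]
  have hex := fun g : {c : CU K | ∃ y : 𝓞 K, y ≠ 0 ∧ cu (y : K) = c ∧
    SInt ((Loc.Q K : K) ^ M / (y : K))} => g.2
  choose y hy0 hy hs using hex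
  refine Finite.of_injective (fun g => Ideal.Quotient.mk
    (Ideal.span {((Loc.Q K : ℕ) : 𝓞 K) ^ (Setup.lev K + M)}) (y g)) fun g g' h => Subtype.ext ?_
  obtain ⟨t, ht⟩ := Ideal.mem_span_singleton'.1 (Ideal.Quotient.eq.1 h)
  have h1 : (y g : K) ≠ 0 := by exact_mod_cast hy0 g
  have h2 : (y g' : K) ≠ 0 := by exact_mod_cast hy0 g'
  have ht' : (t : K) * (Loc.Q K : K) ^ (Setup.lev K + M) = (y g : K) - (y g' : K) := by
    exact_mod_cast congrArg (fun z : 𝓞 K => (z : K)) ht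
  rw [← hy g, ← hy g', cu_eq_iff h1 h2]
  refine ⟨_, (hs g').mul (SInt.coe t), ?_⟩
  field_simp
  linear_combination -ht'

/-- `K^*/(U R^{*3})` is finite (`exists_normal_R`; two normal forms `y ≡ y' mod Q^(lev+M)` are in the same
class) -/
theorem finite_CU : ∃ T : Finset (CU K), ∀ c : CU K, ∃ t ∈ T, ∃ η : (R K)ˣ,
    c = t * cu ((η : R K) : K) ^ 3 := by
  obtain ⟨M, hM⟩ := exists_normal_R (K := K) (k := 3) (by norm_num)
  refine ⟨(bcu_fin M).toFinset, fun c => ?_⟩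
  obtain ⟨y, u, hy, e, hs⟩ := hM (rep c) (rep_ne c)
  have hy' : (y : K) ≠ 0 := by exact_mod_cast hy
  refine ⟨cu (y : K), (Set.Finite.mem_toFinset _).2 ⟨y, hy, rfl, hs⟩, u, ?_⟩
  rw [← cu_pow (wv_unit_ne u), ← cu_mul hy' (pow_ne_zero _ (wv_unit_ne u)), ← cu_rep c, e, Subring.coe_mul,
    coe_toR, Subring.coe_pow]

theorem bcu_JJ : ∃ T : Finset (CU K), ∀ c : CU K, ∃ t ∈ T, ∃ j : JJ K, c = cu (jo j * (rep t : K)) := by
  obtain ⟨M, hM⟩ := exists_normal_R (K := K) (k := 1) le_rfl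
  obtain ⟨E, hE⟩ := exists_rEquiv (K := K)
  refine ⟨(bcu_fin M).toFinset, fun c => ?_⟩
  obtain ⟨y, u, hy, e, hs⟩ := hM (rep c) (rep_ne c)
  obtain ⟨⟨j, ε⟩, rfl⟩ := E.surjective u
  have hy' : (y : K) ≠ 0 := by exact_mod_cast hy
  have hε := isW_unit ε
  refine ⟨cu ((y * ε : 𝓞 K) : K), (Set.Finite.mem_toFinset _).2 ⟨y * ε, mul_ne_zero hy ε.ne_zero, rfl, ?_⟩, j, ?_⟩
  · have := hs.mul hε.2.2
    push_cast
    rwa [← div_div, div_eq_mul_inv _ ((ε : 𝓞 K) : K)]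
  · rw [cu_mul (jo_ne_zero j) (bc_ne (rep_ne _)), cu_rep, ← cu_mul (jo_ne_zero j)
      (by push_cast; exact mul_ne_zero hy' hε.1), ← cu_rep c, e, pow_one, Subring.coe_mul, coe_toR, hE]
    congr 1
    push_cast
    ring

/-- Send `c` to the ideal `{y ∈ 𝓞 : y / (Q^e rep c) ∈ SInt}` of norm `sS (Q^e rep c)`, which contains a power of
`Q`; the fibres have at most `#(𝓞/Q^lev)` elements; `summable_S_ideals`.  (Or: `exists_reps`, `summable_JJ`.) -/
theorem summable_sS (e : ℕ) {σ : ℝ} (hσ : 0 < σ) : Summable fun c : CU K =>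
    if SInt ((Loc.Q K : K) ^ e * (rep c : K)) then sS (rep c : K) ^ (-σ) else 0 := by
  obtain ⟨T, hT⟩ := bcu_JJ (K := K)
  choose t ht j hj using hT
  have hQ : (Loc.Q K : K) ^ e ≠ 0 := pow_ne_zero _ loc_Q_ne
  let F : CU K → ℝ := fun c => if SInt ((Loc.Q K : K) ^ e * (rep c : K)) then sS (rep c : K) ^ (-σ) else 0
  have hF0 : ∀ c, 0 ≤ F c := fun c => by
    simp only [F]
    split_ifs
    · exact Real.rpow_nonneg (sS_pos (bc_ne (rep_ne c))).le _
    · exact le_rfl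
  have h1 : Summable fun p : T × JJ K => F (cu (jo p.2 * (rep p.1.1 : K))) := by
    refine (summable_prod_of_nonneg fun p => hF0 _).2 ⟨fun s => ?_, Summable.of_finite⟩
    have hr := bc_ne (rep_ne s.1)
    have hY : (Loc.Q K : K) ^ e * (rep s.1 : K) ≠ 0 := mul_ne_zero hQ hr
    refine ((summable_JJ hY hσ).mul_left
      ((aN ((Loc.Q K : K) ^ e) * NK (rep s.1 : K))⁻¹ ^ (-σ))).congr fun i => ?_
    have hx : jo i * (rep s.1 : K) ≠ 0 := mul_ne_zero (jo_ne_zero i) hr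
    have hw := (bcu_inU hx).isW Setup.lev_pos
    have e1 : SInt ((Loc.Q K : K) ^ e * (rep (cu (jo i * (rep s.1 : K))) : K)) ↔
        SInt (jo i * ((Loc.Q K : K) ^ e * (rep s.1 : K))) := by
      have := jo_ne_zero i
      rw [← hw.sInt_mul_iff (jo i * ((Loc.Q K : K) ^ e * (rep s.1 : K)))]
      congr! 1
      field_simp
    simp only [F]
    rw [sS_rep hx, e1]
    split_ifs
    · rw [← Real.mul_rpow (inv_nonneg.2 (mul_nonneg (aN_nonneg _) (NK_pos hr).le)) (aN_nonneg _)]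
      congr 1
      have := (aN_pos hQ).ne'
      have := (NK_pos hr).ne'
      rw [sS, NK_mul, jo, NK_unit, aN_mul, aN_mul, aN_mul]
      field_simp
    · rw [mul_zero]
  have hinj : Function.Injective fun c : CU K => ((⟨t c, ht c⟩, j c) : T × JJ K) := fun c c' h => by
    have a1 : j c = j c' := (Prod.ext_iff.1 h).2
    have a2 : t c = t c' := congrArg Subtype.val (Prod.ext_iff.1 h).1
    rw [hj c, hj c', a1, a2]
  refine (h1.comp_injective hinj).congr fun c => ?_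
  exact congrArg F (hj c).symm

end Crest.Agent.R312.Th
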