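import Crest.Agent.R312.B5BCU

/-!
# R312 / B5BFib : sums over `R / Ups M` as sums over (class, primary element)

The map `EltQ M ∖ 0 → CU × Prim`, `C ↦ (cu C, gen (idl C))` has image `{Has c m}` and all fibres are
`≃ UpsAll / Ups M` (the action of units on non-zero elements is free).  `Ups M` has finite index in `(𝓞 K)ˣ`
(`uEquiv`), and `UpsAll ⊆ (𝓞 K)ˣ` (`exists_oU`).
-/

set_option autoImplicit false

noncomputable section

open scoped Classical ComplexConjugate NumberField Topology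
open MeasureTheory Filter
open Crest.Agent.R17.Vor (SL nn SS pw)

namespace Crest.Agent.R312.Th

variable {K : Type} [Field K] [NumberField K] [Fld K] [Loc K] [Setup K]

theorem Ups_le {M : ℕ} (hM : M0 K ∣ M) : Ups K M ≤ UpsAll K := by
  exact fun _ hu => inU_of_mem_Ups hM hu

theorem kU_pos {M : ℕ} (h0 : M ≠ 0) : 0 < kU K M := by
  have h1 : UpsAll K ≤ (oU (K := K)).range := fun u hu => exists_oU (InU.isW Setup.lev_pos hu)
  refine Nat.pos_of_ne_zero fun h => ?_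
  have h2 := Subgroup.relIndex_eq_zero_of_le_right h1 h
  rw [← Subgroup.index_comap] at h2
  have hM : (0 : ℤ) < M := by exact_mod_cast Nat.pos_of_ne_zero h0
  suffices Finite ((𝓞 K)ˣ ⧸ (Ups K M).comap oU) from Subgroup.index_ne_zero_of_finite h2
  refine Finite.of_surjective (fun p : NumberField.Units.torsion K × (UI K → Set.Ico (0 : ℤ) M) =>
    (QuotientGroup.mk (uEquiv K (p.1, fun i => p.2 i)) : (𝓞 K)ˣ ⧸ (Ups K M).comap oU)) fun q => ?_
  obtain ⟨u, rfl⟩ := QuotientGroup.mk_surjective q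
  obtain ⟨⟨ζ, n⟩, rfl⟩ := (uEquiv K).surjective u
  refine ⟨(ζ, fun i => ⟨n i % M, Int.emod_nonneg _ hM.ne', Int.emod_lt_of_pos _ hM⟩),
    QuotientGroup.eq.2 ⟨fun i => n i / M, ?_⟩⟩
  have e : upR n = upR (fun i => n i % M) * upR ((M : ℤ) • fun i => n i / M) := by
    rw [← upR_add]
    exact congrArg upR (funext fun i => (Int.emod_add_mul_ediv (n i) M).symm)
  simp only [uEquiv_apply, map_mul, map_inv]
  rw [show oU (upow n) = upR n from rfl, e, inv_mul_eq_iff_eq_mul, ← mul_assoc]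
  rfl

theorem b5bfib_cu {u : (R K)ˣ} (hu : u ∈ UpsAll K) {C : R K} (hC : C ≠ 0) :
    cu (((u : R K) * C : R K) : K) = cu (C : K) := by
  rw [Subring.coe_mul, cu_mul (wv_unit_ne u) (by exact_mod_cast hC), cu_of_inU hu, one_mul]

omit [Fld K] [Setup K] in
theorem b5bfib_mk {M : ℕ} {a b : R K} : (Quotient.mk _ a : EltQ K M) = Quotient.mk _ b ↔
    ∃ u ∈ Ups K M, a = u * b := by
  rw [Quotient.eq, MulAction.orbitRel_apply, MulAction.mem_orbit_iff]
  exact ⟨fun ⟨u, h⟩ => ⟨u.1, u.2, h.symm⟩, fun ⟨u, hu, h⟩ => ⟨⟨u, hu⟩, h.symm⟩⟩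

/-- an explicit bijection -/
theorem exists_eltEquiv {M : ℕ} (hM : M0 K ∣ M) (h0 : M ≠ 0) :
    ∃ e : {x : CU K × R K // Prim x.2 ∧ Has x.1 x.2} × Fin (kU K M) ≃ {C : EltQ K M // C.out ≠ 0},
      ∀ x, ∃ u : (R K)ˣ, InU (Setup.lev K) ((u : R K) : K) ∧ (e x).1.out = u * pick x.1.1.1 x.1.1.2 := by
  have hk : Nat.card (UpsAll K ⧸ (Ups K M).subgroupOf (UpsAll K)) = kU K M := rfl
  have : Finite (UpsAll K ⧸ (Ups K M).subgroupOf (UpsAll K)) :=
    Nat.finite_of_card_ne_zero (hk ▸ (kU_pos h0).ne')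
  obtain ⟨t, ht1, ht2⟩ : ∃ t : Fin (kU K M) → UpsAll K,
      (∀ i j, ((t i)⁻¹ * t j : UpsAll K).1 ∈ Ups K M → i = j) ∧
      ∀ u : UpsAll K, ∃ j, ((t j)⁻¹ * u : UpsAll K).1 ∈ Ups K M := by
    refine ⟨fun j => ((Finite.equivFinOfCardEq hk).symm j).out, fun i j h => ?_, fun u =>
      ⟨Finite.equivFinOfCardEq hk (QuotientGroup.mk u), ?_⟩⟩
    · have h1 := QuotientGroup.eq.2 (Subgroup.mem_subgroupOf.2 h)
      rwa [QuotientGroup.out_eq', QuotientGroup.out_eq', Equiv.apply_eq_iff_eq] at h1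
    · dsimp only
      rw [Equiv.symm_apply_apply]
      exact Subgroup.mem_subgroupOf.1 (QuotientGroup.eq.1 (QuotientGroup.out_eq' _))
  have hout : ∀ a : R K, ∃ u ∈ Ups K M, (Quotient.mk _ a : EltQ K M).out = u * a := fun a =>
    b5bfib_mk.1 (Quotient.out_eq _)
  refine ⟨Equiv.ofBijective (fun x => ⟨Quotient.mk _ ((t x.2).1 * pick x.1.1.1 x.1.1.2), ?_⟩)
    ⟨?_, ?_⟩, fun x => ?_⟩
  · obtain ⟨u, -, hu⟩ := hout ((t x.2).1 * pick x.1.1.1 x.1.1.2)
    rw [hu]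
    exact mul_ne_zero u.ne_zero (mul_ne_zero (Units.ne_zero _) (pick_spec x.1.2.2).1)
  · rintro ⟨⟨⟨c, m⟩, hm, hc⟩, i⟩ ⟨⟨⟨c', m'⟩, hm', hc'⟩, j⟩ h
    obtain ⟨u, hu, e⟩ := b5bfib_mk.1 (congrArg Subtype.val h)
    obtain ⟨a1, a2, a3⟩ := pick_spec hc
    obtain ⟨b1, b2, b3⟩ := pick_spec hc'
    dsimp only at e a1 a2 a3 b1 b2 b3 hm hm'
    obtain rfl : c = c' := by
      rw [← a3, ← b3, ← b5bfib_cu (t i).2 a1, e,
        b5bfib_cu (Ups_le hM hu) (mul_ne_zero (Units.ne_zero _) b1), b5bfib_cu (t j).2 b1]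
    obtain rfl : m = m' := hm.eq_of_associated hm' (a2.symm.trans
      ((associated_unit_mul_right _ _ (t i).1.isUnit).trans (e ▸
        ((associated_unit_mul_left _ _ u.isUnit).trans
          ((associated_unit_mul_left _ _ (t j).1.isUnit).trans b2)))))
    rw [← mul_assoc] at e
    have e' : (t i).1 = u * (t j).1 := Units.ext (mul_right_cancel₀ a1 e)
    rw [ht1 j i (by
      rw [Subgroup.coe_mul, Subgroup.coe_inv, e', mul_comm u, inv_mul_cancel_left]; exact hu)]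
  · rintro ⟨C, hC⟩
    obtain ⟨m, hm, ha⟩ := exists_prim_assoc hC
    have hc : Has (cu ((C.out : R K) : K)) m := ⟨_, hC, ha, rfl⟩
    obtain ⟨a1, a2, a3⟩ := pick_spec hc
    obtain ⟨u, hu, e⟩ := exists_unit_of_cu a1 (a2.trans ha.symm) a3
    obtain ⟨j, hj⟩ := ht2 ⟨u, hu⟩
    refine ⟨(⟨(cu ((C.out : R K) : K), m), hm, hc⟩, j), Subtype.ext (Eq.trans (b5bfib_mk.2 ⟨_, inv_mem hj, ?_⟩)
      (Quotient.out_eq C))⟩
    conv_rhs => rw [e]
    rw [← mul_assoc, ← Units.val_mul]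
    simp
  · obtain ⟨u, hu, e⟩ := hout ((t x.2).1 * pick x.1.1.1 x.1.1.2)
    exact ⟨u * (t x.2).1, mul_mem (Ups_le hM hu) (t x.2).2, by rw [Units.val_mul, mul_assoc]; exact e⟩

theorem b5bfib_sub {α E : Type} [AddCommMonoid E] [TopologicalSpace E] {p : α → Prop} {f : α → E}
    (h : ∀ x, ¬ p x → f x = 0) : ∀ x ∉ Set.range (Subtype.val : {x // p x} → α), f x = 0 :=
  fun x hx => h x fun hp => hx ⟨⟨x, hp⟩, rfl⟩

theorem b5bfib_prod {X : Type} {k : ℕ} (hk : 0 < k) {g : X → ℝ} (hg : ∀ x, 0 ≤ g x) :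
    (Summable fun p : X × Fin k => g p.1) ↔ Summable g :=
  ⟨fun h => h.comp_injective (i := fun x => (x, ⟨0, hk⟩)) fun _ _ e => congrArg Prod.fst e,
    fun h => by
      simpa using h.mul_of_nonneg (Summable.of_finite (f := fun _ : Fin k => (1 : ℝ))) hg
        fun _ => zero_le_one⟩

theorem summable_EltQ_iff {M : ℕ} (hM : M0 K ∣ M) (h0 : M ≠ 0) {F : R K → ℂ}
    (hF : ∀ u : (R K)ˣ, InU (Setup.lev K) ((u : R K) : K) → ∀ C, F (u * C) = F C) :
    (Summable fun C : EltQ K M => ‖if C.out = 0 then 0 else F C.out‖) ↔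
      Summable fun x : CU K × R K => ‖if Prim x.2 ∧ Has x.1 x.2 then F (pick x.1 x.2) else 0‖ := by
  obtain ⟨e, he⟩ := exists_eltEquiv hM h0
  rw [← Subtype.val_injective.summable_iff (b5bfib_sub (p := fun C : EltQ K M => C.out ≠ 0)
      fun C hC => by rw [if_pos (not_not.1 hC), norm_zero]),
    ← Subtype.val_injective.summable_iff (b5bfib_sub (p := fun x : CU K × R K => Prim x.2 ∧ Has x.1 x.2)
      fun x hx => by rw [if_neg hx, norm_zero]), ← e.summable_iff]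
  refine (summable_congr fun x => ?_).trans (b5bfib_prod (kU_pos h0) fun _ => norm_nonneg _)
  obtain ⟨u, hu, h⟩ := he x
  simp only [Function.comp, if_neg (e x).2, if_pos x.1.2]
  rw [h, hF u hu]

theorem tsum_EltQ {M : ℕ} (hM : M0 K ∣ M) (h0 : M ≠ 0) {F : R K → ℂ}
    (hF : ∀ u : (R K)ˣ, InU (Setup.lev K) ((u : R K) : K) → ∀ C, F (u * C) = F C)
    (hs : Summable fun C : EltQ K M => ‖if C.out = 0 then 0 else F C.out‖) :
    ∑' C : EltQ K M, (if C.out = 0 then 0 else F C.out) = (kU K M : ℂ) *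
      ∑' c : CU K, ∑' m : R K, if Prim m ∧ Has c m then F (pick c m) else 0 := by
  have hs' := (summable_EltQ_iff hM h0 hF).1 hs
  obtain ⟨e, he⟩ := exists_eltEquiv hM h0
  have h1 : ∀ x, (if (e x).1.out = 0 then 0 else F (e x).1.out) =
      if Prim x.1.1.2 ∧ Has x.1.1.1 x.1.1.2 then F (pick x.1.1.1 x.1.1.2) else 0 := fun x => by
    obtain ⟨u, hu, h⟩ := he x
    rw [if_neg (e x).2, if_pos x.1.2, h, hF u hu]
  obtain ⟨G, hG⟩ : ∃ G : CU K × R K → ℂ, G = fun x =>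
    if Prim x.2 ∧ Has x.1 x.2 then F (pick x.1 x.2) else 0 := ⟨_, rfl⟩
  have h2 : Summable fun x => ‖G x‖ := by rw [hG]; exact hs'
  have h3 : ∑' x : {x : CU K × R K // Prim x.2 ∧ Has x.1 x.2}, G x.1 = ∑' x, G x :=
    Subtype.val_injective.tsum_eq fun x hx => ⟨⟨x, by_contra fun h => hx (by rw [hG]; exact if_neg h)⟩, rfl⟩
  have h4 : ∑' C : {C : EltQ K M // C.out ≠ 0}, (if C.1.out = 0 then 0 else F C.1.out) =
      ∑' C : EltQ K M, (if C.out = 0 then 0 else F C.out) :=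
    Subtype.val_injective.tsum_eq (f := fun C : EltQ K M => if C.out = 0 then 0 else F C.out)
      fun C hC => ⟨⟨C, fun h => hC (if_pos h)⟩, rfl⟩
  have h5 : Summable fun x : {x : CU K × R K // Prim x.2 ∧ Has x.1 x.2} × Fin (kU K M) => G x.1.1 :=
    Summable.of_norm ((b5bfib_prod (kU_pos h0) (g := fun x : {x : CU K × R K // Prim x.2 ∧ Has x.1 x.2} =>
      ‖G x.1‖) fun _ => norm_nonneg _).2 (h2.comp_injective Subtype.val_injective))
  calc _ = ∑' x : {x : CU K × R K // Prim x.2 ∧ Has x.1 x.2} × Fin (kU K M), G x.1.1 := by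
        rw [← h4, ← e.tsum_eq, hG]
        exact tsum_congr h1
    _ = kU K M * ∑' x, G x := by
        rw [h5.tsum_prod, ← h3, ← tsum_mul_left]
        exact tsum_congr fun x => by simp
    _ = _ := by rw [h2.of_norm.tsum_prod, hG]

end Crest.Agent.R312.Th
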