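import Crest.Agent.R312.B5BRow
import Crest.Agent.R312.B5BFib
import Crest.Agent.R312.B5A

/-!
# R312 / B5BDS : the Dirichlet series `DS` in terms of `psi`
-/

set_option autoImplicit false

noncomputable section

open scoped Classical ComplexConjugate NumberField Topology
open MeasureTheory Filter
open Crest.Agent.R17.Vor (SL nn SS pw)

namespace Crest.Agent.R312.Th

variable {K : Type} [Field K] [NumberField K] [Fld K] [Loc K] [Setup K]

/-- `exists_crt`, `tr_k0_eq`, `eT = ee · eS`; the summand is a product of a function of `D mod C` and of a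
function of `D mod Q^e C SInt` (finite support, `LL_finite`) -/
theorem KS_kpi {σ : SL (R K)} (ha : σ.a ≠ 0) {e : ℕ} (h : Good σ e) (π : R K → Prop) {C n : R K}
    (hC : C ≠ 0) (hn : SInt ((Loc.Q K : K) ^ e * (n : K))) :
    KS (QI K e) (kpi σ π) C (n : K) = if π C then
      conj (cub σ.a σ.b * H3 (cl σ.a) (cl C)) * gs C (cub C) n * LL σ e (C : K) (n : K) else 0 := by
  unfold KS
  split_ifs with hπ
  swap
  · simp [kpi, hπ]
  obtain ⟨φ, hφ⟩ := exists_crt hC e
  have hC' : (C : K) ≠ 0 := bc_ne hC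
  let f : {x // x ∈ res C} → ℂ := fun x => cub C x.1 * ad C (n * x.1)
  let g : (K ⧸ latK ((Loc.Q K : K) ^ e * (C : K))) → ℂ := fun D =>
    if ind σ (C : K) D.out then eS ((n : K) * D.out / (C : K)) else 0
  have key : ∀ D : R K ⧸ latI C (QI K e), kpi σ π C D.out * eT ((n : K) * ((D.out : R K) : K) / (C : K)) =
      conj (cub σ.a σ.b * H3 (cl σ.a) (cl C)) * (f (φ D).1 * g (φ D).2) := by
    intro D
    obtain ⟨h1, h2⟩ := hφ D
    set t : K := (((D.out : R K) : K) - (φ D).2.out) / ((Loc.Q K : K) ^ e * (C : K)) with ht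
    have hQ : ((Loc.Q K : ℕ) : K) ≠ 0 := Nat.cast_ne_zero.2 Loc.Q_ne
    have e1 : ((D.out : R K) : K) = (φ D).2.out + (Loc.Q K : K) ^ e * (C : K) * t := by
      rw [ht]; field_simp; ring
    have e2 : (φ D).2.out = ((D.out : R K) : K) + (Loc.Q K : K) ^ e * (C : K) * (-t) := by
      rw [e1]; ring
    have hiff : ind σ (C : K) ((D.out : R K) : K) ↔ ind σ (C : K) (φ D).2.out :=
      ⟨fun hi => by rw [e2]; exact ind_add h hi h2.neg, fun hi => by rw [e1]; exact ind_add h hi h2⟩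
    simp only [kpi, if_pos hπ, tr_k0_eq σ ha hC, f, g, hiff]
    split_ifs with hi
    · have e3 : ee ((n : K) * ((D.out : R K) : K) / (C : K)) = ad C (n * (φ D).1.1) := by
        rw [← (ad_per C n).congr h1]
        simp [ad]
      have e4 : eS ((n : K) * ((D.out : R K) : K) / (C : K)) = eS ((n : K) * (φ D).2.out / (C : K)) := by
        have : (n : K) * ((D.out : R K) : K) / (C : K) =
            (n : K) * (φ D).2.out / (C : K) + (Loc.Q K : K) ^ e * (n : K) * t := by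
          rw [e1]; field_simp
        rw [this, eS_add, eS_of_sInt (hn.mul h2), mul_one]
      have e5 : cub C D.out = cub C (φ D).1.1 := (sym_per 3 C).congr h1
      rw [eT_eq_ee_mul, e3, e4, e5]
      ring
    · simp
  simp only [key]
  rw [tsum_mul_left, φ.tsum_eq (fun x => f x.1 * g x.2), mul_assoc]
  congr 1
  have hg : Summable fun D => ‖g D‖ := by
    refine summable_of_hasFiniteSupport ((LL_finite h hC').subset fun D hD => ?_)
    by_contra hi
    exact hD (by simp only [g]; rw [if_neg (show ¬ ind σ (C : K) D.out from hi), norm_zero])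
  rw [← tsum_mul_tsum_of_summable_norm (Summable.of_finite) hg, tsum_fintype]
  congr 1
  exact Finset.sum_coe_sort (res C) (fun x => cub C x * ad C (n * x))

theorem norm_cf_le {σ : SL (R K)} {e : ℕ} (h : Good σ e) : ∃ B : ℝ, 0 ≤ B ∧ ∀ (n : R K) (c : CU K),
    ‖cf σ e n c‖ ≤ if SInt ((Loc.Q K : K) ^ e * (rep c : K)) then B * sS (rep c : K) else 0 := by
  obtain ⟨B, hB, H⟩ := norm_LL_le h
  refine ⟨kU K (M0 K) * B, by positivity, fun n c => ?_⟩
  have h1 : ‖cub σ.a σ.b‖ ≤ 1 := by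
    by_cases ha : σ.a = 0
    · simp [ha, cub, sym]
    · exact norm_sym_le (Or.inr (Or.inl rfl)) ha _
  have h2 := H (rep c : K) (n : K) (bc_ne (rep_ne c))
  have h3 : ‖cf σ e n c‖ ≤ kU K (M0 K) * ‖LL σ e (rep c : K) (n : K)‖ := by
    rw [cf, norm_mul, norm_mul, Complex.norm_conj, norm_mul, norm_H3, mul_one, Complex.norm_natCast]
    gcongr
    exact mul_le_of_le_one_right (Nat.cast_nonneg _) h1
  refine h3.trans ?_
  split_ifs at h2 ⊢
  · rw [mul_assoc]; gcongr
  · rw [le_antisymm h2 (norm_nonneg _), mul_zero]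

theorem summable_cf {σ : SL (R K)} {e : ℕ} (h : Good σ e) (n : R K) {x : ℝ} (hx : 1 < x) :
    Summable fun c : CU K => ‖cf σ e n c‖ * sS (rep c : K) ^ (-x) := by
  obtain ⟨B, hB, H⟩ := norm_cf_le h
  refine Summable.of_nonneg_of_le (fun c => mul_nonneg (norm_nonneg _)
    (Real.rpow_nonneg (sS_pos (bc_ne (rep_ne c))).le _)) (fun c => ?_)
    ((summable_sS (K := K) e (σ := x - 1) (by linarith)).mul_left B)
  have h1 := H n c
  have hp := sS_pos (bc_ne (rep_ne c))
  split_ifs at h1 ⊢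
  · calc _ ≤ B * sS (rep c : K) * sS (rep c : K) ^ (-x) := by gcongr
      _ = _ := by
        rw [mul_assoc, show -(x - 1) = 1 + -x by ring, Real.rpow_add hp, Real.rpow_one]
  · rw [le_antisymm h1 (norm_nonneg _), zero_mul, mul_zero]

/-- `tsum_EltQ`, `summable_DS`, `KS_kpi`, `aN_eq`, `gs_pick`, `LL_mul_U` -/
theorem DS_kpi {σ : SL (R K)} (ha : σ.a ≠ 0) {e : ℕ} (h : Good σ e) {π : R K → Prop} (hπ : Idl π)
    {n : R K} (hn : SInt ((Loc.Q K : K) ^ e * (n : K))) {s : ℂ} (hs : 2 < s.re) :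
    DS (QI K e) (kpi σ π) (n : K) s =
      ∑' c : CU K, cf σ e n c * ((sS (rep c : K) : ℝ) : ℂ) ^ (-s) * psi π c n s := by
  have hI : QI K e ≠ ⊥ := by
    rw [Ne, QI, Ideal.span_singleton_eq_bot]
    exact pow_ne_zero _ (Nat.cast_ne_zero.2 Loc.Q_ne)
  have hF : ∀ u : (R K)ˣ, InU (Setup.lev K) ((u : R K) : K) → ∀ C : R K,
      ((aN ((u * C : R K) : K) : ℝ) : ℂ) ^ (-s) * KS (QI K e) (kpi σ π) (u * C) (n : K) =
        ((aN ((C : R K) : K) : ℝ) : ℂ) ^ (-s) * KS (QI K e) (kpi σ π) C (n : K) := by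
    intro u hu C
    by_cases hC : C = 0
    · rw [hC, mul_zero]
    have hC' : (C : K) ≠ 0 := bc_ne hC
    have hu0 : (u : R K) ≠ 0 := u.ne_zero
    have huC : (u : R K) * C ≠ 0 := mul_ne_zero hu0 hC
    have hass : Associated ((u : R K) * C) C := associated_unit_mul_left C u u.isUnit
    have e1 : aN ((u * C : R K) : K) = aN (C : K) := by
      rw [aN_eq huC, aN_eq hC, N_assoc hass, Subring.coe_mul, sS_mul,
        sS_of_isW (hu.isW Setup.lev_pos), one_mul]
    have e2 : cu ((u * C : R K) : K) = cu (C : K) := by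
      rw [Subring.coe_mul, cu_mul (bc_ne hu0) hC', cu_of_inU hu, one_mul]
    have e3 : cl ((u : R K) * C) = cl C := by rw [← toG_cu huC, e2, toG_cu hC]
    have e4 : gs ((u : R K) * C) (cub ((u : R K) * C)) n = gs C (cub C) n := by
      rw [← gs_pick huC hass e2 n, gs_pick hC (Associated.refl C) rfl n]
    rw [e1, KS_kpi ha h π huC hn, KS_kpi ha h π hC hn, e3, e4, Subring.coe_mul, LL_mul_U h hC' hn hu,
      hπ _ _ hass]
  have key := tsum_EltQ (K := K) (M := M0 K)
    (F := fun C => ((aN ((C : R K) : K) : ℝ) : ℂ) ^ (-s) * KS (QI K e) (kpi σ π) C (n : K))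
    (dvd_refl _) (eM_pos _).ne' hF (summable_DS (rowBd_kpi σ hπ) hI (per3_kpi h π) (n : K) hs)
  refine key.trans ?_
  rw [← tsum_mul_left]
  refine tsum_congr fun c => ?_
  rw [psi, dser, ← tsum_mul_left, ← tsum_mul_left]
  refine tsum_congr fun m => ?_
  by_cases hm : Prim m
  swap
  · simp [hm]
  by_cases hh : Has c m
  swap
  · simp [hh]
  obtain ⟨h1, h2, h3⟩ := pick_spec hh
  have h1' : (pick c m : K) ≠ 0 := bc_ne h1
  have hr' : (rep c : K) ≠ 0 := bc_ne (rep_ne c)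
  have e1 : aN (pick c m : K) = N m * sS (rep c : K) := by
    rw [aN_eq h1, N_assoc h2, ← sS_rep h1', h3]
  have e2 : cl (pick c m) = toG c := by rw [← toG_cu h1, h3]
  have e3 : LL σ e (pick c m : K) (n : K) = LL σ e (rep c : K) (n : K) := by
    have hx : InU (Setup.lev K) ((pick c m : K) / (rep c : K)) :=
      (cu_eq_iff h1' hr').1 (by rw [h3, cu_rep])
    rw [← LL_mul_U h hr' hn hx, div_mul_cancel₀ _ hr']
  have e4 : cub (pick c m) = cub m := funext fun d => sym_assoc 3 h2 d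
  rw [if_pos ⟨hm, hh⟩, if_pos hm, KS_kpi ha h π h1 hn, e1, e2, e3, e4, hπ _ _ h2, Complex.ofReal_mul,
    Complex.mul_cpow_ofReal_nonneg (N_nonneg m) (sS_pos hr').le, cf]
  by_cases hp : π m
  · rw [if_pos hp, if_pos ⟨hp, hh⟩]; ring
  · rw [if_neg hp, if_neg (fun h => hp h.1)]; ring

omit [Loc K] [Setup K] in
/-- Group the terms according to the finitely many functions `F i`; each coefficient
`∑' c i * b i ^ (-s)` is holomorphic on `Re s > 1` (`b^{-σ} ≤ b^{-σ₁} + b^{-σ₂}` for `σ₁ ≤ σ ≤ σ₂`). -/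
theorem hasRes_tsum {ι : Type} {F : ι → ℂ → ℂ} (hfin : (Set.range F).Finite)
    (hF : ∀ i, HasRes K (F i) (res43 K (F i))) {c : ι → ℂ} {b : ι → ℝ} (hb : ∀ i, 0 < b i)
    (hs : ∀ x : ℝ, 1 < x → Summable fun i => ‖c i‖ * b i ^ (-x)) :
    HasRes K (fun s => ∑' i, c i * (b i : ℂ) ^ (-s) * F i s)
      (∑' i, c i * (b i : ℂ) ^ (-(4 / 3 : ℂ)) * res43 K (F i)) := by
  have hterm : ∀ (i : ι) (s : ℂ), ‖c i * (b i : ℂ) ^ (-s)‖ = ‖c i‖ * b i ^ (-s.re) := fun i s => by
    rw [norm_mul, Complex.norm_cpow_eq_rpow_re_of_pos (hb i), Complex.neg_re]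
  have hsum : ∀ s : ℂ, 1 < s.re → Summable fun i => c i * (b i : ℂ) ^ (-s) := fun s h =>
    Summable.of_norm (by simpa only [hterm] using hs _ h)
  let A : (ℂ → ℂ) → ℂ → ℂ := fun f s => ∑' i, if F i = f then c i * (b i : ℂ) ^ (-s) else 0
  have hA : ∀ f, DifferentiableOn ℂ (A f) {s | 1 < s.re} := by
    intro f s0 h0
    have h0' : 1 < s0.re := h0
    obtain ⟨x, hx1, hx2⟩ := exists_between h0'
    have ho : IsOpen {s : ℂ | x < s.re ∧ s.re < s0.re + 1} :=
      (isOpen_lt continuous_const Complex.continuous_re).inter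
        (isOpen_lt Complex.continuous_re continuous_const)
    have hd : DifferentiableOn ℂ (A f) {s : ℂ | x < s.re ∧ s.re < s0.re + 1} := by
      refine Complex.differentiableOn_tsum_of_summable_norm
        ((hs x hx1).add (hs (s0.re + 1) (by linarith))) (fun i => ?_) ho fun i w hw => ?_
      · by_cases hi : F i = f
        · simp only [hi, if_true]
          have hN : (b i : ℂ) ≠ 0 := by exact_mod_cast (hb i).ne'
          exact ((differentiable_id.neg.const_cpow (Or.inl hN)).const_mul _).differentiableOn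
        · simp only [hi, if_false]
          exact differentiableOn_const 0
      · have h1 : 0 ≤ ‖c i‖ * b i ^ (-x) := mul_nonneg (norm_nonneg _) (Real.rpow_nonneg (hb i).le _)
        have h2 : 0 ≤ ‖c i‖ * b i ^ (-(s0.re + 1)) :=
          mul_nonneg (norm_nonneg _) (Real.rpow_nonneg (hb i).le _)
        split_ifs
        · rw [hterm]
          rcases le_total 1 (b i) with h | h
          · have : b i ^ (-w.re) ≤ b i ^ (-x) :=
              Real.rpow_le_rpow_of_exponent_le h (by linarith [hw.1])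
            nlinarith [mul_le_mul_of_nonneg_left this (norm_nonneg (c i))]
          · have : b i ^ (-w.re) ≤ b i ^ (-(s0.re + 1)) :=
              Real.rpow_le_rpow_of_exponent_ge (hb i) h (by linarith [hw.2])
            nlinarith [mul_le_mul_of_nonneg_left this (norm_nonneg (c i))]
        · rw [norm_zero]; linarith
    exact (hd.differentiableAt (ho.mem_nhds ⟨hx2, by linarith⟩)).differentiableWithinAt
  have hgr : ∀ (s : ℂ), 1 < s.re → ∀ ev : (ℂ → ℂ) → ℂ,
      ∑' i, c i * (b i : ℂ) ^ (-s) * ev (F i) = ∑ f ∈ hfin.toFinset, A f s * ev f := by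
    intro s h ev
    have h1 : ∀ i, c i * (b i : ℂ) ^ (-s) * ev (F i) =
        ∑ f ∈ hfin.toFinset, (if F i = f then c i * (b i : ℂ) ^ (-s) else 0) * ev f := by
      intro i
      simp only [ite_mul, zero_mul]
      rw [Finset.sum_ite_eq, if_pos (hfin.mem_toFinset.2 ⟨i, rfl⟩)]
    simp only [h1]
    rw [Summable.tsum_finsetSum]
    · exact Finset.sum_congr rfl fun f _ => tsum_mul_right
    · intro f _
      refine Summable.mul_right _ (Summable.of_norm_bounded (hsum s h).norm fun i => ?_)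
      split_ifs
      · exact le_rfl
      · simp only [norm_zero, norm_nonneg]
  rw [hgr (4 / 3) (by norm_num) (res43 K)]
  refine (HasRes.sum hfin.toFinset fun f hf => ?_).congr fun s hs' _ => (hgr s hs'.1 fun f => f s).symm
  obtain ⟨i, rfl⟩ := hfin.mem_toFinset.1 hf
  exact (hF i).hol_mul (hA _)

omit [Setup K] in
theorem b5ds_mem {C x : R K} {I : Ideal (𝓞 K)} : x ∈ latI C I ↔ ∃ y ∈ I, x = C * toR y := by
  constructor
  · rintro ⟨y, hy, rfl⟩
    exact ⟨y, hy, rfl⟩
  · rintro ⟨y, hy, rfl⟩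
    exact ⟨y, hy, rfl⟩

omit [Setup K] in
theorem b5ds_equiv {C : R K} (hC : C ≠ 0) (e : ℕ) (P : Ideal (𝓞 K)) :
    ∃ ψ : (R K ⧸ latI C (QI K e)) × (𝓞 K ⧸ P) ≃ R K ⧸ latI C (QI K e * P),
      ∀ x, ∃ y ∈ QI K e * P, (ψ x).out =
        x.1.out + C * toR (((Loc.Q K : ℕ) : 𝓞 K) ^ e * x.2.out) + C * toR y := by
  have hq : ((Loc.Q K : ℕ) : 𝓞 K) ^ e ≠ 0 := pow_ne_zero _ (Nat.cast_ne_zero.2 Loc.Q_ne)
  let f : (R K ⧸ latI C (QI K e)) × (𝓞 K ⧸ P) → R K ⧸ latI C (QI K e * P) := fun x =>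
    QuotientAddGroup.mk (x.1.out + C * toR (((Loc.Q K : ℕ) : 𝓞 K) ^ e * x.2.out))
  have hf : Function.Bijective f := by
    constructor
    · rintro ⟨D, t⟩ ⟨D', t'⟩ h
      obtain ⟨y, hy, e1⟩ := b5ds_mem.1 (QuotientAddGroup.eq.1 h)
      obtain ⟨z, hz, rfl⟩ := Ideal.mem_span_singleton_mul.1 hy
      have hD : D = D' := by
        rw [← QuotientAddGroup.out_eq' D, ← QuotientAddGroup.out_eq' D']
        refine QuotientAddGroup.eq.2 (b5ds_mem.2 ⟨((Loc.Q K : ℕ) : 𝓞 K) ^ e * (z + t.out - t'.out),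
          Ideal.mul_mem_right _ _ (Ideal.mem_span_singleton_self _), ?_⟩)
        simp only [map_mul, map_add, map_sub] at e1 ⊢
        linear_combination e1
      subst hD
      have h2 : t'.out - t.out = z := by
        apply mul_left_cancel₀ hq
        apply toR_injective
        apply mul_left_cancel₀ hC
        simp only [map_mul, map_sub, mul_sub] at e1 ⊢
        linear_combination e1
      have h3 : t' = t := by
        rw [← Ideal.Quotient.mk_out t, ← Ideal.Quotient.mk_out t']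
        exact Ideal.Quotient.eq.2 (h2 ▸ hz)
      rw [h3]
    · intro X
      obtain ⟨x, rfl⟩ := QuotientAddGroup.mk_surjective X
      obtain ⟨y, hy, e1⟩ := b5ds_mem.1 (QuotientAddGroup.eq.1
        (QuotientAddGroup.out_eq' (QuotientAddGroup.mk x : R K ⧸ latI C (QI K e))))
      obtain ⟨z, rfl⟩ := Ideal.mem_span_singleton'.1 hy
      refine ⟨(QuotientAddGroup.mk x, Ideal.Quotient.mk P z), QuotientAddGroup.eq.2 (b5ds_mem.2
        ⟨((Loc.Q K : ℕ) : 𝓞 K) ^ e * (z - (Ideal.Quotient.mk P z).out),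
          Ideal.mul_mem_mul (Ideal.mem_span_singleton_self _) ?_, ?_⟩)⟩
      · exact Ideal.Quotient.eq.1 (Ideal.Quotient.mk_out _).symm
      · simp only [map_mul, map_sub] at e1 ⊢
        linear_combination e1
  refine ⟨Equiv.ofBijective f hf, fun x => ?_⟩
  obtain ⟨y, hy, e1⟩ := b5ds_mem.1 (QuotientAddGroup.eq.1 (QuotientAddGroup.out_eq' (f x)).symm)
  exact ⟨y, hy, by rw [← e1, Equiv.ofBijective_apply]; ring⟩

theorem b5ds_per : Per3 (QI K (Setup.lev K)) (k0 K) := by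
  simpa only [tr_one] using per3_tr (K := K) good_one

theorem b5ds_fin {C : R K} (hC : C ≠ 0) :
    {D : R K ⧸ latI C (QI K (Setup.lev K)) | k0 K C D.out ≠ 0}.Finite := by
  obtain ⟨φ, hφ⟩ := exists_crt hC (Setup.lev K)
  have hC' : (C : K) ≠ 0 := bc_ne hC
  refine (((Set.finite_univ).prod (LL_finite good_one hC')).preimage φ.injective.injOn).subset
    fun D hD => ⟨trivial, ?_⟩
  have hi : ind 1 (C : K) ((D.out : R K) : K) := by
    by_contra hi
    refine hD ?_
    have := tr_k0_eq (K := K) 1 one_ne_zero hC D.out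
    rwa [if_neg hi, tr_one] at this
  obtain ⟨-, h2⟩ := hφ D
  have hQ : ((Loc.Q K : ℕ) : K) ≠ 0 := Nat.cast_ne_zero.2 Loc.Q_ne
  have := ind_add good_one hi h2.neg
  change ind 1 (C : K) (φ D).2.out
  convert this using 1
  field_simp
  ring

/-- summation over the finer quotient -/
theorem b5ds_KS {p C : R K} (hp : p ≠ 0) (hC : C ≠ 0) {κ : R K → R K → ℂ}
    (hκ : Per3 (QI K (Setup.lev K) * idl p) κ) (h0 : ∀ D, k0 K C D = 0 → κ C D = 0) :
    KS (QI K (Setup.lev K) * idl p) κ C 0 = ∑' D : R K ⧸ latI C (QI K (Setup.lev K)),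
      ∑' t : 𝓞 K ⧸ idl p, κ C (D.out + C * toR (((Loc.Q K : ℕ) : 𝓞 K) ^ Setup.lev K * t.out)) := by
  obtain ⟨ψ, hψ⟩ := b5ds_equiv hC (Setup.lev K) (idl p)
  have : Finite (𝓞 K ⧸ idl p) := Ideal.finiteQuotientOfFreeOfNeBot _ (idl_ne_bot hp)
  simp only [KS, zero_mul, zero_div, eT_zero, mul_one]
  rw [← ψ.tsum_eq]
  have e1 : ∀ x, κ C (ψ x).out =
      κ C (x.1.out + C * toR (((Loc.Q K : ℕ) : 𝓞 K) ^ Setup.lev K * x.2.out)) := fun x => by
    obtain ⟨y, hy, e⟩ := hψ x
    rw [e, hκ _ _ _ hy]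
  simp only [e1]
  refine Summable.tsum_prod (summable_of_hasFiniteSupport
    (((b5ds_fin hC).prod Set.finite_univ).subset fun x hx => ⟨fun h => hx (h0 _ ?_), trivial⟩))
  rw [b5ds_per _ _ _ (Ideal.mul_mem_right _ _ (Ideal.mem_span_singleton_self _)), h]

/-- the index of `C Q^lev 𝔭` in `C Q^lev 𝓞` is `N p` -/
theorem KS_k0_idl {p : R K} (hp : Prime p) {C : R K} (hC : C ≠ 0) :
    KS (QI K (Setup.lev K) * idl p) (k0 K) C 0 = (N p : ℂ) * KS (QI K (Setup.lev K)) (k0 K) C 0 := by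
  have : Finite (𝓞 K ⧸ idl p) := Ideal.finiteQuotientOfFreeOfNeBot _ (idl_ne_bot hp.ne_zero)
  have hper : Per3 (QI K (Setup.lev K) * idl p) (k0 K) := fun C D t ht =>
    b5ds_per C D t (Ideal.mul_le_left ht)
  rw [b5ds_KS hp.ne_zero hC hper fun _ h => h]
  simp only [KS, zero_mul, zero_div, eT_zero, mul_one]
  rw [← tsum_mul_left]
  refine tsum_congr fun D => ?_
  have e1 : ∀ t : 𝓞 K ⧸ idl p, k0 K C (D.out + C * toR (((Loc.Q K : ℕ) : 𝓞 K) ^ Setup.lev K * t.out)) =
      k0 K C D.out := fun t =>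
    b5ds_per _ _ _ (Ideal.mul_mem_right _ _ (Ideal.mem_span_singleton_self _))
  simp only [e1]
  rw [tsum_const, nsmul_eq_mul, ← Submodule.cardQuot_apply, ← Ideal.absNorm_apply, absNorm_idl, N,
    Complex.ofReal_natCast]

/-- for `p ∤ C` every class modulo `C Q^lev 𝓞` has exactly one lift modulo `C Q^lev 𝔭` divisible by `p`; for
`p ∣ C` the rows are not coprime -/
theorem KS_on_idl {p : R K} (hp : Prime p) {C : R K} (hC : C ≠ 0) :
    KS (QI K (Setup.lev K) * idl p) (kp (on p)) C 0 = KS (QI K (Setup.lev K)) (kpi 1 (off p)) C 0 := by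
  have hk : ∀ D, kp (on p) C D = if p ∣ D then k0 K C D else 0 := fun D => by
    simp only [k0, kp, on, and_true]
    by_cases h : p ∣ D <;> simp [h]
  rw [b5ds_KS hp.ne_zero hC (per3_kp_on hp) fun D h => by rw [hk, h, ite_self]]
  simp only [KS, zero_mul, zero_div, eT_zero, mul_one]
  refine tsum_congr fun D => ?_
  have e1 : ∀ t : 𝓞 K ⧸ idl p, k0 K C (D.out + C * toR (((Loc.Q K : ℕ) : 𝓞 K) ^ Setup.lev K * t.out)) =
      k0 K C D.out := fun t =>
    b5ds_per _ _ _ (Ideal.mul_mem_right _ _ (Ideal.mem_span_singleton_self _))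
  simp only [kpi, tr_one, off]
  by_cases hpC : p ∣ C
  · rw [if_neg (not_not.2 hpC)]
    refine (tsum_congr fun t => ?_).trans tsum_zero
    by_contra h
    have h1 := (rowBd_kp (idl_on p)).cop _ _ h
    rw [hk] at h
    split_ifs at h with h2
    · exact hp.not_isUnit (h1.isUnit_of_dvd' hpC h2)
    · exact h rfl
  rw [if_pos hpC]
  simp only [hk, e1]
  have hq : IsUnit (toR (((Loc.Q K : ℕ) : 𝓞 K) ^ Setup.lev K) : R K) := by
    rw [map_pow, map_natCast]; exact isUnit_Q.pow _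
  have hnd : ¬ p ∣ C * toR (((Loc.Q K : ℕ) : 𝓞 K) ^ Setup.lev K) := fun h =>
    hpC (hq.dvd_mul_right.1 h)
  obtain ⟨a, b, hab⟩ := (hp.coprime_iff_not_dvd).2 hnd
  obtain ⟨y, hy⟩ := exists_toR_congr hp.ne_zero (-(b * D.out))
  have hy' : p ∣ toR ((Ideal.Quotient.mk (idl p) y).out - y) :=
    mem_idl.1 (Ideal.Quotient.eq.1 (Ideal.Quotient.mk_out _))
  have h1 : p ∣ D.out + C * toR (((Loc.Q K : ℕ) : 𝓞 K) ^ Setup.lev K *
      (Ideal.Quotient.mk (idl p) y).out) := by
    have := dvd_add (dvd_sub (hy'.mul_left (C * toR (((Loc.Q K : ℕ) : 𝓞 K) ^ Setup.lev K)))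
      (hy.mul_left (C * toR (((Loc.Q K : ℕ) : 𝓞 K) ^ Setup.lev K)))) (dvd_mul_right p (a * D.out))
    convert this using 1
    simp only [map_mul, map_sub]
    linear_combination (-D.out) * hab
  rw [tsum_eq_single (Ideal.Quotient.mk (idl p) y), if_pos h1]
  intro t ht
  refine if_neg fun h2 => ht ?_
  have h3 := dvd_sub h2 h1
  rw [show D.out + C * toR (((Loc.Q K : ℕ) : 𝓞 K) ^ Setup.lev K * t.out) -
      (D.out + C * toR (((Loc.Q K : ℕ) : 𝓞 K) ^ Setup.lev K * (Ideal.Quotient.mk (idl p) y).out)) =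
      C * toR (((Loc.Q K : ℕ) : 𝓞 K) ^ Setup.lev K) * toR (t.out - (Ideal.Quotient.mk (idl p) y).out) by
    simp only [map_mul, map_sub]; ring] at h3
  rw [← Ideal.Quotient.mk_out t, ← Ideal.Quotient.mk_out (Ideal.Quotient.mk (idl p) y)]
  exact Ideal.Quotient.eq.2 (mem_idl.2 ((hp.dvd_or_dvd h3).resolve_left hnd))

theorem DS_k0_idl {p : R K} (hp : Prime p) (s : ℂ) :
    DS (QI K (Setup.lev K) * idl p) (k0 K) 0 s = (N p : ℂ) * DS (QI K (Setup.lev K)) (k0 K) 0 s := by
  rw [DS, DS, ← tsum_mul_left]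
  refine tsum_congr fun C => ?_
  split_ifs with h
  · rw [mul_zero]
  · rw [KS_k0_idl hp h]; ring

theorem DS_on_idl {p : R K} (hp : Prime p) (s : ℂ) :
    DS (QI K (Setup.lev K) * idl p) (kp (on p)) 0 s = DS (QI K (Setup.lev K)) (kpi 1 (off p)) 0 s := by
  rw [DS, DS]
  refine tsum_congr fun C => ?_
  split_ifs with h
  · rfl
  · rw [KS_on_idl hp h]

theorem DS_const_mul (I : Ideal (𝓞 K)) (a : ℂ) (κ : R K → R K → ℂ) (n : K) (s : ℂ) :
    DS I (fun C D => a * κ C D) n s = a * DS I κ n s := by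
  rw [DS, DS, ← tsum_mul_left]
  refine tsum_congr fun C => ?_
  split_ifs with h
  · rw [mul_zero]
  · simp only [KS, mul_assoc, tsum_mul_left]; ring

end Crest.Agent.R312.Th
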