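import Crest.Agent.R312.B5Kub
import Crest.Agent.R312.B5Res
import Crest.Agent.R312.B3WVal

/-!
# R312 / B5BDefs : definitions for section B of `ReadB5` (owner helper53).  DO NOT EDIT.
-/

set_option autoImplicit false

noncomputable section

open scoped Classical ComplexConjugate NumberField Topology
open MeasureTheory Filter
open Crest.Agent.R17.Vor (SL nn SS pw)

namespace Crest.Agent.R312.Th

variable {K : Type} [Field K] [NumberField K] [Fld K] [Loc K] [Setup K]

/-- the `S`-part of `eT`: trivial on `SInt`, equal to `eT` on `R` -/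
def eS (x : K) : ℂ := eT x * conj (ee x)

/-- `∏_{v ∈ S} N v ^ {v(x)}` -/
def sS (x : K) : ℝ := aN x / NK x

omit [Fld K] [Setup K] in
/-- the lattice `w · SInt` -/
def latK (w : K) : AddSubgroup K where
  carrier := {x | SInt (x / w)}
  zero_mem' := by simpa using SInt.zero
  add_mem' := fun {a b} ha hb => by simpa [add_div] using SInt.add ha hb
  neg_mem' := fun {a} ha => by simpa [neg_div] using SInt.neg ha

variable (K) in
/-- `U = U_lev` -/
def Usub : Subgroup Kˣ where
  carrier := {x | InU (Setup.lev K) (x : K)}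
  one_mem' := by simpa using InU.one _
  mul_mem' := fun {a b} ha hb => by simpa using InU.mul ha hb
  inv_mem' := fun {a} ha => by simpa using InU.inv Setup.lev_pos ha

variable (K) in
/-- the classes `K^*/U` -/
def CU : Type := Kˣ ⧸ Usub K

instance : CommGroup (CU K) := inferInstanceAs (CommGroup (Kˣ ⧸ Usub K))

/-- the class of `x` (junk value `1` at `0`) -/
def cu (x : K) : CU K :=
  if h : x = 0 then 1 else (QuotientGroup.mk (Units.mk0 x h) : Kˣ ⧸ Usub K)

/-- a representative in `R` -/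
def rep (c : CU K) : R K := if h : ∃ C : R K, C ≠ 0 ∧ cu (C : K) = c then h.choose else 1

/-- the image in `G` -/
def toG (c : CU K) : G K := cl (rep c)

/-- the cubic reciprocity bicharacter -/
def H3 (g h : G K) : ℂ := HH g h ^ 2

/-- the ideal `(m)` has a generator in the class `c` -/
def Has (c : CU K) (m : R K) : Prop := ∃ C : R K, C ≠ 0 ∧ Associated C m ∧ cu (C : K) = c

/-- such a generator -/
def pick (c : CU K) (m : R K) : R K := if h : Has c m then h.choose else 0

variable (K) in
/-- `Υ = R^* ∩ U` -/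
def UpsAll : Subgroup (R K)ˣ where
  carrier := {u | InU (Setup.lev K) ((u : R K) : K)}
  one_mem' := by simpa using InU.one _
  mul_mem' := fun {a b} ha hb => by simpa using InU.mul ha hb
  inv_mem' := fun {a} ha => by
    have h := InU.inv Setup.lev_pos ha
    have e : (((a⁻¹ : (R K)ˣ) : R K) : K) = (((a : R K) : K))⁻¹ := by
      refine eq_inv_of_mul_eq_one_left ?_
      rw [← Subring.coe_mul, Units.inv_mul, Subring.coe_one]
    change InU _ _
    rwa [e]

variable (K) in
/-- the index `[Υ : Ups M]` -/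
def kU (M : ℕ) : ℕ := (Ups K M).relIndex (UpsAll K)

/-- the `S`-adic condition `(C,D) σ⁻¹ ≡ (0,1)` -/
def ind (σ : SL (R K)) (C D : K) : Prop :=
  InJ (Setup.lev K) (C * σ.d - D * σ.c) ∧ InU (Setup.lev K) (-(C * σ.b) + D * σ.a)

/-- the local sum at `S` -/
def LL (σ : SL (R K)) (e : ℕ) (C n : K) : ℂ :=
  ∑' D : K ⧸ latK ((Loc.Q K : K) ^ e * C), if ind σ C D.out then eS (n * D.out / C) else 0

/-- the level `e` is large enough for `σ` -/
def Good (σ : SL (R K)) (e : ℕ) : Prop := ∃ e0 : ℕ, Setup.lev K + 2 * e0 ≤ e ∧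
  SInt ((Loc.Q K : K) ^ e0 * σ.a) ∧ SInt ((Loc.Q K : K) ^ e0 * σ.b) ∧
  SInt ((Loc.Q K : K) ^ e0 * σ.c) ∧ SInt ((Loc.Q K : K) ^ e0 * σ.d)

/-- the rows of `Γ σ` with a condition on `C` -/
def kpi (σ : SL (R K)) (π : R K → Prop) (C D : R K) : ℂ := if π C then tr σ (k0 K) C D else 0

/-- `π` only depends on the ideal -/
def Idl (π : R K → Prop) : Prop := ∀ a b, Associated a b → (π a ↔ π b)

/-- Patterson's Dirichlet series restricted to the class `c` and to `π` -/
def psi (π : R K → Prop) (c : CU K) (n : R K) (s : ℂ) : ℂ :=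
  dser (fun m => if π m ∧ Has c m then gs (pick c m) (cub m) n else 0) s

/-- no condition -/
def all : R K → Prop := fun _ => True
/-- prime to `p` -/
def off (p : R K) : R K → Prop := fun m => ¬ p ∣ m
/-- divisible by `p` -/
def on (p : R K) : R K → Prop := fun m => p ∣ m

/-- the residue of `psi all` -/
def rho0 (c : CU K) (n : R K) : ℂ := res43 K (psi all c n)

omit [Fld K] [Setup K] in
/-- `Q` as a unit of `R` -/
def Qu : (R K)ˣ := (isUnit_Q (K := K)).unit

omit [Fld K] [Setup K] in
/-- `(Q^k, 0; c₀, Q^{-k})` -/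
def sig (k : ℕ) (c0 : R K) : SL (R K) :=
  ⟨((Qu ^ k : (R K)ˣ) : R K), 0, c0, (((Qu ^ k)⁻¹ : (R K)ˣ) : R K), by
    rw [Units.mul_inv, zero_mul, sub_zero]⟩

/-- the coefficient of `psi` in `DS` -/
def cf (σ : SL (R K)) (e : ℕ) (n : R K) (c : CU K) : ℂ :=
  (kU K (M0 K) : ℂ) * conj (cub σ.a σ.b * H3 (cl σ.a) (toG c)) * LL σ e (rep c : K) (n : K)

end Crest.Agent.R312.Th
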