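import Crest.Agent.R312.B5BRow

/-!
# R312 / B5BPsi : identities between the series `psi` (port of R17/VoRho1)

For primary `m = p^k m'`, `p ∤ m'`: `p^k · pick (c / cu p^k) m'` is a generator of `(m)` in the class `c`
(`gs_pick`), and `g(p^k C', n) = H3(p,c)^k g(p^k, n) g(C', n p^k)` (`gs_mul`, `cub_rec3`, `gs_mul_unit`,
`H3_self`).  `cub (p^k)` is periodic modulo `p`, so `gs_lift` gives `g(p^k, n) = 0` unless `p^{k-1} ∣ n`.
-/

set_option autoImplicit false
set_option linter.unusedSectionVars false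

noncomputable section

open scoped Classical ComplexConjugate NumberField Topology
open MeasureTheory Filter
open Crest.Agent.R17.Vor (SL nn SS pw)

namespace Crest.Agent.R312.Th

variable {K : Type} [Field K] [NumberField K] [Fld K] [Loc K] [Setup K]

theorem bpsi_cub {c : CU K} {m : R K} (h : Has c m) : cub m = cub (pick c m) :=
  funext fun d => (sym_assoc 3 (pick_spec h).2.1 d).symm

theorem bpsi_isChar {c : CU K} {m : R K} (h : Has c m) : IsChar (pick c m) (cub m) := by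
  rw [bpsi_cub h]
  exact cub_isChar (pick_spec h).1

theorem bpsi_cl {c : CU K} {m : R K} (h : Has c m) : cl (pick c m) = toG c := by
  rw [← toG_cu (pick_spec h).1, (pick_spec h).2.2]

theorem bpsi_coe_ne {a : R K} (ha : a ≠ 0) : (a : K) ≠ 0 := fun h => ha (Subtype.ext h)

theorem bpsi_cu_mul {a b : R K} (ha : a ≠ 0) (hb : b ≠ 0) :
    cu ((a * b : R K) : K) = cu (a : K) * cu (b : K) := by
  rw [Subring.coe_mul, cu_mul (bpsi_coe_ne ha) (bpsi_coe_ne hb)]

theorem bpsi_cu_pow {a : R K} (ha : a ≠ 0) (j : ℕ) : cu ((a ^ j : R K) : K) = cu (a : K) ^ j := by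
  rw [SubmonoidClass.coe_pow, cu_pow (bpsi_coe_ne ha)]

theorem bpsi_has_mul {a : R K} (ha : a ≠ 0) (c : CU K) (m : R K) :
    Has (c * cu (a : K)) (a * m) ↔ Has c m := by
  constructor
  · rintro ⟨C, hC, h1, h2⟩
    obtain ⟨C', rfl⟩ : a ∣ C := (Dvd.intro m rfl).trans h1.symm.dvd
    have hC' : C' ≠ 0 := right_ne_zero_of_mul hC
    refine ⟨C', hC', h1.of_mul_left (Associated.refl a) ha, ?_⟩
    rw [bpsi_cu_mul ha hC', mul_comm] at h2
    exact mul_right_cancel h2
  · rintro ⟨C, hC, h1, h2⟩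
    exact ⟨a * C, mul_ne_zero ha hC, h1.mul_left a, by rw [bpsi_cu_mul ha hC, h2, mul_comm]⟩

theorem bpsi_has_assoc {c : CU K} {m m' : R K} (h : Associated m m') : Has c m ↔ Has c m' :=
  ⟨fun ⟨C, hC, h1, h2⟩ => ⟨C, hC, h1.trans h, h2⟩, fun ⟨C, hC, h1, h2⟩ => ⟨C, hC, h1.trans h.symm, h2⟩⟩

theorem bpsi_H3_pow_right (g h : G K) (k : ℕ) : H3 g (h ^ k) = H3 g h ^ k := by
  induction k with
  | zero => rw [pow_zero, pow_zero, H3_one_right]
  | succ k ih => rw [pow_succ, pow_succ, H3_mul_right, ih]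

theorem bpsi_H3_pow_left (g h : G K) (k : ℕ) : H3 (g ^ k) h = H3 g h ^ k := by
  induction k with
  | zero => rw [pow_zero, pow_zero, H3_one_left]
  | succ k ih => rw [pow_succ, pow_succ, H3_mul_left, ih]

theorem bpsi_gs_cube {C x : R K} (hC : C ≠ 0) (hx : IsCoprime x C) (n : R K) :
    gs C (cub C) (x ^ 3 * n) = gs C (cub C) n := by
  rw [gs_mul_unit hC (cub_isChar hC) hx.pow_left, IsChar_pow (cub_isChar hC), key_cube hC hx, map_one, one_mul]

theorem norm_psi_term (π : R K → Prop) (c : CU K) (n m : R K) (hm : Prim m) :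
    ‖if π m ∧ Has c m then gs (pick c m) (cub m) n else 0‖ ≤ 1 * N m ^ (1 : ℝ) := by
  rw [one_mul, Real.rpow_one]
  split_ifs with h
  · have h1 := pick_spec h.2
    rw [← N_assoc h1.2.1]
    exact norm_gs_le h1.1 (fun x => (cub_isChar hm.ne_zero).norm_le hm.ne_zero x) n
  · rw [norm_zero]
    exact N_nonneg m

theorem psi_unit_cube (π : R K → Prop) (c : CU K) (η : (R K)ˣ) (n : R K) :
    psi π (c * cu ((η : R K) : K) ^ 3) n = psi π c n := by
  funext s
  refine dser_congr (fun m _ => ?_) s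
  have hη : ((η : R K) ^ 3) ≠ 0 := pow_ne_zero 3 η.ne_zero
  have hu : IsUnit ((η : R K) ^ 3) := η.isUnit.pow 3
  have h1 : Has (c * cu ((η : R K) : K) ^ 3) m ↔ Has c m := by
    rw [← bpsi_cu_pow η.ne_zero, ← bpsi_has_mul hη c m]
    exact bpsi_has_assoc (associated_unit_mul_right m _ hu)
  by_cases h : π m ∧ Has c m
  · rw [if_pos h, if_pos ⟨h.1, h1.2 h.2⟩]
    obtain ⟨hC, ha, hc⟩ := pick_spec h.2
    have ha' : Associated ((η : R K) ^ 3 * pick c m) (pick c m) := associated_unit_mul_left _ _ hu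
    rw [gs_pick (mul_ne_zero hη hC) (ha'.trans ha) (by rw [bpsi_cu_mul hη hC, bpsi_cu_pow η.ne_zero, hc, mul_comm]),
      bpsi_cub h.2, show cub ((η : R K) ^ 3 * pick c m) = cub (pick c m) from funext fun d => sym_assoc 3 ha' d]
    have e : n = (η : R K) ^ 3 * (((η⁻¹ : (R K)ˣ) : R K) ^ 3 * n) := by
      rw [← mul_assoc, ← mul_pow, Units.mul_inv, one_pow, one_mul]
    conv_lhs => rw [e]
    rw [gs_unit_mul hC (cub_isChar hC).per hu, bpsi_gs_cube hC (prim_unit_coprime (Units.isUnit _) _)]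
  · rw [if_neg h, if_neg fun hh => h ⟨hh.1, h1.1 hh.2⟩]

theorem psi_unit_mul (π : R K → Prop) (c : CU K) {η : R K} (hη : IsUnit η) (n : R K) (s : ℂ) :
    psi π c (η * n) s = conj (H3 (toG c) (cl η)) * psi π c n s := by
  unfold psi dser
  rw [← tsum_mul_left]
  refine tsum_congr fun m => ?_
  beta_reduce
  split_ifs with h1 h2
  · have hC := (pick_spec h2.2).1
    rw [gs_mul_unit hC (bpsi_isChar h2.2) (prim_unit_coprime hη _), bpsi_cub h2.2, cub_unit3 hC hη,
      bpsi_cl h2.2]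
    ring
  · rw [zero_mul, mul_zero]
  · rw [mul_zero]

theorem psi_unit_cube' (π : R K → Prop) (c : CU K) {η : R K} (hη : IsUnit η) (n : R K) :
    psi π c (η ^ 3 * n) = psi π c n := by
  funext s
  rw [psi_unit_mul π c (hη.pow 3), cl_pow hη.ne_zero, bpsi_H3_pow_right, H3_cube, map_one, one_mul]

theorem psi_finite (π : R K → Prop) (n : R K) : (Set.range fun c : CU K => psi π c n).Finite := by
  obtain ⟨T, hT⟩ := finite_CU (K := K)
  refine (T.finite_toSet.image fun c => psi π c n).subset ?_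
  rintro _ ⟨c, rfl⟩
  obtain ⟨t, ht, η, rfl⟩ := hT c
  exact ⟨t, ht, (psi_unit_cube π t η n).symm⟩

theorem bpsi_summable (π : R K → Prop) (c : CU K) (n : R K) {s : ℂ} (hs : 2 < s.re) :
    Summable fun m : R K => ‖if Prim m then
      (if π m ∧ Has c m then gs (pick c m) (cub m) n else 0) * (N m : ℂ) ^ (-s) else 0‖ :=
  summable_dser' (norm_psi_term π c n) (by linarith)

theorem psi_all_eq (p : R K) (c : CU K) (n : R K) {s : ℂ} (hs : 2 < s.re) :
    psi all c n s = psi (on p) c n s + psi (off p) c n s := by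
  unfold psi dser
  rw [← (bpsi_summable _ c n hs).of_norm.tsum_add (bpsi_summable _ c n hs).of_norm]
  refine tsum_congr fun m => ?_
  by_cases a1 : Prim m <;> by_cases a2 : Has c m <;> by_cases a3 : p ∣ m <;> simp [a1, a2, a3, all, on, off]

theorem gs_prime_pow_mul {p C : R K} (hp : Prime p) (hC : C ≠ 0) (hpC : ¬ p ∣ C) (k : ℕ) (n : R K) :
    gs (p ^ k * C) (cub (p ^ k * C)) n =
      H3 (cl p) (cl C) ^ k * gs (p ^ k) (cub (p ^ k)) n * gs C (cub C) (n * p ^ k) := by
  have hk : p ^ k ≠ 0 := pow_ne_zero k hp.ne_zero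
  have hco : IsCoprime (p ^ k) C := (hp.irreducible.coprime_iff_not_dvd.2 hpC).pow_left
  have e : cub (p ^ k * C) = fun x => cub (p ^ k) x * cub C x := funext (sym_mul_left 3 hk hC)
  rw [e, gs_mul hk hC hco (cub_isChar hk) (cub_isChar hC), cub_rec3 hk hC, mul_comm n,
    gs_mul_unit hC (cub_isChar hC) hco, conj_cub hC, cl_pow hp.ne_zero, bpsi_H3_pow_left]
  ring

theorem bpsi_cub_pow {p : R K} (hp : p ≠ 0) (k : ℕ) : cub (p ^ k) = fun x => cub p x ^ k :=
  funext fun x => sym_pow_left 3 hp k x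

theorem bpsi_per {p : R K} (k : ℕ) : Per p fun x => cub p x ^ k := fun x t => by
  have h : cub p (x + p * t) = cub p x := sym_per 3 p x t
  simp only [h]

theorem bpsi_lift {p : R K} (hp : p ≠ 0) (k : ℕ) (r : R K) :
    gs (p ^ (k + 1)) (cub (p ^ (k + 1))) r =
      if p ^ k ∣ r then (N (p ^ k) : ℂ) * gs p (fun x => cub p x ^ (k + 1)) (dv r (p ^ k)) else 0 := by
  rw [bpsi_cub_pow hp, pow_succ', gs_lift hp (pow_ne_zero k hp) (bpsi_per _)]

theorem bpsi_N_pow (p : R K) (k : ℕ) (w : ℂ) : (N (p ^ k) : ℂ) ^ w = ((N p : ℂ) ^ w) ^ k := by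
  induction k with
  | zero => simp
  | succ k ih => rw [pow_succ, N_cpow_mul, ih, pow_succ]

theorem bpsi_term {p : R K} (hp : Prime p) (c : CU K) (n : R K) (k : ℕ) {m : R K} (hm : ¬ p ∣ m) :
    (if all (p ^ k * m) ∧ Has c (p ^ k * m) then gs (pick c (p ^ k * m)) (cub (p ^ k * m)) n else 0) =
      H3 (cl p) (toG c) ^ k * gs (p ^ k) (cub (p ^ k)) n *
        (if off p m ∧ Has (c / cu (p : K) ^ k) m then
          gs (pick (c / cu (p : K) ^ k) m) (cub m) (n * p ^ k) else 0) := by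
  have hk : p ^ k ≠ 0 := pow_ne_zero k hp.ne_zero
  have hc : c = c / cu (p : K) ^ k * cu ((p ^ k : R K) : K) := by
    rw [bpsi_cu_pow hp.ne_zero, div_mul_cancel]
  have h1 : Has c (p ^ k * m) ↔ Has (c / cu (p : K) ^ k) m := by
    conv_lhs => rw [hc]
    exact bpsi_has_mul hk _ m
  by_cases h : Has (c / cu (p : K) ^ k) m
  · rw [if_pos ⟨trivial, h1.2 h⟩, if_pos ⟨hm, h⟩]
    obtain ⟨hC, ha, hcu⟩ := pick_spec h
    have h2 : H3 (cl p) (toG c) = H3 (cl p) (cl (pick (c / cu (p : K) ^ k) m)) := by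
      conv_lhs => rw [hc]
      rw [toG_mul, toG_cu hk, cl_pow hp.ne_zero, H3_mul_right, bpsi_H3_pow_right, H3_self, one_pow, mul_one,
        bpsi_cl h]
    rw [gs_pick (mul_ne_zero hk hC) (ha.mul_left _) (by rw [bpsi_cu_mul hk hC, hcu, mul_comm, ← hc]),
      gs_prime_pow_mul hp hC (fun hh => hm (hh.trans ha.dvd)), h2, ← bpsi_cub h]
  · rw [if_neg fun hh => h (h1.1 hh.2), if_neg fun hh => h hh.2, mul_zero]

/-- splitting off the `p`-part -/
theorem psi_split {p : R K} (hp : Prime p) (hp' : Prim p) (c : CU K) {n : R K} {j : ℕ}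
    (hj : ¬ p ^ j ∣ n) {s : ℂ} (hs : 2 < s.re) :
    psi all c n s = ∑ k ∈ Finset.range (j + 1), (N p : ℂ) ^ (-(k * s)) * H3 (cl p) (toG c) ^ k *
      gs (p ^ k) (cub (p ^ k)) n * psi (off p) (c / cu (p : K) ^ k) (n * p ^ k) s := by
  set T : R K → ℂ := fun m =>
    (if all m ∧ Has c m then gs (pick c m) (cub m) n else 0) * (N m : ℂ) ^ (-s) with hT
  have hS : Summable fun m : R K => ‖if Prim m then T m else 0‖ := bpsi_summable all c n hs
  have e1 : ∀ m : R K, (if Prim m then T m else 0) = ∑ k ∈ Finset.range (j + 1),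
      if Prim m ∧ p ^ k ∣ m then (if ¬ p ^ (k + 1) ∣ m then T m else 0) else 0 := fun m => by
    by_cases hm : Prim m
    · obtain ⟨i, m', h1, rfl⟩ := WfDvdMonoid.max_power_factor' hm.ne_zero hp.not_isUnit
      have hi : ∀ k, p ^ k ∣ p ^ i * m' ↔ k ≤ i := fun k => by
        refine ⟨fun h => ?_, fun h => (pow_dvd_pow p h).mul_right _⟩
        by_contra hk
        have h2 : p ^ i * p ∣ p ^ i * m' := by
          rw [← pow_succ]
          exact (pow_dvd_pow p (by omega)).trans h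
        exact h1 ((mul_dvd_mul_iff_left (pow_ne_zero i hp.ne_zero)).1 h2)
      rw [if_pos hm]
      by_cases hij : i ≤ j
      · rw [Finset.sum_eq_single i]
        · rw [if_pos ⟨hm, (hi i).2 le_rfl⟩, if_pos (by rw [hi]; omega)]
        · intro k _ hk
          by_cases h2 : k ≤ i
          · rw [if_neg (not_not.2 ((hi _).2 (by omega))), ite_self]
          · rw [if_neg fun hh => h2 ((hi k).1 hh.2)]
        · intro h2
          exact absurd (Finset.mem_range.2 (by omega)) h2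
      · rw [Finset.sum_eq_zero fun k hk => by
          rw [if_neg (not_not.2 ((hi _).2 (by have := Finset.mem_range.1 hk; omega))), ite_self]]
        obtain ⟨i, rfl⟩ : ∃ i', i = i' + 1 := ⟨i - 1, by omega⟩
        simp only [hT]
        rw [bpsi_term hp c n _ h1, bpsi_lift hp.ne_zero,
          if_neg fun hh => hj ((pow_dvd_pow p (by omega)).trans hh)]
        ring
    · rw [if_neg hm, Finset.sum_eq_zero fun k _ => if_neg fun hh => hm hh.1]
  have e2 : psi all c n s = ∑' m : R K, if Prim m then T m else 0 := rfl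
  rw [e2, tsum_congr e1, Summable.tsum_finsetSum]
  · refine Finset.sum_congr rfl fun k _ => ?_
    rw [tsum_prim_dvd (hp'.pow k)]
    unfold psi dser
    rw [← tsum_mul_left]
    refine tsum_congr fun m => ?_
    beta_reduce
    by_cases hm : Prim m
    · rw [if_pos hm, if_pos hm, pow_succ, mul_dvd_mul_iff_left (pow_ne_zero k hp.ne_zero)]
      by_cases h1 : p ∣ m
      · rw [if_neg (not_not.2 h1), if_neg fun hh => hh.1 h1, zero_mul, mul_zero]
      · rw [if_pos h1]
        simp only [hT]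
        rw [bpsi_term hp c n k h1, N_cpow_mul, bpsi_N_pow, show -((k : ℂ) * s) = k * (-s) by ring,
          Complex.cpow_nat_mul]
        ring
    · rw [if_neg hm, if_neg hm, mul_zero]
  · intro k _
    refine Summable.of_norm_bounded hS fun m => ?_
    by_cases hm : Prim m
    · rw [if_pos hm]
      split_ifs <;> simp
    · rw [if_neg fun hh => hm hh.1, norm_zero]
      exact norm_nonneg _

/-- (c) -/
theorem psi_off_cube {p : R K} (hp : Prime p) (c : CU K) (n : R K) :
    psi (off p) c (n * p ^ 3) = psi (off p) c n := by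
  funext s
  refine dser_congr (fun m _ => ?_) s
  split_ifs with h
  · obtain ⟨hC, ha, -⟩ := pick_spec h.2
    rw [bpsi_cub h.2, mul_comm n,
      bpsi_gs_cube hC (hp.irreducible.coprime_iff_not_dvd.2 fun hh => h.1 (hh.trans ha.dvd))]
  · rfl

theorem bpsi_gs_one (n : R K) : gs 1 (cub 1) n = 1 := (s3_unit isUnit_one (cub_isChar one_ne_zero) n).2

theorem bpsi_gs_zero {p : R K} (hp : Prime p) {k : ℕ} (hk : k = 1 ∨ k = 2) (n : R K) :
    gs p (fun x => cub p x ^ k) (n * p) = 0 := by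
  obtain ⟨d, h1, h2, h3⟩ := gamB_exists_om hp
  have hc := (cub_isChar hp.ne_zero).pow_char (j := k) (by omega)
  rw [gs_prime_nonprinc hp hc ⟨d, h1, by rcases hk with rfl | rfl; exacts [by simpa using h2, h3]⟩,
    (hc.zero_iff (n * p)).2 fun hh => hp.not_isUnit (hh.isUnit_of_dvd' (Dvd.intro_left n rfl) dvd_rfl),
    map_zero, zero_mul]

/-- (a) -/
theorem psi_a {p : R K} (hp : Prime p) (hp' : Prim p) (c : CU K) {n : R K} (hn : ¬ p ∣ n) {s : ℂ}
    (hs : 2 < s.re) : psi all c n s = psi (off p) c n s + (N p : ℂ) ^ (-s) *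
      (gs p (cub p) n * H3 (cl p) (toG c)) * psi (off p) (c / cu (p : K)) (n * p) s := by
  rw [psi_split hp hp' c (j := 1) (by rwa [pow_one]) hs, Finset.sum_range_succ, Finset.sum_range_one]
  simp only [pow_zero, pow_one, bpsi_gs_one, Nat.cast_zero, Nat.cast_one, zero_mul, neg_zero, Complex.cpow_zero,
    one_mul, mul_one, div_one]
  ring

/-- (a') -/
theorem psi_a' {p : R K} (hp : Prime p) (hp' : Prim p) (c : CU K) {n : R K} (hn : ¬ p ∣ n) {s : ℂ}
    (hs : 2 < s.re) : psi all c (n * p) s = psi (off p) c (n * p) s + (N p : ℂ) ^ (1 - 2 * s) *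
      (conj (gs p (cub p) n) * H3 (cl p) (toG c) ^ 2) * psi (off p) (c / cu (p : K) ^ 2) n s := by
  have hN : (N p : ℂ) ≠ 0 := by exact_mod_cast (N_pos hp.ne_zero).ne'
  have h2 : ¬ p ^ 2 ∣ n * p := fun h => hn ((mul_dvd_mul_iff_right hp.ne_zero).1 (by rwa [← pow_two]))
  have h1 : gs p (cub p) (n * p) = 0 := by simpa using bpsi_gs_zero hp (k := 1) (Or.inl rfl) n
  have h3 : gs (p ^ 2) (cub (p ^ 2)) (n * p) = (N p : ℂ) * conj (gs p (cub p) n) := by
    rw [bpsi_lift hp.ne_zero 1, pow_one, if_pos (Dvd.intro_left n rfl), dv_mul_right hp.ne_zero]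
    congr 1
    have e : gs p (cub p) n = gs p (cub p) (-1 * n) := by
      rw [gs_mul_unit hp.ne_zero (cub_isChar hp.ne_zero) (prim_unit_coprime isUnit_one.neg _),
        cub_neg_one hp.ne_zero, map_one, one_mul]
    rw [e, conj_gs hp.ne_zero, neg_one_mul, neg_neg]
    congr 1
    funext x
    rw [conj_cub hp.ne_zero]
  have e : (N p : ℂ) ^ (1 - 2 * s) = (N p : ℂ) ^ (-(((2 : ℕ) : ℂ) * s)) * N p := by
    rw [show 1 - 2 * s = -(((2 : ℕ) : ℂ) * s) + 1 by push_cast; ring, Complex.cpow_add _ _ hN, Complex.cpow_one]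
  rw [psi_split hp hp' c h2 hs, Finset.sum_range_succ, Finset.sum_range_succ, Finset.sum_range_one, h3, e,
    show n * p * p ^ 2 = n * p ^ 3 by ring, psi_off_cube hp]
  simp only [pow_zero, pow_one, bpsi_gs_one, h1, Nat.cast_zero, zero_mul, neg_zero, Complex.cpow_zero,
    mul_one, div_one, mul_zero, add_zero]
  ring

/-- (b) -/
theorem psi_b {p : R K} (hp : Prime p) (hp' : Prim p) (c : CU K) {n : R K} (hn : ¬ p ∣ n) {s : ℂ}
    (hs : 2 < s.re) : psi all c (n * p ^ 2) s = psi (off p) c (n * p ^ 2) s -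
      (N p : ℂ) ^ (2 - 3 * s) * psi (off p) (c / cu (p : K) ^ 3) (n * p ^ 2) s := by
  have hN : (N p : ℂ) ≠ 0 := by exact_mod_cast (N_pos hp.ne_zero).ne'
  have hp2 : p ^ 2 ≠ 0 := pow_ne_zero 2 hp.ne_zero
  have h0 : ¬ p ^ 3 ∣ n * p ^ 2 := fun h => hn ((mul_dvd_mul_iff_right hp2).1 (by rwa [← pow_succ']))
  have h1 : gs p (cub p) (n * p ^ 2) = 0 := by
    rw [show n * p ^ 2 = n * p * p by ring]
    simpa using bpsi_gs_zero hp (k := 1) (Or.inl rfl) (n * p)
  have h2 : gs (p ^ 2) (cub (p ^ 2)) (n * p ^ 2) = 0 := by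
    rw [bpsi_lift hp.ne_zero 1, pow_one, show n * p ^ 2 = n * p * p by ring, if_pos (Dvd.intro_left _ rfl),
      dv_mul_right hp.ne_zero, bpsi_gs_zero hp (Or.inr rfl), mul_zero]
  have h3 : gs (p ^ 3) (cub (p ^ 3)) (n * p ^ 2) = -(N p : ℂ) ^ 2 := by
    have hn' : ¬ NonPrinc p fun x => cub p x ^ 3 := by
      rintro ⟨x, a1, a2⟩
      exact a2 (key_cube hp.ne_zero a1)
    rw [bpsi_lift hp.ne_zero 2, if_pos (Dvd.intro_left n rfl), dv_mul_right hp2,
      gs_prime_princ hp ((cub_isChar hp.ne_zero).pow_char (by norm_num)) hn', if_neg hn, N_pow]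
    push_cast
    ring
  have e : (N p : ℂ) ^ (2 - 3 * s) = (N p : ℂ) ^ (-(((3 : ℕ) : ℂ) * s)) * (N p : ℂ) ^ 2 := by
    rw [show 2 - 3 * s = -(((3 : ℕ) : ℂ) * s) + (2 : ℕ) by push_cast; ring, Complex.cpow_add _ _ hN,
      Complex.cpow_natCast]
  rw [psi_split hp hp' c h0 hs, Finset.sum_range_succ, Finset.sum_range_succ, Finset.sum_range_succ,
    Finset.sum_range_one, h3, h2, e, psi_off_cube hp, H3_cube]
  simp only [pow_zero, pow_one, bpsi_gs_one, h1, Nat.cast_zero, zero_mul, neg_zero, Complex.cpow_zero,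
    mul_one, div_one, mul_zero, add_zero]
  ring

end Crest.Agent.R312.Th
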