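import Crest.Agent.R312.B5BZ1
import Crest.Agent.R312.B5BPsi

/-!
# R312 / B5BZ2 : the residues of `psi π c 0`
-/

set_option autoImplicit false
set_option linter.unusedSectionVars false

noncomputable section

open scoped Classical ComplexConjugate NumberField Topology
open MeasureTheory Filter
open Crest.Agent.R17.Vor (SL nn SS pw)

namespace Crest.Agent.R312.Th

variable {K : Type} [Field K] [NumberField K] [Fld K] [Loc K] [Setup K]

theorem BZ2_f {ν : Tw K} (h0 : ν.ξ = 0) {x y : K} (hx : x ≠ 0) (hy : y ≠ 0) (η : (R K)ˣ)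
    (h : cu y = cu x * cu ((η : R K) : K)) : ν.f y = ν.f x := by
  have hη := wv_unit_ne η
  rw [← cu_mul hx hη, cu_eq_iff hy (mul_ne_zero hx hη)] at h
  have h1 := ν.ray _ h
  rw [h0, ch_zero] at h1
  have e : y = y / (x * ((η : R K) : K)) * x * ((η : R K) : K) := by field_simp
  rw [e, ν.mul, ν.mul, h1, ν.unit, one_mul, mul_one]

/-- the classes of units -/
def BZ2_H : Subgroup (CU K) where
  carrier := {c | ∃ η : (R K)ˣ, c = cu ((η : R K) : K)}
  one_mem' := ⟨1, by simp [cu_one]⟩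
  mul_mem' := by
    rintro _ _ ⟨a, rfl⟩ ⟨b, rfl⟩
    exact ⟨a * b, by rw [Units.val_mul, Subring.coe_mul, cu_mul (wv_unit_ne a) (wv_unit_ne b)]⟩
  inv_mem' := by
    rintro _ ⟨a, rfl⟩
    exact ⟨a⁻¹, by rw [wv_unit_inv, cu_inv]⟩

theorem BZ2_grp : ∃ (Γ : Type) (_ : CommGroup Γ) (_ : Finite Γ) (π : CU K →* Γ),
    Function.Surjective π ∧ ∀ c c', π c = π c' ↔ ∃ η : (R K)ˣ, c' = c * cu ((η : R K) : K) := by
  refine ⟨CU K ⧸ BZ2_H, inferInstance, ?_, QuotientGroup.mk' _, QuotientGroup.mk'_surjective _,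
    fun c c' => ?_⟩
  · obtain ⟨T, hT⟩ := finite_CU (K := K)
    refine Finite.of_surjective (fun t : T => (QuotientGroup.mk t.1 : CU K ⧸ BZ2_H)) fun g => ?_
    obtain ⟨c, rfl⟩ := QuotientGroup.mk_surjective g
    obtain ⟨t, ht, η, rfl⟩ := hT c
    refine ⟨⟨t, ht⟩, QuotientGroup.eq.2 ?_⟩
    rw [inv_mul_cancel_left]
    exact Subgroup.pow_mem BZ2_H (show cu ((η : R K) : K) ∈ BZ2_H from ⟨η, rfl⟩) 3
  · rw [QuotientGroup.mk'_apply, QuotientGroup.mk'_apply, QuotientGroup.eq]
    constructor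
    · rintro ⟨η, h⟩
      exact ⟨η, by rw [← h, mul_inv_cancel_left]⟩
    · rintro ⟨η, rfl⟩
      exact ⟨η, by rw [inv_mul_cancel_left]⟩

theorem BZ2_has {c : CU K} {m : R K} (hm : m ≠ 0) :
    Has c m ↔ ∃ η : (R K)ˣ, cu (m : K) = c * cu ((η : R K) : K) := by
  constructor
  · rintro ⟨C, hC, ⟨η, rfl⟩, rfl⟩
    exact ⟨η, bpsi_cu_mul hC η.ne_zero⟩
  · rintro ⟨η, h⟩
    refine ⟨m * (η⁻¹ : (R K)ˣ), mul_ne_zero hm (Units.ne_zero _), ⟨η, by simp⟩, ?_⟩
    rw [bpsi_cu_mul hm (Units.ne_zero _), h, wv_unit_inv, cu_inv, mul_inv_cancel_right]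

/-- Orthogonality for the finite group `Cl = CU / cu (R^*)` (`finite_CU`): its characters are the twists with
`ξ = 0`; `Has c m ⟺ cu m = c` in `Cl`.  (Mathlib: `AddChar.sum_apply_eq_ite` / `MulChar` duality for finite
commutative groups, `CommGroup.exists_apply_ne_one_of_hasEnoughRootsOfUnity`.) -/
theorem has_expand : ∃ T : Finset (Tw K), (∀ ν, ν ∈ T ↔ ν.ξ = 0) ∧ ∀ (c : CU K) (m : R K), m ≠ 0 →
    (if Has c m then (1 : ℂ) else 0) = (T.card : ℂ)⁻¹ * ∑ ν ∈ T, conj (ν.v (rep c)) * ν.v m := by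
  obtain ⟨Γ, _, _, π, hπ, hker⟩ := BZ2_grp (K := K)
  let _ : Fintype (Additive Γ) := Fintype.ofFinite _
  have hθ : ∀ χ : AddChar (Additive Γ) ℂ, ∃ θ : Tw K, θ.ξ = 0 ∧
      ∀ x : K, x ≠ 0 → θ.f x = χ (Additive.ofMul (π (cu x))) := by
    intro χ
    refine ⟨{ f := fun x => if x = 0 then 0 else χ (Additive.ofMul (π (cu x)))
              ξ := 0
              zero := if_pos rfl
              one := by rw [if_neg one_ne_zero, cu_one, map_one, ofMul_one, AddChar.map_zero_eq_one]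
              mul := fun x y => ?_
              norm := fun x hx => by rw [if_neg hx, AddChar.norm_apply]
              unit := fun u => ?_
              ray := fun x hx => ?_
              sum_zero := by simp }, rfl, fun x hx => if_neg hx⟩
    · by_cases hx : x = 0
      · simp [hx]
      · by_cases hy : y = 0
        · simp [hy]
        · rw [if_neg hx, if_neg hy, if_neg (mul_ne_zero hx hy), cu_mul hx hy, map_mul, ofMul_mul,
            AddChar.map_add_eq_mul]
    · rw [if_neg (wv_unit_ne u), ← (hker 1 _).2 ⟨u, (one_mul _).symm⟩, map_one, ofMul_one,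
        AddChar.map_zero_eq_one]
    · rw [if_neg (hx.ne_zero Setup.lev_pos), cu_of_inU hx, map_one, ofMul_one,
        AddChar.map_zero_eq_one, ch_zero]
  choose θ hθ1 hθ2 using hθ
  have hrep : ∀ c : CU K, (rep c : K) ≠ 0 := fun c => bpsi_coe_ne (rep_ne c)
  have hinj : Function.Injective θ := by
    intro χ χ' e
    refine AddChar.ext _ _ fun g => ?_
    obtain ⟨c, hc⟩ := hπ g.toMul
    have e1 := hθ2 χ _ (hrep c)
    rw [e, hθ2 χ' _ (hrep c), cu_rep, hc, ofMul_toMul] at e1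
    exact e1.symm
  refine ⟨Finset.univ.image θ, fun ν => ⟨fun h => ?_, fun h0 => ?_⟩, fun c m hm => ?_⟩
  · obtain ⟨χ, _, rfl⟩ := Finset.mem_image.1 h
    exact hθ1 χ
  · choose r hr using hπ
    have key : ∀ x : K, x ≠ 0 → ν.f (rep (r (π (cu x))) : K) = ν.f x := by
      intro x hx
      obtain ⟨η, hη⟩ := (hker _ _).1 (hr (π (cu x))).symm
      exact BZ2_f h0 hx (hrep _) η (by rw [cu_rep, hη])
    let χ : AddChar (Additive Γ) ℂ :=
      { toFun := fun g => ν.f (rep (r g.toMul) : K)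
        map_zero_eq_one' := by
          have := key 1 one_ne_zero
          rw [cu_one, map_one, ν.one] at this
          exact this
        map_add_eq_mul' := fun a b => by
          have := key _ (mul_ne_zero (hrep (r a.toMul)) (hrep (r b.toMul)))
          rw [cu_mul (hrep _) (hrep _), cu_rep, cu_rep, map_mul, hr, hr, ν.mul] at this
          exact this }
    refine Finset.mem_image.2 ⟨χ, Finset.mem_univ _, Tw.ext (funext fun x => ?_) (by rw [hθ1, h0])⟩
    by_cases hx : x = 0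
    · rw [hx, (θ χ).zero, ν.zero]
    · rw [hθ2 χ x hx]
      exact key x hx
  · rw [Finset.card_image_of_injective _ hinj, Finset.sum_image (fun a _ b _ h => hinj h),
      Finset.card_univ, AddChar.card_eq]
    have e : ∀ χ : AddChar (Additive Γ) ℂ, conj ((θ χ).v (rep c)) * (θ χ).v m =
        χ (Additive.ofMul (π (cu (m : K))) - Additive.ofMul (π c)) := by
      intro χ
      unfold Tw.v
      rw [hθ2 χ _ (hrep c), hθ2 χ _ (bpsi_coe_ne hm), cu_rep, sub_eq_add_neg,
        AddChar.map_add_eq_mul, AddChar.map_neg_eq_conj, mul_comm]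
    have hc' : (Fintype.card (Additive Γ) : ℂ) ≠ 0 := by exact_mod_cast Fintype.card_ne_zero
    simp only [e, AddChar.sum_apply_eq_ite, sub_eq_zero]
    have h1 : Has c m ↔ Additive.ofMul (π (cu (m : K))) = Additive.ofMul (π c) := by
      rw [BZ2_has hm, ← hker, eq_comm]
      exact Additive.ofMul.apply_eq_iff_eq.symm
    by_cases h : Has c m
    · rw [if_pos h, if_pos (h1.1 h), inv_mul_cancel₀ hc']
    · rw [if_neg h, if_neg (fun h' => h (h1.2 h')), mul_zero]

theorem BZ2_psi {T : Finset (Tw K)} (hT : ∀ (c : CU K) (m : R K), m ≠ 0 →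
    (if Has c m then (1 : ℂ) else 0) = (T.card : ℂ)⁻¹ * ∑ ν ∈ T, conj (ν.v (rep c)) * ν.v m)
    (π : R K → Prop) (c : CU K) {s : ℂ} (hs : 2 < s.re) :
    psi π c 0 s = (T.card : ℂ)⁻¹ * ∑ ν ∈ T, conj (ν.v (rep c)) *
      dser (fun m => if π m then ν.v m * g0 m else 0) s := by
  have hsum : ∀ ν : Tw K, Summable fun m : R K =>
      if Prim m then (if π m then ν.v m * g0 m else 0) * (N m : ℂ) ^ (-s) else 0 := by
    intro ν
    refine Summable.of_norm (summable_dser' (a := fun m => if π m then ν.v m * g0 m else 0)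
      (C := 1) (α := 1) (fun n hn => ?_) (by linarith))
    rw [one_mul, Real.rpow_one]
    split_ifs
    · rw [norm_mul]
      exact (mul_le_of_le_one_left (norm_nonneg _) (ν.norm_v_le n)).trans
        (norm_gs_le hn.ne_zero (fun x => (cub_isChar hn.ne_zero).norm_le hn.ne_zero x) 0)
    · rw [norm_zero]
      exact N_nonneg n
  unfold psi dser
  simp only [← tsum_mul_left]
  rw [← Summable.tsum_finsetSum (fun ν _ => (hsum ν).mul_left _), ← tsum_mul_left]
  refine tsum_congr fun m => ?_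
  by_cases hm : Prim m
  · simp only [if_pos hm]
    have e : (if π m ∧ Has c m then gs (pick c m) (cub m) 0 else 0) =
        (if Has c m then (1 : ℂ) else 0) * (if π m then g0 m else 0) := by
      by_cases h1 : Has c m
      · by_cases h2 : π m
        · rw [if_pos ⟨h2, h1⟩, if_pos h1, if_pos h2, one_mul, bpsi_cub h1]
          exact g0_assoc (pick_spec h1).1 (pick_spec h1).2.1
        · simp [h2]
      · simp [h1]
    rw [e, hT c m hm.ne_zero, mul_assoc, mul_assoc, Finset.sum_mul]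
    refine congrArg _ (Finset.sum_congr rfl fun ν _ => ?_)
    split_ifs <;> ring
  · simp [hm]

theorem BZ2_sum {T : Finset (Tw K)} (hT : ∀ ν, ν ∈ T ↔ ν.ξ = 0) (x : R K) (a : ℂ) :
    ∑ ν ∈ T, conj (ν.v x) * (if ν ^ 3 = 1 then a else 0) =
      if ∀ ν ∈ T.filter (fun ν => ν ^ 3 = 1), ν.v x = 1 then
        ((T.filter (fun ν => ν ^ 3 = 1)).card : ℂ) * a else 0 := by
  have e : ∑ ν ∈ T, conj (ν.v x) * (if ν ^ 3 = 1 then a else 0) =
      (∑ ν ∈ T.filter (fun ν => ν ^ 3 = 1), conj (ν.v x)) * a := by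
    rw [Finset.sum_filter, Finset.sum_mul]
    refine Finset.sum_congr rfl fun ν _ => ?_
    split_ifs <;> simp
  rw [e]
  split_ifs with h
  · rw [Finset.sum_congr rfl (fun ν hν => by rw [h ν hν, map_one]), Finset.sum_const, nsmul_eq_mul,
      mul_one]
  · push Not at h
    obtain ⟨ν0, h0, h1⟩ := h
    rw [Finset.mem_filter, hT] at h0
    have h2 : ∑ ν ∈ T.filter (fun ν => ν ^ 3 = 1), conj ((ν0 * ν).v x) =
        ∑ ν ∈ T.filter (fun ν => ν ^ 3 = 1), conj (ν.v x) := by
      refine Finset.sum_equiv (Equiv.mulLeft ν0) (fun ν => ?_) (fun ν _ => rfl)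
      simp only [Finset.mem_filter, hT, Equiv.coe_mulLeft, Tw.mul_ξ, h0.1, zero_add, mul_pow, h0.2,
        one_mul]
    simp only [Tw.mul_v, map_mul, ← Finset.mul_sum] at h2
    have h3 : conj (ν0.v x) - 1 ≠ 0 := by
      intro h4
      apply h1
      have := congrArg conj (sub_eq_zero.1 h4)
      simpa using this
    have h5 : ∑ ν ∈ T.filter (fun ν => ν ^ 3 = 1), conj (ν.v x) = 0 :=
      (mul_eq_zero.1 (by linear_combination h2)).resolve_left h3
    rw [h5, zero_mul]

/-- `T₃ = {ν ∈ T : ν³ = 1}` is a group, so `∑_{ν ∈ T₃} conj ν(x)` is `#T₃` or `0` -/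
theorem hasRes_psi_zero : ∃ z : CU K → ℝ, (∀ c, 0 ≤ z c) ∧
    (∀ η : (R K)ˣ, 0 < z (cu ((η : R K) : K))) ∧ (∀ c, HasRes K (psi all c 0) (z c)) ∧
    ∀ p : R K, Prime p → ∀ c, HasRes K (psi (off p) c 0) ((N p / (N p + 1) * z c : ℝ) : ℂ) := by
  obtain ⟨T, hT1, hT2⟩ := has_expand (K := K)
  obtain ⟨r, hr, hres⟩ := hasRes_g0 (K := K)
  have h1T : (1 : Tw K) ∈ T := (hT1 1).2 rfl
  have h1T3 : (1 : Tw K) ∈ T.filter (fun ν => ν ^ 3 = 1) := Finset.mem_filter.2 ⟨h1T, one_pow 3⟩
  have hc : (0 : ℝ) < T.card := by exact_mod_cast Finset.card_pos.2 ⟨1, h1T⟩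
  have hc3 : (0 : ℝ) < (T.filter (fun ν => ν ^ 3 = 1)).card := by
    exact_mod_cast Finset.card_pos.2 ⟨1, h1T3⟩
  have key : ∀ (π : R K → Prop) (a : ℂ) (c : CU K),
      (∀ ν : Tw K, HasRes K (dser (fun m => if π m then ν.v m * g0 m else 0))
        (if ν ^ 3 = 1 then a else 0)) →
      HasRes K (psi π c 0) ((T.card : ℂ)⁻¹ *
        if ∀ ν ∈ T.filter (fun ν => ν ^ 3 = 1), ν.v (rep c) = 1 then
          ((T.filter (fun ν => ν ^ 3 = 1)).card : ℂ) * a else 0) := by
    intro π a c h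
    rw [← BZ2_sum hT1]
    exact ((HasRes.sum T fun ν _ => (h ν).const_mul (conj (ν.v (rep c)))).const_mul _).congr
      fun s _ hs => (BZ2_psi hT2 π c hs).symm
  refine ⟨fun c => (T.card : ℝ)⁻¹ * if ∀ ν ∈ T.filter (fun ν => ν ^ 3 = 1), ν.v (rep c) = 1 then
    ((T.filter (fun ν => ν ^ 3 = 1)).card : ℝ) * r else 0, fun c => ?_, fun η => ?_, fun c => ?_,
    fun p hp c => ?_⟩
  · beta_reduce
    split_ifs <;> positivity
  · beta_reduce
    rw [if_pos]
    · positivity
    · intro ν hν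
      have h0 := (hT1 ν).1 (Finset.mem_filter.1 hν).1
      have := BZ2_f h0 one_ne_zero (bpsi_coe_ne (rep_ne (cu ((η : R K) : K)))) η
        (by rw [cu_rep, cu_one, one_mul])
      rw [ν.one] at this
      exact this
  · have h := key all r c fun ν => by
      have h1 := (hres ν).1
      refine h1.congr fun s _ _ => dser_congr (fun n _ => ?_) s
      rw [if_pos (show all n from trivial)]
    convert h using 1
    beta_reduce
    split_ifs <;> simp
  · have h := key (off p) _ c fun ν => (hres ν).2 p hp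
    convert h using 1
    beta_reduce
    split_ifs
    · push_cast
      ring
    · simp

end Crest.Agent.R312.Th
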