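import Crest.Agent.R312.B5BDS
import Crest.Agent.R312.B5BZ2

/-!
# R312 / B5BHe : the constant term of `theta`, and `θ^{x₀} = θ/(q+1)` (port of R17/VoHecke*)
-/

set_option autoImplicit false

noncomputable section

open scoped Classical ComplexConjugate NumberField Topology
open MeasureTheory Filter
open Crest.Agent.R17.Vor (SL nn SS pw)

namespace Crest.Agent.R312.Th

variable {K : Type} [Field K] [NumberField K] [Fld K] [Loc K] [Setup K]

theorem eig_theta : Eig 1 (theta K) := eig_thK one_ne_zero cusp_k0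

theorem theta_aut {γ : SL (R K)} (hγ : γ ∈ Gam K 1) (w : XX K) :
    theta K (actR γ w) = conj (kap γ) * theta K w := eig_theta.aut γ hγ w

theorem he_rep_ne (c : CU K) : ((rep c : R K) : K) ≠ 0 := fun e => rep_ne c (Subtype.ext e)

omit [Setup K] in
theorem he_q1 (p : R K) : (N p : ℂ) + 1 ≠ 0 := by
  have := N_nonneg p
  exact_mod_cast (by linarith : N p + 1 ≠ 0)

/-- the coefficients of the constant term are nonnegative -/
theorem he_cf : ∃ r : CU K → ℝ, (∀ c, 0 ≤ r c) ∧ (∀ c, cf 1 (Setup.lev K) 0 c = r c) ∧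
    0 < r (cu (((Qu ^ Setup.lev K : (R K)ˣ) : R K) : K)) := by
  choose r hr0 hr1 hr2 using fun c : CU K => LL_zero_nonneg (good_one (K := K)) (he_rep_ne c)
  have hk : (0 : ℝ) < kU K (M0 K) := by exact_mod_cast kU_pos (K := K) M0_pos.ne'
  refine ⟨fun c => kU K (M0 K) * r c, fun c => mul_nonneg hk.le (hr0 c), fun c => ?_,
    mul_pos hk (hr2 _ ⟨1, ?_, ?_⟩)⟩
  · have e1 : (1 : SL (R K)).a = 1 := rfl
    rw [cf, e1, cub, sym_one, cl_one, H3_one_left, Subring.coe_zero, hr1]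
    simp
  · have h0 : (((Qu ^ Setup.lev K : (R K)ˣ) : R K) : K) = (Loc.Q K : K) ^ Setup.lev K := by
      simp [Qu]
    have h1 : (Loc.Q K : K) ^ Setup.lev K ≠ 0 := pow_ne_zero _ loc_Q_ne
    rw [h0]
    have h2 := (cu_eq_iff (he_rep_ne _) h1).1 (cu_rep (cu ((Loc.Q K : K) ^ Setup.lev K)))
    refine ⟨_, h2.sInt, ?_⟩
    rw [mul_div_cancel₀ _ h1]
    simp
  · simpa using InU.one _

theorem he_res {r : CU K → ℝ} (hr : ∀ c, cf 1 (Setup.lev K) 0 c = r c) {π : R K → Prop} (hπ : Idl π)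
    {a : ℝ} {z : CU K → ℝ} (h : ∀ c, HasRes K (psi π c 0) ((a * z c : ℝ) : ℂ)) :
    HasRes K (DS (QI K (Setup.lev K)) (kpi 1 π) 0)
      ((a * ∑' c : CU K, r c * sS (rep c : K) ^ (-(4 / 3 : ℝ)) * z c : ℝ) : ℂ) := by
  have H := hasRes_tsum (F := fun c : CU K => psi π c 0) (psi_finite π 0)
    (fun c => (h c).hasRes_res43) (c := fun c => cf 1 (Setup.lev K) 0 c) (b := fun c => sS (rep c : K))
    (fun c => sS_pos (he_rep_ne c)) (fun x hx => summable_cf good_one 0 hx)
  have hn : SInt ((Loc.Q K : K) ^ Setup.lev K * ((0 : R K) : K)) := by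
    rw [Subring.coe_zero, mul_zero]; exact SInt.zero
  have H2 := H.congr (F' := DS (QI K (Setup.lev K)) (kpi 1 π) 0) fun s _ hs =>
    (DS_kpi (σ := 1) one_ne_zero good_one hπ hn hs).symm
  convert H2 using 1
  rw [← tsum_mul_left, Complex.ofReal_tsum]
  refine tsum_congr fun c => ?_
  have e := Complex.ofReal_cpow (sS_pos (he_rep_ne c)).le (-(4 / 3))
  push_cast at e
  rw [(h c).res43_eq, hr, ← e]
  push_cast
  ring

/-- `DS_kpi` with `σ = 1`, `hasRes_tsum`, `hasRes_psi_zero`, `LL_zero_nonneg`; the class of `Q^lev` gives a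
positive term -/
theorem hasRes_DS_zero : ∃ Z : ℝ, 0 < Z ∧ HasRes K (DS (QI K (Setup.lev K)) (k0 K) 0) Z ∧
    ∀ p : R K, Prime p →
      HasRes K (DS (QI K (Setup.lev K)) (kpi 1 (off p)) 0) ((N p / (N p + 1) * Z : ℝ) : ℂ) ∧
      HasRes K (DS (QI K (Setup.lev K)) (kpi 1 (on p)) 0) ((1 / (N p + 1) * Z : ℝ) : ℂ) := by
  obtain ⟨z, hz0, hz1, hz2, hz3⟩ := hasRes_psi_zero (K := K)
  obtain ⟨r, hr0, hr1, hr2⟩ := he_cf (K := K)
  have hs : Summable fun c : CU K => r c * sS (rep c : K) ^ (-(4 / 3 : ℝ)) * z c := by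
    obtain ⟨B, hB⟩ := ((psi_finite (K := K) all 0).image fun F => ‖res43 K F‖).bddAbove
    refine Summable.of_nonneg_of_le (fun c => mul_nonneg (mul_nonneg (hr0 c)
      (Real.rpow_nonneg (sS_pos (he_rep_ne c)).le _)) (hz0 c)) (fun c => ?_)
      ((summable_cf good_one (0 : R K) (x := 4 / 3) (by norm_num)).mul_right B)
    have h1 : ‖res43 K (psi all c 0)‖ ≤ B := hB ⟨_, ⟨c, rfl⟩, rfl⟩
    rw [(hz2 c).res43_eq, Complex.norm_real, Real.norm_of_nonneg (hz0 c)] at h1
    rw [hr1, Complex.norm_real, Real.norm_of_nonneg (hr0 c)]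
    exact mul_le_mul_of_nonneg_left h1 (mul_nonneg (hr0 c)
      (Real.rpow_nonneg (sS_pos (he_rep_ne c)).le _))
  refine ⟨∑' c : CU K, r c * sS (rep c : K) ^ (-(4 / 3 : ℝ)) * z c, ?_, ?_, fun p hp => ⟨?_, ?_⟩⟩
  · refine hs.tsum_pos (fun c => mul_nonneg (mul_nonneg (hr0 c)
      (Real.rpow_nonneg (sS_pos (he_rep_ne c)).le _)) (hz0 c))
      (cu (((Qu ^ Setup.lev K : (R K)ˣ) : R K) : K)) ?_
    exact mul_pos (mul_pos hr2 (Real.rpow_pos_of_pos (sS_pos (he_rep_ne _)) _)) (hz1 _)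
  · have H := he_res hr1 idl_all (a := 1) (z := z) (fun c => by rw [one_mul]; exact hz2 c)
    rwa [one_mul, kpi_all, tr_one] at H
  · exact he_res hr1 (idl_off p) (hz3 p hp)
  · refine he_res hr1 (idl_on p) fun c => ?_
    have H := ((hz2 c).sub (hz3 p hp c)).congr (F' := psi (on p) c 0)
      fun s _ hs => by rw [psi_all_eq p c 0 hs]; ring
    convert H using 1
    have h1 := he_q1 p
    push_cast
    field_simp
    ring

theorem theta_eq_add {p : R K} (hp : Prime p) (w : XX K) :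
    theta K w = thK (kp (on p)) w + thK (kp (off p)) w := by
  obtain ⟨δ, -, hδ⟩ := cusp_on hp
  have h0 := hasRes_thK hp.ne_zero hδ w
  have h1 := hasRes_thK hp.ne_zero (cusp_off hp) w
  refine HasRes.res43_eq ((h0.add h1).congr fun s _ hs => ?_)
  rw [Eis, Eis, Eis, ← (summable_Eis hδ.bd hs w).of_norm.tsum_add
    (summable_Eis (cusp_off hp).bd hs w).of_norm]
  exact tsum_congr fun r => by rw [k0_eq_add p, add_mul]

theorem he_coef {p : R K} (hp : p ≠ 0) {δ : SL (R K)} {I : Ideal (𝓞 K)} {κ : R K → R K → ℂ}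
    (h : Cusp p κ δ I) (σ : SL (R K)) {J : Ideal (𝓞 K)} (hJ : J ≠ ⊥) (h1 : Per3 J (tr σ κ))
    (h2 : Per3 J (tr σ (k0 K))) {r r' a : ℂ} (hr : HasRes K (DS J (tr σ κ) 0) r)
    (hr' : HasRes K (DS J (tr σ (k0 K)) 0) r') (e : a * r = r') {v : Pl K → ℝ} (hv : ∀ i, 0 < v i) :
    coef J 0 v (fun w => a * thK κ (actR σ w) - 1 * theta K (actR σ w)) = 0 := by
  rw [coef_sub hJ (F := fun w => thK κ (actR σ w)) (F' := fun w => theta K (actR σ w))
    ((eig_thK hp h).cont.comp (continuous_actR σ)) (eig_theta.cont.comp (continuous_actR σ)) a 1 0 hv,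
    (hasRes_DS hp h σ hJ h1 (zero_mem _)).2 v hv, theta,
    (hasRes_DS one_ne_zero cusp_k0 σ hJ h2 (zero_mem _)).2 v hv, hr.res43_eq, hr'.res43_eq, ← e]
  ring

/-- `D = thK (kp (on p)) - θ/(q+1) ∈ Eig p` has zero constant terms at both cusps -/
theorem thK_on {p : R K} (hp : Prime p) (w : XX K) :
    thK (kp (on p)) w = ((N p : ℂ) + 1)⁻¹ * theta K w := by
  have hp0 := hp.ne_zero
  have hq := he_q1 p
  obtain ⟨δ, hδd, hδ⟩ := cusp_on hp
  have h1 := cusp_off hp
  obtain ⟨Z, -, hZ, hZp⟩ := hasRes_DS_zero (K := K)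
  obtain ⟨hoff, hon⟩ := hZp p hp
  have E0 := eig_thK hp0 hδ
  have E1 := eig_thK hp0 h1
  have Eθ : Eig p (theta K) := by
    rw [show theta K = fun w => thK (kp (on p)) w + thK (kp (off p)) w from funext (theta_eq_add hp)]
    exact E0.add E1
  have ED : Eig p (fun w => ((N p : ℂ) + 1) * thK (kp (on p)) w - 1 * theta K w) :=
    (E0.smul _).sub (Eθ.smul _)
  have hk0 : Per3 (QI K (Setup.lev K)) (k0 K) := by
    have := per3_tr (good_one (K := K))
    rwa [tr_one] at this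
  have z1 : ∀ v : Pl K → ℝ, (∀ i, 0 < v i) → coef (QI K (Setup.lev K) * idl p) 0 v
      (fun w => (fun w => ((N p : ℂ) + 1) * thK (kp (on p)) w - 1 * theta K w)
        (actR (1 : SL (R K))⁻¹ w)) = 0 := by
    intro v hv
    rw [inv_one]
    beta_reduce
    refine he_coef hp0 hδ 1 h1.ne (by rw [tr_one]; exact per3_kp_on hp)
      (by rw [tr_one]; exact hk0.mono Ideal.mul_le_left)
      (r := ((N p / (N p + 1) * Z : ℝ) : ℂ)) (r' := (N p : ℂ) * Z) ?_ ?_ ?_ hv
    · rw [tr_one]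
      exact hoff.congr fun s _ _ => (DS_on_idl hp s).symm
    · rw [tr_one]
      exact (hZ.const_mul _).congr fun s _ _ => (DS_k0_idl hp s).symm
    · push_cast
      field_simp
  have hγ : δ⁻¹ ∈ Gam K 1 := (Gam K 1).inv_mem hδ.mem
  have t0 : tr δ⁻¹ (kp (on p)) = fun C D => conj (kap δ⁻¹) * kpi 1 (on p) C D := by
    funext C D
    rw [← tr_kp_on hp hγ (σ := 1) (by rw [mul_one]; exact hδd), mul_one]
  have t1 : tr δ⁻¹ (k0 K) = fun C D => conj (kap δ⁻¹) * k0 K C D := by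
    funext C D
    exact tr_Gam hγ C D
  have z0 : ∀ v : Pl K → ℝ, (∀ i, 0 < v i) → coef (QI K (Setup.lev K)) 0 v
      (fun w => (fun w => ((N p : ℂ) + 1) * thK (kp (on p)) w - 1 * theta K w)
        (actR δ⁻¹ w)) = 0 := by
    intro v hv
    beta_reduce
    refine he_coef hp0 hδ δ⁻¹ hδ.ne ?_ ?_
      (r := conj (kap δ⁻¹) * ((1 / (N p + 1) * Z : ℝ) : ℂ)) (r' := conj (kap δ⁻¹) * Z) ?_ ?_ ?_ hv
    · intro C D t ht
      rw [t0]
      simp only [per3_kpi good_one (on p) C D t ht]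
    · intro C D t ht
      rw [t1]
      simp only [hk0 C D t ht]
    · rw [t0]
      exact (hon.const_mul _).congr fun s _ _ => (DS_const_mul _ _ _ _ s).symm
    · rw [t1]
      exact (hZ.const_mul _).congr fun s _ _ => (DS_const_mul _ _ _ _ s).symm
    · push_cast
      field_simp
  have o1 := thK_orth hp0 h1 ED z1
  have o0 := thK_orth hp0 hδ ED z0
  have hz := ED.eq_zero hp0 (by
    have e : ∀ w, conj (((N p : ℂ) + 1) * thK (kp (on p)) w - 1 * theta K w) *
        (((N p : ℂ) + 1) * thK (kp (on p)) w - 1 * theta K w) =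
        (N p : ℂ) * (conj (thK (kp (on p)) w) * (((N p : ℂ) + 1) * thK (kp (on p)) w - 1 * theta K w)) -
        conj (thK (kp (off p)) w) * (((N p : ℂ) + 1) * thK (kp (on p)) w - 1 * theta K w) := by
      intro w
      have e1 : conj (((N p : ℂ) + 1) * thK (kp (on p)) w - 1 * theta K w) =
          (N p : ℂ) * conj (thK (kp (on p)) w) - conj (thK (kp (off p)) w) := by
        rw [theta_eq_add hp]
        simp only [map_sub, map_mul, map_add, map_one, Complex.conj_ofReal]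
        ring
      rw [e1]
      ring
    simp only [e]
    rw [integral_sub ((E0.integrable ED).const_mul _) (E1.integrable ED), integral_const_mul, o1, o0,
      mul_zero, sub_zero]) w
  field_simp
  linear_combination hz

end Crest.Agent.R312.Th
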