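import Crest.Agent.R312.B5BHe

/-!
# R312 / B5BIso : continuation of `psi`; `ρ_p = q/(q+1) ρ₀`
-/

set_option autoImplicit false

noncomputable section

open scoped Classical ComplexConjugate NumberField Topology
open MeasureTheory Filter
open Crest.Agent.R17.Vor (SL nn SS pw)

namespace Crest.Agent.R312.Th

variable {K : Type} [Field K] [NumberField K] [Fld K] [Loc K] [Setup K]

theorem iso_rep_ne (c : CU K) : ((rep c : R K) : K) ≠ 0 := fun e => rep_ne c (Subtype.ext e)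

/-- only the class of `c₀` occurs (`DS_kpi`, `LL_sig`; `cub (Q^k) 0 = 1`) -/
theorem DS_sig {k e : ℕ} {c0 : R K} (h0 : c0 ≠ 0) (hk : SInt ((Loc.Q K : K) ^ k / (c0 : K)))
    (h : Good (sig k c0) e) : ∃ r : ℂ, r ≠ 0 ∧ ∀ π : R K → Prop, Idl π → ∀ n : R K,
      SInt ((Loc.Q K : K) ^ e * (n : K)) → ∀ s : ℂ, 2 < s.re →
      DS (QI K e) (kpi (sig k c0) π) (n : K) s =
        if SInt ((n : K) * (Loc.Q K : K) ^ Setup.lev K / (c0 : K) ^ 2) then
          r * eS ((n : K) / ((Loc.Q K : K) ^ k * (c0 : K))) * ((sS (c0 : K) : ℝ) : ℂ) ^ (-s) *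
            psi π (cu (c0 : K)) n s else 0 := by
  have hc0 : (c0 : K) ≠ 0 := fun e => h0 (Subtype.ext e)
  have hu : IsUnit (sig k c0).a := Units.isUnit (Qu ^ k : (R K)ˣ)
  obtain ⟨r, hr, hL⟩ := LL_sig h0 hk h
  refine ⟨(kU K (M0 K) : ℂ) * conj (cub (sig k c0).a (sig k c0).b *
    H3 (cl (sig k c0).a) (toG (cu (c0 : K)))) * r, ?_, fun π hπ n hn s hs => ?_⟩
  · refine mul_ne_zero (mul_ne_zero ?_ ?_) (by exact_mod_cast hr.ne')
    · exact_mod_cast (kU_pos (K := K) M0_pos.ne').ne'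
    · rw [cub, sym_unit 3 hu, one_mul, ← norm_ne_zero_iff, Complex.norm_conj, norm_H3]
      exact one_ne_zero
  · rw [DS_kpi hu.ne_zero h hπ hn hs, tsum_eq_single (cu (c0 : K))]
    · have h1 : InU (Setup.lev K) ((rep (cu (c0 : K)) : K) / c0) :=
        (cu_eq_iff (iso_rep_ne _) hc0).1 (cu_rep _)
      rw [cf, hL _ _ (iso_rep_ne _) hn, sS_rep hc0]
      by_cases hc : SInt ((n : K) * (Loc.Q K : K) ^ Setup.lev K / (c0 : K) ^ 2)
      · rw [if_pos ⟨h1, hc⟩, if_pos hc]; ring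
      · rw [if_neg (fun h => hc h.2), if_neg hc]; simp
    · intro c hc
      rw [cf, hL _ _ (iso_rep_ne _) hn, if_neg]
      · simp
      · rintro ⟨h1, -⟩
        exact hc ((cu_rep c).symm.trans ((cu_eq_iff (iso_rep_ne _) hc0).2 h1))

omit [Fld K] [Setup K] in
theorem iso_pow_le {m j : ℕ} (h : m ≤ j) {w : K} (hw : SInt ((Loc.Q K : K) ^ m * w)) :
    SInt ((Loc.Q K : K) ^ j * w) := by
  obtain ⟨i, rfl⟩ := Nat.exists_eq_add_of_le h
  have := ((SInt.natCast (K := K) (Loc.Q K)).pow i).mul hw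
  convert this using 1
  ring

/-- the choice of `k`, `e` and of `n' = Q^{3j} n` -/
theorem iso_data {c0 : R K} (h0 : c0 ≠ 0) (n : R K) : ∃ (k e : ℕ) (n' : R K),
    SInt ((Loc.Q K : K) ^ k / (c0 : K)) ∧ Good (sig k c0) e ∧ SInt ((Loc.Q K : K) ^ e * (n' : K)) ∧
    SInt ((n' : K) * (Loc.Q K : K) ^ Setup.lev K / (c0 : K) ^ 2) ∧
    ∀ (π : R K → Prop) (c : CU K), psi π c n' = psi π c n := by
  obtain ⟨k, hk⟩ := exists_pow_mul_sInt ((c0 : K)⁻¹)
  obtain ⟨e, -, h⟩ := exists_good (sig k c0) 0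
  obtain ⟨j1, h1⟩ := exists_pow_mul_sInt (n : K)
  obtain ⟨j2, h2⟩ := exists_pow_mul_sInt ((n : K) * (Loc.Q K : K) ^ Setup.lev K / (c0 : K) ^ 2)
  refine ⟨k, e, (((Loc.Q K : ℕ) : R K) ^ (j1 + j2)) ^ 3 * n, by rwa [div_eq_mul_inv], h, ?_, ?_,
    fun π c => psi_unit_cube' π c (isUnit_Q.pow _) n⟩
  · have := iso_pow_le (show j1 ≤ e + (j1 + j2) * 3 by omega) h1
    convert this using 1
    push_cast
    ring
  · have := iso_pow_le (show j2 ≤ (j1 + j2) * 3 by omega) h2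
    convert this using 1
    push_cast
    ring

theorem iso_dual {e : ℕ} {n : R K} (hn : SInt ((Loc.Q K : K) ^ e * (n : K))) :
    (n : K) ∈ dualI (QI K e) := by
  rw [mem_dualI_QI]
  have := SInt.isIntegral (x := ((Loc.Q K : ℕ) : R K) ^ e * n) (by push_cast; exact hn)
  push_cast at this
  exact this

theorem iso_ne {r : ℂ} (hr : r ≠ 0) (x : K) : r * eS x ≠ 0 := by
  refine mul_ne_zero hr ?_
  rw [← norm_ne_zero_iff, norm_eS]
  exact one_ne_zero

omit [Loc K] [Setup K] in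
theorem iso_diff (a : ℂ) {x : ℝ} (hx : 0 < x) (ε : ℂ) :
    DifferentiableOn ℂ (fun s : ℂ => a * (x : ℂ) ^ (ε * s)) {s | 1 < s.re} := by
  refine Differentiable.differentiableOn (Differentiable.const_mul ?_ a)
  exact Differentiable.const_cpow (by fun_prop) (Or.inl (by exact_mod_cast hx.ne'))

omit [Loc K] [Setup K] in
/-- dividing by `a x^{-s}` -/
theorem iso_div {a : ℂ} (ha : a ≠ 0) {x : ℝ} (hx : 0 < x) {F ψ : ℂ → ℂ} {ρ : ℂ} (h : HasRes K F ρ)
    (e : ∀ s : ℂ, 2 < s.re → F s = a * (x : ℂ) ^ (-s) * ψ s) :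
    HasRes K ψ (a⁻¹ * (x : ℂ) ^ (4 / 3 : ℂ) * ρ) := by
  have H := h.hol_mul (iso_diff a⁻¹ hx 1)
  simp only [one_mul] at H
  refine H.congr fun s _ hs => ?_
  have hx' : (x : ℂ) ^ s ≠ 0 := by
    rw [Ne, Complex.cpow_eq_zero_iff]
    exact fun h => hx.ne' (by exact_mod_cast h.1)
  rw [e s hs, Complex.cpow_neg]
  field_simp

/-- replace `n` by `Q^{3j} n` (`psi_unit_cube'`), `hasRes_DS` for `cusp_k0` -/
theorem hasRes_psi (c : CU K) (n : R K) : HasRes K (psi all c n) (rho0 c n) := by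
  obtain ⟨k, e, n', hk, h, hn, hn', hψ⟩ := iso_data (rep_ne c) n
  obtain ⟨r, hr, hD⟩ := DS_sig (rep_ne c) hk h
  have H := (hasRes_DS one_ne_zero cusp_k0 (sig k (rep c)) (QI_ne_bot e) (per3_tr h)
    (iso_dual hn)).1
  have H2 := iso_div (iso_ne hr ((n' : K) / ((Loc.Q K : K) ^ k * (rep c : K)))) (sS_pos (iso_rep_ne c)) H
    (ψ := psi all c n) fun s hs => by
      rw [← kpi_all, hD all idl_all n' hn s hs, if_pos hn', cu_rep, hψ]
  exact H2.hasRes_res43

/-- choose `c₀` in the class `c` coprime to `p` (`exists_cu`), `γ = nn b ∈ Gam 1` with `p ∣ Q^k + b c₀`;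
`hasRes_DS` for `cusp_on` and `γ σ`, `tr_kp_on`, `thK_on`, `theta_aut`, `BB_pos` -/
theorem hasRes_psi_on {p : R K} (hp : Prime p) (c : CU K) (n : R K) :
    HasRes K (psi (on p) c n) (((N p : ℂ) + 1)⁻¹ * rho0 c n) := by
  obtain ⟨c0, h0, hc, hp1⟩ := exists_cu c hp.ne_zero 1
  have hc0 : (c0 : K) ≠ 0 := fun e => h0 (Subtype.ext e)
  obtain ⟨k, e, n', hk, h, hn, hn', hψ⟩ := iso_data h0 n
  obtain ⟨r, hr, hD⟩ := DS_sig h0 hk h
  obtain ⟨b, hb, hbJ⟩ := exists_inJ (Setup.lev K) hp.ne_zero (-(sig k c0).a)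
  have hγ : nn b ∈ Gam K 1 := by
    refine mem_GamN.2 ⟨?_, hbJ, ?_, ?_, one_dvd _⟩
    · exact InU.one _
    · exact InJ.zero _
    · exact InU.one _
  have ha : p ∣ (nn b * sig k c0).a := by
    have e1 : (nn b * sig k c0).a = (b - -(sig k c0).a) + b * (c0 - 1) := by
      change 1 * (sig k c0).a + b * c0 = _
      ring
    rw [e1]
    exact dvd_add hb (hp1.mul_left _)
  obtain ⟨δ, -, hδ⟩ := cusp_on hp
  have htr : tr (nn b * sig k c0) (kp (on p)) = fun C D => conj (kap (nn b)) * kpi (sig k c0) (on p) C D := by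
    funext C D
    exact tr_kp_on hp hγ ha C D
  have hper : Per3 (QI K e) (tr (nn b * sig k c0) (kp (on p))) := by
    intro C D t ht
    rw [htr]
    simp only [per3_kpi h (on p) C D t ht]
  obtain ⟨H1, E1⟩ := hasRes_DS hp.ne_zero hδ (nn b * sig k c0) (QI_ne_bot e) hper (iso_dual hn)
  obtain ⟨H0, E0⟩ := hasRes_DS one_ne_zero cusp_k0 (sig k c0) (QI_ne_bot e) (per3_tr h) (iso_dual hn)
  have hv : ∀ i : Pl K, (0 : ℝ) < (fun _ => 1 : Pl K → ℝ) i := fun _ => one_pos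
  have hB : ((BB (n' : K) (fun _ => 1) : ℝ) : ℂ) ≠ 0 := by exact_mod_cast (BB_pos _ hv).ne'
  have hκ : conj (kap (nn b)) ≠ 0 := by
    rw [← norm_ne_zero_iff, Complex.norm_conj, norm_kap hγ]
    exact one_ne_zero
  have E : res43 K (DS (QI K e) (tr (nn b * sig k c0) (kp (on p))) (n' : K)) =
      ((N p : ℂ) + 1)⁻¹ * conj (kap (nn b)) * res43 K (DS (QI K e) (tr (sig k c0) (k0 K)) (n' : K)) := by
    refine mul_right_cancel₀ hB ?_
    rw [← E1 _ hv, mul_assoc, ← E0 _ hv, coef, coef, ← integral_const_mul]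
    refine integral_congr_ae (Eventually.of_forall fun z => ?_)
    simp only [thK_on hp, actR_mul, theta_aut hγ]
    rw [theta]
    ring
  rw [E] at H1
  have hx := sS_pos hc0
  have A0 := iso_div (iso_ne hr ((n' : K) / ((Loc.Q K : K) ^ k * (c0 : K)))) hx H0
    (ψ := psi all c n) fun s hs => by
      rw [← kpi_all, hD all idl_all n' hn s hs, if_pos hn', hc, hψ]
  have A1 := iso_div (mul_ne_zero hκ (iso_ne hr ((n' : K) / ((Loc.Q K : K) ^ k * (c0 : K))))) hx H1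
    (ψ := psi (on p) c n) fun s hs => by
      rw [htr, DS_const_mul, hD (on p) (idl_on p) n' hn s hs, if_pos hn', hc, hψ]
      ring
  rw [rho0, A0.res43_eq]
  convert A1 using 1
  field_simp

theorem hasRes_psi_off {p : R K} (hp : Prime p) (c : CU K) (n : R K) :
    HasRes K (psi (off p) c n) ((N p : ℂ) / ((N p : ℂ) + 1) * rho0 c n) := by
  have h1 : (N p : ℂ) + 1 ≠ 0 := by
    have := N_nonneg p
    exact_mod_cast (by linarith : N p + 1 ≠ 0)
  have H := ((hasRes_psi c n).sub (hasRes_psi_on hp c n)).congr (F' := psi (off p) c n)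
    fun s _ hs => by rw [psi_all_eq p c n hs]; ring
  convert H using 1
  field_simp
  ring

/-- the residue of `DS` at any cusp -/
theorem res_DS {σ : SL (R K)} (ha : σ.a ≠ 0) {e : ℕ} (h : Good σ e) {n : R K}
    (hn : SInt ((Loc.Q K : K) ^ e * (n : K))) :
    res43 K (DS (QI K e) (tr σ (k0 K)) (n : K)) =
      ∑' c : CU K, cf σ e n c * ((sS (rep c : K) : ℝ) : ℂ) ^ (-(4 / 3 : ℂ)) * rho0 c n := by
  have H := hasRes_tsum (F := fun c : CU K => psi all c n) (psi_finite all n)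
    (fun c => hasRes_psi c n) (c := fun c => cf σ e n c) (b := fun c => sS (rep c : K))
    (fun c => sS_pos (iso_rep_ne c)) (fun x hx => summable_cf h n hx)
  refine HasRes.res43_eq (H.congr fun s _ hs => ?_)
  rw [← kpi_all, DS_kpi ha h idl_all hn hs]

end Crest.Agent.R312.Th
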