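import Crest.Agent.R312.B5BCU

/-!
# R312 / B5BLoc : the character `eS`, CRT, the local sums `LL`
-/

set_option autoImplicit false

noncomputable section

open scoped Classical ComplexConjugate NumberField Topology
open MeasureTheory Filter
open Crest.Agent.R17.Vor (SL nn SS pw)

namespace Crest.Agent.R312.Th

variable {K : Type} [Field K] [NumberField K] [Fld K] [Loc K] [Setup K]

omit [Setup K] in
theorem eS_add (x y : K) : eS (x + y) = eS x * eS y := by
  simp only [eS, eT_add, ee_add, map_mul]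
  ring

omit [Setup K] in
theorem eS_of_sInt {x : K} (hx : SInt x) : eS x = 1 := by
  rw [eS, ee_of_sInt hx, Complex.mul_conj', norm_eT]
  simp

omit [Setup K] in
theorem eS_coe (x : R K) : eS (x : K) = eT (x : K) := by
  rw [eS, ee_coe, map_one, mul_one]

omit [Setup K] in
theorem norm_eS (x : K) : ‖eS x‖ = 1 := by
  rw [eS, norm_mul, Complex.norm_conj, norm_eT, norm_ee, mul_one]

omit [Setup K] in
theorem eT_eq_ee_mul (x : K) : eT x = ee x * eS x := by
  rw [eS, mul_left_comm, Complex.mul_conj', norm_ee]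
  simp

omit [NumberField K] [Fld K] [Setup K] in
theorem bloc_of {x y : K} (h : SInt x) (e : y = x) : SInt y := e ▸ h

omit [Setup K] in
theorem bloc_eS {x y : K} (h : SInt (x - y)) : eS x = eS y := by
  rw [show x = y + (x - y) by ring, eS_add, eS_of_sInt h, mul_one]

omit [Fld K] [Setup K] in
theorem bloc_eq {w x y : K} : (QuotientAddGroup.mk x : K ⧸ latK w) = QuotientAddGroup.mk y ↔
    SInt ((x - y) / w) := QuotientAddGroup.eq_iff_sub_mem

omit [Fld K] [Setup K] in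
theorem bloc_out (w x : K) : SInt (((QuotientAddGroup.mk x : K ⧸ latK w).out - x) / w) :=
  bloc_eq.1 (QuotientAddGroup.out_eq' _)

omit [Fld K] [Setup K] in
theorem bloc_latI {C x : R K} (hC : C ≠ 0) {e : ℕ} : x ∈ latI C (QI K e) ↔
    C ∣ x ∧ SInt ((x : K) / ((Loc.Q K : K) ^ e * (C : K))) := by
  have hC' : (C : K) ≠ 0 := fun h => hC (Subtype.ext h)
  have hQ := pow_ne_zero e (loc_Q_ne (K := K))
  constructor
  · rintro ⟨y, hy, rfl⟩
    obtain ⟨z, rfl⟩ := Ideal.mem_span_singleton.1 hy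
    refine ⟨dvd_mul_right _ _, bloc_of (SInt.coe z) ?_⟩
    simp
    field_simp
  · rintro ⟨⟨t, rfl⟩, h⟩
    obtain ⟨t', rfl⟩ := (isUnit_Q.pow e).dvd (a := t)
    obtain ⟨y, rfl⟩ := exists_toR_of_isIntegral (x := t') (SInt.isIntegral (bloc_of h (by
      simp
      field_simp)))
    exact ⟨(Loc.Q K : 𝓞 K) ^ e * y, Ideal.mem_span_singleton.2 (dvd_mul_right _ _), by simp⟩

omit [Setup K] in
/-- duality: `y = r + a`, `eS (y t) = eT (r t)` for `t ∈ 𝓞`, `isIntegral_of_eT` -/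
theorem sInt_of_eS {y : K} (h : ∀ t : 𝓞 K, eS (y * t) = 1) : SInt y := by
  obtain ⟨r, hr⟩ := exists_add_sInt y
  have h1 : IsIntegral ℤ (r : K) := isIntegral_of_eT fun t => by
    rw [← h t, bloc_eS (y := ((r * toR t : R K) : K)) (bloc_of (hr.mul (SInt.coe t)) (by simp; ring)),
      eS_coe]
    simp
  exact bloc_of (hr.add (SInt.of_isIntegral h1)) (by ring)

omit [Setup K] in
/-- CRT: `R / C Q^e 𝓞 ≃ R/C × K / Q^e C SInt` (injective as `R ∩ SInt = 𝓞`, onto by `approx0`) -/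
theorem exists_crt {C : R K} (hC : C ≠ 0) (e : ℕ) :
    ∃ φ : (R K ⧸ latI C (QI K e)) ≃ {x // x ∈ res C} × (K ⧸ latK ((Loc.Q K : K) ^ e * (C : K))),
      ∀ D, C ∣ D.out - (φ D).1.1 ∧ SInt ((((D.out : R K) : K) - (φ D).2.out) / ((Loc.Q K : K) ^ e * (C : K))) := by
  have hC' : (C : K) ≠ 0 := fun h => hC (Subtype.ext h)
  have hQ := pow_ne_zero e (loc_Q_ne (K := K))
  let f : (R K ⧸ latI C (QI K e)) → {x // x ∈ res C} × (K ⧸ latK ((Loc.Q K : K) ^ e * (C : K))) :=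
    fun D => (⟨b4_rep C D.out, b4_mod_mem_res hC _⟩, QuotientAddGroup.mk ((D.out : R K) : K))
  refine ⟨Equiv.ofBijective f ⟨fun D D' h => ?_, fun ⟨a, z⟩ => ?_⟩, fun D => ⟨b4_dvd_sub_mod _ _,
    bloc_of (bloc_out _ ((D.out : R K) : K)).neg (by rw [← neg_div, neg_sub]; rfl)⟩⟩
  · have h1 : b4_rep C D.out = b4_rep C D'.out := congrArg (fun p => p.1.1) h
    have h2 := bloc_eq.1 (congrArg Prod.snd h)
    rw [← QuotientAddGroup.out_eq' D, ← QuotientAddGroup.out_eq' D', QuotientAddGroup.eq_iff_sub_mem,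
      bloc_latI hC]
    refine ⟨?_, by simpa using h2⟩
    have := (b4_dvd_sub_mod C D.out).sub (b4_dvd_sub_mod C D'.out)
    rwa [h1, sub_sub_sub_cancel_right] at this
  · obtain ⟨r, hr⟩ := approx0 hQ ((z.out - a.1) / C)
    obtain ⟨h1, h2⟩ := (bloc_latI hC).1 (QuotientAddGroup.eq_iff_sub_mem.1
      (QuotientAddGroup.out_eq' (QuotientAddGroup.mk (a.1 + C * r) : R K ⧸ latI C (QI K e))))
    refine ⟨QuotientAddGroup.mk (a.1 + C * r), Prod.ext (Subtype.ext ?_) ?_⟩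
    · refine (b4_mod_congr ?_).trans ((b4_mem_res hC).1 a.2)
      have := h1.add (dvd_mul_right C r)
      rwa [show ∀ x y z : R K, x - (y + z) + z = x - y from fun x y z => by ring] at this
    · rw [← QuotientAddGroup.out_eq' z]
      refine bloc_eq.2 (bloc_of (h2.sub hr) ?_)
      push_cast
      field_simp
      ring

omit [Setup K] in
/-- `#(w₁ SInt / w₂ SInt) = sS (w₂/w₁)`.  Reduce to `w₁ = 1`, `w₂ = w ∈ 𝓞` (`approx`); count `𝓞/w` by CRT:
`absNorm (w) = N w · #(SInt / w SInt)`. -/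
theorem card_latK {w1 w2 : K} (h1 : w1 ≠ 0) (h2 : w2 ≠ 0) (h : SInt (w2 / w1)) :
    ∃ T : Finset (K ⧸ latK w2), (∀ D, D ∈ T ↔ SInt (D.out / w1)) ∧ (T.card : ℝ) = sS (w2 / w1) := by
  have hw : w2 / w1 ≠ 0 := div_ne_zero h2 h1
  obtain ⟨r, -, hr⟩ := approx 1 hw one_ne_zero 0
  have hW := hr.isW le_rfl
  obtain ⟨y, rfl⟩ := exists_toR_of_isIntegral (x := r) (SInt.isIntegral (bloc_of (h.mul hW.2.1)
    (by field_simp)))
  rw [coe_toR] at hW
  have hy : (y : K) ≠ 0 := fun h0 => hW.1 (by rw [h0, zero_div])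
  have hC : toR y ≠ 0 := fun h0 => hy (by rw [← coe_toR, h0]; rfl)
  have hiff : ∀ x : K, SInt (w1 * x / w2) ↔ SInt (x / y) := fun x => by
    rw [← hW.sInt_mul_iff (x / y), show (y : K) / (w2 / w1) * (x / y) = w1 * x / w2 by field_simp]
  let A : AddSubgroup (K ⧸ latK w2) := (latK w1).map (QuotientAddGroup.mk' (latK w2))
  have hA : ∀ D, D ∈ A ↔ SInt (D.out / w1) := fun D => by
    refine ⟨?_, fun hD => ⟨D.out, hD, QuotientAddGroup.out_eq' D⟩⟩
    rintro ⟨x, hx, rfl⟩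
    refine bloc_of (((bloc_out w2 x).mul h).add hx) ?_
    simp only [QuotientAddGroup.mk'_apply]
    field_simp
    ring
  let ψ2 : 𝓞 K →+ K ⧸ latK w2 := (QuotientAddGroup.mk' (latK w2)).comp
    ((AddMonoidHom.mulLeft w1).comp (algebraMap (𝓞 K) K).toAddMonoidHom)
  have hψ2 : ∀ t, ψ2 t = QuotientAddGroup.mk (w1 * (t : K)) := fun t => rfl
  let ψ : 𝓞 K →+ (R K ⧸ Ideal.span {toR y}) × A :=
    (((Ideal.Quotient.mk (Ideal.span {toR y})).comp toR).toAddMonoidHom).prod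
      (ψ2.codRestrict A fun t => ⟨w1 * t, bloc_of (SInt.coe t) (by field_simp), rfl⟩)
  have hker : ψ.ker = (Ideal.span {y}).toAddSubgroup := by
    ext t
    have e1 : t ∈ ψ.ker ↔ toR y ∣ toR t ∧ SInt ((t : K) / y) := by
      rw [← hiff, ← sub_zero (w1 * t), ← bloc_eq, ← Ideal.mem_span_singleton,
        ← Ideal.Quotient.eq_zero_iff_mem, AddMonoidHom.mem_ker, Prod.ext_iff, Subtype.ext_iff]
      rfl
    rw [e1, Submodule.mem_toAddSubgroup, Ideal.mem_span_singleton]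
    constructor
    · rintro ⟨⟨s, hs⟩, h3⟩
      have e2 : (t : K) = y * s := by simpa using congrArg Subtype.val hs
      obtain ⟨z, rfl⟩ := exists_toR_of_isIntegral (x := s) (SInt.isIntegral (bloc_of h3
        (by rw [e2]; field_simp)))
      exact ⟨z, toR_injective (by rw [hs, map_mul])⟩
    · rintro ⟨z, rfl⟩
      exact ⟨map_dvd _ (dvd_mul_right _ _), bloc_of (SInt.coe z) (by push_cast; field_simp)⟩
  have hsurj : Function.Surjective ψ := by
    rintro ⟨a, D, hD⟩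
    obtain ⟨a, rfl⟩ := Ideal.Quotient.mk_surjective a
    have hs := (hA D).1 hD
    obtain ⟨r, hr⟩ := exists_add_sInt ((D.out / w1 - a) / y)
    obtain ⟨t, ht⟩ := exists_toR_of_isIntegral (x := a + toR y * r) (SInt.isIntegral
      (bloc_of (hs.sub (hr.mul (SInt.coe y))) (by push_cast; rw [coe_toR]; field_simp; ring)))
    have ht' : (t : K) = a + y * r := by simpa using congrArg Subtype.val ht
    refine ⟨t, Prod.ext ?_ (Subtype.ext ?_)⟩
    · change Ideal.Quotient.mk _ (toR t) = _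
      rw [ht, Ideal.Quotient.eq, add_sub_cancel_left]
      exact Ideal.mem_span_singleton.2 (dvd_mul_right _ _)
    · change ψ2 t = D
      rw [← QuotientAddGroup.out_eq' D, hψ2, bloc_eq,
        show w1 * t - D.out = w1 * (t - D.out / w1) by field_simp, hiff]
      exact bloc_of hr.neg (by rw [ht']; field_simp; ring)
  have hcard : Ideal.absNorm (Ideal.span {y}) = nm (toR y) * Nat.card A := by
    rw [nm, ← Nat.card_prod, ← AddSubgroup.card_top, ← AddMonoidHom.range_eq_top.2 hsurj,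
      ← AddSubgroup.index_ker, hker]
    rfl
  have h3 : aN (y : K) = N (toR y) * Nat.card A := by
    rw [aN_eq_absNorm, hcard, N]
    push_cast
    rfl
  have : Finite A := Nat.finite_of_card_ne_zero fun h0 => (aN_pos hy).ne' (by rw [h3, h0]; simp)
  refine ⟨(Set.toFinite (A : Set (K ⧸ latK w2))).toFinset, fun D => by simpa using hA D, ?_⟩
  have h4 := aN_eq hC
  rw [coe_toR, h3, mul_right_inj' (N_pos hC).ne'] at h4
  rw [← Set.ncard_eq_toFinset_card (A : Set (K ⧸ latK w2)) (Set.toFinite _), ← one_mul (sS _), ← sS_of_isW hW, ← sS_mul,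
    div_mul_cancel₀ _ hw, ← h4]
  rfl

omit [Setup K] in
/-- orthogonality -/
theorem bloc_orth {w1 w2 m : K} (h1 : w1 ≠ 0) (h2 : w2 ≠ 0) (h : SInt (w2 / w1))
    {T : Finset (K ⧸ latK w2)} (hT : ∀ D, D ∈ T ↔ SInt (D.out / w1)) (hm : SInt (m * w2)) :
    ∑ D ∈ T, eS (m * D.out) = if SInt (m * w1) then (T.card : ℂ) else 0 := by
  split_ifs with h3
  · rw [Finset.card_eq_sum_ones, Nat.cast_sum]
    exact Finset.sum_congr rfl fun D hD => by
      rw [eS_of_sInt (bloc_of (h3.mul ((hT D).1 hD)) (by field_simp)), Nat.cast_one]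
  obtain ⟨t, ht⟩ := not_forall.1 fun hc => h3 (sInt_of_eS hc)
  have e : ∀ D : K ⧸ latK w2,
      SInt (((D + QuotientAddGroup.mk (w1 * t)).out - (D.out + w1 * t)) / w2) := fun D =>
    bloc_eq.1 (by rw [QuotientAddGroup.out_eq', QuotientAddGroup.mk_add, QuotientAddGroup.out_eq'])
  have key : ∑ D ∈ T, eS (m * D.out) * eS (m * w1 * t) = ∑ D ∈ T, eS (m * D.out) := by
    refine Finset.sum_equiv (Equiv.addRight (QuotientAddGroup.mk (w1 * t))) (fun D => ?_) fun D _ => ?_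
    · rw [hT, hT, Equiv.coe_addRight]
      have h4 := ((e D).mul h).add (SInt.coe t)
      exact ⟨fun a => bloc_of (h4.add a) (by field_simp; ring),
        fun a => bloc_of (a.sub h4) (by field_simp; ring)⟩
    · rw [← eS_add, Equiv.coe_addRight]
      exact bloc_eS (bloc_of ((e D).mul hm).neg (by field_simp; ring))
  rw [← Finset.sum_mul] at key
  exact (mul_left_eq_self₀.1 ((mul_comm _ _).trans key)).resolve_left ht

omit [Setup K] in
/-- finite Fourier expansion on `w₁ SInt / w₂ SInt`: `∑_{x ∈ w₂⁻¹SInt / w₁⁻¹SInt} eS (n x) = #·1[n ∈ w₂ SInt]`,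
representatives `x ∈ R` by `approx0` -/
theorem exists_eS_expand {w1 w2 : K} (h1 : w1 ≠ 0) (h2 : w2 ≠ 0) (h : SInt (w2 / w1)) {g : K → ℂ}
    (hg : ∀ x y, SInt (x / w1) → SInt (y / w2) → g (x + y) = g x) :
    ∃ (T : Finset (R K)) (c : R K → ℂ), ∀ n : K, SInt (n / w1) →
      g n = ∑ x ∈ T, c x * eS (n * (x : K)) := by
  obtain ⟨T1, hT1, -⟩ := card_latK h1 h2 h
  have h' : SInt (w1⁻¹ / w2⁻¹) := bloc_of h (by field_simp)
  obtain ⟨T2, hT2, hc⟩ := card_latK (inv_ne_zero h2) (inv_ne_zero h1) h'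
  have hc0 : (T2.card : ℂ) ≠ 0 := by
    have := sS_pos (div_ne_zero (inv_ne_zero h1) (inv_ne_zero h2))
    rw [← hc] at this
    exact_mod_cast this.ne'
  choose ρ hρ using fun x : K ⧸ latK w1⁻¹ => approx0 (inv_ne_zero h1) x.out
  refine ⟨T2.image ρ, fun r => ∑ x ∈ T2 with ρ x = r,
    (T2.card : ℂ)⁻¹ * ∑ y ∈ T1, g y.out * eS (-(y.out * x.out)), fun n hn => ?_⟩
  have e1 : ∀ y ∈ T1, ∑ x ∈ T2, eS ((n - y.out) * x.out) =
      if y = QuotientAddGroup.mk n then (T2.card : ℂ) else 0 := fun y hy => by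
    rw [bloc_orth (inv_ne_zero h2) (inv_ne_zero h1) h' hT2
      (bloc_of (hn.sub ((hT1 y).1 hy)) (by field_simp))]
    refine if_congr ?_ rfl rfl
    rw [eq_comm, ← div_eq_mul_inv, ← bloc_eq, QuotientAddGroup.out_eq']
  have e2 : (QuotientAddGroup.mk n : K ⧸ latK w2) ∈ T1 :=
    (hT1 _).2 (bloc_of (((bloc_out w2 n).mul h).add hn) (by field_simp; ring))
  calc g n = (T2.card : ℂ)⁻¹ * ∑ y ∈ T1, g y.out * ∑ x ∈ T2, eS ((n - y.out) * x.out) := by
        rw [Finset.sum_congr rfl fun y hy => by rw [e1 y hy]]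
        simp only [mul_ite, mul_zero, Finset.sum_ite_eq', if_pos e2]
        rw [← hg n _ hn (bloc_out w2 n), add_sub_cancel]
        field_simp
    _ = ∑ x ∈ T2, ((T2.card : ℂ)⁻¹ * ∑ y ∈ T1, g y.out * eS (-(y.out * x.out))) *
          eS (n * (ρ x : K)) := by
        simp only [Finset.mul_sum, Finset.sum_mul]
        rw [Finset.sum_comm]
        refine Finset.sum_congr rfl fun x _ => Finset.sum_congr rfl fun y _ => ?_
        rw [mul_assoc, mul_assoc, ← eS_add]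
        congr 2
        exact bloc_eS (bloc_of (hn.mul (hρ x)) (by field_simp; ring))
    _ = _ := by
        rw [← Finset.sum_fiberwise_of_maps_to fun x hx => Finset.mem_image_of_mem ρ hx]
        refine Finset.sum_congr rfl fun r _ => ?_
        rw [Finset.sum_mul]
        exact Finset.sum_congr rfl fun x hx => by rw [(Finset.mem_filter.1 hx).2]

omit [Fld K] [Setup K] in
theorem bloc_mono {m n : ℕ} (h : m ≤ n) {x : K} (hx : SInt ((Loc.Q K : K) ^ m * x)) :
    SInt ((Loc.Q K : K) ^ n * x) := by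
  obtain ⟨j, rfl⟩ := Nat.exists_eq_add_of_le h
  exact bloc_of ((loc_Qp j).mul hx) (by ring)

theorem exists_good (σ : SL (R K)) (e' : ℕ) : ∃ e, e' ≤ e ∧ Good σ e := by
  obtain ⟨a, ha⟩ := exists_pow_mul_sInt (σ.a : K)
  obtain ⟨b, hb⟩ := exists_pow_mul_sInt (σ.b : K)
  obtain ⟨c, hc⟩ := exists_pow_mul_sInt (σ.c : K)
  obtain ⟨d, hd⟩ := exists_pow_mul_sInt (σ.d : K)
  exact ⟨e' + Setup.lev K + 2 * (a + b + c + d), by omega, a + b + c + d, by omega,
    bloc_mono (by omega) ha, bloc_mono (by omega) hb, bloc_mono (by omega) hc, bloc_mono (by omega) hd⟩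

theorem good_one : Good (1 : SL (R K)) (Setup.lev K) := by
  refine ⟨0, le_rfl, ?_, ?_, ?_, ?_⟩ <;> simp [SInt.one, SInt.zero]

theorem Good.lev_le {σ : SL (R K)} {e : ℕ} (h : Good σ e) : Setup.lev K ≤ e := by
  obtain ⟨e0, h, -⟩ := h
  omega

theorem bloc_good {σ : SL (R K)} {e : ℕ} (h : Good σ e) : ∃ e0, e0 ≤ e ∧ ∀ C D : K, ind σ C D →
    SInt ((Loc.Q K : K) ^ e0 * C) ∧ SInt ((Loc.Q K : K) ^ e0 * D) ∧
      ∀ z : K, SInt ((Loc.Q K : K) ^ e0 * z) → ind σ C (D + (Loc.Q K : K) ^ e * z) := by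
  obtain ⟨e0, he, ha, hb, hc, hd⟩ := h
  obtain ⟨j, rfl⟩ := Nat.exists_eq_add_of_le he
  have det : (σ.a : K) * σ.d - σ.b * σ.c = 1 := by exact_mod_cast congrArg Subtype.val σ.det
  refine ⟨e0, by omega, fun C D ⟨h1, h2⟩ => ⟨bloc_of ((h1.sInt.mul ha).add (h2.sInt.mul hc)) ?_,
    bloc_of ((h1.sInt.mul hb).add (h2.sInt.mul hd)) ?_, fun z hz => ⟨?_, ?_⟩⟩⟩
  · linear_combination (-(Loc.Q K : K) ^ e0 * C) * det
  · linear_combination (-(Loc.Q K : K) ^ e0 * D) * det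
  · convert h1.sub ⟨_, (loc_Qp j).mul (hz.mul hc), rfl⟩ using 1
    ring
  · convert inU_add h2 ⟨_, (loc_Qp j).mul (hz.mul ha), rfl⟩ using 1
    ring

theorem ind_add {σ : SL (R K)} {e : ℕ} (h : Good σ e) {C D t : K} (hi : ind σ C D) (ht : SInt t) :
    ind σ C (D + (Loc.Q K : K) ^ e * C * t) := by
  obtain ⟨e0, -, h⟩ := bloc_good h
  obtain ⟨h1, -, h2⟩ := h C D hi
  rw [mul_assoc]
  exact h2 _ (bloc_of (h1.mul ht) (by ring))

theorem ind_mul_U {σ : SL (R K)} {C D x : K} (hx : InU (Setup.lev K) x) :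
    ind σ (x * C) (x * D) ↔ ind σ C D := by
  have key : ∀ C D x : K, InU (Setup.lev K) x → ind σ C D → ind σ (x * C) (x * D) :=
    fun C D x hx ⟨h1, h2⟩ => ⟨by convert InJ.mul_left hx.sInt h1 using 1; ring,
      by convert hx.mul h2 using 1; ring⟩
  refine ⟨fun h => ?_, key C D x hx⟩
  have := key _ _ _ (hx.inv Setup.lev_pos) h
  rwa [inv_mul_cancel_left₀ (hx.ne_zero Setup.lev_pos),
    inv_mul_cancel_left₀ (hx.ne_zero Setup.lev_pos)] at this

theorem ind_sInt {σ : SL (R K)} {e : ℕ} (h : Good σ e) {C D : K} (hi : ind σ C D) :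
    SInt ((Loc.Q K : K) ^ e * C) ∧ SInt ((Loc.Q K : K) ^ e * D) := by
  obtain ⟨e0, he, h⟩ := bloc_good h
  exact ⟨bloc_mono he (h C D hi).1, bloc_mono he (h C D hi).2.1⟩

theorem bloc_T {σ : SL (R K)} {e : ℕ} (h : Good σ e) {C : K} (hC : C ≠ 0)
    (hs : SInt ((Loc.Q K : K) ^ e * C)) : ∃ T : Finset (K ⧸ latK ((Loc.Q K : K) ^ e * C)),
      (∀ D, ind σ C D.out → D ∈ T) ∧ (T.card : ℝ) = sS ((Loc.Q K : K) ^ (2 * e)) * sS C := by
  have hQ := pow_ne_zero e (loc_Q_ne (K := K))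
  obtain ⟨T, h1, h2⟩ := card_latK (inv_ne_zero hQ) (mul_ne_zero hQ hC)
    (bloc_of ((loc_Qp e).mul hs) (by field_simp))
  refine ⟨T, fun D hD => (h1 D).2 (bloc_of (ind_sInt h hD).2 (by field_simp)), ?_⟩
  rw [h2, ← sS_mul]
  congr 1
  field_simp
  ring

theorem bloc_ind {σ : SL (R K)} {e : ℕ} (h : Good σ e) {C D D' : K} (hC : C ≠ 0)
    (hD : SInt ((D - D') / ((Loc.Q K : K) ^ e * C))) : ind σ C D ↔ ind σ C D' := by
  have hQ := pow_ne_zero e (loc_Q_ne (K := K))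
  exact ⟨fun a => by convert ind_add h a hD.neg using 1; field_simp; ring,
    fun a => by convert ind_add h a hD using 1; field_simp; ring⟩

/-- affine change of variables in `LL` -/
theorem bloc_LL {σ : SL (R K)} {e : ℕ} (h : Good σ e) {C n w u : K} (hC : C ≠ 0)
    (hn : SInt ((Loc.Q K : K) ^ e * n)) (hu : u ≠ 0) (v : K)
    (hw : ∀ y, SInt (y / w) ↔ SInt (u * y / ((Loc.Q K : K) ^ e * C))) :
    LL σ e C n = ∑' D : K ⧸ latK w,
      if ind σ C (u * D.out + v) then eS (n * (u * D.out + v) / C) else 0 := by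
  have hQ := pow_ne_zero e (loc_Q_ne (K := K))
  let φ : (K ⧸ latK w) ≃ (K ⧸ latK ((Loc.Q K : K) ^ e * C)) :=
    Quotient.congr ((Equiv.mulLeft₀ u hu).trans (Equiv.addRight v)) fun a b => by
      rw [QuotientAddGroup.leftRel_apply, QuotientAddGroup.leftRel_apply]
      refine (hw _).trans (iff_of_eq (congrArg SInt ?_))
      simp only [Equiv.trans_apply, Equiv.mulLeft₀_apply, Equiv.coe_addRight]
      ring
  rw [LL, ← φ.tsum_eq]
  refine tsum_congr fun D => ?_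
  have e1 : φ D = QuotientAddGroup.mk (u * D.out + v) := by
    conv_lhs => rw [← QuotientAddGroup.out_eq' D]
    rfl
  have e2 := bloc_out ((Loc.Q K : K) ^ e * C) (u * D.out + v)
  rw [e1]
  exact if_congr (bloc_ind h hC e2) (bloc_eS (bloc_of (e2.mul hn) (by field_simp))) rfl

/-- the sum defining `LL` is finite -/
theorem LL_finite {σ : SL (R K)} {e : ℕ} (h : Good σ e) {C : K} (hC : C ≠ 0) :
    {D : K ⧸ latK ((Loc.Q K : K) ^ e * C) | ind σ C D.out}.Finite := by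
  by_cases hs : SInt ((Loc.Q K : K) ^ e * C)
  · obtain ⟨T, hT, -⟩ := bloc_T h hC hs
    exact T.finite_toSet.subset hT
  · exact Set.finite_empty.subset fun D hD => hs (ind_sInt h hD).1

/-- `D ↦ x D` -/
theorem LL_mul_U {σ : SL (R K)} {e : ℕ} (h : Good σ e) {C n x : K} (hC : C ≠ 0)
    (hn : SInt ((Loc.Q K : K) ^ e * n)) (hx : InU (Setup.lev K) x) : LL σ e (x * C) n = LL σ e C n := by
  have hx0 := hx.ne_zero Setup.lev_pos
  rw [bloc_LL h (mul_ne_zero hx0 hC) hn hx0 0 (w := (Loc.Q K : K) ^ e * C)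
    fun y => iff_of_eq (congrArg SInt (by field_simp)), LL]
  refine tsum_congr fun D => ?_
  rw [add_zero]
  exact if_congr (ind_mul_U hx) (congrArg eS (by field_simp)) rfl

/-- `D ↦ D / u` -/
theorem LL_unit {σ : SL (R K)} {e : ℕ} (h : Good σ e) {C n u : K} (hC : C ≠ 0)
    (hn : SInt ((Loc.Q K : K) ^ e * n)) (hu : InU e u) : LL σ e C (u * n) = LL σ e C n := by
  have he : 1 ≤ e := Setup.lev_pos.trans h.lev_le
  have key : ∀ u D : K, InU e u → ind σ C D → ind σ C (u * D) := fun u D ⟨s, hs, hu⟩ hD => by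
    obtain ⟨e0, -, h⟩ := bloc_good h
    obtain ⟨-, h1, h2⟩ := h C D hD
    convert h2 (s * D) (bloc_of (h1.mul hs) (by ring)) using 1
    rw [hu]
    ring
  rw [bloc_LL h hC hn (hu.ne_zero he) 0 (w := (Loc.Q K : K) ^ e * C)
    fun y => by rw [mul_div_assoc, (hu.isW he).sInt_mul_iff], LL]
  refine tsum_congr fun D => ?_
  rw [add_zero]
  refine if_congr ⟨key u _ hu, fun a => ?_⟩ (congrArg eS (by ring)) rfl
  have := key _ _ (hu.inv he) a
  rwa [inv_mul_cancel_left₀ (hu.ne_zero he)] at this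

theorem norm_LL_le {σ : SL (R K)} {e : ℕ} (h : Good σ e) : ∃ B : ℝ, 0 ≤ B ∧ ∀ C n : K, C ≠ 0 →
    ‖LL σ e C n‖ ≤ if SInt ((Loc.Q K : K) ^ e * C) then B * sS C else 0 := by
  refine ⟨sS ((Loc.Q K : K) ^ (2 * e)), (sS_pos (pow_ne_zero _ loc_Q_ne)).le, fun C n hC => ?_⟩
  split_ifs with hs
  · obtain ⟨T, hT, hc⟩ := bloc_T h hC hs
    rw [LL, tsum_eq_sum (s := T) fun D hD => if_neg fun a => hD (hT D a), ← hc]
    refine (norm_sum_le _ _).trans ((Finset.sum_le_card_nsmul _ _ 1 fun D _ => ?_).trans (by simp))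
    split_ifs
    · exact (norm_eS _).le
    · simp
  · rw [LL, tsum_congr fun D => if_neg fun a => hs (ind_sInt h a).1]
    simp

theorem LL_zero_nonneg {σ : SL (R K)} {e : ℕ} (h : Good σ e) {C : K} (hC : C ≠ 0) :
    ∃ r : ℝ, 0 ≤ r ∧ LL σ e C 0 = r ∧ ((∃ D, ind σ C D) → 0 < r) := by
  refine ⟨(LL_finite h hC).toFinset.card, Nat.cast_nonneg _, ?_, fun ⟨D, hD⟩ => ?_⟩
  · rw [LL, tsum_eq_sum (s := (LL_finite h hC).toFinset) fun D hD => if_neg (by simpa using hD),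
      Finset.sum_congr rfl fun D hD => if_pos (by simpa using hD)]
    simp [eS_of_sInt SInt.zero]
  · exact Nat.cast_pos.2 (Finset.card_pos.2 ⟨QuotientAddGroup.mk D, by
      simpa using (bloc_ind h hC (bloc_out _ D)).2 hD⟩)

/-- `σ = sig k c₀` isolates the class of `c₀`: with `c = C Q^{-k} - D c₀`, `d = D Q^k` we have
`C/c₀ = d + c Q^k/c₀`; so `ind σ C D ⟺ C/c₀ ∈ U ∧ D ∈ C/(Q^k c₀) + Q^lev c₀⁻¹ SInt`.  The sum over
`t ∈ SInt / Q^{e-lev} c₀² SInt` of `eS (n Q^lev t/(c₀ C))` is `r = sS (Q^{e-lev}c₀²)` or `0` (`sInt_of_eS`). -/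
theorem LL_sig {k e : ℕ} {c0 : R K} (h0 : c0 ≠ 0) (hk : SInt ((Loc.Q K : K) ^ k / (c0 : K)))
    (h : Good (sig k c0) e) : ∃ r : ℝ, 0 < r ∧ ∀ C n : K, C ≠ 0 → SInt ((Loc.Q K : K) ^ e * n) →
      LL (sig k c0) e C n = if InU (Setup.lev K) (C / c0) ∧
        SInt (n * (Loc.Q K : K) ^ Setup.lev K / (c0 : K) ^ 2) then
        r * eS (n / ((Loc.Q K : K) ^ k * (c0 : K))) else 0 := by
  have hc : (c0 : K) ≠ 0 := fun h => h0 (Subtype.ext h)
  have hQ := loc_Q_ne (K := K)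
  have ea : (((Qu ^ k : (R K)ˣ) : R K) : K) = (Loc.Q K : K) ^ k := by simp [Qu]
  have hind : ∀ C D : K, ind (sig k c0) C D ↔ InU (Setup.lev K) (C / c0) ∧
      SInt ((D - C / ((Loc.Q K : K) ^ k * c0)) / ((Loc.Q K : K) ^ Setup.lev K / c0)) := fun C D => by
    have e1 : InJ (Setup.lev K) (C * ((Loc.Q K : K) ^ k)⁻¹ - D * c0) ↔
        SInt ((D - C / ((Loc.Q K : K) ^ k * c0)) / ((Loc.Q K : K) ^ Setup.lev K / c0)) :=
      ⟨fun ⟨s, hs, a⟩ => bloc_of hs.neg (by
          rw [eq_comm, neg_eq_iff_eq_neg, ← mul_right_inj' (pow_ne_zero (Setup.lev K) hQ), ← a]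
          field_simp
          ring),
        fun a => ⟨_, a.neg, by field_simp; ring⟩⟩
    simp only [ind, sig, wv_unit_inv, ea, Subring.coe_zero, mul_zero, neg_zero, zero_add]
    rw [and_comm, ← e1]
    refine and_congr_left fun a => ⟨fun b => ?_, fun b => ?_⟩
    · convert inU_add b (a.mul_right hk) using 1
      field_simp
      ring
    · convert inU_add b (a.mul_right hk).neg using 1
      field_simp
      ring
  obtain ⟨e0, he, -, -, h3, -⟩ := id h
  obtain ⟨j, rfl⟩ := Nat.exists_eq_add_of_le he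
  refine ⟨sS ((Loc.Q K : K) ^ (2 * e0 + j) * (c0 : K) ^ 2), sS_pos (by positivity),
    fun C n hC hn => ?_⟩
  by_cases hU : InU (Setup.lev K) (C / c0)
  swap
  · rw [if_neg fun a => hU a.1, LL, tsum_congr fun D => if_neg fun a => hU ((hind _ _).1 a).1,
      tsum_zero]
  have hW := hU.isW Setup.lev_pos
  have e2 : (Loc.Q K : K) ^ (Setup.lev K + 2 * e0 + j) * C / ((Loc.Q K : K) ^ Setup.lev K / c0) =
      C / c0 * ((Loc.Q K : K) ^ (2 * e0 + j) * (c0 : K) ^ 2) := by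
    field_simp
    ring
  have h4 : SInt ((Loc.Q K : K) ^ (Setup.lev K + 2 * e0 + j) * C /
      ((Loc.Q K : K) ^ Setup.lev K / c0)) :=
    bloc_of (hU.sInt.mul ((loc_Qp j).mul (h3.mul h3))) (by rw [e2]; simp only [sig]; ring)
  have n1 : (Loc.Q K : K) ^ Setup.lev K / c0 ≠ 0 := by positivity
  have n2 : (Loc.Q K : K) ^ (Setup.lev K + 2 * e0 + j) * C ≠ 0 := by positivity
  obtain ⟨T, hT, hcard⟩ := card_latK n1 n2 h4
  rw [e2, sS_mul, sS_of_isW hW, one_mul] at hcard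
  rw [bloc_LL h hC hn one_ne_zero (C / ((Loc.Q K : K) ^ k * c0)) fun y => by rw [one_mul], ← hcard]
  simp only [hind, hU, true_and, one_mul, add_sub_cancel_right, ← hT]
  rw [tsum_eq_sum (s := T) fun D hD => if_neg hD, Finset.sum_congr rfl fun D hD => (if_pos hD).trans
    (show _ = eS (n / C * D.out) * eS (n / ((Loc.Q K : K) ^ k * (c0 : K))) by
      rw [← eS_add]; congr 1; field_simp), ← Finset.sum_mul,
    bloc_orth n1 n2 h4 hT (bloc_of hn (by field_simp)), ← hW.sInt_mul_iff,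
    show C / c0 * (n / C * ((Loc.Q K : K) ^ Setup.lev K / c0)) =
      n * (Loc.Q K : K) ^ Setup.lev K / (c0 : K) ^ 2 by field_simp]
  split_ifs <;> simp

end Crest.Agent.R312.Th
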