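import Crest.Agent.R312.B5BIso

/-!
# R312 / B5BRho : the Hecke relations (port of R17/VoRho2)
-/

set_option autoImplicit false

noncomputable section

open scoped Classical ComplexConjugate NumberField Topology
open MeasureTheory Filter
open Crest.Agent.R17.Vor (SL nn SS pw)

namespace Crest.Agent.R312.Th

variable {K : Type} [Field K] [NumberField K] [Fld K] [Loc K] [Setup K]

omit [Setup K] in
theorem rho_q {p : R K} (hp : Prime p) : (N p : ℂ) ≠ 0 := by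
  exact_mod_cast (N_pos hp.ne_zero).ne'

omit [Setup K] in
theorem rho_q1 (p : R K) : (N p : ℂ) + 1 ≠ 0 := by
  have := N_nonneg p
  exact_mod_cast (by linarith : N p + 1 ≠ 0)

omit [Fld K] [Setup K] in
theorem rho_coe_ne {p : R K} (hp : p ≠ 0) : (p : K) ≠ 0 := fun e => hp (Subtype.ext e)

theorem rho_H3_conj (g h : G K) : conj (H3 g h) = H3 g h ^ 2 := by
  have h1 := gamB_mul_conj (norm_H3 g h)
  have h2 := H3_cube g h
  linear_combination (-conj (H3 g h)) * h2 + H3 g h ^ 2 * h1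

theorem rho_H3_pow (g h : G K) (j : ℕ) : H3 g (h ^ j) = H3 g h ^ j := by
  induction j with
  | zero => rw [pow_zero, pow_zero, H3_one_right]
  | succ j ih => rw [pow_succ, pow_succ, H3_mul_right, ih]

theorem rho_toG_pow (c : CU K) (j : ℕ) : toG (c ^ j) = toG c ^ j := by
  induction j with
  | zero => rw [pow_zero, pow_zero, toG_one]
  | succ j ih => rw [pow_succ, pow_succ, toG_mul, ih]

theorem rho_H3_p {p : R K} (hp : p ≠ 0) (c : CU K) (j : ℕ) :
    H3 (cl p) (toG (c * cu (p : K) ^ j)) = H3 (cl p) (toG c) := by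
  rw [toG_mul, rho_toG_pow, toG_cu hp, H3_mul_right, rho_H3_pow, H3_self, one_pow, mul_one]

omit [Setup K] in
/-- `g(p;n) = conj (cub p n) g3(p) √q` -/
theorem rho_gs {p : R K} (hp : Prime p) (n : R K) :
    gs p (cub p) n = conj (cub p n) * g3 p * (Real.sqrt (N p) : ℂ) := by
  rw [gs_cub hp.ne_zero hp.squarefree, g3, mul_assoc, div_mul_cancel₀ _ (gA_sqrt_ne hp.ne_zero)]

omit [Setup K] in
theorem rho_gs_conj {p : R K} (hp : Prime p) {n : R K} (hn : ¬ p ∣ n) :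
    gs p (cub p) n * conj (gs p (cub p) n) = N p := by
  have h5 := gamB_mul_conj (norm_g3 hp.ne_zero hp.squarefree)
  have h6 := gamB_mul_conj ((cub_isChar hp.ne_zero).norm_eq_one hp.ne_zero
    (hp.coprime_iff_not_dvd.2 hn).symm)
  have h7 : (Real.sqrt (N p) : ℂ) * (Real.sqrt (N p) : ℂ) = N p := by
    exact_mod_cast Real.mul_self_sqrt (N_nonneg p)
  rw [rho_gs hp, map_mul, map_mul, Complex.conj_conj, Complex.conj_ofReal]
  linear_combination (g3 p * conj (g3 p) * (Real.sqrt (N p) : ℂ) * (Real.sqrt (N p) : ℂ)) * h6 +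
    ((Real.sqrt (N p) : ℂ) * (Real.sqrt (N p) : ℂ)) * h5 + h7

omit [Setup K] in
theorem rho_cpow {p : R K} (hp : Prime p) (x : ℝ) : (N p : ℂ) ^ (x : ℂ) = ((N p ^ x : ℝ) : ℂ) :=
  (Complex.ofReal_cpow (N_nonneg p) x).symm

theorem rho0_unit_mul (c : CU K) {η : R K} (hη : IsUnit η) (n : R K) :
    rho0 c (η * n) = conj (H3 (toG c) (cl η)) * rho0 c n := by
  exact (((hasRes_psi c n).const_mul (conj (H3 (toG c) (cl η)))).congr
    fun s _ _ => (psi_unit_mul all c hη n s).symm).res43_eq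

theorem rho0_mul_cube {p : R K} (hp : Prime p) (c : CU K) (n : R K) : rho0 c (n * p ^ 3) = rho0 c n := by
  have h := hasRes_psi_off hp c (n * p ^ 3)
  rw [psi_off_cube hp] at h
  exact mul_left_cancel₀ (div_ne_zero (rho_q hp) (rho_q1 p)) (h.unique (hasRes_psi_off hp c n))

/-- `ρ(c) = -q⁻¹ ρ(c/p³)` and finitely many values (`psi_finite`) -/
theorem rho0_mul_sq {p : R K} (hp : Prime p) (hp' : Prim p) (c : CU K) {n : R K} (hn : ¬ p ∣ n) :
    rho0 c (n * p ^ 2) = 0 := by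
  have hq := rho_q hp
  have hq1 := rho_q1 p
  have hd : Differentiable ℂ fun s : ℂ => (N p : ℂ) ^ (2 - 3 * s) :=
    Differentiable.const_cpow (by fun_prop) (Or.inl hq)
  have key : ∀ c : CU K, (N p : ℂ) * rho0 c (n * p ^ 2) = -rho0 (c / cu (p : K) ^ 3) (n * p ^ 2) := by
    intro c
    have h := (((hasRes_psi_off hp c (n * p ^ 2)).sub
      ((hasRes_psi_off hp (c / cu (p : K) ^ 3) (n * p ^ 2)).hol_mul hd.differentiableOn)).congr
      fun s _ hs => (psi_b hp hp' c hn hs).symm).unique (hasRes_psi c _)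
    rw [show (2 : ℂ) - 3 * (4 / 3) = -((2 : ℕ) : ℂ) by norm_num, Complex.cpow_neg,
      Complex.cpow_natCast] at h
    field_simp at h
    linear_combination -h
  have hfin : (Set.range fun c : CU K => ‖rho0 c (n * p ^ 2)‖).Finite := by
    have := (psi_finite all (n * p ^ 2)).image fun F => ‖res43 K F‖
    rwa [← Set.range_comp] at this
  obtain ⟨_, ⟨c0, rfl⟩, hc0⟩ := Set.exists_max_image _ id hfin (Set.range_nonempty _)
  have h1 : ∀ c : CU K, ‖rho0 c (n * p ^ 2)‖ ≤ ‖rho0 c0 (n * p ^ 2)‖ := fun c => hc0 _ ⟨c, rfl⟩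
  have h2 := congrArg norm (key c0)
  rw [norm_mul, norm_neg, Complex.norm_real, Real.norm_of_nonneg (N_nonneg p)] at h2
  have h3 := h1 (c0 / cu (p : K) ^ 3)
  have h4 := Prime.two_le_N hp
  have h5 := norm_nonneg (rho0 c0 (n * p ^ 2))
  exact norm_le_zero_iff.1 ((h1 c).trans (by nlinarith))

/-- from (a) for the class `c p`; `|g(p,n)|² = q` -/
theorem rho0_mul_prime {p : R K} (hp : Prime p) (hp' : Prim p) (c : CU K) {n : R K} (hn : ¬ p ∣ n) :
    rho0 c (n * p) = ((N p ^ (-(2 / 3 : ℝ)) : ℝ) : ℂ) * conj (gs p (cub p) n) *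
      conj (H3 (cl p) (toG c)) * rho0 (c * cu (p : K)) n := by
  have hq := rho_q hp
  have hq1 := rho_q1 p
  have h0 := N_pos hp.ne_zero
  have hd : Differentiable ℂ fun s : ℂ =>
      (N p : ℂ) ^ (-s) * (gs p (cub p) n * H3 (cl p) (toG (c * cu (p : K)))) :=
    (Differentiable.const_cpow (by fun_prop) (Or.inl hq)).mul_const _
  have h := (((hasRes_psi_off hp (c * cu (p : K)) n).add
    ((hasRes_psi_off hp (c * cu (p : K) / cu (p : K)) (n * p)).hol_mul hd.differentiableOn)).congr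
    fun s _ hs => (psi_a hp hp' _ hn hs).symm).unique (hasRes_psi _ _)
  have e1 := rho_H3_p hp.ne_zero c 1
  rw [pow_one] at e1
  have e2 := rho_cpow hp (-(4 / 3))
  push_cast at e2
  rw [mul_div_cancel_right, e1, e2] at h
  have e3 : ((N p ^ (-(2 / 3 : ℝ)) : ℝ) : ℂ) * ((N p ^ (-(4 / 3 : ℝ)) : ℝ) : ℂ) * N p * N p = 1 := by
    rw [← Complex.ofReal_mul, ← Complex.ofReal_mul, ← Complex.ofReal_mul, ← Real.rpow_add h0,
      ← Real.rpow_add_one h0.ne', ← Real.rpow_add_one h0.ne']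
    norm_num
  have e4 := rho_gs_conj hp hn
  have e5 := gamB_mul_conj (norm_H3 (cl p) (toG c))
  field_simp at h
  generalize ((N p ^ (-(2 / 3 : ℝ)) : ℝ) : ℂ) = a at *
  generalize ((N p ^ (-(4 / 3 : ℝ)) : ℝ) : ℂ) = b at *
  generalize gs p (cub p) n = g at *
  generalize H3 (cl p) (toG c) = H at *
  linear_combination (a * conj g * conj H) * h - rho0 c (n * p) * e3 -
    (a * b * N p * rho0 c (n * p) * (H * conj H)) * e4 - (a * b * N p * N p * rho0 c (n * p)) * e5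

/-- compare (a) and (a') -/
theorem rho0_class_cube {p : R K} (hp : Prime p) (hp' : Prim p) (c : CU K) {n : R K} (hn : ¬ p ∣ n) :
    rho0 (c * cu (p : K) ^ 3) n = rho0 c n := by
  have hq := rho_q hp
  have hq1 := rho_q1 p
  have h0 := N_pos hp.ne_zero
  have hd : Differentiable ℂ fun s : ℂ => (N p : ℂ) ^ (1 - 2 * s) *
      (conj (gs p (cub p) n) * H3 (cl p) (toG (c * cu (p : K) ^ 2)) ^ 2) :=
    (Differentiable.const_cpow (by fun_prop) (Or.inl hq)).mul_const _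
  have h := (((hasRes_psi_off hp (c * cu (p : K) ^ 2) (n * p)).add
    ((hasRes_psi_off hp (c * cu (p : K) ^ 2 / cu (p : K) ^ 2) n).hol_mul hd.differentiableOn)).congr
    fun s _ hs => (psi_a' hp hp' _ hn hs).symm).unique (hasRes_psi _ _)
  have h2 := rho0_mul_prime hp hp' (c * cu (p : K) ^ 2) hn
  have e2 := rho_cpow hp (-(5 / 3))
  push_cast at e2
  rw [mul_div_cancel_right, rho_H3_p hp.ne_zero, show (1 : ℂ) - 2 * (4 / 3) = -(5 / 3) by norm_num,
    e2] at h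
  rw [rho_H3_p hp.ne_zero, rho_H3_conj, mul_assoc c, ← pow_succ] at h2
  have e3 : ((N p ^ (-(2 / 3 : ℝ)) : ℝ) : ℂ) = ((N p ^ (-(5 / 3 : ℝ)) : ℝ) : ℂ) * N p := by
    rw [← Complex.ofReal_mul, ← Real.rpow_add_one h0.ne']
    norm_num
  have ha : ((N p ^ (-(2 / 3 : ℝ)) : ℝ) : ℂ) ≠ 0 := by
    exact_mod_cast (Real.rpow_pos_of_pos h0 _).ne'
  have hg : conj (gs p (cub p) n) ≠ 0 := fun e => hq (by rw [← rho_gs_conj hp hn, e, mul_zero])
  have hH : H3 (cl p) (toG c) ^ 2 ≠ 0 := pow_ne_zero _ (by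
    rw [← norm_ne_zero_iff, norm_H3]; exact one_ne_zero)
  refine mul_left_cancel₀ (mul_ne_zero (mul_ne_zero ha hg) hH) ?_
  rw [← h2, e3]
  field_simp at h
  linear_combination -h

theorem rho_cube_step {p a : R K} (hp : Prime p) (hp' : Prim p) (ha : a ≠ 0)
    (ih : ∀ c : CU K, rho0 (c * cu (a : K) ^ 3) 1 = rho0 c 1) (c : CU K) :
    rho0 (c * cu ((p * a : R K) : K) ^ 3) 1 = rho0 c 1 := by
  rw [Subring.coe_mul, cu_mul (rho_coe_ne hp.ne_zero) (rho_coe_ne ha), mul_pow,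
    ← mul_assoc, ih, rho0_class_cube hp hp' c hp.not_dvd_one]

theorem rho_cube_one (c : CU K) : rho0 (c * cu ((1 : R K) : K) ^ 3) 1 = rho0 c 1 := by
  rw [Subring.coe_one, cu_one, one_pow, mul_one]

theorem rho_cube_prim {b : R K} (hb : Prim b) :
    ∀ c : CU K, rho0 (c * cu (b : K) ^ 3) 1 = rho0 c 1 :=
  Prim.induction (P := fun b : R K => ∀ c : CU K, rho0 (c * cu (b : K) ^ 3) 1 = rho0 c 1)
    rho_cube_one (fun _ _ hp hp' ha ih => rho_cube_step hp hp' ha.ne_zero ih) hb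

theorem rho_cube_class (c t : CU K) : rho0 (c * t ^ 3) 1 = rho0 c 1 := by
  obtain ⟨u, b, hu, hb, e⟩ := exists_eq_unit_prim (rep_ne t)
  obtain ⟨u, rfl⟩ := hu
  rw [← cu_rep t, e, Subring.coe_mul, cu_mul (rho_coe_ne u.ne_zero) (rho_coe_ne hb.ne_zero), mul_pow,
    ← mul_assoc, rho_cube_prim hb, rho0, psi_unit_cube, rho0]

/-- `rho0 c 1` only depends on `toG c` (`toG_eq`; `rep t` is a unit times primary primes) -/
theorem exists_rr : ∃ r : G K → ℂ, ∀ c : CU K, rho0 c 1 = r (toG c) := by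
  refine ⟨fun g => rho0 (toG_surj g).choose 1, fun c => ?_⟩
  obtain ⟨t, ht⟩ := toG_eq (toG_surj (toG c)).choose_spec
  conv_lhs => rw [ht]
  rw [show t ^ 6 = t ^ 3 * t ^ 3 by rw [← pow_add], ← mul_assoc, rho_cube_class, rho_cube_class]

theorem rho_r_cube {r : G K → ℂ} (hr : ∀ c : CU K, rho0 c 1 = r (toG c)) (g h : G K) :
    r (g * h ^ 3) = r g := by
  obtain ⟨c, rfl⟩ := toG_surj g
  obtain ⟨t, rfl⟩ := toG_surj h
  rw [← rho_toG_pow, ← toG_mul, ← hr, ← hr, rho_cube_class]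

theorem rho_hecke_one {r : G K → ℂ} (hr : ∀ c : CU K, rho0 c 1 = r (toG c)) {m : R K} (hm : Prim m)
    (c : CU K) : rho0 c m = ((N m ^ (-(1 / 6 : ℝ)) : ℝ) : ℂ) * tau m *
      H3 (toG c) (cl m) * r (toG c * cl m) := by
  induction' hn : nm m using Nat.strong_induction_on with n ih generalizing m c
  by_cases h1 : m = 1
  · rw [h1, N_one, Real.one_rpow, tau_one, cl_one, H3_one_right, mul_one, hr]
    simp
  obtain ⟨p, hp, hp', hpm⟩ := hm.exists_prime_dvd h1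
  have h0 := N_pos hp.ne_zero
  have hlt : ∀ a : R K, p ∣ a → ∀ b, m = b * a → nm b < n := fun a ⟨c, hc⟩ b hb => by
    have h2 : 2 ≤ nm p := by exact_mod_cast (show (2 : ℝ) ≤ nm p from Prime.two_le_N hp)
    have h3 := nm_pos hm.ne_zero
    rw [← hn]
    rw [hb, hc, nm_mul, nm_mul] at h3 ⊢
    have h4 : 0 < nm c := Nat.pos_of_mul_pos_left (Nat.pos_of_mul_pos_left h3)
    exact lt_mul_of_one_lt_right (Nat.pos_of_mul_pos_right h3) (by nlinarith)
  by_cases h3 : p ^ 3 ∣ m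
  · obtain ⟨b, hb⟩ := h3
    have hb' : Prim b := (hb ▸ hm).of_mul_left (hp'.pow 3)
    rw [mul_comm] at hb
    have h4 := ih _ (hlt _ (dvd_pow_self p three_ne_zero) b hb) hb' c rfl
    have h5 : (N p ^ 3) ^ (-(1 / 6 : ℝ)) * Real.sqrt (N p) = 1 := by
      rw [Real.sqrt_eq_rpow, ← Real.rpow_natCast, ← Real.rpow_mul (N_nonneg _), ← Real.rpow_add h0]
      norm_num
    have h5' : (((N p ^ 3) ^ (-(1 / 6 : ℝ)) : ℝ) : ℂ) * (Real.sqrt (N p) : ℂ) = 1 := by
      exact_mod_cast h5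
    rw [hb, rho0_mul_cube hp, tau_mul_cube hb' hp', N_mul, N_pow,
      Real.mul_rpow (N_nonneg _) (pow_nonneg (N_nonneg _) _), Complex.ofReal_mul,
      cl_mul hb'.ne_zero (pow_ne_zero 3 hp.ne_zero), cl_pow hp.ne_zero, ← mul_assoc (toG c),
      rho_r_cube hr, H3_mul_right, rho_H3_pow, H3_cube, h4]
    linear_combination (-(((N b ^ (-(1 / 6 : ℝ)) : ℝ) : ℂ) * tau b * H3 (toG c) (cl b) *
      r (toG c * cl b))) * h5'
  by_cases h2 : p ^ 2 ∣ m
  · have h4 : tau m = 0 := by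
      by_contra h
      obtain ⟨m0, c, -, hs, -, e⟩ := tau_ne_zero hm h
      by_cases hc : p ∣ c
      · exact h3 (e ▸ (pow_dvd_pow_of_dvd hc 3).mul_left _)
      · exact hp.not_isUnit (hs p (by
          rw [← sq]
          exact (hp.coprime_iff_not_dvd.2 hc).pow.dvd_of_dvd_mul_right (e ▸ h2)))
    obtain ⟨b, rfl⟩ := h2
    rw [h4, mul_comm (p ^ 2), rho0_mul_sq hp hp' c (fun h =>
      h3 (pow_succ p 2 ▸ mul_dvd_mul_left _ h))]
    simp
  obtain ⟨b, hb⟩ := hpm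
  have hb' : Prim b := (hb ▸ hm).of_mul_left hp'
  have hpb : ¬ p ∣ b := fun h => h2 (hb ▸ sq p ▸ mul_dvd_mul_left _ h)
  have hco := hp.coprime_iff_not_dvd.2 hpb
  have h4 := ih _ (hlt p dvd_rfl b (hb.trans (mul_comm _ _))) hb' (c * cu (p : K)) rfl
  have h5 := rho0_mul_prime hp hp' c hpb
  have h6 := cub_rec3 hp.ne_zero hb'.ne_zero
  have h7 := key_cube hb'.ne_zero hco
  have h8 := H3_cube (cl p) (cl b)
  have h9 : ((N p ^ (-(2 / 3 : ℝ)) : ℝ) : ℂ) * (Real.sqrt (N p) : ℂ) = ((N p ^ (-(1 / 6 : ℝ)) : ℝ) : ℂ) := by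
    rw [← Complex.ofReal_mul, Real.sqrt_eq_rpow, ← Real.rpow_add h0]
    norm_num
  rw [h4, rho_gs hp, map_mul, map_mul, Complex.conj_conj, Complex.conj_ofReal,
    ← tau_sqfree hp' hp.squarefree, ← H3_swap, toG_mul, toG_cu hp.ne_zero, H3_mul_left] at h5
  rw [hb, tau_mul hp' hb' hco, N_mul, Real.mul_rpow (N_nonneg _) (N_nonneg _), Complex.ofReal_mul,
    cl_mul hp.ne_zero hb'.ne_zero, H3_mul_right, ← mul_assoc (toG c), mul_comm p b, h5, ← h9,
    map_mul, conj_cub hp.ne_zero, conj_cub hb'.ne_zero, h6]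
  generalize cub b p = x at *
  generalize H3 (cl p) (cl b) = H at *
  linear_combination (-(((N p ^ (-(2 / 3 : ℝ)) : ℝ) : ℂ) * (Real.sqrt (N p) : ℂ) *
    ((N b ^ (-(1 / 6 : ℝ)) : ℝ) : ℂ) * tau p * tau b * H3 (toG c) (cl p) * H3 (toG c) (cl b) *
    r (toG c * cl p * cl b) * H ^ 2 * x)) * h7

/-- **(H)**, strong induction on `nm m` as in R17 `rho0_hecke'` -/
theorem rho0_hecke {r : G K → ℂ} (hr : ∀ c : CU K, rho0 c 1 = r (toG c)) (c : CU K) {η m : R K}
    (hη : IsUnit η) (hm : Prim m) :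
    rho0 c (η * m) = ((N m ^ (-(1 / 6 : ℝ)) : ℝ) : ℂ) * tau m * conj (H3 (toG c) (cl η)) *
      H3 (toG c) (cl m) * r (toG c * cl m) := by
  rw [rho0_unit_mul c hη, rho_hecke_one hr hm c]
  ring

theorem rho0_bound : ∃ B : ℝ, 0 ≤ B ∧ ∀ (c : CU K) (η m : R K), IsUnit η → Prim m →
    ‖rho0 c (η * m)‖ ≤ B * ‖tau m‖ * N m ^ (-(1 / 6 : ℝ)) := by
  obtain ⟨r, hr⟩ := exists_rr (K := K)
  refine ⟨∑ g, ‖r g‖, Finset.sum_nonneg fun _ _ => norm_nonneg _, fun c η m hη hm => ?_⟩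
  have h1 : ‖r (toG c * cl m)‖ ≤ ∑ g, ‖r g‖ :=
    Finset.single_le_sum (f := fun g => ‖r g‖) (fun _ _ => norm_nonneg _) (Finset.mem_univ _)
  have h2 := Real.rpow_nonneg (N_nonneg m) (-(1 / 6 : ℝ))
  rw [rho0_hecke hr c hη hm, norm_mul, norm_mul, norm_mul, norm_mul, Complex.norm_conj, norm_H3,
    norm_H3, Complex.norm_real, Real.norm_of_nonneg h2, mul_one, mul_one]
  calc N m ^ (-(1 / 6 : ℝ)) * ‖tau m‖ * ‖r (toG c * cl m)‖
      ≤ N m ^ (-(1 / 6 : ℝ)) * ‖tau m‖ * ∑ g, ‖r g‖ :=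
        mul_le_mul_of_nonneg_left h1 (mul_nonneg h2 (norm_nonneg _))
    _ = _ := by ring

end Crest.Agent.R312.Th
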