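import Crest.Agent.R312.B5BLoc

/-!
# R312 / B5BRow : the row functions `kp π`, cusps, `tr σ k0` (port of R17/VoArith1)
-/

set_option autoImplicit false

noncomputable section

open scoped Classical ComplexConjugate NumberField Topology
open MeasureTheory Filter
open Crest.Agent.R17.Vor (SL nn SS pw)

namespace Crest.Agent.R312.Th

variable {K : Type} [Field K] [NumberField K] [Fld K] [Loc K] [Setup K]

omit [Fld K] [Setup K] in
theorem tr_one (κ : R K → R K → ℂ) : tr 1 κ = κ := by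
  funext C D
  simp [tr]

omit [Fld K] [Setup K] in
theorem tr_comp (g h : SL (R K)) (κ : R K → R K → ℂ) : tr (g * h) κ = tr h (tr g κ) := by
  funext C D
  simp only [tr, SL.mul_a, SL.mul_b, SL.mul_c, SL.mul_d]
  congr 1 <;> ring

theorem brow_supp {π : R K → Prop} {c d : R K} (h : kp π c d ≠ 0) :
    InJ (Setup.lev K) (c : K) ∧ InU (Setup.lev K) (d : K) ∧ π d ∧ IsCoprime c d := by
  unfold kp at h
  split_ifs at h with h1
  · exact ⟨h1.1, h1.2.1, h1.2.2, by_contra fun hc => h (((cub_isChar (kub_ne h1.2.1)).zero_iff c).2 hc)⟩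
  · exact absurd rfl h

theorem brow_kp (π : R K → Prop) (c d : R K) : kp π c d = if π d then k0 K c d else 0 := by
  unfold k0 kp
  by_cases h : π d <;> simp [h]

theorem brow_mem {p : R K} {γ : SL (R K)} : γ ∈ Gam K p ↔ γ ∈ Gam K 1 ∧ p ∣ γ.b :=
  ⟨fun h => ⟨⟨h.1, h.2.1, h.2.2.1, h.2.2.2.1, one_dvd _⟩, h.2.2.2.2⟩,
    fun h => ⟨h.1.1, h.1.2.1, h.1.2.2.1, h.1.2.2.2.1, h.2⟩⟩

omit [Fld K] [Setup K] in
theorem brow_inJ {e : ℕ} {x : R K} : InJ e (x : K) ↔ ∃ y ∈ QI K e, x = toR y := by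
  have hQ := pow_ne_zero e (loc_Q_ne (K := K))
  constructor
  · rintro ⟨s, hs, h⟩
    obtain ⟨t, rfl⟩ := (isUnit_Q.pow e).dvd (a := x)
    have ht : (t : K) = s := by
      refine mul_left_cancel₀ hQ ?_
      simpa using h
    obtain ⟨y, rfl⟩ := exists_toR_of_isIntegral (x := t) (SInt.isIntegral (bloc_of hs ht))
    exact ⟨(Loc.Q K : 𝓞 K) ^ e * y, Ideal.mem_span_singleton.2 (dvd_mul_right _ _), by simp⟩
  · rintro ⟨y, hy, rfl⟩
    obtain ⟨z, rfl⟩ := Ideal.mem_span_singleton.1 hy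
    exact ⟨z, SInt.coe z, by simp⟩

omit [Fld K] [Setup K] in
theorem brow_QI_ne (e : ℕ) : QI K e ≠ ⊥ := by
  rw [QI, Ne, Ideal.span_singleton_eq_bot]
  exact pow_ne_zero _ b0fin_Q_ne

omit [Setup K] in
theorem brow_QI_mul {p : R K} (hp : p ≠ 0) (e : ℕ) {y : 𝓞 K} :
    y ∈ QI K e * idl p ↔ y ∈ QI K e ∧ p ∣ toR y := by
  have h : IsCoprime (QI K e) (idl p) := by
    rw [QI, ← Ideal.span_singleton_pow]
    exact (idl_isCoprime hp).symm.pow_left
  rw [Ideal.mul_eq_inf_of_isCoprime h, Ideal.mem_inf, mem_idl]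

theorem brow_nn {p x : R K} : (nn x : SL (R K)) ∈ Gam K p ↔ InJ (Setup.lev K) (x : K) ∧ p ∣ x :=
  ⟨fun h => ⟨h.2.1, h.2.2.2.2⟩, fun h => ⟨by simpa [nn] using InU.one _, h.1,
    by simpa [nn] using InJ.zero _, by simpa [nn] using InU.one _, h.2⟩⟩

theorem brow_dg {u : (R K)ˣ} (hu : u ∈ Ups K (M0 K)) (p : R K) : dgR u ∈ Gam K p :=
  ⟨inU_of_mem_Ups dvd_rfl hu, by simpa [dgR] using InJ.zero _, by simpa [dgR] using InJ.zero _,
    inU_of_mem_Ups dvd_rfl ((Ups K _).inv_mem hu), dvd_zero _⟩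

theorem brow_row {γ : SL (R K)} (hγ : γ ∈ Gam K 1) {c d : R K}
    (h : InJ (Setup.lev K) (c : K) ∧ InU (Setup.lev K) (d : K)) :
    InJ (Setup.lev K) ((c * γ.a + d * γ.c : R K) : K) ∧
      InU (Setup.lev K) ((c * γ.b + d * γ.d : R K) : K) := by
  push_cast
  refine ⟨(h.1.mul_right hγ.1.sInt).add (InJ.mul_left h.2.sInt hγ.2.2.1), ?_⟩
  rw [add_comm]
  exact inU_add (h.2.mul hγ.2.2.2.1) (h.1.mul_right hγ.2.1.sInt)

omit [NumberField K] [Fld K] [Setup K] in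
theorem brow_cop (γ : SL (R K)) {c d : R K} (h : IsCoprime (c * γ.a + d * γ.c) (c * γ.b + d * γ.d)) :
    IsCoprime c d := by
  obtain ⟨u, v, e⟩ := h
  exact ⟨u * γ.a + v * γ.b, u * γ.c + v * γ.d, by linear_combination e⟩

theorem brow_equi : Equi 1 (k0 K) := by
  intro γ hγ c d
  unfold k0 kp
  by_cases h : InJ (Setup.lev K) (c : K) ∧ InU (Setup.lev K) (d : K)
  · have h' := brow_row hγ h
    rw [if_pos ⟨h'.1, h'.2, trivial⟩, if_pos ⟨h.1, h.2, trivial⟩]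
    by_cases hc : IsCoprime c d
    · obtain ⟨δ, hδ, rfl, rfl⟩ := exists_Gam_row one_ne_zero h.1 h.2 hc isCoprime_one_left
      exact kap_mul hδ hγ
    · rw [((cub_isChar (kub_ne h.2)).zero_iff c).2 hc, zero_mul]
      exact ((cub_isChar (kub_ne h'.2)).zero_iff _).2 fun h1 => hc (brow_cop γ h1)
  · rw [if_neg fun h' : _ ∧ _ ∧ True => h ⟨h'.1, h'.2.1⟩, zero_mul, if_neg]
    intro h'
    have h1 := brow_row ((Gam K 1).inv_mem hγ) ⟨h'.1, h'.2.1⟩
    rw [show (c * γ.a + d * γ.c) * γ⁻¹.a + (c * γ.b + d * γ.d) * γ⁻¹.c = c by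
        simp only [SL.inv_a, SL.inv_c]; linear_combination c * γ.det,
      show (c * γ.a + d * γ.c) * γ⁻¹.b + (c * γ.b + d * γ.d) * γ⁻¹.d = d by
        simp only [SL.inv_b, SL.inv_d]; linear_combination d * γ.det] at h1
    exact h h1

omit [NumberField K] [Fld K] [Setup K] in
theorem brow_dvd {p d d' x : R K} (hx : IsCoprime x p) (h : p ∣ d' - d * x) : p ∣ d' ↔ p ∣ d := by
  refine ⟨fun h1 => hx.symm.dvd_of_dvd_mul_right ?_, fun h1 => ?_⟩
  · have := dvd_sub h1 h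
    rwa [sub_sub_cancel] at this
  · have := dvd_add h (h1.mul_right x)
    rwa [sub_add_cancel] at this

theorem rowBd_kp {π : R K → Prop} (hπ : Idl π) : RowBd (kp π) := by
  refine ⟨fun c d => ?_, fun c d h => ?_, ⟨0, fun c d h => ?_⟩, fun u hu c d => ?_⟩
  · unfold kp
    split_ifs with h
    · exact (cub_isChar (kub_ne h.2.1)).norm_le (kub_ne h.2.1) c
    · simp
  · exact (brow_supp h).2.2.2
  · obtain ⟨h1, h2, -⟩ := brow_supp h
    simpa using And.intro h1.sInt h2.sInt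
  · have hU := inU_of_mem_Ups dvd_rfl hu
    have hU' := inU_of_mem_Ups dvd_rfl ((Ups K _).inv_mem hu)
    have key : ∀ (v : (R K)ˣ) (c d : R K), InU (Setup.lev K) ((v : R K) : K) →
        InJ (Setup.lev K) (c : K) ∧ InU (Setup.lev K) (d : K) →
        InJ (Setup.lev K) ((v * c : R K) : K) ∧ InU (Setup.lev K) ((v * d : R K) : K) :=
      fun v c d hv h => by
        push_cast
        exact ⟨InJ.mul_left hv.sInt h.1, hv.mul h.2⟩
    have ha : Associated ((u : R K) * d) d := associated_unit_mul_left _ _ u.isUnit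
    unfold kp
    by_cases h : InJ (Setup.lev K) (c : K) ∧ InU (Setup.lev K) (d : K)
    · have h' := key u c d hU h
      simp only [h.1, h.2, h'.1, h'.2, true_and, hπ _ _ ha]
      rw [show cub ((u : R K) * d) (u * c) = cub d (u * c) from sym_assoc 3 ha _,
        (cub_isChar (kub_ne h.2)).mul, cub_unit_of_inU h.2 u.isUnit, one_mul]
    · rw [if_neg (c := _ ∧ _ ∧ π d) fun h' => h ⟨h'.1, h'.2.1⟩, if_neg]
      intro h'
      have := key u⁻¹ _ _ hU' ⟨h'.1, h'.2.1⟩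
      rw [Units.inv_mul_cancel_left, Units.inv_mul_cancel_left] at this
      exact h this

/-- coprime rows in the support: complete with `exists_Gam_row` (`p = 1`) and use `kap_mul`; for non-coprime
rows both sides vanish; the support condition is invariant -/
theorem equi_kp {p : R K} {π : R K → Prop}
    (hπ : ∀ d d' x : R K, IsCoprime x p → p ∣ d' - d * x → (π d' ↔ π d)) : Equi p (kp π) := by
  intro γ hγ c d
  obtain ⟨h1, t, ht⟩ := brow_mem.1 hγ
  have h2 : π (c * γ.b + d * γ.d) ↔ π d :=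
    hπ d _ γ.d ⟨γ.a, -(t * γ.c), by linear_combination γ.det + γ.c * ht⟩
      ⟨c * t, by rw [ht]; ring⟩
  rw [brow_kp, brow_kp π c d, brow_equi γ h1]
  simp only [h2]
  split_ifs
  · rfl
  · rw [zero_mul]

theorem cusp_k0 : Cusp 1 (k0 K) 1 (QI K (Setup.lev K)) := by
  refine ⟨rowBd_kp fun _ _ _ => Iff.rfl, brow_equi, (Gam K 1).one_mem, brow_QI_ne _, fun c d h => ?_,
    fun x => ?_, fun u hu => ?_⟩
  · obtain ⟨h1, h2, -, h3⟩ := brow_supp h
    obtain ⟨γ, hγ, e⟩ := exists_Gam_row one_ne_zero h1 h2 h3 isCoprime_one_left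
    exact ⟨γ, hγ, by rwa [one_mul]⟩
  · rw [inv_one, one_mul, mul_one, brow_nn, and_iff_left (one_dvd _), brow_inJ]
  · rw [inv_one, one_mul, mul_one]
    exact brow_dg hu 1

theorem cusp_off {p : R K} (hp : Prime p) : Cusp p (kp (off p)) 1 (QI K (Setup.lev K) * idl p) := by
  refine ⟨rowBd_kp fun _ _ h => not_congr h.dvd_iff_dvd_right,
    equi_kp fun _ _ _ hx h => not_congr (brow_dvd hx h), (Gam K 1).one_mem,
    mul_ne_zero (brow_QI_ne _) (idl_ne_bot hp.ne_zero), fun c d h => ?_, fun x => ?_, fun u hu => ?_⟩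
  · obtain ⟨h1, h2, h4, h3⟩ := brow_supp h
    obtain ⟨γ, hγ, e⟩ := exists_Gam_row hp.ne_zero h1 h2 h3 (hp.coprime_iff_not_dvd.2 h4)
    exact ⟨γ, hγ, by rwa [one_mul]⟩
  · rw [inv_one, one_mul, mul_one, brow_nn, brow_inJ]
    simp only [brow_QI_mul hp.ne_zero]
    constructor
    · rintro ⟨⟨y, hy, rfl⟩, h⟩
      exact ⟨y, ⟨hy, h⟩, rfl⟩
    · rintro ⟨y, ⟨hy, h⟩, rfl⟩
      exact ⟨⟨y, hy, rfl⟩, h⟩
  · rw [inv_one, one_mul, mul_one]
    exact brow_dg hu p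

/-- `δ` with bottom row `(Q^lev, d₀)`, `d₀ ∈ U`, `p ∣ d₀` (`approx`, `exists_Gam_row`) -/
theorem cusp_on {p : R K} (hp : Prime p) :
    ∃ δ : SL (R K), p ∣ δ.d ∧ Cusp p (kp (on p)) δ (QI K (Setup.lev K)) := by
  obtain ⟨d0, hd0, hU⟩ := approx (Setup.lev K) (x := (1 : K)) one_ne_zero hp.ne_zero 0
  rw [sub_zero] at hd0
  rw [div_one] at hU
  have hu : IsUnit (((Loc.Q K : ℕ) : R K) ^ Setup.lev K) := isUnit_Q.pow _
  obtain ⟨δ, hδ, -, rfl⟩ := exists_Gam_row (c := ((Loc.Q K : ℕ) : R K) ^ Setup.lev K) one_ne_zero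
    ⟨1, SInt.one, by simp⟩ hU (isCoprime_one_left.of_isCoprime_of_dvd_left hu.dvd) isCoprime_one_left
  have hc : ∀ g : SL (R K), δ⁻¹ * g * δ ∈ Gam K 1 ↔ g ∈ Gam K 1 := fun g => by
    rw [(Gam K 1).mul_mem_cancel_right hδ, (Gam K 1).mul_mem_cancel_left ((Gam K 1).inv_mem hδ)]
  refine ⟨δ, hd0, rowBd_kp fun _ _ h => h.dvd_iff_dvd_right, equi_kp fun _ _ _ hx h => brow_dvd hx h,
    hδ, brow_QI_ne _, fun c d h => ?_, fun x => ?_, fun u hu => ?_⟩
  · obtain ⟨h1, h2, h4, h3⟩ := brow_supp h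
    obtain ⟨γ, hγ, rfl, rfl⟩ := exists_Gam_row one_ne_zero h1 h2 h3 isCoprime_one_left
    refine ⟨δ⁻¹ * γ, brow_mem.2 ⟨(Gam K 1).mul_mem ((Gam K 1).inv_mem hδ) hγ, ?_⟩,
      by rw [mul_inv_cancel_left], by rw [mul_inv_cancel_left]⟩
    exact dvd_add (hd0.mul_right _) (Dvd.dvd.mul_left h4 _)
  · rw [brow_mem, hc, brow_nn, and_iff_left (one_dvd _), brow_inJ, and_iff_left]
    have e : (δ⁻¹ * nn x * δ).b = δ.d * (x * δ.d) := by
      simp only [nn, SL.mul_a, SL.mul_b, SL.inv_a, SL.inv_b]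
      ring
    rw [e]
    exact hd0.mul_right _
  · refine brow_mem.2 ⟨(hc _).2 (brow_dg hu 1), ?_⟩
    have e : (δ⁻¹ * dgR u * δ).b = δ.d * (δ.b * (u - (u⁻¹ : (R K)ˣ))) := by
      simp only [dgR, SL.mul_a, SL.mul_b, SL.inv_a, SL.inv_b]
      ring
    rw [e]
    exact hd0.mul_right _

theorem k0_eq_add (p : R K) (c d : R K) : k0 K c d = kp (on p) c d + kp (off p) c d := by
  rw [brow_kp (on p), brow_kp (off p)]
  unfold on off
  by_cases h : p ∣ d <;> simp [h]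

theorem tr_Gam {γ : SL (R K)} (hγ : γ ∈ Gam K 1) (C D : R K) :
    tr γ (k0 K) C D = conj (kap γ) * k0 K C D := by
  have h := brow_equi γ⁻¹ ((Gam K 1).inv_mem hγ) C D
  rw [kap_inv hγ] at h
  rw [mul_comm, ← h, tr]
  simp only [SL.inv_a, SL.inv_b, SL.inv_c, SL.inv_d]
  congr 1 <;> ring

/-- if `p ∣ (γσ).a` then `(C,D)(γσ)⁻¹` has second entry `≡ -C (γσ).b`, and `p ∤ (γσ).b` -/
theorem tr_kp_on {p : R K} (hp : Prime p) {γ σ : SL (R K)} (hγ : γ ∈ Gam K 1) (ha : p ∣ (γ * σ).a)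
    (C D : R K) : tr (γ * σ) (kp (on p)) C D = conj (kap γ) * kpi σ (on p) C D := by
  have h1 : tr (γ * σ) (k0 K) C D = conj (kap γ) * tr σ (k0 K) C D := by
    rw [tr_comp, tr, tr_Gam hγ, tr]
  have hb : IsCoprime (-(γ * σ).b) p := by
    obtain ⟨t, ht⟩ := ha
    exact ⟨(γ * σ).c, t * (γ * σ).d, by linear_combination (γ * σ).det - (γ * σ).d * ht⟩
  have h2 : on p (-(C * (γ * σ).b) + D * (γ * σ).a) ↔ on p C :=
    brow_dvd hb (by
      rw [show -(C * (γ * σ).b) + D * (γ * σ).a - C * -(γ * σ).b = D * (γ * σ).a by ring]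
      exact ha.mul_left _)
  rw [tr, brow_kp, kpi]
  simp only [h2]
  split_ifs
  · exact h1
  · rw [mul_zero]

theorem brow_ind (σ : SL (R K)) (C D : R K) :
    InJ (Setup.lev K) ((C * σ.d - D * σ.c : R K) : K) ∧
      InU (Setup.lev K) ((-(C * σ.b) + D * σ.a : R K) : K) ↔ ind σ (C : K) (D : K) := by
  unfold ind
  push_cast
  rfl

/-- `kap_formula` for `γ` with bottom row `(C,D)σ⁻¹`; non-coprime rows give `0 = 0` -/
theorem tr_k0_eq (σ : SL (R K)) (ha : σ.a ≠ 0) {C : R K} (hC : C ≠ 0) (D : R K) :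
    tr σ (k0 K) C D = if ind σ (C : K) (D : K) then
      conj (cub σ.a σ.b * H3 (cl σ.a) (cl C)) * cub C D else 0 := by
  rw [tr, k0, kp, ← brow_ind]
  by_cases h : InJ (Setup.lev K) ((C * σ.d - D * σ.c : R K) : K) ∧
      InU (Setup.lev K) ((-(C * σ.b) + D * σ.a : R K) : K)
  swap
  · rw [if_neg h, if_neg fun h' => h ⟨h'.1, h'.2.1⟩]
  rw [if_pos h, if_pos ⟨h.1, h.2, trivial⟩]
  have e1 : (C * σ.d - D * σ.c) * σ.a + (-(C * σ.b) + D * σ.a) * σ.c = C := by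
    linear_combination C * σ.det
  have e2 : (C * σ.d - D * σ.c) * σ.b + (-(C * σ.b) + D * σ.a) * σ.d = D := by
    linear_combination D * σ.det
  by_cases hc : IsCoprime (C * σ.d - D * σ.c) (-(C * σ.b) + D * σ.a)
  · obtain ⟨γ, hγ, g1, g2⟩ := exists_Gam_row one_ne_zero h.1 h.2 hc isCoprime_one_left
    have k1 : (γ * σ).c = C := by rw [SL.mul_c, g1, g2, e1]
    have k2 : (γ * σ).d = D := by rw [SL.mul_d, g1, g2, e2]
    have h3 := kap_formula σ ha hγ (by rwa [k1])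
    rw [k1, k2] at h3
    have h4 : ‖cub σ.a σ.b * sg σ.a C ^ 2‖ = 1 := by
      rw [norm_mul, norm_pow, norm_sg, (cub_isChar ha).norm_eq_one ha
        ⟨-σ.c, σ.d, by linear_combination σ.det⟩, one_pow, one_mul]
    rw [← g1, ← g2, h3]
    change kap γ = conj (cub σ.a σ.b * sg σ.a C ^ 2) * _
    linear_combination -kap γ * bc_mul_conj h4
  · rw [((cub_isChar (kub_ne h.2)).zero_iff _).2 hc, ((cub_isChar hC).zero_iff D).2, mul_zero]
    rintro ⟨u, v, e⟩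
    exact hc ⟨u * σ.b + v * σ.a, u * σ.d + v * σ.c, by linear_combination e + u * e2 + v * e1⟩

/-- `equi_kp` with `σ n(t) σ⁻¹` and `kap_conj_nn` -/
theorem per3_tr {σ : SL (R K)} {e : ℕ} (h : Good σ e) : Per3 (QI K e) (tr σ (k0 K)) := by
  intro C D t ht
  obtain ⟨e0, he, ha, -, hc, -⟩ := h
  obtain ⟨s, hs, hts⟩ := brow_inJ.2 ⟨t, ht, rfl⟩
  obtain ⟨j, rfl⟩ := Nat.exists_eq_add_of_le he
  have H : ∀ x y : K, SInt ((Loc.Q K : K) ^ e0 * x) → SInt ((Loc.Q K : K) ^ e0 * y) →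
      InJ (Setup.lev K) ((toR t : R K) * x * y) := fun x y hx hy =>
    ⟨_, ((loc_Qp j).mul hs).mul (hx.mul hy), by rw [hts]; ring⟩
  have hdet : (σ.a : K) * σ.d - σ.b * σ.c = 1 := by exact_mod_cast congrArg Subtype.val σ.det
  have hm : σ * nn (toR t) * σ⁻¹ ∈ Gam K 1 := by
    refine ⟨inU_iff_inJ.2 ?_, ?_, ?_, inU_iff_inJ.2 ?_, one_dvd _⟩
    · convert (H _ _ ha hc).neg using 1
      simp only [nn, SL.mul_a, SL.mul_b, SL.inv_a, SL.inv_c]
      push_cast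
      linear_combination hdet
    · convert H _ _ ha ha using 1
      simp only [nn, SL.mul_a, SL.mul_b, SL.inv_b, SL.inv_d]
      push_cast
      ring
    · convert (H _ _ hc hc).neg using 1
      simp only [nn, SL.mul_c, SL.mul_d, SL.inv_a, SL.inv_c]
      push_cast
      ring
    · convert H _ _ ha hc using 1
      simp only [nn, SL.mul_c, SL.mul_d, SL.inv_b, SL.inv_d]
      push_cast
      linear_combination hdet
  have h1 := brow_equi _ hm (C * σ.d - D * σ.c) (-(C * σ.b) + D * σ.a)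
  rw [kap_conj_nn σ hm, mul_one] at h1
  rw [tr, tr, ← h1]
  simp only [nn, SL.mul_a, SL.mul_b, SL.mul_c, SL.mul_d, SL.inv_a, SL.inv_b, SL.inv_c, SL.inv_d]
  congr 1
  · linear_combination (-(C * σ.d - D * σ.c) + C * σ.c * toR t) * σ.det
  · linear_combination (-(-(C * σ.b) + D * σ.a) - C * σ.a * toR t) * σ.det

theorem per3_kpi {σ : SL (R K)} {e : ℕ} (h : Good σ e) (π : R K → Prop) : Per3 (QI K e) (kpi σ π) := by
  intro C D t ht
  rw [kpi, kpi, per3_tr h C D t ht]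

theorem rowBd_kpi (σ : SL (R K)) {π : R K → Prop} (hπ : Idl π) : RowBd (kpi σ π) := by
  have h0 : RowBd (k0 K) := rowBd_kp fun _ _ _ => Iff.rfl
  have hne : ∀ C D, kpi σ π C D ≠ 0 → k0 K (C * σ.d - D * σ.c) (-(C * σ.b) + D * σ.a) ≠ 0 :=
    fun C D h h1 => h (by rw [kpi, tr, h1, ite_self])
  obtain ⟨e, -, he⟩ := exists_good σ 0
  refine ⟨fun C D => ?_, fun C D h => ?_, ⟨e, fun C D h => ?_⟩, fun u hu C D => ?_⟩
  · unfold kpi
    split_ifs
    · exact h0.le _ _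
    · simp
  · obtain ⟨u, v, h1⟩ := h0.cop _ _ (hne C D h)
    exact ⟨u * σ.d - v * σ.b, v * σ.a - u * σ.c, by linear_combination h1⟩
  · obtain ⟨h1, h2, -⟩ := brow_supp (hne C D h)
    exact ind_sInt he ((brow_ind σ C D).1 ⟨h1, h2⟩)
  · have ha : Associated ((u : R K) * C) C := associated_unit_mul_left _ _ u.isUnit
    have h1 := h0.inv u hu (C * σ.d - D * σ.c) (-(C * σ.b) + D * σ.a)
    simp only [kpi, hπ _ _ ha, tr, ← h1]
    congr 2 <;> ring

theorem kpi_all (σ : SL (R K)) : kpi σ all = tr σ (k0 K) := by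
  funext C D
  exact if_pos trivial

theorem per3_kp_on {p : R K} (hp : Prime p) : Per3 (QI K (Setup.lev K) * idl p) (kp (on p)) := by
  intro C D t ht
  obtain ⟨h1, h2⟩ := (brow_QI_mul hp.ne_zero _).1 ht
  have h3 := equi_kp (π := on p) (fun _ _ _ hx h => brow_dvd hx h) (nn (toR t))
    (brow_nn.2 ⟨brow_inJ.2 ⟨t, h1, rfl⟩, h2⟩) C D
  rw [show kap (nn (toR t) : SL (R K)) = 1 from sym_one 3 _, mul_one] at h3
  rw [← h3]
  simp only [nn]
  congr 1 <;> ring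

omit [Fld K] [Setup K] in
theorem Per3.mono {I J : Ideal (𝓞 K)} (h : J ≤ I) {κ : R K → R K → ℂ} (hκ : Per3 I κ) : Per3 J κ := by
  exact fun C D t ht => hκ C D t (h ht)

theorem idl_all : Idl (all : R K → Prop) := fun _ _ _ => Iff.rfl

theorem idl_on (p : R K) : Idl (on p) := fun _ _ h => h.dvd_iff_dvd_right

theorem idl_off (p : R K) : Idl (off p) := fun _ _ h => not_congr h.dvd_iff_dvd_right

end Crest.Agent.R312.Th
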