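import Crest.Agent.R312.B5BRho
import Crest.Agent.R17.VoGeo1

/-!
# R312 / B5BTh : expansions of `theta` at all cusps; non-vanishing
-/

set_option autoImplicit false

noncomputable section

open scoped Classical ComplexConjugate NumberField Topology
open MeasureTheory Filter
open Crest.Agent.R17.Vor (SL nn SS pw)

namespace Crest.Agent.R312.Th

variable {K : Type} [Field K] [NumberField K] [Fld K] [Loc K] [Setup K]

omit [Setup K] in
theorem HasExp.smul {F : XX K → ℂ} {a : R K → ℂ} (h : HasExp F a) (c : ℂ) :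
    HasExp (fun w => c * F w) (fun n => c * a n) := by
  intro z v hv
  simpa only [mul_assoc] using (h z v hv).mul_left c

omit [Setup K] in
theorem HasExp.sum {ι : Type} (S : Finset ι) {F : ι → XX K → ℂ} {a : ι → R K → ℂ}
    (h : ∀ i ∈ S, HasExp (F i) (a i)) :
    HasExp (fun w => ∑ i ∈ S, F i w) (fun n => ∑ i ∈ S, a i n) := by
  intro z v hv
  simpa only [Finset.sum_mul] using hasSum_sum fun i hi => h i hi z v hv

omit [Setup K] in
theorem actK_nn (x : K) (z : Pl K → ℂ) {v : Pl K → ℝ} (hv : ∀ i, 0 < v i) :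
    actK (nn x) (ptK z v) = ptK (z + embv x) v := by
  funext i
  have e : SL.map i.1 (nn x) = nn (emb i x) := by ext1 <;> simp [nn, emb]
  change R17.Vor.act (SL.map i.1 (nn x)) (R17.Vor.pt (z i) (v i)) = R17.Vor.pt (z i + emb i x) (v i)
  rw [e, R17.Vor.act_nn _ _ (hv i)]

omit [Setup K] in
theorem HasExp.transl {F : XX K → ℂ} {a : R K → ℂ} (h : HasExp F a) (x : K) :
    HasExp (fun w => F (actK (nn x) w)) (fun n => a n * eT ((n : K) * x)) := by
  intro z v hv
  have h1 := h (z + embv x) v hv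
  simp only [actK_nn x z hv]
  convert h1 using 2 with n
  rw [mul_add, eI_add, ← embv_mul, ← eT_eq_eI]
  ring

/-- the coefficients of `θ ∘ σ` -/
def ath (σ : SL (R K)) (e : ℕ) (n : R K) : ℂ :=
  if SInt ((Loc.Q K : K) ^ e * (n : K)) then
    (ivol (QI K e) : ℂ) * res43 K (DS (QI K e) (tr σ (k0 K)) (n : K)) else 0

theorem norm_res_DS_le {σ : SL (R K)} (ha : σ.a ≠ 0) {e : ℕ} (h : Good σ e) : ∃ B : ℝ, 0 ≤ B ∧
    ∀ η m : R K, IsUnit η → Prim m → SInt ((Loc.Q K : K) ^ e * ((η * m : R K) : K)) →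
      ‖res43 K (DS (QI K e) (tr σ (k0 K)) ((η * m : R K) : K))‖ ≤ B * ‖tau m‖ * N m ^ (-(1 / 6 : ℝ)) := by
  obtain ⟨B1, hB1, h1⟩ := norm_cf_le h
  obtain ⟨B2, hB2, h2⟩ := rho0_bound (K := K)
  have hs := summable_sS (K := K) e (σ := 1 / 3) (by norm_num)
  have hg : ∀ c : CU K, 0 ≤ if SInt ((Loc.Q K : K) ^ e * (rep c : K)) then
      sS (rep c : K) ^ (-(1 / 3 : ℝ)) else 0 := fun c => by
    have := sS_pos (bc_ne (rep_ne c))
    split_ifs <;> positivity
  refine ⟨B1 * B2 * ∑' c : CU K, if SInt ((Loc.Q K : K) ^ e * (rep c : K)) then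
      sS (rep c : K) ^ (-(1 / 3 : ℝ)) else 0, mul_nonneg (mul_nonneg hB1 hB2) (tsum_nonneg hg),
    fun η m hη hm hn => ?_⟩
  rw [res_DS ha h hn]
  have hN := N_nonneg m
  refine (tsum_of_norm_bounded (hs.hasSum.mul_left (B1 * (B2 * ‖tau m‖ * N m ^ (-(1 / 6 : ℝ)))))
    fun c => ?_).trans_eq (by ring)
  have hp := sS_pos (bc_ne (rep_ne c))
  have h3 := h1 (η * m) c
  have h4 := h2 c η m hη hm
  rw [norm_mul, norm_mul, Complex.norm_cpow_eq_rpow_re_of_pos hp]
  split_ifs at h3 ⊢ with hc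
  · have e1 : (-(4 / 3 : ℂ)).re = -(4 / 3 : ℝ) := by
      simp
    have e2 : sS (rep c : K) ^ (-(1 / 3 : ℝ)) = sS (rep c : K) * sS (rep c : K) ^ (-(4 / 3 : ℝ)) := by
      rw [← Real.rpow_one_add' hp.le (by norm_num)]
      norm_num
    rw [e1, e2]
    calc _ ≤ B1 * sS (rep c : K) * sS (rep c : K) ^ (-(4 / 3 : ℝ)) *
          (B2 * ‖tau m‖ * N m ^ (-(1 / 6 : ℝ))) := by gcongr
      _ = _ := by ring
  · rw [le_antisymm h3 (norm_nonneg _)]
    simp

theorem hasExp_theta {σ : SL (R K)} (ha : σ.a ≠ 0) {e : ℕ} (h : Good σ e) :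
    HasExp (fun w => theta K (actR σ w)) (ath σ e) := by
  obtain ⟨B, hB, h1⟩ := norm_res_DS_le ha h
  refine hasExp_thK one_ne_zero cusp_k0 σ (per3_tr h) (C := B) (j := 0) fun n hn hs => ?_
  obtain ⟨η, m, hη, hm, rfl⟩ := exists_eq_unit_prim hn
  refine (h1 η m hη hm hs).trans ?_
  rw [pow_zero, mul_assoc]
  refine mul_le_mul_of_nonneg_left ?_ hB
  have hN := N_pos hm.ne_zero
  calc _ ≤ N m ^ (1 / 6 : ℝ) * N m ^ (-(1 / 6 : ℝ)) := by
        gcongr
        exact norm_tau_le hm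
    _ = 1 := by rw [← Real.rpow_add hN, add_neg_cancel, Real.rpow_zero]

theorem ath_unit {σ : SL (R K)} (ha : σ.a ≠ 0) {e : ℕ} (h : Good σ e) {u : (R K)ˣ}
    (hu : InU e ((u : R K) : K)) (n : R K) : ath σ e (u * n) = ath σ e n := by
  have hw := hu.isW (Setup.lev_pos.trans h.lev_le)
  have e1 : SInt ((Loc.Q K : K) ^ e * ((u * n : R K) : K)) ↔ SInt ((Loc.Q K : K) ^ e * (n : K)) := by
    rw [Subring.coe_mul, mul_left_comm]
    exact hw.sInt_mul_iff _
  unfold ath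
  by_cases hn : SInt ((Loc.Q K : K) ^ e * (n : K))
  · rw [if_pos hn, if_pos (e1.2 hn), res_DS ha h hn, res_DS ha h (e1.2 hn)]
    congr 1
    refine tsum_congr fun c => ?_
    rw [rho0_unit_mul c u.isUnit, cl_of_inU (hu.mono h.lev_le), H3_one_right, map_one, one_mul, cf, cf,
      Subring.coe_mul, LL_unit h (bc_ne (rep_ne c)) hn hu]
  · rw [if_neg hn, if_neg (mt e1.1 hn)]

theorem bth_exists (σ : SL (R K)) :
    ∃ τ : SL (R K), τ.a ≠ 0 ∧ ∀ w, theta K (actR τ w) = theta K (actR σ w) := by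
  by_cases ha : σ.a = 0
  · have hc : σ.c ≠ 0 := fun h => by
      have := σ.det
      rw [ha, h] at this
      simp at this
    have hγ : nn (((Loc.Q K : ℕ) : R K) ^ Setup.lev K) ∈ Gam K 1 :=
      ⟨by simpa [nn] using InU.one _, ⟨1, SInt.one, by simp [nn]⟩, by simpa [nn] using InJ.zero _,
        by simpa [nn] using InU.one _, one_dvd _⟩
    refine ⟨nn (((Loc.Q K : ℕ) : R K) ^ Setup.lev K) * σ, ?_, fun w => ?_⟩
    · rw [SL.mul_a, ha, mul_zero, zero_add]
      exact mul_ne_zero (pow_ne_zero _ isUnit_Q.ne_zero) hc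
    · have e : kap (nn (((Loc.Q K : ℕ) : R K) ^ Setup.lev K)) = 1 := sym_one 3 _
      rw [actR_mul, theta_aut hγ, e, map_one, one_mul]
  · exact ⟨σ, ha, fun _ => rfl⟩

/-- if `(σβ).a = 0` replace `σβ` by `nn (Q^lev) σ β` -/
theorem thFn_theta (σ : SL (R K)) : ThFn (fun w => theta K (actR σ w)) := by
  refine ⟨?_, fun β => ?_⟩
  · obtain ⟨e, he, h⟩ := kap_conj σ
    refine ⟨e, he, fun γ hγ w => ?_⟩
    obtain ⟨h1, h2⟩ := h γ hγ
    rw [← h2, ← theta_aut h1, ← actR_mul, ← actR_mul, inv_mul_cancel_right]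
  · obtain ⟨τ, ha, hτ⟩ := bth_exists (σ * β)
    obtain ⟨e, -, h⟩ := exists_good τ 0
    obtain ⟨B, hB, h1⟩ := norm_res_DS_le ha h
    refine ⟨e, ‖(ivol (QI K e) : ℂ)‖ * B, ath τ e, ?_, fun n hn => ?_, fun η m hη hm => ?_,
      fun u hu n => ath_unit ha h hu n⟩
    · simpa only [hτ, actR_mul] using hasExp_theta ha h
    · by_contra hc
      exact hn (if_neg hc)
    · have hN := N_nonneg m
      unfold ath
      split_ifs with hs
      · rw [norm_mul, mul_assoc, mul_assoc, ← mul_assoc B]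
        exact mul_le_mul_of_nonneg_left (h1 η m hη hm hs) (norm_nonneg _)
      · rw [norm_zero]
        positivity

theorem bth_smul {F : XX K → ℂ} (h : ThFn F) (c : ℂ) : ThFn (fun w => c * F w) := by
  refine ⟨?_, fun β => ?_⟩
  · obtain ⟨e, he, h1⟩ := h.aut
    exact ⟨e, he, fun γ hγ w => by rw [h1 γ hγ, mul_left_comm]⟩
  · obtain ⟨e, C, a, h1, h2, h3, h4⟩ := h.exp β
    refine ⟨e, ‖c‖ * C, fun n => c * a n, h1.smul c, fun n hn => h2 n (right_ne_zero_of_mul hn),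
      fun η m hη hm => ?_, fun u hu n => by simp only [h4 u hu]⟩
    rw [norm_mul, mul_assoc, mul_assoc, ← mul_assoc C]
    exact mul_le_mul_of_nonneg_left (h3 η m hη hm) (norm_nonneg _)

omit [Fld K] [Setup K] in
theorem bth_supp {e e' : ℕ} (he : e ≤ e') {a : R K → ℂ} (h : Supp e a) : Supp e' a := by
  intro n hn
  obtain ⟨k, rfl⟩ := Nat.exists_eq_add_of_le he
  rw [add_comm, pow_add, mul_assoc]
  exact ((SInt.natCast _).pow k).mul (h n hn)

theorem bth_add {F F' : XX K → ℂ} (h : ThFn F) (h' : ThFn F') : ThFn (fun w => F w + F' w) := by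
  refine ⟨?_, fun β => ?_⟩
  · obtain ⟨e, he, h1⟩ := h.aut
    obtain ⟨e', -, h1'⟩ := h'.aut
    exact ⟨max e e', he.trans (le_max_left _ _), fun γ hγ w => by
      rw [h1 γ (GamN_mono (le_max_left _ _) dvd_rfl hγ), h1' γ (GamN_mono (le_max_right _ _) dvd_rfl hγ),
        mul_add]⟩
  · obtain ⟨e, C, a, h1, h2, h3, h4⟩ := h.exp β
    obtain ⟨e', C', a', h1', h2', h3', h4'⟩ := h'.exp β
    refine ⟨max e e', C + C', fun n => a n + a' n, fun z v hv => ?_, fun n hn => ?_,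
      fun η m hη hm => ?_, fun u hu n => ?_⟩
    · simpa only [add_mul] using (h1 z v hv).add (h1' z v hv)
    · by_cases h0 : a n = 0
      · exact bth_supp (le_max_right _ _) h2' n fun k => hn (by simp only [h0, k, add_zero])
      · exact bth_supp (le_max_left _ _) h2 n h0
    · rw [add_mul, add_mul]
      exact (norm_add_le _ _).trans (add_le_add (h3 η m hη hm) (h3' η m hη hm))
    · simp only [h4 u (hu.mono (le_max_left _ _)), h4' u (hu.mono (le_max_right _ _))]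

theorem ThFn.sum {ι : Type} (S : Finset ι) {F : ι → XX K → ℂ} (h : ∀ i ∈ S, ThFn (F i)) (c : ι → ℂ) :
    ThFn (fun w => ∑ i ∈ S, c i * F i w) := by
  induction S using Finset.induction_on with
  | empty =>
    simp only [Finset.sum_empty]
    exact ⟨⟨_, le_rfl, fun _ _ _ => by simp⟩, fun β => ⟨0, 0, fun _ => 0,
      fun z v _ => by simp, fun _ hn => (hn rfl).elim, fun _ _ _ _ => by simp,
      fun _ _ _ => rfl⟩⟩
  | insert a S ha ih =>
    simp only [Finset.sum_insert ha]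
    exact bth_add (bth_smul (h a (Finset.mem_insert_self a S)) _)
      (ih fun i hi => h i (Finset.mem_insert_of_mem hi))

/-- otherwise `θ = c ∏ v^{2/3}`, `c ≠ 0` (`hasRes_DS_zero`), contradicting `|θ(γ o)| = |θ(o)|` for
`γ = (1 0; Q^lev 1)` -/
theorem rr_ne {r : G K → ℂ} (hr : ∀ c : CU K, rho0 c 1 = r (toG c)) : ∃ g, r g ≠ 0 := by
  by_contra hc
  push Not at hc
  obtain ⟨Z, hZ, h1, -⟩ := hasRes_DS_zero (K := K)
  have ha : (1 : SL (R K)).a ≠ 0 := one_ne_zero
  have h2 : ∀ n : R K, n ≠ 0 → ath 1 (Setup.lev K) n = 0 := by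
    intro n hn
    unfold ath
    split_ifs with hs
    · obtain ⟨η, m, hη, hm, rfl⟩ := exists_eq_unit_prim hn
      rw [res_DS ha good_one hs]
      simp only [rho0_hecke hr _ hη hm, hc, mul_zero, tsum_zero]
    · rfl
  have h3 : ath (1 : SL (R K)) (Setup.lev K) 0 = ((ivol (QI K (Setup.lev K)) * Z : ℝ) : ℂ) := by
    rw [ath, Subring.coe_zero, mul_zero, if_pos SInt.zero, tr_one, h1.res43_eq, Complex.ofReal_mul]
  have h4 : 0 < ivol (QI K (Setup.lev K)) := by
    refine div_pos (Finset.prod_pos fun v _ => div_pos two_pos (dl_pos v)) ?_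
    exact_mod_cast Nat.pos_of_ne_zero (Ideal.absNorm_eq_zero_iff.not.2 (cusp_k0 (K := K)).ne)
  have h5 : ∀ w : XX K, ‖theta K w‖ =
      ivol (QI K (Setup.lev K)) * Z * BB (0 : K) (fun i => R17.Vor.vc (w i)) := by
    intro w
    have hv : ∀ i, 0 < R17.Vor.vc (w i) := fun i => R17.Vor.vc_pos _
    have k1 := hasExp_theta ha (good_one (K := K)) (fun i => R17.Vor.zc (w i)) _ hv
    have k2 : ptK (fun i => R17.Vor.zc (w i)) (fun i => R17.Vor.vc (w i)) = w :=
      funext fun i => R17.Vor.pt_zc_vc (w i)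
    have k3 := k1.unique (hasSum_single 0 fun n hn => by rw [h2 n hn, zero_mul, zero_mul])
    simp only [k2, actR_one] at k3
    rw [k3, h3, norm_mul, norm_eI, mul_one, ← Complex.ofReal_mul, Complex.norm_real,
      Real.norm_of_nonneg (mul_pos (mul_pos h4 hZ) (BB_pos _ hv)).le, Subring.coe_zero]
  let γ : SL (R K) := ⟨1, 0, ((Loc.Q K : ℕ) : R K) ^ Setup.lev K, 1, by ring⟩
  have hγ : γ ∈ Gam K 1 := ⟨by simpa [γ] using InU.one _, by simpa [γ] using InJ.zero _,
    ⟨1, SInt.one, by simp [γ]⟩, by simpa [γ] using InU.one _, one_dvd _⟩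
  have h6 := congrArg norm (theta_aut hγ oK)
  rw [norm_mul, Complex.norm_conj, norm_kap hγ, one_mul, h5, h5] at h6
  have h7 := mul_left_cancel₀ (mul_pos h4 hZ).ne' h6
  have h8 := BB_pos (0 : K) (v := fun _ => 1) fun _ => one_pos
  simp only [BB, emb_zero, mul_zero, norm_zero, zero_mul, Finset.prod_mul_distrib, oK, R17.Vor.vc_o,
    Real.one_rpow, one_mul] at h7 h8
  have h9 := (mul_eq_right₀ h8.ne').1 h7
  have hne : (Finset.univ : Finset (Pl K)).Nonempty :=
    Finset.card_pos.1 (dd_pos (K := K))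
  refine absurd h9 (ne_of_lt ?_)
  refine (Finset.prod_lt_prod_of_nonempty (g := fun _ => 1)
    (fun i _ => Real.rpow_pos_of_pos (R17.Vor.vc_pos _) _) (fun i _ => ?_) hne).trans_eq (by simp)
  refine Real.rpow_lt_one (R17.Vor.vc_pos _).le ?_ (by norm_num)
  change R17.Vor.vc (R17.Vor.act (SL.map i.1 (ιR γ)) R17.Vor.o) < 1
  rw [R17.Vor.vc_act, R17.Vor.hr, R17.Vor.geo1_Qf_o]
  refine inv_lt_one_of_one_lt₀ ?_
  have k1 : (SL.map i.1 (ιR γ)).d = 1 := by simp [ιR, γ]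
  have k2 : (SL.map i.1 (ιR γ)).c ≠ 0 :=
    emb_ne_zero i (x := (((Loc.Q K : ℕ) : R K) ^ Setup.lev K : R K)) (by
      push_cast
      exact pow_ne_zero _ loc_Q_ne)
  rw [k1, norm_one, one_pow]
  exact lt_add_of_pos_left _ (pow_pos (norm_pos_iff.2 k2) 2)

end Crest.Agent.R312.Th
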