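import Crest.Agent.R312.B5BRow
import Crest.Agent.R312.B3L

/-!
# R312 / B5BZ1 : `∑_x cub m x` and the series `∑_m ν(m) g(m,0) N(m)^{-s}` (port of R17/VoZero)
-/

set_option autoImplicit false
set_option linter.unusedSectionVars false

noncomputable section

open scoped Classical ComplexConjugate NumberField Topology
open MeasureTheory Filter
open Crest.Agent.R17.Vor (SL nn SS pw)

namespace Crest.Agent.R312.Th

variable {K : Type} [Field K] [NumberField K] [Fld K] [Loc K] [Setup K]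

/-- `g(m,0)` -/
def g0 (m : R K) : ℂ := gs m (cub m) 0

theorem BZ1_sum (m : R K) : g0 m = ∑ x ∈ res m, cub m x := by
  unfold g0 gs
  simp only [zero_mul, ad_zero, mul_one]

theorem BZ1_dv_zero {q : R K} (hq : q ≠ 0) : dv 0 q = 0 := by
  have h := dv_mul_left hq 0
  rwa [mul_zero] at h

theorem BZ1_dvd {e : R K} (he : e ≠ 0) : gs e (fun x => if e ∣ x then 1 else 0) 0 = 1 := by
  obtain ⟨r, hr, hr'⟩ := exists_res he 0
  rw [zero_sub, dvd_neg] at hr'
  unfold gs
  beta_reduce
  rw [Finset.sum_eq_single r]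
  · rw [if_pos hr', zero_mul, ad_zero, one_mul]
  · intro x hx hne
    rw [if_neg fun h => hne (res_inj he hx hr (dvd_sub h hr')), zero_mul]
  · intro h; exact absurd hr h

theorem BZ1_om_pow {k : ℕ} (hk : ¬ 3 ∣ k) : omR K ^ k ≠ 1 := by
  have h1 : omR K ≠ 1 := by
    intro h
    have h2 := om_sq_add (K := K)
    rw [h] at h2
    norm_num at h2
  have h3 := om_cube (K := K)
  have h2 : omR K ^ 2 ≠ 1 := by
    intro h
    apply h1
    calc omR K = omR K * omR K ^ 2 := by rw [h, mul_one]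
      _ = 1 := by rw [← h3]; ring
  have e : omR K ^ k = omR K ^ (k % 3) := by
    conv_lhs => rw [← Nat.div_add_mod k 3, pow_add, pow_mul, h3, one_pow, one_mul]
  rw [e]
  have : k % 3 = 1 ∨ k % 3 = 2 := by omega
  rcases this with h | h <;> rw [h]
  · rwa [pow_one]
  · exact h2

theorem BZ1_prime_pow {p : R K} (hp : Prime p) {k : ℕ} (hk : ¬ 3 ∣ k) : g0 (p ^ k) = 0 := by
  have hp0 := hp.ne_zero
  have hpk : p ^ k ≠ 0 := pow_ne_zero k hp0
  rw [BZ1_sum]
  refine (cub_isChar hpk).sum_eq_zero hpk ?_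
  obtain ⟨d, hd⟩ := symP_surj (Or.inr (Or.inl rfl)) hp (om_cube (K := K))
  have e : cub (p ^ k) d = toC (omR K ^ k) := by
    unfold cub
    rw [sym_pow_left 3 hp0, sym_prime 3 hp, hd, map_pow]
  refine ⟨d, ?_, ?_⟩
  · by_contra hc
    have h0 := ((cub_isChar hpk).zero_iff d).2 hc
    rw [e, ← map_zero (toC (K := K))] at h0
    have h1 := toC_injective h0
    have h2 : omR K = 0 := pow_eq_zero_iff (by omega) |>.1 h1
    have h3 := om_cube (K := K)
    rw [h2] at h3
    norm_num at h3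
  · rw [e, ← map_one (toC (K := K))]
    exact fun h => BZ1_om_pow hk (toC_injective h)

theorem BZ1_mul {a b : R K} (ha : a ≠ 0) (hb : b ≠ 0) (hc : IsCoprime a b) :
    g0 (a * b) = cub a b * cub b a * g0 a * g0 b := by
  unfold g0
  rw [← gs_mul ha hb hc (cub_isChar ha) (cub_isChar hb)]
  congr 1
  funext x
  exact sym_mul_left 3 ha hb x

theorem g0_assoc {a b : R K} (ha : a ≠ 0) (h : Associated a b) : g0 a = g0 b := by
  obtain ⟨u, rfl⟩ := h
  unfold g0
  have e : cub (a * (u : R K)) = cub a := by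
    funext x
    exact (sym_assoc 3 ⟨u, rfl⟩ x).symm
  rw [e, mul_comm a, ← gs_unit_mul ha (cub_isChar ha).per u.isUnit 0, mul_zero]

theorem g0_cube {a : R K} (ha : Prim a) :
    g0 (a ^ 3) = (N a : ℂ) ^ 2 * ∑ e ∈ pdiv a, mu e * (N (dv a e) : ℂ) := by
  have hm0 := ha.ne_zero
  have e1 : cub (a ^ 3) = fun x => if IsCoprime x a then 1 else 0 := by
    funext x
    unfold cub
    rw [sym_pow_left 3 hm0, sym_pow_eq (Or.inr (Or.inl rfl)) hm0]
  have hper : Per a (fun x => if IsCoprime x a then (1 : ℂ) else 0) := (s3_princ a).per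
  unfold g0
  rw [e1, show a ^ 3 = a * a ^ 2 by ring, gs_lift hm0 (pow_ne_zero 2 hm0) hper,
    if_pos (dvd_zero _), BZ1_dv_zero (pow_ne_zero 2 hm0), N_pow]
  push_cast
  refine congrArg _ ?_
  have e2 : gs a (fun x => if IsCoprime x a then (1 : ℂ) else 0) 0 =
      ∑ e ∈ pdiv a, mu e * gs a (fun x => if e ∣ x then 1 else 0) 0 := by
    unfold gs
    simp only [Finset.mul_sum]
    rw [Finset.sum_comm]
    refine Finset.sum_congr rfl fun x _ => ?_
    rw [← sum_mu_coprime ha, Finset.sum_filter, Finset.sum_mul]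
    refine Finset.sum_congr rfl fun e _ => ?_
    split_ifs <;> simp
  rw [e2]
  refine Finset.sum_congr rfl fun e he => ?_
  obtain ⟨he1, c, rfl⟩ := (mem_pdiv hm0).1 he
  have he0 := he1.ne_zero
  have hc0 : c ≠ 0 := right_ne_zero_of_mul hm0
  rw [gs_lift he0 hc0 (f := fun x => if e ∣ x then 1 else 0) (fun x t => by
      simp only [dvd_add_left (dvd_mul_right e t)]),
    if_pos (dvd_zero _), BZ1_dv_zero hc0, BZ1_dvd he0, mul_one, dv_mul_left he0]

theorem g0_eq_zero {m : R K} (hm : Prim m) (h : ¬ ∃ a, Prim a ∧ m = a ^ 3) : g0 m = 0 := by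
  induction hn : nm m using Nat.strong_induction_on generalizing m with
  | _ n ih =>
    have h1 : m ≠ 1 := fun e => h ⟨1, Prim.one, by rw [e, one_pow]⟩
    obtain ⟨p, hp, hp', hpc⟩ := hm.exists_prime_dvd h1
    obtain ⟨k, c', hc', e⟩ := WfDvdMonoid.max_power_factor hm.ne_zero hp.irreducible
    have hk : k ≠ 0 := by
      rintro rfl
      rw [pow_zero, one_mul] at e
      exact hc' (e ▸ hpc)
    have hP : Prim c' := Prim.of_mul_left (e ▸ hm) (hp'.pow k)
    have hco : IsCoprime (p ^ k) c' := (b3_cop hp hc').pow_left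
    rw [e, BZ1_mul (pow_ne_zero k hp.ne_zero) hP.ne_zero hco]
    by_cases h3 : 3 ∣ k
    · obtain ⟨j, rfl⟩ := h3
      rw [ih (nm c') ?_ hP ?_ rfl, mul_zero]
      · have h2 : (2 : ℝ) ≤ N p := Prime.two_le_N hp
        have h4 : N m = N p ^ (3 * j) * N c' := by rw [e, N_mul, N_pow]
        have h5 : (1 : ℝ) < N p ^ (3 * j) := one_lt_pow₀ (by linarith) hk
        have h6 := N_pos hP.ne_zero
        have h7 : N c' < N m := by rw [h4]; nlinarith
        rw [← hn]
        unfold N at h7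
        exact_mod_cast h7
      · rintro ⟨a, ha, rfl⟩
        exact h ⟨p ^ j * a, (hp'.pow j).mul ha, by rw [e]; ring⟩
    · rw [BZ1_prime_pow hp h3, mul_zero, zero_mul]

theorem BZ1_inj : Function.Injective (fun m : {m : R K | Prim m} => m.1 ^ 3) := by
  rintro ⟨a, ha⟩ ⟨b, hb⟩ h
  replace h : a ^ 3 = b ^ 3 := h
  have h1 : a ∣ b := (IsIntegrallyClosed.pow_dvd_pow_iff (by norm_num : 3 ≠ 0)).1 h.dvd
  have h2 : b ∣ a := (IsIntegrallyClosed.pow_dvd_pow_iff (by norm_num : 3 ≠ 0)).1 h.symm.dvd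
  exact Subtype.ext (Prim.eq_of_associated ha hb (associated_of_dvd_dvd h1 h2))

theorem BZ1_cube (w : R K → ℂ) (s : ℂ) : dser (fun m => w m * g0 m) s = ∑' m : R K, if Prim m then
    w (m ^ 3) * ((N m : ℂ) ^ (2 - 3 * s) * ∑ e ∈ pdiv m, mu e * (N (dv m e) : ℂ)) else 0 := by
  unfold dser
  rw [← BZ1_inj.tsum_eq]
  · rw [tsum_subtype {m : R K | Prim m} (fun m => if Prim (m ^ 3) then
      w (m ^ 3) * g0 (m ^ 3) * (N (m ^ 3) : ℂ) ^ (-s) else 0)]
    refine tsum_congr fun m => ?_
    by_cases hm : Prim m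
    · rw [Set.indicator_of_mem (by exact hm), if_pos (hm.pow 3), if_pos hm, g0_cube hm]
      have h0 : (N m : ℂ) ≠ 0 := by exact_mod_cast (N_pos hm.ne_zero).ne'
      have : (N (m ^ 3) : ℂ) ^ (-s) * (N m : ℂ) ^ 2 = (N m : ℂ) ^ (2 - 3 * s) := by
        rw [show m ^ 3 = m * m * m by ring, N_cpow_mul, N_cpow_mul, ← Complex.cpow_add _ _ h0,
          ← Complex.cpow_add _ _ h0, ← Complex.cpow_natCast, ← Complex.cpow_add _ _ h0]
        congr 1
        push_cast
        ring
      rw [← this]; ring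
    · rw [Set.indicator_of_notMem (by exact hm), if_neg hm]
  · intro c hc
    rw [Function.mem_support] at hc
    by_contra hn
    apply hc
    split_ifs with h1
    · beta_reduce
      rw [g0_eq_zero h1, mul_zero, zero_mul]
      rintro ⟨m, hm, rfl⟩
      exact hn ⟨⟨m, hm⟩, rfl⟩
    · rfl

theorem BZ1_conv {w : R K → ℂ} (hw : ∀ a b, Prim a → Prim b → w (a * b) = w a * w b)
    (hb : ∀ n, Prim n → ‖w n‖ ≤ 1) {s : ℂ} (hs : 2 < s.re) :
    (∑' m : R K, if Prim m then
      w m * ((N m : ℂ) ^ (2 - 3 * s) * ∑ e ∈ pdiv m, mu e * (N (dv m e) : ℂ)) else 0) =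
    dser w (3 * s - 3) * dser (fun m => mu m * w m) (3 * s - 2) := by
  let H : R K → R K → ℂ := fun n e =>
    if Prim e then (if Prim n ∧ e ∣ n then
      w n * ((N n : ℂ) ^ (2 - 3 * s) * (mu e * (N (dv n e) : ℂ))) else 0) else 0
  have hfin : ∀ n e, e ∉ pdiv n → H n e = 0 := by
    intro n e he
    simp only [H]
    split_ifs with h2 h3
    · exact absurd ((mem_pdiv h3.1.ne_zero).2 ⟨h2, h3.2⟩) he
    · rfl
    · rfl
  have hnn : ∀ n : R K, 0 ≤ (if Prim n then N n ^ (-(3 / 2 : ℝ)) else 0) := by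
    intro n
    split_ifs
    · exact Real.rpow_nonneg (N_nonneg n) _
    · exact le_rfl
  have hHb : ∀ n e, ‖H n e‖ ≤ (if Prim n then N n ^ (-(3 / 2 : ℝ)) else 0) *
      (if Prim e then N e ^ (-(3 / 2 : ℝ)) else 0) := by
    intro n e
    have h0 := mul_nonneg (hnn n) (hnn e)
    simp only [H]
    by_cases h2 : Prim e
    · by_cases h3 : Prim n ∧ e ∣ n
      · rw [if_pos h2, if_pos h3, if_pos h3.1, if_pos h2]
        have hn := h3.1.ne_zero
        have hN := N_pos hn
        have h4 : N (dv n e) ≤ N n := N_le_of_dvd hn (dv_dvd h3.2)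
        have h5 : N e ≤ N n := N_le_of_dvd hn h3.2
        rw [norm_mul]
        refine (mul_le_of_le_one_left (norm_nonneg _) (hb n h3.1)).trans ?_
        rw [norm_mul, norm_mul, Complex.norm_cpow_eq_rpow_re_of_pos hN, Complex.norm_real,
          Real.norm_of_nonneg (N_nonneg _)]
        have h6 : (2 - 3 * s).re = 2 - 3 * s.re := by simp
        rw [h6]
        calc N n ^ (2 - 3 * s.re) * (‖mu e‖ * N (dv n e)) ≤ N n ^ (-4 : ℝ) * (1 * N n) := by
              refine mul_le_mul (Real.rpow_le_rpow_of_exponent_le (one_le_N hn) (by linarith))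
                (mul_le_mul (norm_mu_le e) h4 (N_nonneg _) zero_le_one)
                (mul_nonneg (norm_nonneg _) (N_nonneg _)) (by positivity)
          _ = N n ^ (-(3 / 2 : ℝ)) * N n ^ (-(3 / 2 : ℝ)) := by
              rw [one_mul, ← Real.rpow_add_one hN.ne', ← Real.rpow_add hN]
              norm_num
          _ ≤ _ := mul_le_mul_of_nonneg_left
              (Real.rpow_le_rpow_of_nonpos (N_pos h2.ne_zero) h5 (by norm_num)) (by positivity)
      · rw [if_pos h2, if_neg h3, norm_zero]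
        exact h0
    · rw [if_neg h2, norm_zero]
      exact h0
  have hsum : Summable (Function.uncurry H) := by
    have h := summable_N_rpow (K := K) (σ := 3 / 2) (by norm_num)
    exact Summable.of_norm_bounded (h.mul_of_nonneg h hnn hnn) fun x => hHb x.1 x.2
  have h2 : dser w (3 * s - 3) * dser (fun m => mu m * w m) (3 * s - 2) =
      ∑' e, ∑' n, H n e := by
    rw [dser.eq_1 (fun n => mu n * w n), ← tsum_mul_left]
    refine tsum_congr fun e => ?_
    simp only [H]
    split_ifs with he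
    · rw [tsum_prim_dvd he (fun n => w n * ((N n : ℂ) ^ (2 - 3 * s) * (mu e * (N (dv n e) : ℂ)))),
        dser, ← tsum_mul_right]
      refine tsum_congr fun m => ?_
      split_ifs with hm
      · have h0 : (N m : ℂ) ≠ 0 := by exact_mod_cast (N_pos hm.ne_zero).ne'
        rw [dv_mul_left he.ne_zero, N_cpow_mul, hw _ _ he hm,
          show -(3 * s - 3) = (2 - 3 * s) + 1 by ring, Complex.cpow_add _ _ h0, Complex.cpow_one,
          show -(3 * s - 2) = 2 - 3 * s by ring]
        ring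
      · simp
    · simp
  rw [h2, hsum.tsum_comm]
  refine tsum_congr fun n => ?_
  rw [tsum_eq_sum (s := pdiv n) (fun e he => hfin n e he)]
  split_ifs with hn
  · rw [Finset.mul_sum, Finset.mul_sum]
    refine Finset.sum_congr rfl fun e he => ?_
    obtain ⟨h1, h2⟩ := (mem_pdiv hn.ne_zero).1 he
    simp only [H]
    rw [if_pos h1, if_pos ⟨hn, h2⟩]
  · refine (Finset.sum_eq_zero fun e _ => ?_).symm
    simp [H, hn]

/-- product of two absolutely convergent series -/
theorem dser_g0 (ν : Tw K) {π : R K → Prop} (hπ : ∀ a b, π (a * b) ↔ π a ∧ π b) {s : ℂ} (hs : 2 < s.re) :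
    dser (fun m => if π m then ν.v m * g0 m else 0) s =
      dser (fun m => if π m then (ν ^ 3).v m else 0) (3 * s - 3) *
        dser (fun m => if π m then mu m * (ν ^ 3).v m else 0) (3 * s - 2) := by
  have e1 : dser (fun m => if π m then ν.v m * g0 m else 0) s =
      dser (fun m => (if π m then ν.v m else 0) * g0 m) s :=
    dser_congr (fun n _ => by split_ifs <;> simp) s
  have e2 : dser (fun m => if π m then mu m * (ν ^ 3).v m else 0) (3 * s - 2) =
      dser (fun m => mu m * (if π m then (ν ^ 3).v m else 0)) (3 * s - 2) :=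
    dser_congr (fun n _ => by split_ifs <;> simp) _
  rw [e1, e2, BZ1_cube, ← BZ1_conv (w := fun m => if π m then (ν ^ 3).v m else 0) ?_ ?_ hs]
  · refine tsum_congr fun m => ?_
    by_cases hm : Prim m
    · have h3 : π (m ^ 3) ↔ π m := by
        rw [show m ^ 3 = m * m * m by ring, hπ, hπ, and_self, and_self]
      rw [if_pos hm, if_pos hm, ν.v_pow, ν.pow_v 3 hm.ne_zero]
      by_cases h : π m
      · rw [if_pos h, if_pos (h3.2 h)]
      · rw [if_neg h, if_neg (fun h' => h (h3.1 h'))]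
    · rw [if_neg hm, if_neg hm]
  · intro a b _ _
    by_cases h1 : π a <;> by_cases h2 : π b <;> simp [hπ, h1, h2, Tw.v_mul]
  · intro n _
    split_ifs
    · exact Tw.norm_v_le _ n
    · simp

theorem dser_off (ν : Tw K) {p : R K} (hp : Prime p) {s : ℂ} (hs : 1 < s.re) :
    dser (fun m => if off p m then ν.v m else 0) s = (1 - ν.v p * (N p : ℂ) ^ (-s)) * dser ν.v s := by
  obtain ⟨p', _, hp2, h⟩ := exists_prim_prime hp
  rw [mul_comm, ν.v_assoc h, N_assoc h, ← dser_remove_one (fun n _ => ν.norm_v_le n) hp2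
    (fun m _ => ν.v_mul p' m) hs]
  refine dser_congr (fun n _ => ?_) s
  unfold off
  simp only [h.dvd_iff_dvd_left]

theorem dser_mu_off (ν : Tw K) {p : R K} (hp : Prime p) {s : ℂ} (hs : 1 < s.re) :
    (1 - ν.v p * (N p : ℂ) ^ (-s)) * dser (fun m => if off p m then mu m * ν.v m else 0) s =
      dser (fun m => mu m * ν.v m) s := by
  have h1 := dser_mul_mu (ψ := fun m => if off p m then ν.v m else 0) (s := s) ?_ ?_ ?_ hs
  · have e : dser (fun m => if off p m then mu m * ν.v m else 0) s =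
        dser (fun m => mu m * (if off p m then ν.v m else 0)) s :=
      dser_congr (fun n _ => by split_ifs <;> simp) s
    rw [dser_off ν hp hs] at h1
    have h2 := ν.dser_mul_mu hs
    rw [e]
    linear_combination dser (fun m => mu m * ν.v m) s * h1 -
      (1 - ν.v p * (N p : ℂ) ^ (-s)) * dser (fun m => mu m * (if off p m then ν.v m else 0)) s * h2
  · have : off p 1 := fun h => hp.not_isUnit (isUnit_of_dvd_one h)
    simp only [if_pos this, ν.v_one]
  · intro a b _ _
    have : off p (a * b) ↔ off p a ∧ off p b := by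
      unfold off
      rw [hp.dvd_mul, not_or]
    by_cases h1 : off p a <;> by_cases h2 : off p b <;> simp [this, h1, h2, Tw.v_mul]
  · intro n _
    split_ifs
    · exact Tw.norm_v_le _ n
    · simp

theorem dser_mul_mu' (ν : Tw K) {s : ℂ} (hs : 1 < s.re) :
    dser ν.v s * dser (fun m => mu m * ν.v m) s = 1 := by
  exact ν.dser_mul_mu hs

theorem BZ1_pole (χ : Tw K) {A : ℂ → ℂ} (hA : DifferentiableOn ℂ A {s | 1 < s.re}) :
    HasRes K (fun s => dser χ.v (3 * s - 3) * A s) (Ef χ.toH 1 / 3 * A (4 / 3)) := by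
  have hc := χ.toH_hChar
  have hB : DifferentiableOn ℂ (fun s : ℂ => Ef χ.toH (3 * s - 3) / 3 * A s) {s | 1 < s.re} :=
    (((Ef_differentiable hc).comp (by fun_prop)).div_const 3).differentiableOn.mul hA
  have h := hasRes_pole (K := K) hB
  rw [show (3 : ℂ) * (4 / 3) - 3 = 1 by ring] at h
  refine h.congr fun s _ hs => ?_
  have h1 : 1 < (3 * s - 3).re := by simp; linarith
  have h2 : s - 4 / 3 ≠ 0 := by
    intro e
    have := congrArg Complex.re e
    simp at this
    norm_num at this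
    linarith
  rw [Ef_eq hc h1, div_eq_iff h2, χ.dser_eq]
  ring

theorem BZ1_hol {f : R K → ℂ} (hb : ∀ n, Prim n → ‖f n‖ ≤ 1) :
    DifferentiableOn ℂ (fun s : ℂ => dser f (3 * s - 2)) {s | 1 < s.re} := by
  refine (dser_differentiableOn hb).comp (by fun_prop) fun s hs => ?_
  simp only [Set.mem_ofPred_eq] at hs ⊢
  simp
  linarith

theorem BZ1_M2 : ∃ x : ℝ, 0 < x ∧ dser (fun m : R K => mu m * (1 : Tw K).v m) 2 = x := by
  have h1 := (1 : Tw K).dser_mul_mu (s := 2) (by norm_num)
  have h2 : dser (1 : Tw K).v 2 =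
      ((∑' n : R K, if Prim n then N n ^ (-(2 : ℝ)) else 0 : ℝ) : ℂ) := by
    unfold dser
    rw [Complex.ofReal_tsum]
    refine tsum_congr fun n => ?_
    split_ifs with hn
    · rw [Tw.one_v hn.ne_zero, one_mul, Complex.ofReal_cpow (N_nonneg n)]
      push_cast
      rfl
    · simp
  set y : ℝ := ∑' n : R K, if Prim n then N n ^ (-(2 : ℝ)) else 0
  have hy : 0 ≤ y := tsum_nonneg fun n => by
    split_ifs
    · exact Real.rpow_nonneg (N_nonneg n) _
    · exact le_rfl
  rw [h2] at h1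
  have hy0 : y ≠ 0 := by
    rintro h
    rw [h] at h1
    simp at h1
  refine ⟨y⁻¹, inv_pos.2 (lt_of_le_of_ne hy hy0.symm), ?_⟩
  push_cast
  exact eq_inv_of_mul_eq_one_right h1

/-- `dser ν.v s = Ef ν.toH s / (s-1)` (`Tw.dser_eq`, `Ef_eq`), `Ef_one_eq_zero`, `Ef_one_one0`, `hasRes_pole`;
`dser (mu) 2 = 1 / dser 1 2 > 0` -/
theorem hasRes_g0 : ∃ r : ℝ, 0 < r ∧ ∀ ν : Tw K,
    HasRes K (dser (fun m => ν.v m * g0 m)) (if ν ^ 3 = 1 then r else 0) ∧
    ∀ p : R K, Prime p → HasRes K (dser (fun m => if off p m then ν.v m * g0 m else 0))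
      (if ν ^ 3 = 1 then (N p / (N p + 1) * r : ℝ) else 0) := by
  obtain ⟨ρ, hρ, hρ'⟩ := Ef_one_one0 (K := K) (1 : Tw K).toH_hChar.two_le
  obtain ⟨x, hx, hx'⟩ := BZ1_M2 (K := K)
  have hE : ∀ χ : Tw K, Ef χ.toH 1 = if χ = 1 then (ρ : ℂ) else 0 := by
    intro χ
    split_ifs with h
    · rw [h, Tw.toH_one, hρ']
    · exact Ef_one_eq_zero χ.toH_hChar (fun h' => h (Tw.toH_eq_one0_iff.1 h'))
  have hmu : ∀ (χ : Tw K) (n : R K), ‖mu n * χ.v n‖ ≤ 1 := fun χ n => by
    rw [norm_mul]
    exact mul_le_one₀ (norm_mu_le n) (norm_nonneg _) (χ.norm_v_le n)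
  refine ⟨ρ / 3 * x, by positivity, fun ν => ⟨?_, fun p hp => ?_⟩⟩
  · have h := BZ1_pole (ν ^ 3) (BZ1_hol (f := fun m => mu m * (ν ^ 3).v m) (fun n _ => hmu _ n))
    rw [show (3 : ℂ) * (4 / 3) - 2 = 2 by ring, hE] at h
    have e : (if ν ^ 3 = 1 then (ρ : ℂ) else 0) / 3 * dser (fun m => mu m * (ν ^ 3).v m) 2 =
        (if ν ^ 3 = 1 then ((ρ / 3 * x : ℝ) : ℂ) else 0) := by
      split_ifs with h3
      · rw [h3, hx']
        push_cast
        ring
      · simp
    rw [e] at h
    refine h.congr fun s _ hs => ?_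
    have h1 := dser_g0 ν (π := fun _ => True) (by simp) hs
    simpa using h1.symm
  · have hoff : ∀ a b, off p (a * b) ↔ off p a ∧ off p b := fun a b => by
      unfold off
      rw [hp.dvd_mul, not_or]
    have hN := N_pos hp.ne_zero
    have h0 : (N p : ℂ) ≠ 0 := by exact_mod_cast hN.ne'
    have hA : DifferentiableOn ℂ (fun s : ℂ => (1 - (ν ^ 3).v p * (N p : ℂ) ^ (-(3 * s - 3))) *
        dser (fun m => if off p m then mu m * (ν ^ 3).v m else 0) (3 * s - 2)) {s | 1 < s.re} := by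
      refine DifferentiableOn.mul ?_ (BZ1_hol fun n _ => ?_)
      · refine Differentiable.differentiableOn ?_
        exact (differentiable_const _).sub ((differentiable_const _).mul
          (Differentiable.const_cpow (by fun_prop) (Or.inl h0)))
      · split_ifs
        · exact hmu _ n
        · simp
    have h := BZ1_pole (ν ^ 3) hA
    rw [show (3 : ℂ) * (4 / 3) - 2 = 2 by ring, show (3 : ℂ) * (4 / 3) - 3 = 1 by ring, hE] at h
    have e : (if ν ^ 3 = 1 then (ρ : ℂ) else 0) / 3 * ((1 - (ν ^ 3).v p * (N p : ℂ) ^ (-(1 : ℂ))) *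
        dser (fun m => if off p m then mu m * (ν ^ 3).v m else 0) 2) =
        (if ν ^ 3 = 1 then ((N p / (N p + 1) * (ρ / 3 * x) : ℝ) : ℂ) else 0) := by
      split_ifs with h3
      · have h4 := dser_mu_off (ν ^ 3) hp (s := 2) (by norm_num)
        rw [h3] at h4 ⊢
        rw [hx', Tw.one_v hp.ne_zero, one_mul, Complex.cpow_neg, Complex.cpow_ofNat] at h4
        rw [Tw.one_v hp.ne_zero, one_mul, Complex.cpow_neg, Complex.cpow_one]
        have h1 : (N p : ℂ) + 1 ≠ 0 := by exact_mod_cast (by linarith : N p + 1 ≠ 0)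
        push_cast
        rw [← h4]
        field_simp
        ring
      · simp
    rw [e] at h
    refine h.congr fun s _ hs => ?_
    rw [dser_g0 ν hoff hs, dser_off (ν ^ 3) hp (by simp; linarith)]
    ring

end Crest.Agent.R312.Th
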