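import Crest.Agent.R312.B5Defs
import Crest.Agent.R312.B3WVal
import Crest.Agent.R17.VoGam
import Crest.Agent.R17.VoC4

/-!
# R312 / B5C0 : definitions for the Voronoi formula (part B5C, owner helper54) and the algebra of `HasExp`

Paper proof: `ReadB5.lean` section C.  Overview (`w = s - 1/2`, heights `v_i = e^{η_i/2}/|lm i|`):
* `B5C1` : the pair `F₁ = F₂ ∘ J_c` with coefficients `A · gs c ψ` and `ε a · gs c (dual c ψ) (-·)`.
* `B5C2` : angular harmonic at every place: `Ph (up a₁) η = ε Ph (dn a₂) (2 ell - 2 lg c - η)`.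
* `B5C3` : `R∖0 ≃ (Prim × R^*/Ups M) × ℤ^r`, uniform sums over `R^*/Ups M`.
* `B5C4` : unfolding: `Lam M b ξ w = M^{-d} MG ξ w · LS M (b · ch ξ) w`.
* `B5C5` : the abstract functional equation `fe_abstract`.
* `B5C6` : the left side is a Dirichlet series over one class `Cls n₀`.
* `B5C7` : the right side (`bet`), `class_fe`.
* `B5C8` : gamma factor `gamX`, kernels, kernel lemma.   `B5C9` : `total_fe`, `package`.
-/

set_option autoImplicit false
set_option linter.unusedSectionVars false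

noncomputable section

open scoped Classical ComplexConjugate NumberField Topology
open MeasureTheory Filter
open Crest.Agent.R17.Vor (SL X pt act Vr nn gamL ExpGr voc4_e)

namespace Crest.Agent.R312.Th

section arch
variable {K : Type} [Field K] [NumberField K] [Fld K]

omit [NumberField K] [Fld K] in
/-- `J_c = (0, 1/c; -c, 0)` -/
def Jc (c : K) (hc : c ≠ 0) : SL K := ⟨0, c⁻¹, -c, 0, by rw [mul_neg, inv_mul_cancel₀ hc]; ring⟩

/-- `log |lm i|²` -/
def ell (i : Pl K) : ℝ := Real.log (‖lm i‖ ^ 2)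

/-- `y^{5/3} Vr y` at `y = e^{x/2}` -/
def gV (x : ℝ) : ℝ := Real.exp (5 / 6 * x) * Vr (Real.exp (x / 2))

/-- the product over all places -/
def gP (η : Pl K → ℝ) : ℝ := ∏ i, gV (η i)

/-- the Mellin kernel `exp (∑ η_i (w - i ξ_i))` -/
def eX (ξ : Pl K → ℝ) (w : ℂ) (η : Pl K → ℝ) : ℂ :=
  Complex.exp (∑ i, (η i : ℂ) * (w - ξ i * Complex.I))

/-- `∫ gV x e^{x z} dx` -/
def MV (z : ℂ) : ℂ := ((Real.pi / Real.Gamma (4 / 3) : ℝ) : ℂ) *
  ((R17.c0 : ℝ) : ℂ) ^ (-(2 * z + 5 / 3)) * Complex.Gamma (z + 5 / 6) * Complex.Gamma (z + 7 / 6)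

/-- `∫ gP η · eX ξ w η dη` -/
def MG (ξ : Pl K → ℝ) (w : ℂ) : ℂ := ∏ i, MV (w - ξ i * Complex.I)

/-- the gamma factor of the functional equation -/
def gamX (ξ : Pl K → ℝ) (s : ℂ) : ℂ := ∏ i, gamL 1 (s - ξ i * Complex.I)

theorem c5_actK_mul (g h : SL K) (w : XX K) : actK (g * h) w = actK g (actK h w) := by
  funext v
  simp only [actK, actP, map_mul, R17.Vor.act_mul]

theorem c5_actK_nn (y : K) (z : Pl K → ℂ) {v : Pl K → ℝ} (hv : ∀ i, 0 < v i) :
    actK (nn y) (ptK z v) = ptK (z + embv y) v := by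
  funext i
  have : SL.map i.1 (nn y) = nn (emb i y) := by
    ext <;> simp [nn, emb]
  simp only [actK, actP, ptK, this, R17.Vor.act_nn _ _ (hv i), Pi.add_apply, embv_apply]

end arch

section loc
variable {K : Type} [Field K] [NumberField K] [Fld K] [Loc K]

variable (K) in
/-- `R^* / Ups M` -/
abbrev UQ (M : ℕ) : Type := (R K)ˣ ⧸ Ups K M

/-- the chosen representative -/
def uo {M : ℕ} (η : UQ K M) : R K := ((Quotient.out η : (R K)ˣ) : R K)

/-- the periodised Whittaker function -/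
def Ph (b : R K → ℂ) (η : Pl K → ℝ) : ℂ := ∑' n : R K, b n * (gP (η + lg (n : K)) : ℂ)

/-- its Mellin transform over `ℝ^d / lg (Ups M)` (rescaled to `FD K`) -/
def Lam (M : ℕ) (b : R K → ℂ) (ξ : Pl K → ℝ) (w : ℂ) : ℂ :=
  ∫ η in FD K, Ph b ((M : ℝ) • η) * eX ξ w ((M : ℝ) • η)

/-- coefficients of the holomorphic harmonic -/
def up (a : R K → ℂ) (n : R K) : ℂ := a n * ang (n : K) * ((aN (n : K) ^ (-(1 / 3 : ℝ)) : ℝ) : ℂ)

/-- coefficients of the antiholomorphic harmonic -/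
def dn (a : R K → ℂ) (n : R K) : ℂ :=
  a n * conj (ang (n : K)) * ((aN (n : K) ^ (-(1 / 3 : ℝ)) : ℝ) : ℂ)

/-- supported on `Q^{-e} 𝓞` and polynomially bounded -/
structure Adm (e : ℕ) (a : R K → ℂ) : Prop where
  supp : Supp e a
  poly : ∃ (C : ℝ) (j : ℕ), ∀ n, ‖a n‖ ≤ C * (1 + aN (n : K)) ^ j

/-- the sum over the associates of `m` modulo `Ups M` -/
def inn (M : ℕ) (b : R K → ℂ) (w : ℂ) (m : R K) : ℂ :=
  ∑' η : UQ K M, b (uo η * m) * ((aN ((uo η * m : R K) : K) : ℝ) : ℂ) ^ (-w)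

theorem isUnit_uo {M : ℕ} (η : UQ K M) : IsUnit (uo η) := Units.isUnit _

theorem c5_actR_eq (g : SL (R K)) (w : XX K) : actR g w = actK (ιR g) w := rfl

theorem actR_mul' (g h : SL (R K)) (w : XX K) : actR (g * h) w = actR g (actR h w) := by
  simp only [actR, map_mul, c5_actK_mul]

theorem Adm.mul_bdd {e : ℕ} {a g : R K → ℂ} (h : Adm e a) {B : ℝ} (hg : ∀ n, ‖g n‖ ≤ B) :
    Adm e (fun n => a n * g n) := by
  obtain ⟨C, j, hC⟩ := h.poly
  refine ⟨fun n hn => h.supp n (left_ne_zero_of_mul hn), C * B, j, fun n => ?_⟩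
  rw [norm_mul, mul_right_comm]
  exact mul_le_mul (hC n) (hg n) (norm_nonneg _) ((norm_nonneg _).trans (hC n))

theorem Supp.mono {e e' : ℕ} {a : R K → ℂ} (h : Supp e a) (he : e ≤ e') : Supp e' a := fun n hn => by
  obtain ⟨k, rfl⟩ := Nat.exists_eq_add_of_le he
  have := (loc_Qp k).mul (h n hn)
  rwa [← mul_assoc, ← pow_add, add_comm k] at this

theorem Adm.mono {e e' : ℕ} {a : R K → ℂ} (h : Adm e a) (he : e ≤ e') : Adm e' a :=
  ⟨h.supp.mono he, h.poly⟩

theorem HasExp.congrC {F G : XX K → ℂ} {a b : R K → ℂ} (h : HasExp F a) (hF : ∀ w, F w = G w)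
    (hab : ∀ n, a n = b n) : HasExp G b := by
  have h1 : F = G := funext hF
  have h2 : a = b := funext hab
  rw [← h1, ← h2]; exact h

theorem HasExp.smulC {F : XX K → ℂ} {a : R K → ℂ} (h : HasExp F a) (c : ℂ) :
    HasExp (fun w => c * F w) (fun n => c * a n) := fun z v hv => by
  have := (h z v hv).mul_left c
  simpa only [mul_assoc] using this

theorem HasExp.sumC {ι' : Type*} (S : Finset ι') {F : ι' → XX K → ℂ} {a : ι' → R K → ℂ}
    (h : ∀ i ∈ S, HasExp (F i) (a i)) :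
    HasExp (fun w => ∑ i ∈ S, F i w) (fun n => ∑ i ∈ S, a i n) := fun z v hv => by
  have := hasSum_sum (fun i hi => h i hi z v hv)
  simpa only [Finset.sum_mul] using this

theorem HasExp.translC {F : XX K → ℂ} {a : R K → ℂ} (h : HasExp F a) (y : K) :
    HasExp (fun w => F (actK (nn y) w)) (fun n => a n * eT ((n : K) * y)) := fun z v hv => by
  simp only [c5_actK_nn y z hv]
  refine (h (z + embv y) v hv).congr_fun fun n => ?_
  rw [mul_add, eI_add, ← embv_mul, ← eT_eq_eI]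
  ring

end loc

section setup
variable {K : Type} [Field K] [NumberField K] [Fld K] [Loc K] [Setup K]

/-- the Dirichlet series over `(R∖0) / Ups M` -/
def LS (M : ℕ) (b : R K → ℂ) (w : ℂ) : ℂ := ∑' m : R K, if Prim m then inn M b w m else 0

/-- `m ∈ n₀ U R^*` -/
def Cls (n0 m : R K) : Prop :=
  ∃ u : (R K)ˣ, InU (Setup.lev K) ((((u : R K) * m : R K) : K) / (n0 : K))

/-- the coefficients in `exists_Theta` -/
def Acl (n0 : R K) (j : ℕ) (n : R K) : ℂ :=
  if InU (Setup.lev K) ((n : K) / ((n0 : K) * (Loc.Q K : K) ^ (6 * j))) then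
    ((N n ^ (-(1 / 6 : ℝ)) : ℝ) : ℂ) * tau (gen (idl n)) else 0

/-- the dual coefficients -/
def bet (M : ℕ) (a : R K → ℂ) (ξ : Pl K → ℝ) (g : G K) (m : R K) (s : ℂ) : ℂ :=
  ((N m ^ (1 / 6 : ℝ) : ℝ) : ℂ) * ∑' η : UQ K M, if cl (uo η) = g then
    a (uo η * m) * conj (ang ((uo η * m : R K) : K)) * conj (ch ξ ((uo η * m : R K) : K)) *
      ((aN ((uo η * m : R K) : K) / N m : ℝ) : ℂ) ^ (s - 5 / 6) else 0

/-- functional equation with finitely many dual series whose coefficients depend on `s` -/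
def HasFE {I : Type} [Fintype I] (ξ : Pl K → ℝ) (a : R K → ℂ) (b : I → R K → ℂ → ℂ) (ρ : ℝ) : Prop :=
  ∃ E : ℂ → ℂ, Differentiable ℂ E ∧ ExpGr E ∧ (∃ σ0 : ℝ, ∀ s : ℂ, σ0 < s.re → E s = dser a s) ∧
    ∃ σ0 : ℝ, ∀ s : ℂ, s.re < σ0 →
      E s = (ρ : ℂ) ^ (1 / 2 - s) * gamX ξ s * ∑ i, dser (fun n => b i n s) (1 - s)

/-- holomorphic families bounded by `tau`, uniformly in the twist -/
structure BFam {I : Type} (β : Tw K → I → R K → ℂ → ℂ) : Prop where
  diff : ∀ ν i n, Prim n → DifferentiableOn ℂ (β ν i n) {s | s.re < 4 / 5}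
  bd : ∀ σ1 : ℝ, ∃ C : ℝ, 0 ≤ C ∧ ∀ ν i n (s : ℂ), Prim n → σ1 ≤ s.re → s.re ≤ 4 / 5 →
    ‖β ν i n s‖ ≤ C * ‖tau n‖

/-- the functional equation behind the Voronoi formula, for the part of the sum where `P` holds -/
def VorFE {I : Type} [Fintype I] (β : Tw K → I → R K → ℂ → ℂ) (P : R K → Prop) : Prop :=
  ∀ (ν : Tw K) (c1 : R K), Prim c1 → ∀ ψ : R K → ℂ, IsChar c1 ψ →
    (∀ u : (R K)ˣ, cl (u : R K) = 1 → ψ u = 1) → ∃ ω : I → ℂ, (∀ i, ‖ω i‖ ≤ 1) ∧
      HasFE ν.ξ (fun m => if P m then tt m * ν.v m * gs c1 ψ m else 0)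
        (fun i n s => ω i * gs c1 (dual c1 ψ) n * β ν i n s) (N c1 ^ 2)

end setup

end Crest.Agent.R312.Th
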