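import Crest.Agent.R312.B5C0
import Crest.Agent.R312.B5Kub

/-!
# R312 / B5C1 : the pair `F₁ = F₂ ∘ J_c` (port of `R17/VoC6` `act_beta`, `sum_inv_gs`, `vc6_pair`)
-/

set_option autoImplicit false
set_option linter.unusedSectionVars false

noncomputable section

open scoped Classical ComplexConjugate NumberField Topology
open MeasureTheory Filter
open Crest.Agent.R17.Vor (SL X pt act Vr nn gamL ExpGr voc4_e)

namespace Crest.Agent.R312.Th

variable {K : Type} [Field K] [NumberField K] [Fld K] [Loc K] [Setup K]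

omit [Setup K] in
/-- `approx0` with `w = Q^E`, `z = x₀/c`: `x = x₀ - c r` -/
theorem exists_small {c : R K} (hc : c ≠ 0) (E : ℕ) (x0 : R K) :
    ∃ x : R K, c ∣ x - x0 ∧ InJ E ((x : K) / (c : K)) := by
  obtain ⟨r, hr⟩ := approx0 (pow_ne_zero E (loc_Q_ne (K := K))) ((x0 : K) / (c : K))
  refine ⟨x0 - c * r, ⟨-r, by ring⟩, _, hr, ?_⟩
  have h1 := b4_coe_ne_zero hc
  have h2 := loc_Q_ne (K := K)
  push_cast
  field_simp

omit [Setup K] in
/-- `approx 1` with `x = c Q^E`, `q = c`, `a = 1` gives `r ≡ 1 mod c`, `r/(c Q^E) ∈ U_1` (so `r ≠ 0`);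
`σ = (r, (r²-1)/c; c, r)`. -/
theorem exists_cusp {c : R K} (hc : c ≠ 0) (E : ℕ) : ∃ σ : SL (R K), σ.c = c ∧ σ.a ≠ 0 ∧
    InJ E ((σ.a : K) / (c : K)) ∧ InJ E ((σ.d : K) / (c : K)) := by
  have h1 := b4_coe_ne_zero hc
  have h2 := loc_Q_ne (K := K)
  obtain ⟨r, ⟨t, ht⟩, hr⟩ := approx 1 (mul_ne_zero h1 (pow_ne_zero E h2)) hc 1
  have hj : InJ E ((r : K) / (c : K)) := ⟨_, hr.sInt, by field_simp⟩
  refine ⟨⟨r, t * (2 + c * t), c, r, by linear_combination (r + 1 + c * t) * ht⟩, rfl, ?_, hj, hj⟩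
  rintro (rfl : r = 0)
  exact hr.ne_zero le_rfl (by simp)

omit [Setup K] in
/-- Write `β = (x b; c d)`, `σ = (x' b'; c' d')`, `ρ = c/c' ∈ U_e`; `c', c ∈ A`, so `x, d, x', d' ∈ J_e`.
`(βσ⁻¹).a = x d' + (1 - x d) ρ⁻¹`, `.b = (xd-1)(x'/c')ρ⁻¹ - (x/c) ρ (x'd'-1)`, `.c = c d' - d c'`,
`.d = d x' + ρ (1 - x'd')` (use `b c = x d - 1`, `b' c' = x' d' - 1` in `K`). -/
theorem mul_inv_mem {e : ℕ} (he : 1 ≤ e) {β σ : SL (R K)} (h0 : σ.c ≠ 0) (hσ : SInt (σ.c : K))
    (hc : InU e ((β.c : K) / (σ.c : K))) (h1 : InJ e ((β.a : K) / (β.c : K)))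
    (h2 : InJ e ((β.d : K) / (β.c : K))) (h3 : InJ e ((σ.a : K) / (σ.c : K)))
    (h4 : InJ e ((σ.d : K) / (σ.c : K))) : β * σ⁻¹ ∈ GamN K e 1 := by
  have c0 := b4_coe_ne_zero h0
  have r0 := hc.ne_zero he
  have c1 : (β.c : K) ≠ 0 := (div_ne_zero_iff.1 r0).1
  have hi := hc.inv he
  have hβ : SInt (β.c : K) := by
    have := hc.sInt.mul hσ
    rwa [div_mul_cancel₀ _ c0] at this
  have j1 : InJ e (β.a : K) := by
    have := h1.mul_right hβ
    rwa [div_mul_cancel₀ _ c1] at this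
  have j2 : InJ e (β.d : K) := by
    have := h2.mul_right hβ
    rwa [div_mul_cancel₀ _ c1] at this
  have j3 : InJ e (σ.a : K) := by
    have := h3.mul_right hσ
    rwa [div_mul_cancel₀ _ c0] at this
  have j4 : InJ e (σ.d : K) := by
    have := h4.mul_right hσ
    rwa [div_mul_cancel₀ _ c0] at this
  have d1 : (β.b : K) = ((β.a : K) * β.d - 1) / β.c := by
    have := congrArg (fun x : R K => (x : K)) β.det
    push_cast at this
    field_simp
    linear_combination -this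
  have d2 : (σ.b : K) = ((σ.a : K) * σ.d - 1) / σ.c := by
    have := congrArg (fun x : R K => (x : K)) σ.det
    push_cast at this
    field_simp
    linear_combination -this
  refine ⟨?_, ?_, ?_, ?_, one_dvd _⟩
  · convert inU_add hi ((j1.mul_right j4.sInt).sub ((j1.mul_right j2.sInt).mul_right hi.sInt)) using 1
    simp only [SL.mul_a, SL.inv_a, SL.inv_c]
    push_cast
    rw [d1]
    field_simp
    ring
  · convert ((InJ.mul_left ((j1.sInt.mul j2.sInt).sub SInt.one) h3).mul_right hi.sInt).sub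
      ((h1.mul_right hc.sInt).mul_right ((j3.sInt.mul j4.sInt).sub SInt.one)) using 1
    simp only [SL.mul_b, SL.inv_b, SL.inv_d]
    push_cast
    rw [d1, d2]
    field_simp
    ring
  · convert (InJ.mul_left hβ j4).sub (j2.mul_right hσ) using 1
    simp only [SL.mul_c, SL.inv_a, SL.inv_c]
    push_cast
    ring
  · convert inU_add hc ((j2.mul_right j3.sInt).sub (InJ.mul_left hc.sInt (j3.mul_right j4.sInt))) using 1
    simp only [SL.mul_d, SL.inv_b, SL.inv_d]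
    push_cast
    rw [d2]
    field_simp
    ring

theorem c1_norm (σ : SL (R K)) (ha : σ.a ≠ 0) : ‖cub σ.a σ.b * sg σ.a σ.c ^ 2‖ = 1 := by
  rw [norm_mul, norm_pow, norm_sg, one_pow, mul_one]
  exact (cub_isChar ha).norm_eq_one ha ⟨-σ.c, σ.d, by linear_combination σ.det⟩

/-- `β = γ σ`, `γ = βσ⁻¹` (`mul_inv_mem`, `GamN_mono`), `kap_formula`; `cl β.c = cl σ.c` (`clN_mul`,
`clN_of_inU`, `sg_congr`), `‖cub σ.a σ.b‖ = 1` (`cub_isChar`, `IsChar.norm_eq_one`), `norm_sg`. -/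
theorem Theta_cusp {Θ : XX K → ℂ} {e : ℕ} (he : Setup.lev K ≤ e)
    (haut : ∀ γ ∈ GamN K e 1, ∀ w, Θ (actR γ w) = conj (kap γ) * Θ w) {β σ : SL (R K)}
    (h0 : σ.c ≠ 0) (hσ : SInt (σ.c : K)) (ha : σ.a ≠ 0)
    (hc : InU e ((β.c : K) / (σ.c : K))) (h1 : InJ e ((β.a : K) / (β.c : K)))
    (h2 : InJ e ((β.d : K) / (β.c : K))) (h3 : InJ e ((σ.a : K) / (σ.c : K)))
    (h4 : InJ e ((σ.d : K) / (σ.c : K))) (w : XX K) :
    Θ (actR β w) = cub σ.a σ.b * sg σ.a σ.c ^ 2 * conj (cub β.c β.d) * Θ (actR σ w) := by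
  have hγ := mul_inv_mem (Setup.lev_pos.trans he) h0 hσ hc h1 h2 h3 h4
  obtain ⟨k1, k2⟩ := kub_cl h0 (hc.mono he)
  have hk := kap_formula σ ha (GamN_mono he dvd_rfl hγ) (by rwa [inv_mul_cancel_right])
  rw [inv_mul_cancel_right, sg_congr rfl k2, mul_assoc] at hk
  have hn := bc_mul_conj (c1_norm σ ha)
  conv_lhs => rw [← inv_mul_cancel_right β σ, actR_mul', haut _ hγ]
  rw [hk, map_mul _ (kap _)]
  linear_combination (-conj (kap (β * σ⁻¹)) * Θ (actR σ w)) * hn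

omit [Setup K] in
/-- `n(a/c) = β n(-d/c) J_c` -/
theorem nn_eq (β : SL (R K)) (hc : (β.c : K) ≠ 0) : (nn ((β.a : K) / (β.c : K)) : SL K) =
    ιR β * (nn (-((β.d : K) / (β.c : K))) * Jc (β.c : K) hc) := by
  have := congrArg (fun x : R K => (x : K)) β.det
  push_cast at this
  ext <;> simp [nn, Jc, ιR, SL.map] <;> field_simp
  · linear_combination -this
  · ring

omit [Setup K] in
theorem c1_iff {c u s : R K} (h : c ∣ u * s - 1) (y : R K) : c ∣ u * y - 1 ↔ c ∣ y - s := by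
  refine ⟨fun h1 => ?_, fun h1 => ?_⟩
  · rw [show y - s = s * (u * y - 1) - y * (u * s - 1) by ring]
    exact dvd_sub (h1.mul_left s) (h.mul_left y)
  · rw [show u * y - 1 = u * (y - s) + (u * s - 1) by ring]
    exact dvd_add (h1.mul_left u) h

omit [Setup K] in
theorem c1_eT {c n x : R K} {e E : ℕ} (he : e ≤ E) (hn : SInt ((Loc.Q K : K) ^ e * (n : K)))
    (hx : InJ E ((x : K) / (c : K))) : eT ((n : K) * ((x : K) / (c : K))) = ad c (n * x) := by
  obtain ⟨s, hs, e1⟩ := hx.mono he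
  rw [ad, ← ee_of_sInt (by rw [e1, mul_left_comm, ← mul_assoc]; exact hn.mul hs)]
  push_cast
  rw [mul_div_assoc]

omit [Setup K] in

/-- re-indexing a Gauss sum by inverses (port of `R17.Vor.sum_inv_gs` with `R = 1`) -/
theorem sum_inv_gs {c : R K} (hc : c ≠ 0) {ψ : R K → ℂ} (hψ : IsChar c ψ) {i : R K → R K}
    (hi : ∀ x, IsCoprime x c → c ∣ x * i x - 1) (n : R K) :
    ∑ x ∈ res c, conj (ψ x) * ad c (n * i x) = gs c ψ n := by
  have hnc : ∀ x y, c ∣ x * y - 1 → IsCoprime x c ∧ IsCoprime y c := fun x y ⟨t, ht⟩ =>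
    ⟨⟨y, -t, by linear_combination ht⟩, ⟨x, -t, by linear_combination ht⟩⟩
  calc _ = ∑ x ∈ res c, ∑ y ∈ res c, if c ∣ x * y - 1 then ψ y * ad c (n * y) else 0 := by
        refine Finset.sum_congr rfl fun x _ => ?_
        by_cases hx : IsCoprime x c
        · simp only [c1_iff (hi x hx)]
          rw [gamB_ind hc (hψ.per.mul (ad_per c n))]
          have h1 : ψ x * ψ (i x) = 1 := by rw [← hψ.mul, hψ.per.congr (hi x hx), hψ.one]
          have h2 := gamB_mul_conj (hψ.norm_eq_one hc hx)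
          linear_combination ad c (n * i x) * (ψ (i x) * h2 - conj (ψ x) * h1)
        · rw [(hψ.zero_iff x).2 hx, map_zero, zero_mul]
          exact (Finset.sum_eq_zero fun y _ => if_neg fun h => hx (hnc x y h).1).symm
    _ = _ := by
        rw [Finset.sum_comm]
        refine Finset.sum_congr rfl fun y _ => ?_
        by_cases hy : IsCoprime y c
        · obtain ⟨u, v, huv⟩ := hy
          have h1 : c ∣ y * u - 1 := ⟨-v, by linear_combination huv⟩
          simp only [mul_comm _ y, c1_iff h1]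
          rw [mul_comm y n]
          exact gamB_ind hc (g := fun _ => ψ y * ad c (n * y)) (fun _ _ => rfl) u
        · rw [(hψ.zero_iff y).2 hy, zero_mul]
          exact Finset.sum_eq_zero fun x _ => ite_self _

/-- **The pair.**  For `d₀ ∈ res c` coprime to `c` choose `d ≡ d₀`, `x ≡ d₀⁻¹ mod c` with
`x/c, d/c ∈ J_E`, `E = e + e₁ + e₂` (`exists_small`; `InJ` is antitone in the level) and
`β = (x b; c d)`; for the other `d₀` choose anything small (`ψ d₀ = 0`).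
`F₁ = ∑ conj ψ(d₀) Θ(n(x/c) ·)`, `F₂ = ∑ conj ψ(d₀) ε conj (cub c d₀) Θ(σ n(-d/c) ·)`,
`ε = cub σ.a σ.b · sg σ.a σ.c²` (`HasExp.translC/smul/sum`, `nn_eq`, `c5_actK_mul`, `Theta_cusp`).  If `A n ≠ 0` then
`n x/c` is `S`-integral, so `eT (n x/c) = ee (n x/c) = ad c (n x)` (`ee_of_sInt`), then `sum_inv_gs`; in the same
way `eT (-n d/c) = ad c (-n d) = ad c (-n d₀)` (`ad_per`) if `a n ≠ 0`. -/
theorem exists_pair {Θ : XX K → ℂ} {e : ℕ} (he : Setup.lev K ≤ e)
    (haut : ∀ γ ∈ GamN K e 1, ∀ w, Θ (actR γ w) = conj (kap γ) * Θ w)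
    {A : R K → ℂ} (hA : HasExp Θ A) {e1 : ℕ} (hA1 : Supp e1 A) {σ : SL (R K)}
    (h0 : σ.c ≠ 0) (hσ : SInt (σ.c : K)) (ha : σ.a ≠ 0) (h3 : InJ e ((σ.a : K) / (σ.c : K)))
    (h4 : InJ e ((σ.d : K) / (σ.c : K))) {a : R K → ℂ} (hE : HasExp (fun w => Θ (actR σ w)) a)
    {e2 : ℕ} (ha2 : Supp e2 a) {c : R K} (hc : (c : K) ≠ 0) (hcc : InU e ((c : K) / (σ.c : K)))
    {ψ : R K → ℂ} (hψ : IsChar c ψ) :
    ∃ (ε : ℂ) (F1 F2 : XX K → ℂ), ‖ε‖ = 1 ∧ HasExp F1 (fun n => A n * gs c ψ n) ∧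
      HasExp F2 (fun n => a n * (ε * gs c (dual c ψ) (-n))) ∧
      ∀ w, F1 w = F2 (actK (Jc (c : K) hc) w) := by
  have hc' : c ≠ 0 := fun h => hc (by rw [h]; rfl)
  have hx : ∀ d0 : R K, ∃ x d : R K, InJ (e + e1 + e2) ((x : K) / (c : K)) ∧
      InJ (e + e1 + e2) ((d : K) / (c : K)) ∧ c ∣ d - d0 ∧ (IsCoprime d0 c → c ∣ d0 * x - 1) := by
    intro d0
    obtain ⟨d, d1, d2⟩ := exists_small hc' (e + e1 + e2) d0
    by_cases h : IsCoprime d0 c
    · obtain ⟨u, v, huv⟩ := h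
      obtain ⟨x, ⟨t, x1⟩, x2⟩ := exists_small hc' (e + e1 + e2) u
      exact ⟨x, d, x2, d2, d1, fun _ => ⟨d0 * t - v, by linear_combination d0 * x1 + huv⟩⟩
    · exact ⟨d, d, d2, d2, d1, fun h' => absurd h' h⟩
  choose x d t1 t2 t3 t4 using hx
  refine ⟨cub σ.a σ.b * sg σ.a σ.c ^ 2, _, _, c1_norm σ ha,
    (HasExp.sumC (res c) fun y _ => (hA.translC ((x y : K) / (c : K))).smulC (conj (ψ y))).congrC
      (fun _ => rfl) fun n => ?_,
    (HasExp.sumC (res c) fun y _ => (hE.translC (-((d y : K) / (c : K)))).smulC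
      (conj (ψ y) * (cub σ.a σ.b * sg σ.a σ.c ^ 2 * conj (cub c y)))).congrC (fun _ => rfl) fun n => ?_,
    fun w => Finset.sum_congr rfl fun y _ => ?_⟩
  · by_cases hn : A n = 0
    · simp [hn]
    rw [← sum_inv_gs hc' hψ t4 n, Finset.mul_sum]
    refine Finset.sum_congr rfl fun y _ => ?_
    rw [c1_eT (by omega) (hA1 n hn) (t1 y)]
    ring
  · by_cases hn : a n = 0
    · simp [hn]
    rw [gs, Finset.mul_sum, Finset.mul_sum]
    refine Finset.sum_congr rfl fun y _ => ?_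
    have h1 := c1_eT (n := -n) (e := e2) (by omega) (by
      have := (ha2 n hn).neg
      push_cast
      rwa [mul_neg]) (t2 y)
    push_cast at h1
    rw [mul_neg, ← neg_mul, h1, (ad_per c (-n)).congr (t3 y), dual]
    ring
  · by_cases h : IsCoprime y c
    · obtain ⟨s, hs⟩ := t3 y
      obtain ⟨t, ht⟩ := t4 y h
      let β : SL (R K) := ⟨x y, t + s * x y, c, d y, by linear_combination x y * hs + ht⟩
      have h1 := nn_eq β hc
      have h2 := Theta_cusp he haut (β := β) h0 hσ ha hcc ((t1 y).mono (by omega))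
        ((t2 y).mono (by omega)) h3 h4
      change nn ((x y : K) / (c : K)) = ιR β * (nn (-((d y : K) / (c : K))) * Jc (c : K) hc) at h1
      rw [h1, c5_actK_mul, c5_actK_mul, ← c5_actR_eq, h2, mul_assoc (conj (ψ y))]
      congr 4
      exact (cub_isChar hc').per.congr (t3 y)
    · rw [(hψ.zero_iff y).2 h, map_zero, zero_mul, zero_mul, zero_mul]

end Crest.Agent.R312.Th
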