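import Crest.Agent.R312.B5C0

/-!
# R312 / B5C2 : the angular harmonic at every place (port of `R17/VoC4` `phi_fe` with `ℓ = 1`, via Tannery's theorem)
-/

set_option autoImplicit false
set_option linter.unusedSectionVars false

noncomputable section

open scoped Classical ComplexConjugate NumberField Topology
open MeasureTheory Filter
open Crest.Agent.R17.Vor (SL X pt act Vr nn gamL ExpGr voc4_e)

namespace Crest.Agent.R312.Th

variable {K : Type} [Field K] [NumberField K] [Fld K] [Loc K] [Setup K]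

/-- the average against `ζ⁻¹` over the cube roots of unity -/
def Pav (α : ℂ) : ℂ :=
  (3 : ℂ)⁻¹ * ∑ j ∈ Finset.range 3, voc4_e 3 j ^ (-1 : ℤ) * R17.ee (α * voc4_e 3 j)

/-- `R17.Vor.avg_ee 1` (`hp 1 α = α`) -/
theorem Pav_est : ∃ (c : ℂ) (C : ℝ), c ≠ 0 ∧ 0 ≤ C ∧ ∀ α : ℂ, ‖Pav α - c * α‖ ≤ C * ‖α‖ ^ 2 := by
  obtain ⟨c, C, h1, h2, h⟩ := R17.Vor.avg_ee 1
  refine ⟨c, C, h1, h2, fun α => ?_⟩
  have h3 := h α
  rw [show R17.Vor.hp 1 α = α by simp [R17.Vor.hp]] at h3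
  exact h3

/-- consequences of `Pav_est` -/
theorem Pav_lim : ∃ (c : ℂ) (C : ℝ), c ≠ 0 ∧ 0 ≤ C ∧
    (∀ (ρ : ℝ) (α : ℂ), 0 < ρ → ρ ≤ 1 → ‖Pav (ρ * α) / ρ‖ ≤ C * (1 + ‖α‖) ^ 2) ∧
    ∀ (α : ℝ → ℂ) (α0 : ℂ), Tendsto α (𝓝[>] 0) (𝓝 α0) →
      Tendsto (fun ρ : ℝ => Pav (ρ * α ρ) / ρ) (𝓝[>] 0) (𝓝 (c * α0)) := by
  obtain ⟨c, C, h1, h2, h⟩ := Pav_est
  have key : ∀ (ρ : ℝ) (α : ℂ), 0 < ρ → ‖Pav (ρ * α) / ρ - c * α‖ ≤ C * (ρ * ‖α‖ ^ 2) := by
    intro ρ α hρ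
    have h0 : (ρ : ℂ) ≠ 0 := by exact_mod_cast hρ.ne'
    have h3 := h (ρ * α)
    rw [show Pav (ρ * α) / ρ - c * α = (Pav (ρ * α) - c * (ρ * α)) / ρ by field_simp, norm_div,
      Complex.norm_real, Real.norm_of_nonneg hρ.le, div_le_iff₀ hρ]
    rw [norm_mul, Complex.norm_real, Real.norm_of_nonneg hρ.le] at h3
    exact h3.trans_eq (by ring)
  refine ⟨c, ‖c‖ + C, h1, by positivity, fun ρ α hρ hρ1 => ?_, fun α α0 hα => ?_⟩
  · have h3 := (norm_le_norm_sub_add (Pav (ρ * α) / ρ) (c * α)).trans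
      (add_le_add (key ρ α hρ) (norm_mul_le _ _))
    have h4 : C * (ρ * ‖α‖ ^ 2) ≤ C * (1 + ‖α‖) ^ 2 :=
      mul_le_mul_of_nonneg_left (by nlinarith [norm_nonneg α]) h2
    have h5 : ‖c‖ * ‖α‖ ≤ ‖c‖ * (1 + ‖α‖) ^ 2 :=
      mul_le_mul_of_nonneg_left (by nlinarith [norm_nonneg α]) (norm_nonneg _)
    linarith
  · have h3 : Tendsto (fun ρ : ℝ => C * (ρ * ‖α ρ‖ ^ 2)) (𝓝[>] 0) (𝓝 0) := by
      simpa using (((tendsto_id (x := 𝓝 (0 : ℝ))).mono_left nhdsWithin_le_nhds).mul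
        (hα.norm.pow 2)).const_mul C
    have h4 : Tendsto (fun ρ : ℝ => Pav (ρ * α ρ) / ρ - c * α ρ) (𝓝[>] 0) (𝓝 0) :=
      squeeze_zero_norm' (by filter_upwards [self_mem_nhdsWithin] with ρ hρ using key ρ _ hρ) h3
    simpa using h4.add (hα.const_mul c)

omit [Loc K] [Setup K] in
/-- `eI_eq_prod`; `Im (√3 i y/δ) = √3 Re (y/δ)` -/
theorem c5_eI_eq (y : Pl K → ℂ) : eI y = ∏ i, R17.ee (lm i * y i) := by
  rw [eI_eq_prod]
  refine Finset.prod_congr rfl fun i _ => ?_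
  have h3 : (Real.sqrt 3 : ℂ) ≠ 0 := by exact_mod_cast (Real.sqrt_pos.2 (by norm_num)).ne'
  rw [R17.ee, lm, show (Real.sqrt 3 : ℂ) * Complex.I / dlt i * y i =
    (Real.sqrt 3 : ℂ) * (Complex.I * (y i / dlt i)) by ring, Complex.im_ofReal_mul, Complex.I_mul_im]
  congr 1
  push_cast
  field_simp
  ring

omit [Loc K] [Setup K] in
theorem lm_ne_zero (i : Pl K) : lm i ≠ 0 := by
  have h3 : (Real.sqrt 3 : ℂ) ≠ 0 := by exact_mod_cast (Real.sqrt_pos.2 (by norm_num)).ne'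
  exact div_ne_zero (mul_ne_zero h3 Complex.I_ne_zero) (dlt_ne_zero i)

omit [Setup K] in
/-- `hasSum_sum`, `Finset.prod_univ_sum` -/
theorem avg_hasSum {b : R K → ℂ} {γ : R K → Pl K → ℂ} {F : (Pl K → ℕ) → ℂ}
    (hF : ∀ J : Pl K → ℕ, HasSum (fun n => b n * ∏ i, R17.ee (γ n i * voc4_e 3 (J i))) (F J)) :
    HasSum (fun n => b n * ∏ i, Pav (γ n i))
      (∑ J ∈ Fintype.piFinset (fun _ : Pl K => Finset.range 3),
        (∏ i, ((3 : ℂ)⁻¹ * voc4_e 3 (J i) ^ (-1 : ℤ))) * F J) := by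
  refine (hasSum_sum fun J _ => (hF J).mul_left _).congr_fun fun n => ?_
  simp only [Pav, Finset.mul_sum, Finset.prod_univ_sum]
  refine Finset.sum_congr rfl fun J _ => ?_
  rw [mul_left_comm, ← Finset.prod_mul_distrib]
  simp only [mul_assoc]

omit [Setup K] in
theorem c2_summable (e : ℕ) {μ : ℝ} (hμ : 0 < μ) : Summable fun n : R K =>
    if SInt ((Loc.Q K : K) ^ e * (n : K)) then Real.exp (-(μ * ‖embv (n : K)‖)) else 0 := by
  obtain ⟨q, hq⟩ := (isUnit_Q (K := K)).pow e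
  have hQ : (0 : ℝ) < (Loc.Q K : ℝ) ^ e := by
    have := two_le_Q (K := K)
    positivity
  have hinj : Function.Injective fun y : (⊤ : Ideal (𝓞 K)) => ((q⁻¹ : (R K)ˣ) : R K) * toR y.1 :=
    fun y z h => Subtype.ext (toR_injective ((Units.mul_right_inj _).1 h))
  refine (hinj.summable_iff fun n hn => if_neg fun h => hn ?_).1 ?_
  · obtain ⟨y, hy⟩ := exists_toR_of_isIntegral (SInt.isIntegral (x := (Loc.Q K : R K) ^ e * n)
      (by push_cast; exact h))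
    exact ⟨⟨y, trivial⟩, by simp only [hy, ← hq, Units.inv_mul_cancel_left]⟩
  · refine Summable.of_nonneg_of_le (fun y => ?_) (fun y => ?_)
      (summable_exp_ideal ⊤ (div_pos hμ hQ))
    · simp only [Function.comp]
      split_ifs
      exacts [(Real.exp_pos _).le, le_rfl]
    · simp only [Function.comp]
      split_ifs
      · have h1 : (y.1 : K) = (Loc.Q K : K) ^ e * ((((q⁻¹ : (R K)ˣ) : R K) * toR y.1 : R K) : K) := by
          have : toR y.1 = (Loc.Q K : R K) ^ e * (((q⁻¹ : (R K)ˣ) : R K) * toR y.1) := by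
            rw [← hq, Units.mul_inv_cancel_left]
          have h3 := congrArg (fun x : R K => (x : K)) this
          simp only [Subring.coe_mul, Subring.coe_pow, Subring.coe_natCast] at h3 ⊢
          exact h3
        generalize ((((q⁻¹ : (R K)ˣ) : R K) * toR y.1 : R K) : K) = x at h1 ⊢
        have h2 : embv (y.1 : K) = ((Loc.Q K : ℝ) ^ e) • embv x := by
          funext i
          simp [h1, emb_mul, emb_pow, emb_natCast]
        rw [h2, norm_smul, Real.norm_of_nonneg hQ.le, ← mul_assoc, div_mul_cancel₀ _ hQ.ne']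
      · exact (Real.exp_pos _).le

theorem c2_poly (m : ℕ) {μ : ℝ} (hμ : 0 < μ) : ∃ C, 0 ≤ C ∧ ∀ x : ℝ, 0 ≤ x →
    (1 + x) ^ m ≤ C * Real.exp (μ * x) := by
  refine ⟨m.factorial * Real.exp μ / μ ^ m, by positivity, fun x hx => ?_⟩
  have h := Real.pow_div_factorial_le_exp (μ * (1 + x)) (by positivity) m
  rw [div_le_iff₀ (by positivity), mul_pow, mul_add, Real.exp_add, mul_one] at h
  rw [div_mul_eq_mul_div, le_div_iff₀ (by positivity)]
  linarith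

omit [Setup K] in

/-- Domination.  `Vr y ≤ C e^{-y}` (`R17.Vor.core_Vr_le`); with `x = ‖embv n‖` (sup norm) and
`λ = δ min_i ‖lm i‖`: `∏ e^{-λ‖emb i n‖} ≤ e^{-λ x}`, `aN n ≤ x^{2d}` (`aN_eq_prod`), polynomials in `x` are
`≤ C e^{λ x/2}`; `n ↦ Q^e n ∈ 𝓞` is injective on the support (`SInt.isIntegral`), `summable_exp_ideal ⊤`. -/
theorem summable_dom {e : ℕ} {a : R K → ℂ} (ha : Adm e a) {δ : ℝ} (hδ : 0 < δ) {A : ℝ} (hA : 0 ≤ A) :
    ∃ u : R K → ℝ, Summable u ∧ ∀ (n : R K) (v : Pl K → ℝ), (∀ i, δ ≤ v i) →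
      ‖a n‖ * ∏ i, ((1 + A * ‖emb i (n : K)‖) ^ 2 * Vr (‖lm i * emb i (n : K)‖ * v i)) ≤ u n := by
  obtain ⟨C, j, hC⟩ := ha.poly
  obtain ⟨Cv, hCv⟩ := R17.Vor.core_Vr_le
  obtain ⟨i0, hi0⟩ := Finite.exists_min fun i : Pl K => ‖lm i‖
  have hμ : 0 < ‖lm i0‖ * δ / 2 := by
    have := norm_pos_iff.2 (lm_ne_zero i0)
    positivity
  set μ := ‖lm i0‖ * δ / 2 with hμ'
  obtain ⟨C1, h1, hC1⟩ := c2_poly (2 * dd K * j + 2 * dd K) hμ
  refine ⟨fun n => |C| * 2 ^ j * ((1 + A) ^ 2 * |Cv|) ^ dd K * C1 *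
    if SInt ((Loc.Q K : K) ^ e * (n : K)) then Real.exp (-(μ * ‖embv (n : K)‖)) else 0,
    (c2_summable e hμ).mul_left _, fun n v hv => ?_⟩
  by_cases hn : a n = 0
  · rw [hn, norm_zero, zero_mul]
    refine mul_nonneg (by positivity) ?_
    split_ifs
    exacts [(Real.exp_pos _).le, le_rfl]
  beta_reduce
  rw [if_pos (ha.supp n hn)]
  set x := ‖embv (n : K)‖ with hx
  have hx0 : 0 ≤ x := norm_nonneg _
  have ht : ∀ i, ‖emb i (n : K)‖ ≤ x := fun i => norm_le_pi_norm (embv (n : K)) i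
  have b1 : aN (n : K) ≤ (1 + x) ^ (2 * dd K) := by
    rw [aN_eq_prod, pow_mul, dd, ← Finset.card_univ, ← Finset.prod_const]
    exact Finset.prod_le_prod (fun i _ => by positivity) fun i _ =>
      pow_le_pow_left₀ (norm_nonneg _) (by linarith [ht i]) 2
  have b2 : ‖a n‖ ≤ |C| * 2 ^ j * (1 + x) ^ (2 * dd K * j) := by
    have := aN_nonneg (n : K)
    have h2 : 1 ≤ (1 + x) ^ (2 * dd K) := one_le_pow₀ (by linarith)
    rw [mul_assoc, pow_mul (1 + x), ← mul_pow]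
    exact (hC n).trans (mul_le_mul (le_abs_self _) (pow_le_pow_left₀ (by positivity) (by linarith) j)
      (by positivity) (abs_nonneg _))
  have b3 : ∏ i, ((1 + A * ‖emb i (n : K)‖) ^ 2 * Vr (‖lm i * emb i (n : K)‖ * v i)) ≤
      ((1 + A) ^ 2 * |Cv|) ^ dd K * (1 + x) ^ (2 * dd K) * Real.exp (-(2 * μ * x)) := by
    calc _ ≤ ∏ i : Pl K, ((1 + A) ^ 2 * |Cv| * (1 + x) ^ 2 * Real.exp (-(2 * μ * ‖emb i (n : K)‖))) := by
          refine Finset.prod_le_prod (fun i _ => mul_nonneg (sq_nonneg _) (R17.Vor.core_Vr_pos _).le)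
            fun i _ => ?_
          have a1 : (1 + A * ‖emb i (n : K)‖) ^ 2 ≤ ((1 + A) * (1 + x)) ^ 2 :=
            pow_le_pow_left₀ (by positivity) (by nlinarith [ht i, norm_nonneg (emb i (n : K))]) 2
          have a2 : Vr (‖lm i * emb i (n : K)‖ * v i) ≤ |Cv| * Real.exp (-(2 * μ * ‖emb i (n : K)‖)) := by
            refine (hCv _ (mul_nonneg (norm_nonneg _) (hδ.le.trans (hv i)))).trans
              (mul_le_mul (le_abs_self _) (Real.exp_le_exp.2 (neg_le_neg ?_)) (Real.exp_pos _).le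
                (abs_nonneg _))
            rw [norm_mul, mul_right_comm ‖lm i‖, hμ', mul_div_cancel₀ _ two_ne_zero]
            exact mul_le_mul_of_nonneg_right (mul_le_mul (hi0 i) (hv i) hδ.le (norm_nonneg _))
              (norm_nonneg _)
          exact (mul_le_mul a1 a2 (R17.Vor.core_Vr_pos _).le (sq_nonneg _)).trans_eq (by ring)
      _ ≤ _ := by
          rw [Finset.prod_mul_distrib, Finset.prod_const, Finset.card_univ, ← Real.exp_sum, mul_pow,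
            ← pow_mul]
          refine mul_le_mul_of_nonneg_left (Real.exp_le_exp.2 ?_) (by positivity)
          rw [Finset.sum_neg_distrib, ← Finset.mul_sum]
          refine neg_le_neg (mul_le_mul_of_nonneg_left ?_ (by positivity))
          exact (pi_norm_le_iff_of_nonneg (Finset.sum_nonneg fun i _ => norm_nonneg _)).2 fun i =>
            Finset.single_le_sum (f := fun i => ‖emb i (n : K)‖) (fun i _ => norm_nonneg _)
              (Finset.mem_univ i)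
  have b4 := hC1 x hx0
  calc _ ≤ (|C| * 2 ^ j * (1 + x) ^ (2 * dd K * j)) * (((1 + A) ^ 2 * |Cv|) ^ dd K *
        (1 + x) ^ (2 * dd K) * Real.exp (-(2 * μ * x))) :=
        mul_le_mul b2 b3 (Finset.prod_nonneg fun i _ =>
          mul_nonneg (sq_nonneg _) (R17.Vor.core_Vr_pos _).le) (by positivity)
    _ = |C| * 2 ^ j * ((1 + A) ^ 2 * |Cv|) ^ dd K * ((1 + x) ^ (2 * dd K * j + 2 * dd K) *
        Real.exp (-(2 * μ * x))) := by rw [pow_add]; ring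
    _ ≤ |C| * 2 ^ j * ((1 + A) ^ 2 * |Cv|) ^ dd K * (C1 * Real.exp (μ * x) *
        Real.exp (-(2 * μ * x))) := by gcongr
    _ = _ := by
        rw [mul_assoc C1, ← Real.exp_add, show μ * x + -(2 * μ * x) = -(μ * x) by ring]
        ring

omit [Loc K] [Setup K] in
/-- `R17.Vor.act_pt` at every place -/
theorem act_Jc {c : K} (hc : c ≠ 0) (z : Pl K → ℂ) {v : Pl K → ℝ} (hv : ∀ i, 0 < v i) :
    actK (Jc c hc) (ptK z v) =
      ptK (fun i => -conj (z i) / (emb i c ^ 2 * ((‖z i‖ ^ 2 + v i ^ 2 : ℝ) : ℂ)))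
        (fun i => v i / (‖emb i c‖ ^ 2 * (‖z i‖ ^ 2 + v i ^ 2))) := by
  funext i
  have h0 := emb_ne_zero i hc
  have h1 : conj (emb i c) ≠ 0 := by simpa using h0
  have hΔ : 0 < ‖z i‖ ^ 2 + v i ^ 2 := by have := hv i; positivity
  have h2 : ((‖z i‖ ^ 2 + v i ^ 2 : ℝ) : ℂ) ≠ 0 := by exact_mod_cast hΔ.ne'
  have ea : (SL.map i.1 (Jc c hc)).a = 0 := by simp [Jc, SL.map]
  have eb : (SL.map i.1 (Jc c hc)).b = (emb i c)⁻¹ := by simp [Jc, SL.map, emb]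
  have ec : (SL.map i.1 (Jc c hc)).c = -emb i c := by simp [Jc, SL.map, emb]
  have ed : (SL.map i.1 (Jc c hc)).d = 0 := by simp [Jc, SL.map]
  have e : ‖-emb i c * z i + 0‖ ^ 2 + ‖-emb i c‖ ^ 2 * v i ^ 2 =
      ‖emb i c‖ ^ 2 * (‖z i‖ ^ 2 + v i ^ 2) := by
    rw [add_zero, norm_mul, norm_neg]; ring
  simp only [actK, actP, ptK]
  rw [R17.Vor.act_pt _ _ (hv i), ea, eb, ec, ed, e]
  congr 1
  rw [Complex.ofReal_mul, Complex.ofReal_pow, ← Complex.mul_conj']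
  simp only [zero_mul, zero_add, add_zero, map_mul, map_neg]
  field_simp

omit [Setup K] in
theorem c2_lim {e : ℕ} {a : R K → ℂ} (ha : Adm e a) {c : ℂ} {C : ℝ} (hC : 0 ≤ C)
    (h1 : ∀ (ρ : ℝ) (α : ℂ), 0 < ρ → ρ ≤ 1 → ‖Pav (ρ * α) / ρ‖ ≤ C * (1 + ‖α‖) ^ 2)
    (h2 : ∀ (α : ℝ → ℂ) (α0 : ℂ), Tendsto α (𝓝[>] 0) (𝓝 α0) →
      Tendsto (fun ρ : ℝ => Pav (ρ * α ρ) / ρ) (𝓝[>] 0) (𝓝 (c * α0)))
    {v : ℝ → Pl K → ℝ} {v0 : Pl K → ℝ} (hv0 : ∀ i, 0 < v0 i)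
    (hv : ∀ i, Tendsto (fun ρ => v ρ i) (𝓝[>] 0) (𝓝 (v0 i))) {κ : ℝ → Pl K → ℂ} {κ0 : Pl K → ℂ}
    (hκ : ∀ i, Tendsto (fun ρ => κ ρ i) (𝓝[>] 0) (𝓝 (κ0 i))) {g : R K → Pl K → ℂ}
    (hg : ∀ n i, ‖g n i‖ = ‖emb i (n : K)‖) :
    Tendsto (fun ρ : ℝ => ∑' n : R K, a n * (BB (n : K) (v ρ) : ℂ) * ∏ i, Pav (ρ * (κ ρ i * g n i)) / ρ)
      (𝓝[>] 0) (𝓝 (c ^ dd K * ∑' n : R K, a n * (BB (n : K) v0 : ℂ) * ∏ i, (κ0 i * g n i))) := by
  obtain ⟨i0, hi0⟩ := Finite.exists_min v0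
  obtain ⟨u, hu, hd⟩ := summable_dom ha (half_pos (hv0 i0)) (A := ‖κ0‖ + 1) (by positivity)
  rw [← tsum_mul_left]
  refine tendsto_tsum_of_dominated_convergence
    (hu.mul_left (((‖v0‖ + 1) ^ (2 / 3 : ℝ) * C) ^ dd K)) (fun n => ?_) ?_
  · have t1 : Tendsto (fun ρ => BB (n : K) (v ρ)) (𝓝[>] 0) (𝓝 (BB (n : K) v0)) :=
      tendsto_finsetProd _ fun i _ => ((hv i).rpow_const (Or.inl (hv0 i).ne')).mul
        ((R17.Vor.core_continuous_Vr.tendsto _).comp ((hv i).const_mul _))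
    have t2 := tendsto_finsetProd Finset.univ fun i _ => h2 _ _ ((hκ i).mul_const (g n i))
    have t3 := (((Complex.continuous_ofReal.tendsto _).comp t1).const_mul (a n)).mul t2
    rw [Finset.prod_mul_distrib (f := fun _ => c), Finset.prod_const, Finset.card_univ,
      mul_left_comm] at t3
    exact t3
  · have ev1 : ∀ᶠ ρ in 𝓝[>] (0 : ℝ), ∀ i, v0 i0 / 2 ≤ v ρ i ∧ v ρ i ≤ ‖v0‖ + 1 ∧
        ‖κ ρ i‖ ≤ ‖κ0‖ + 1 := eventually_all.2 fun i =>
      ((hv i).eventually_const_le ((half_lt_self (hv0 i0)).trans_le (hi0 i))).and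
        (((hv i).eventually_le_const (((le_abs_self _).trans (norm_le_pi_norm v0 i)).trans_lt
          (lt_add_one _))).and
        ((hκ i).norm.eventually_le_const ((norm_le_pi_norm κ0 i).trans_lt (lt_add_one _))))
    filter_upwards [ev1, Ioc_mem_nhdsGT one_pos] with ρ hρ hρ1 n
    have hp : ∀ i, 0 ≤ v ρ i := fun i => (half_pos (hv0 i0)).le.trans (hρ i).1
    refine le_trans ?_ (mul_le_mul_of_nonneg_left (hd n (v ρ) fun i => (hρ i).1) (by positivity))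
    rw [BB, Complex.ofReal_prod, mul_assoc, ← Finset.prod_mul_distrib, norm_mul, norm_prod,
      mul_left_comm, dd, ← Finset.card_univ, ← Finset.prod_const, ← Finset.prod_mul_distrib]
    refine mul_le_mul_of_nonneg_left (Finset.prod_le_prod (fun i _ => norm_nonneg _) fun i _ => ?_)
      (norm_nonneg _)
    have a0 := R17.Vor.core_Vr_pos (‖lm i * emb i (n : K)‖ * v ρ i)
    have a1 : v ρ i ^ (2 / 3 : ℝ) ≤ (‖v0‖ + 1) ^ (2 / 3 : ℝ) :=
      Real.rpow_le_rpow (hp i) (hρ i).2.1 (by norm_num)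
    have a2 : ‖Pav (ρ * (κ ρ i * g n i)) / ρ‖ ≤ C * (1 + (‖κ0‖ + 1) * ‖emb i (n : K)‖) ^ 2 := by
      refine (h1 ρ _ hρ1.1 hρ1.2).trans ?_
      rw [norm_mul, hg]
      gcongr
      exact (hρ i).2.2
    rw [norm_mul, Complex.norm_real, Real.norm_of_nonneg (mul_nonneg (Real.rpow_nonneg (hp i) _) a0.le)]
    exact (mul_le_mul (mul_le_mul_of_nonneg_right a1 a0.le) a2 (norm_nonneg _)
      (by positivity)).trans_eq (by ring)

omit [Setup K] in

/-- **Inversion.**  For `0 < ρ ≤ 1` take `z_i = ρ ζ^{J i}`, `Δ_i = ρ² + v_i²`, `α = lm i · emb i n`.  By `act_Jc`,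
`c5_eI_eq` and `R17.Vor.ee_neg_conj`: `ee (α z'_i) = ee (ρ conj(α/c_i²)/Δ_i · ζ^{J i})`.  `avg_hasSum` on both sides
and division by `ρ^d` give `∑ a₁ BB n v ∏ Pav(ρα)/ρ = ∑ a₂ BB n v'(ρ) ∏ Pav(ρ conj(α/c²)/Δ)/ρ`; let `ρ → 0⁺` with
`tendsto_tsum_of_dominated_convergence` (`Pav_lim`, `summable_dom`, `core_continuous_Vr`;
`v/(|c|²(1+v²)) ≤ v'(ρ) ≤ 1/(|c|² v)`), and cancel `c^d`. -/
theorem inv_raw {F1 F2 : XX K → ℂ} {a1 a2 : R K → ℂ} {e : ℕ} (e1 : HasExp F1 a1) (e2 : HasExp F2 a2)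
    (b1 : Adm e a1) (b2 : Adm e a2) {c : K} (hc : c ≠ 0) (hS : ∀ w, F1 w = F2 (actK (Jc c hc) w))
    {v : Pl K → ℝ} (hv : ∀ i, 0 < v i) :
    ∑' n : R K, a1 n * (BB (n : K) v : ℂ) * ∏ i, (lm i * emb i (n : K)) =
      ∑' n : R K, a2 n * (BB (n : K) (fun i => 1 / (‖emb i c‖ ^ 2 * v i)) : ℂ) *
        ∏ i, (conj (lm i * emb i (n : K) / emb i c ^ 2) / (v i : ℂ) ^ 2) := by
  obtain ⟨c0, C, hc0, hC, h1, h2⟩ := Pav_lim
  have hΔ : ∀ i, Tendsto (fun ρ : ℝ => ρ ^ 2 + v i ^ 2) (𝓝[>] 0) (𝓝 (v i ^ 2)) := fun i =>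
    (Continuous.tendsto' (by fun_prop) _ _ (by simp)).mono_left nhdsWithin_le_nhds
  have hc' : ∀ i, 0 < ‖emb i c‖ := fun i => norm_pos_iff.2 (emb_ne_zero i hc)
  have l1 := c2_lim b1 hC h1 h2 hv (v := fun _ => v) (fun i => tendsto_const_nhds)
    (κ := fun _ => lm) (fun i => tendsto_const_nhds) (g := fun n i => emb i (n : K)) fun _ _ => rfl
  have l2 := c2_lim b2 hC h1 h2 (v := fun ρ i => v i / (‖emb i c‖ ^ 2 * (ρ ^ 2 + v i ^ 2)))
    (v0 := fun i => 1 / (‖emb i c‖ ^ 2 * v i)) (fun i => by have := hc' i; have := hv i; positivity)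
    (fun i => by
      have := hc' i
      have := hv i
      rw [show 1 / (‖emb i c‖ ^ 2 * v i) = v i / (‖emb i c‖ ^ 2 * v i ^ 2) by field_simp]
      exact (tendsto_const_nhds (x := v i)).div ((hΔ i).const_mul (‖emb i c‖ ^ 2))
        (by positivity))
    (κ := fun ρ i => conj (lm i / emb i c ^ 2) / ((ρ ^ 2 + v i ^ 2 : ℝ) : ℂ))
    (κ0 := fun i => conj (lm i / emb i c ^ 2) / ((v i ^ 2 : ℝ) : ℂ))
    (fun i => tendsto_const_nhds.div ((Complex.continuous_ofReal.tendsto _).comp (hΔ i))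
      (by exact_mod_cast (pow_pos (hv i) 2).ne'))
    (g := fun n i => conj (emb i (n : K))) fun _ _ => Complex.norm_conj _
  have key := tendsto_nhds_unique_of_eventuallyEq l1 l2 (by
    filter_upwards [self_mem_nhdsWithin] with ρ (hρ : 0 < ρ)
    have hz : ∀ j, ‖(ρ : ℂ) * voc4_e 3 j‖ = ρ := fun j => by
      rw [norm_mul, R17.Vor.voc4_norm_e, mul_one, Complex.norm_real, Real.norm_of_nonneg hρ.le]
    have s1 := avg_hasSum (b := fun n => a1 n * (BB (n : K) v : ℂ))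
      (γ := fun n i => ρ * (lm i * emb i (n : K)))
      (F := fun J => F1 (ptK (fun i => ρ * voc4_e 3 (J i)) v)) fun J =>
        (e1 _ v hv).congr_fun fun n => by
          rw [c5_eI_eq]
          congr 1
          refine Finset.prod_congr rfl fun i _ => ?_
          simp only [Pi.mul_apply, embv_apply]
          congr 1
          ring
    have s2 := avg_hasSum (b := fun n => a2 n *
        (BB (n : K) (fun i => v i / (‖emb i c‖ ^ 2 * (ρ ^ 2 + v i ^ 2))) : ℂ))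
      (γ := fun n i => ρ * (conj (lm i / emb i c ^ 2) / ((ρ ^ 2 + v i ^ 2 : ℝ) : ℂ) *
        conj (emb i (n : K))))
      (F := fun J => F1 (ptK (fun i => ρ * voc4_e 3 (J i)) v)) fun J => by
        rw [hS, act_Jc hc _ hv]
        simp only [hz]
        refine (e2 _ _ fun i => by have := hc' i; have := hv i; positivity).congr_fun fun n => ?_
        rw [c5_eI_eq]
        congr 1
        refine Finset.prod_congr rfl fun i _ => ?_
        rw [← R17.Vor.ee_neg_conj]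
        simp only [Pi.mul_apply, embv_apply, map_mul, map_div₀, Complex.conj_conj, Complex.conj_ofReal]
        congr 1
        ring
    simp only [Finset.prod_div_distrib, ← mul_div_assoc, tsum_div_const]
    congr 1
    exact s1.tsum_eq.trans s2.tsum_eq.symm)
  refine (mul_left_cancel₀ (pow_ne_zero _ hc0) key).trans (tsum_congr fun n => ?_)
  congr 1
  refine Finset.prod_congr rfl fun i _ => ?_
  simp only [map_mul, map_div₀]
  push_cast
  ring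

omit [Setup K] in
theorem c2_side (a : R K → ℂ) (η : Pl K → ℝ) (φ : ℂ →+* ℂ) (hφ : ∀ r : ℝ, φ r = r) :
    (∑' n : R K, a n * (BB (n : K) (fun i => Real.exp (η i / 2) / ‖lm i‖) : ℂ) *
      ∏ i, φ (emb i (n : K))) * ∏ i, ((Real.exp (η i / 2) / ‖lm i‖ : ℝ) : ℂ) =
    (∏ i : Pl K, ((‖lm i‖ ^ (-(5 / 3 : ℝ)) : ℝ) : ℂ)) *
      Ph (fun n => a n * φ (ang (n : K)) * ((aN (n : K) ^ (-(1 / 3 : ℝ)) : ℝ) : ℂ)) η := by
  rw [Ph, ← tsum_mul_left, ← tsum_mul_right]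
  refine tsum_congr fun n => ?_
  by_cases hn : (n : K) = 0
  · simp [hn, ang, Finset.prod_eq_zero (Finset.mem_univ (Classical.arbitrary (Pl K)))]
  rw [aN_eq_prod, ← Real.finsetProd_rpow _ _ fun i _ => by positivity, ang, map_prod, BB, gP]
  simp only [Complex.ofReal_prod]
  rw [mul_left_comm, mul_assoc, mul_assoc, mul_assoc, mul_assoc]
  simp only [← Finset.prod_mul_distrib]
  congr 1
  refine Finset.prod_congr rfl fun i _ => ?_
  have hl := norm_pos_iff.2 (lm_ne_zero i)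
  have ht := norm_pos_iff.2 (emb_ne_zero i hn)
  have e1 : Real.exp ((η i + lg (n : K) i) / 2) = ‖lm i * emb i (n : K)‖ * (Real.exp (η i / 2) / ‖lm i‖) := by
    rw [add_div, Real.exp_add, lg, Real.log_pow, norm_mul]
    push_cast
    rw [mul_div_cancel_left₀ _ two_ne_zero, Real.exp_log ht]
    field_simp
  have e2 : (Real.exp (η i / 2) / ‖lm i‖) ^ (2 / 3 : ℝ) * (Real.exp (η i / 2) / ‖lm i‖) =
      ‖lm i‖ ^ (-(5 / 3 : ℝ)) * (‖emb i (n : K)‖⁻¹ * ((‖emb i (n : K)‖ ^ 2) ^ (-(1 / 3 : ℝ)) *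
        Real.exp (5 / 6 * (η i + lg (n : K) i)))) := by
    rw [lg, ← Real.exp_log hl, ← Real.exp_log ht]
    simp only [← Real.exp_sub, ← Real.exp_mul, ← Real.exp_add, ← Real.exp_neg, ← Real.exp_nat_mul,
      Real.log_exp]
    congr 1
    push_cast
    ring
  rw [gV, Pi.add_apply, e1, map_div₀, hφ, div_eq_mul_inv (φ _), ← Complex.ofReal_inv]
  have e3 := congrArg (fun x : ℝ => (x : ℂ)) e2
  simp only [Complex.ofReal_mul] at e3 ⊢
  linear_combination (φ (emb i (n : K)) *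
    (Vr (‖lm i * emb i (n : K)‖ * (Real.exp (η i / 2) / ‖lm i‖)) : ℂ)) * e3

omit [Setup K] in

/-- `inv_raw` at `v_i = e^{η_i/2}/‖lm i‖`, multiplied by `∏ v_i`.  For `n ≠ 0`, `α = lm i · emb i n`,
`‖α‖ v_i = e^{(η_i + lg n i)/2}` (`exp_lg`) and `α v^{5/3} Vr(‖α‖v) = (α/‖α‖) ‖α‖^{-2/3} gV (η_i + lg n i)`; on the
right `v' = e^{η'_i/2}/‖lm i‖` with `η' = 2 ell - 2 lg c - η`, `conj(α/c²) v⁻¹ = conj α (c/‖c‖)² v'`.  The terms
`n = 0` vanish (`ang 0 = 0`, `Pl K` nonempty).  `ε = ang c ^ 2 · ∏ conj(lm i/‖lm i‖)²`. -/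
theorem Ph_inv {F1 F2 : XX K → ℂ} {a1 a2 : R K → ℂ} {e : ℕ} (e1 : HasExp F1 a1) (e2 : HasExp F2 a2)
    (b1 : Adm e a1) (b2 : Adm e a2) {c : K} (hc : c ≠ 0) (hS : ∀ w, F1 w = F2 (actK (Jc c hc) w)) :
    ∃ ε : ℂ, ‖ε‖ = 1 ∧ ∀ η : Pl K → ℝ,
      Ph (up a1) η = ε * Ph (dn a2) ((2 : ℝ) • ell - (2 : ℝ) • lg c - η) := by
  have hl : ∀ i : Pl K, 0 < ‖lm i‖ := fun i => norm_pos_iff.2 (lm_ne_zero i)
  have hc' : ∀ i, 0 < ‖emb i c‖ := fun i => norm_pos_iff.2 (emb_ne_zero i hc)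
  refine ⟨∏ i, conj (lm i / emb i c ^ 2) * ((‖emb i c‖ ^ 2 : ℝ) : ℂ) / lm i, ?_, fun η => ?_⟩
  · rw [norm_prod]
    refine Finset.prod_eq_one fun i _ => ?_
    have := hl i
    have := hc' i
    rw [norm_div, norm_mul, Complex.norm_conj, norm_div, norm_pow, Complex.norm_real,
      Real.norm_of_nonneg (by positivity)]
    field_simp
  set η' := (2 : ℝ) • ell - (2 : ℝ) • lg c - η with hη'
  have hv : ∀ i, 1 / (‖emb i c‖ ^ 2 * (Real.exp (η i / 2) / ‖lm i‖)) = Real.exp (η' i / 2) / ‖lm i‖ := by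
    intro i
    have := hl i
    have := hc' i
    have e : η' i / 2 = ell i - lg c i - η i / 2 := by
      simp only [hη', Pi.sub_apply, Pi.smul_apply, smul_eq_mul]; ring
    rw [e, Real.exp_sub, Real.exp_sub, exp_lg hc, ell, Real.exp_log (by positivity)]
    field_simp
  have h := inv_raw e1 e2 b1 b2 hc hS (v := fun i => Real.exp (η i / 2) / ‖lm i‖)
    fun i => div_pos (Real.exp_pos _) (hl i)
  have s1 := c2_side a1 η (RingHom.id ℂ) fun _ => rfl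
  have s2 := c2_side a2 η' (starRingEnd ℂ) Complex.conj_ofReal
  have e3 : ∀ (n : R K) (i : Pl K), conj (lm i * emb i (n : K) / emb i c ^ 2) /
      ((Real.exp (η i / 2) / ‖lm i‖ : ℝ) : ℂ) ^ 2 = conj (lm i / emb i c ^ 2) /
        ((Real.exp (η i / 2) / ‖lm i‖ : ℝ) : ℂ) ^ 2 * conj (emb i (n : K)) := fun n i => by
    simp only [map_mul, map_div₀]
    ring
  simp only [hv, e3, Finset.prod_mul_distrib, ← mul_assoc] at h
  simp only [mul_right_comm _ _ (∏ i, conj (emb i _)), mul_right_comm _ _ (∏ i, emb i _),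
    tsum_mul_right] at h
  have e4 : (∏ i, conj (lm i / emb i c ^ 2) / ((Real.exp (η i / 2) / ‖lm i‖ : ℝ) : ℂ) ^ 2) *
      ∏ i, ((Real.exp (η i / 2) / ‖lm i‖ : ℝ) : ℂ) =
      (∏ i, conj (lm i / emb i c ^ 2) * ((‖emb i c‖ ^ 2 : ℝ) : ℂ) / lm i) * (∏ i : Pl K, lm i) *
        ∏ i, ((Real.exp (η' i / 2) / ‖lm i‖ : ℝ) : ℂ) := by
    simp only [← Finset.prod_mul_distrib, ← hv]
    refine Finset.prod_congr rfl fun i _ => ?_
    have a1 := lm_ne_zero i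
    have a2 : ((Real.exp (η i / 2) / ‖lm i‖ : ℝ) : ℂ) ≠ 0 :=
      Complex.ofReal_ne_zero.2 (div_pos (Real.exp_pos _) (hl i)).ne'
    have a3 : ((‖emb i c‖ ^ 2 : ℝ) : ℂ) ≠ 0 := Complex.ofReal_ne_zero.2 (pow_pos (hc' i) 2).ne'
    rw [Complex.ofReal_div 1, Complex.ofReal_mul, Complex.ofReal_one]
    field_simp
  have n1 : (∏ i : Pl K, ((‖lm i‖ ^ (-(5 / 3 : ℝ)) : ℝ) : ℂ)) ≠ 0 := Finset.prod_ne_zero_iff.2 fun i _ =>
    Complex.ofReal_ne_zero.2 (Real.rpow_pos_of_pos (hl i) _).ne'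
  have n2 : (∏ i : Pl K, lm i) ≠ 0 := Finset.prod_ne_zero_iff.2 fun i _ => lm_ne_zero i
  have n3 : (∏ i, ((Real.exp (η' i / 2) / ‖lm i‖ : ℝ) : ℂ)) ≠ 0 := Finset.prod_ne_zero_iff.2 fun i _ =>
    Complex.ofReal_ne_zero.2 (div_pos (Real.exp_pos _) (hl i)).ne'
  refine mul_left_cancel₀ (mul_ne_zero (mul_ne_zero n1 n2) n3) ?_
  change _ = _ * Ph (up a1) η at s1
  change _ = _ * Ph (dn a2) η' at s2
  simp only [RingHom.id_apply, mul_right_comm _ _ (∏ i, conj (emb i _)),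
    mul_right_comm _ _ (∏ i, emb i _)] at s1 s2
  generalize (∏ i, conj (lm i / emb i c ^ 2) / ((Real.exp (η i / 2) / ‖lm i‖ : ℝ) : ℂ) ^ 2) = W at h e4
  generalize (∏ i, ((Real.exp (η i / 2) / ‖lm i‖ : ℝ) : ℂ)) = V at s1 e4
  generalize (∏ i, ((Real.exp (η' i / 2) / ‖lm i‖ : ℝ) : ℂ)) = V' at s2 e4 ⊢
  generalize (∏ i : Pl K, ((‖lm i‖ ^ (-(5 / 3 : ℝ)) : ℝ) : ℂ)) = L at s1 s2 ⊢
  linear_combination (-(∏ i : Pl K, lm i) * V') * s1 + V * V' * h + W * V * s2 +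
    L * Ph (dn a2) η' * e4

end Crest.Agent.R312.Th
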