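import Crest.Agent.R312.B5C0
import Crest.Agent.R312.B5Kub

/-!
# R312 / B5C3 : the group `R^*/Ups M`, the parametrisation of `R∖0`, uniform sums over `S`-parts
-/

set_option autoImplicit false
set_option linter.unusedSectionVars false

noncomputable section

open scoped Classical ComplexConjugate NumberField Topology
open MeasureTheory Filter
open Crest.Agent.R17.Vor (SL X pt act Vr nn gamL ExpGr voc4_e)

namespace Crest.Agent.R312.Th

variable {K : Type} [Field K] [NumberField K] [Fld K] [Loc K] [Setup K]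

omit [Setup K] in
theorem lg_upR_mul (k : UI K → ℤ) {x : K} (hx : x ≠ 0) :
    lg ((((upR k : (R K)ˣ) : R K) : K) * x) = lam k + lg x := by
  rw [lg_mul' (wv_unit_ne _) hx]
  rfl

omit [Loc K] [Setup K] in
/-- `uco_lam` and injectivity of `uco` (or `lam_eq_sum`) -/
theorem lam_smul (M : ℕ) (k : UI K → ℤ) : lam ((M : ℤ) • k) = (M : ℝ) • lam k := by
  funext v
  rw [lam_eq_sum, lam_eq_sum]
  simp only [Pi.smul_apply, smul_eq_mul, Finset.mul_sum, Int.cast_mul, Int.cast_natCast, mul_assoc]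

omit [Setup K] in
theorem c5_aN_Ups {M : ℕ} {u : (R K)ˣ} (hu : u ∈ Ups K M) : aN ((u : R K) : K) = 1 := by
  obtain ⟨k, rfl⟩ := hu
  exact aN_unit (upow _)

omit [Setup K] in
theorem c3_mk_one {M : ℕ} (k : UI K → ℤ) : (QuotientGroup.mk (upR ((M : ℤ) • k)) : UQ K M) = 1 :=
  (QuotientGroup.eq_one_iff (N := Ups K M) _).2 ⟨k, rfl⟩

omit [Setup K] in
theorem c3_lg (k : UI K → ℤ) : lg (((upR k : (R K)ˣ) : R K) : K) = lam k := rfl

omit [Setup K] in
theorem c3_mem_map {I : Ideal (𝓞 K)} {z : R K} (hz : z ∈ I.map (toR (K := K))) :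
    ∃ (n : ℕ) (w : 𝓞 K), w ∈ I ∧ toR w = (Loc.Q K : R K) ^ n * z := by
  induction hz using Submodule.span_induction with
  | mem z hz =>
    obtain ⟨w, hw, rfl⟩ := hz
    exact ⟨0, w, hw, by simp⟩
  | zero => exact ⟨0, 0, I.zero_mem, by simp⟩
  | add a b _ _ ha hb =>
    obtain ⟨n, w, hw, e⟩ := ha
    obtain ⟨m, w', hw', e'⟩ := hb
    refine ⟨n + m, (Loc.Q K : 𝓞 K) ^ m * w + (Loc.Q K : 𝓞 K) ^ n * w',
      I.add_mem (I.mul_mem_left _ hw) (I.mul_mem_left _ hw'), ?_⟩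
    simp only [map_add, map_mul, map_pow, map_natCast, e, e']
    ring
  | smul a b _ hb =>
    obtain ⟨n, w, hw, e⟩ := hb
    obtain ⟨m, w', e'⟩ := exists_toR a
    refine ⟨n + m, w' * w, I.mul_mem_left _ hw, ?_⟩
    rw [map_mul, e, e', smul_eq_mul]
    ring

omit [Setup K] in
theorem uo_mk {M : ℕ} (v : (R K)ˣ) :
    ∃ u ∈ Ups K M, uo (QuotientGroup.mk v : UQ K M) = (u : R K) * (v : R K) := by
  obtain ⟨u, hu⟩ := QuotientGroup.mk_out_eq_mul (Ups K M) v
  exact ⟨u, u.2, by rw [uo, hu, Units.val_mul, mul_comm]⟩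

omit [Setup K] in
theorem uo_mul_mk {M : ℕ} (η : UQ K M) (v : (R K)ˣ) :
    ∃ u ∈ Ups K M, uo (η * QuotientGroup.mk v) = (u : R K) * (uo η * (v : R K)) := by
  obtain ⟨u, hu, e⟩ := uo_mk (M := M) (Quotient.out η * v)
  rw [QuotientGroup.mk_mul, QuotientGroup.out_eq'] at e
  exact ⟨u, hu, e⟩

/-- `n = unit · m` uniquely (`exists_eq_unit_prim`, `Prim.eq_of_associated`), a unit is `upR (M•k) · η.out`
uniquely (`k ↦ upR (M•k)` is injective by `lg_upR_mul`, `lam_smul`, `uco_lam`). -/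
theorem exists_param {M : ℕ} (hM : 0 < M) :
    ∃ e : ({m : R K // Prim m} × UQ K M) × (UI K → ℤ) ≃ {n : R K // n ≠ 0},
      ∀ p, (e p).1 = ((upR ((M : ℤ) • p.2) : (R K)ˣ) : R K) * (uo p.1.2 * p.1.1.1) := by
  refine ⟨Equiv.ofBijective (fun p => ⟨((upR ((M : ℤ) • p.2) : (R K)ˣ) : R K) * (uo p.1.2 * p.1.1.1),
    mul_ne_zero (Units.ne_zero _) (mul_ne_zero (isUnit_uo _).ne_zero p.1.1.2.ne_zero)⟩) ⟨?_, ?_⟩, fun _ => rfl⟩
  · rintro ⟨⟨⟨m, hm⟩, η⟩, k⟩ ⟨⟨⟨m', hm'⟩, η'⟩, k'⟩ h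
    have e : ((upR ((M : ℤ) • k) * Quotient.out η : (R K)ˣ) : R K) * m =
        ((upR ((M : ℤ) • k') * Quotient.out η' : (R K)ˣ) : R K) * m' := by
      rw [Units.val_mul, Units.val_mul, mul_assoc, mul_assoc]
      exact congrArg Subtype.val h
    obtain rfl : m = m' := hm.eq_of_associated hm'
      (((associated_unit_mul_right _ _ (Units.isUnit _)).trans (Associated.of_eq e)).trans
        (associated_unit_mul_left _ _ (Units.isUnit _)))
    have e1 := Units.ext (mul_right_cancel₀ hm.ne_zero e)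
    have key : ∀ (l : UI K → ℤ) (ζ : UQ K M),
        (QuotientGroup.mk (upR ((M : ℤ) • l) * Quotient.out ζ) : UQ K M) = ζ := fun l ζ => by
      rw [QuotientGroup.mk_mul, QuotientGroup.out_eq', c3_mk_one]
      exact one_mul ζ
    obtain rfl : η = η' := by rw [← key k η, e1, key]
    have e2 : lam ((M : ℤ) • k) = lam ((M : ℤ) • k') := by
      rw [← c3_lg, ← c3_lg, mul_right_cancel e1]
    obtain rfl : k = k' := smul_right_injective _ (Int.natCast_ne_zero.2 hM.ne') (lam_injective e2)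
    rfl
  · rintro ⟨n, hn⟩
    obtain ⟨_, b, ⟨u, rfl⟩, hb, rfl⟩ := exists_eq_unit_prim hn
    obtain ⟨_, ⟨k, rfl⟩, e⟩ := uo_mk (M := M) u
    refine ⟨((⟨b, hb⟩, QuotientGroup.mk u), -k), Subtype.ext ?_⟩
    change _ * (_ * b) = _ * b
    rw [e, ← mul_assoc, ← mul_assoc, ← Units.val_mul, ← upR_add, ← smul_add, neg_add_cancel, smul_zero,
      upR_zero, Units.val_one, one_mul]

omit [Setup K] in
/-- `exists_oU`, `uEquiv`: the set is contained in the image of `torsion × [0,M)^r` under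
`(ζ, k) ↦ mk (oU (ζ * upow k))` (`k = M•(k/M) + k % M`, `upR_add`). -/
theorem finite_W {M : ℕ} (hM : 0 < M) : {η : UQ K M | IsW ((uo η : R K) : K)}.Finite := by
  refine (Set.finite_range fun p : NumberField.Units.torsion K × (UI K → Fin M) =>
    (QuotientGroup.mk (oU (uEquiv K (p.1, fun i => (p.2 i : ℤ)))) : UQ K M)).subset fun η hη => ?_
  obtain ⟨ε, hε⟩ := exists_oU hη
  obtain ⟨⟨ζ, k⟩, rfl⟩ := (uEquiv K).surjective ε
  have hM' : (0 : ℤ) < M := Int.natCast_pos.2 hM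
  refine ⟨(ζ, fun i => ⟨(k i % M).toNat, by
    have := Int.emod_lt_of_pos (k i) hM'
    have := Int.emod_nonneg (k i) hM'.ne'
    omega⟩), ?_⟩
  have e : k = (fun i => (((k i % M).toNat : ℕ) : ℤ)) + (M : ℤ) • fun i => k i / M := funext fun i => by
    rw [Pi.add_apply, Pi.smul_apply, smul_eq_mul, Int.toNat_of_nonneg (Int.emod_nonneg (k i) hM'.ne'),
      Int.emod_add_mul_ediv]
  have e2 : ∀ l : UI K → ℤ, oU (uEquiv K (ζ, l)) = oU (ζ : (𝓞 K)ˣ) * upR l := fun l => by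
    rw [uEquiv_apply, map_mul]; rfl
  rw [← QuotientGroup.out_eq' η, ← hε]
  change (QuotientGroup.mk (oU (uEquiv K (ζ, fun i => (((k i % M).toNat : ℕ) : ℤ)))) : UQ K M) = _
  conv_rhs => rw [e]
  rw [e2, e2, upR_add, ← mul_assoc, QuotientGroup.mk_mul _ _ (upR _), QuotientGroup.mk_mul _ _ (upR _),
    QuotientGroup.mk_mul _ _ (upR _), c3_mk_one]
  exact (mul_one (M := UQ K M) _).symm

omit [Setup K] in
/-- the `S`-part of a principal ideal: `idl (toR n) ⊇ (n)` so `(n) = idl (toR n) * J`; every `y ∈ idl (toR n)` has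
`Q^k y ∈ (n)` (`exists_toR`), `idl (toR n)` is finitely generated, cancel it in the Dedekind domain. -/
theorem exists_sp {n : 𝓞 K} (hn : n ≠ 0) : ∃ J : Ideal (𝓞 K),
    (∃ k : ℕ, ((Loc.Q K : ℕ) : 𝓞 K) ^ k ∈ J) ∧ Ideal.span {n} = idl (toR n) * J := by
  obtain ⟨J, hJ⟩ : idl (toR n) ∣ Ideal.span {n} :=
    Ideal.dvd_iff_le.2 ((Ideal.span_singleton_le_iff_mem _).2 (mem_idl.2 dvd_rfl))
  refine ⟨J, ?_, hJ⟩
  have h0 : toR n ≠ 0 := fun h => hn (toR_injective (h.trans (map_zero _).symm))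
  have h1 := congrArg (Ideal.map (toR (K := K))) hJ
  rw [Ideal.map_mul, map_idl, Ideal.map_span, Set.image_singleton] at h1
  have h2 : (1 : Ideal (R K)) = J.map toR :=
    mul_left_cancel₀ (by rwa [Ne, Ideal.zero_eq_bot, Ideal.span_singleton_eq_bot]) ((mul_one _).trans h1)
  obtain ⟨k, y, hy, e⟩ := c3_mem_map (show (1 : R K) ∈ J.map toR by rw [← h2]; simp)
  refine ⟨k, ?_⟩
  have : ((Loc.Q K : ℕ) : 𝓞 K) ^ k = y := toR_injective (by rw [e, mul_one, map_pow, map_natCast])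
  rwa [this]

omit [Setup K] in
theorem c3_sp (e : ℕ) {n : R K} (hn : n ≠ 0) (h : SInt ((Loc.Q K : K) ^ e * (n : K))) :
    ∃ (y : 𝓞 K) (J : Ideal (𝓞 K)), (y : K) = (Loc.Q K : K) ^ e * n ∧ (∃ k : ℕ, ((Loc.Q K : ℕ) : 𝓞 K) ^ k ∈ J) ∧
      Ideal.span {y} = idl n * J ∧ (1 : ℝ) ≤ Ideal.absNorm J ∧
      aN (n : K) / N n = (aN ((Loc.Q K : K) ^ e))⁻¹ * Ideal.absNorm J := by
  have hc : (((Loc.Q K : R K) ^ e * n : R K) : K) = (Loc.Q K : K) ^ e * n := by push_cast; rfl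
  obtain ⟨y, hy⟩ := exists_toR_of_isIntegral (SInt.isIntegral (x := (Loc.Q K : R K) ^ e * n) (by rwa [hc]))
  have hyK : (y : K) = (Loc.Q K : K) ^ e * n := by rw [← coe_toR, hy, hc]
  have hQ : (Loc.Q K : K) ^ e ≠ 0 := pow_ne_zero _ loc_Q_ne
  have hy0 : y ≠ 0 := by
    rintro rfl
    exact mul_ne_zero hQ (b4_coe_ne_zero hn) hyK.symm
  obtain ⟨J, hJ, e1⟩ := exists_sp hy0
  rw [hy, idl_eq_iff.2 (associated_unit_mul_left n _ (isUnit_Q.pow e))] at e1
  have hJ0 : J ≠ ⊥ := by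
    rintro rfl
    rw [Ideal.mul_bot, Ideal.span_singleton_eq_bot] at e1
    exact hy0 e1
  refine ⟨y, J, hyK, hJ, e1, Nat.one_le_cast.2 (Nat.pos_of_ne_zero (by rwa [Ne, Ideal.absNorm_eq_zero_iff])), ?_⟩
  have e2 := aN_eq_absNorm y
  rw [e1, map_mul, absNorm_idl, hyK, aN_mul, Nat.cast_mul] at e2
  have := (aN_pos hQ).ne'
  have := (N_pos hn).ne'
  field_simp
  rw [mul_comm]
  exact e2

omit [Setup K] in
/-- `Q^e n = y ∈ 𝓞`, `aN y = absNorm (idl · J) ≥ nm`, `c = Q^{-2de}` (`aN_natCast`, `absNorm_idl`) -/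
theorem aN_ge (e : ℕ) : ∃ c : ℝ, 0 < c ∧ ∀ n : R K, n ≠ 0 → SInt ((Loc.Q K : K) ^ e * (n : K)) →
    c * N n ≤ aN (n : K) := by
  have hQ := aN_pos (pow_ne_zero e (loc_Q_ne (K := K)))
  refine ⟨(aN ((Loc.Q K : K) ^ e))⁻¹, inv_pos.2 hQ, fun n hn h => ?_⟩
  obtain ⟨-, J, -, -, -, h1, h2⟩ := c3_sp e hn h
  rw [← le_div_iff₀ (N_pos hn), h2]
  exact le_mul_of_one_le_right (inv_pos.2 hQ).le h1

omit [Setup K] in
theorem c3_isW {M : ℕ} (ε : (𝓞 K)ˣ) : IsW ((uo (QuotientGroup.mk (oU ε) : UQ K M) : R K) : K) := by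
  obtain ⟨_, ⟨k, rfl⟩, e⟩ := uo_mk (M := M) (oU ε)
  rw [e, Subring.coe_mul]
  exact (isW_unit (upow _)).mul (isW_unit ε)

omit [Setup K] in
/-- **Uniform summability over `S`-parts.**  For `η` with `y_η = Q^e η m ∈ 𝓞` let `J_η` be the ideal of `exists_sp`;
`aN (η m)/N m = Q^{-2de} absNorm J_η` (`idl` only depends on the associate class, `idl_eq_iff`).  If
`J_η = J_η'` then `(y_η) = (y_η')`, so `η' ∈ η · {ζ | IsW (uo ζ)}`: the fibres of `η ↦ J_η` have at most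
`T = ncard` (`finite_W`) elements.  Take `u η = max(1, Q^{2deσ₂}) absNorm J_η ^ (-σ₁)`; finite partial sums are
`≤ T ∑_J` (`Finset.sum_fiberwise_of_maps_to`/`Finset.card_le_mul_card_image`, `summable_S_ideals`,
`summable_of_sum_le`). -/
theorem sum_UQ {M : ℕ} (hM : 0 < M) (e : ℕ) {σ1 : ℝ} (h1 : 0 < σ1) (σ2 : ℝ) : ∃ C : ℝ, 0 ≤ C ∧
    ∀ m : R K, m ≠ 0 → ∃ u : UQ K M → ℝ, (∀ η, 0 ≤ u η) ∧ Summable u ∧ ∑' η, u η ≤ C ∧
      ∀ (η : UQ K M) (σ : ℝ), σ1 ≤ σ → σ ≤ σ2 → SInt ((Loc.Q K : K) ^ e * ((uo η * m : R K) : K)) →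
        (aN ((uo η * m : R K) : K) / N m) ^ (-σ) ≤ u η := by
  have hQ : (Loc.Q K : K) ^ e ≠ 0 := pow_ne_zero _ loc_Q_ne
  set q := aN ((Loc.Q K : K) ^ e) with hq
  have q1 : 1 ≤ q := by
    have := one_le_aN (pow_ne_zero e (b0fin_Q_ne (K := K)))
    push_cast at this
    exact this
  have q0 : 0 < q := one_pos.trans_le q1
  let g : Ideal (𝓞 K) → ℝ := fun I =>
    if ∃ k : ℕ, ((Loc.Q K : ℕ) : 𝓞 K) ^ k ∈ I then (Ideal.absNorm I : ℝ) ^ (-σ1) else 0
  have g0 : ∀ I, 0 ≤ g I := fun I => by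
    simp only [g]
    split_ifs
    · positivity
    · exact le_rfl
  have := (finite_W (K := K) hM).to_subtype
  let G : {η : UQ K M | IsW ((uo η : R K) : K)} × Ideal (𝓞 K) → ℝ := fun p => q ^ σ2 * g p.2
  have G0 : ∀ p, 0 ≤ G p := fun p => mul_nonneg (by positivity) (g0 _)
  have hG : Summable G := (summable_prod_of_nonneg G0).2
    ⟨fun _ => (summable_S_ideals h1).mul_left (q ^ σ2), Summable.of_finite⟩
  refine ⟨∑' p, G p, tsum_nonneg G0, fun m hm => ?_⟩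
  let S : Set (UQ K M) := {η | SInt ((Loc.Q K : K) ^ e * ((uo η * m : R K) : K))}
  have hne : ∀ η : UQ K M, uo η * m ≠ 0 := fun η => mul_ne_zero (isUnit_uo η).ne_zero hm
  choose y J hy hJ e1 hJ1 e2 using fun η : S => c3_sp e (hne η) η.2
  have key : ∀ η η' : S, J η = J η' → IsW ((uo (η.1 * η'.1⁻¹) : R K) : K) := fun η η' h => by
    have h2 : Ideal.span {y η'} = Ideal.span {y η} := by
      rw [e1, e1, h, idl_eq_iff.2 (associated_unit_mul_left m _ (isUnit_uo η.1)),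
        idl_eq_iff.2 (associated_unit_mul_left m _ (isUnit_uo η'.1))]
    obtain ⟨ε, hε⟩ := Ideal.span_singleton_eq_span_singleton.1 h2
    have h3 : (y η' : K) * ((ε : 𝓞 K) : K) = y η := by exact_mod_cast congrArg (fun z : 𝓞 K => (z : K)) hε
    rw [hy, hy] at h3
    have h4 : Quotient.out η'.1 * oU ε = Quotient.out η.1 := by
      refine Units.ext (Subtype.ext (mul_left_cancel₀ (mul_ne_zero hQ (b4_coe_ne_zero hm)) ?_))
      rw [Units.val_mul, Subring.coe_mul, coe_oU]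
      rw [Subring.coe_mul, Subring.coe_mul, uo, uo] at h3
      linear_combination h3
    have h5 : η.1 * η'.1⁻¹ = QuotientGroup.mk (oU ε) := by
      rw [mul_inv_eq_iff_eq_mul, ← QuotientGroup.out_eq' η.1, ← h4, QuotientGroup.mk_mul,
        QuotientGroup.out_eq']
      exact mul_comm (G := UQ K M) _ _
    rw [h5]
    exact c3_isW ε
  obtain ⟨b, hb, hb'⟩ : ∃ b : S → S, (∀ η, J (b η) = J η) ∧ ∀ η η', J η = J η' → b η = b η' := by
    refine ⟨fun η => (show ∃ η', J η' = J η from ⟨η, rfl⟩).choose,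
      fun η => (show ∃ η', J η' = J η from ⟨η, rfl⟩).choose_spec, fun η η' h => ?_⟩
    simp only [h]
  let φ : S → {η : UQ K M | IsW ((uo η : R K) : K)} × Ideal (𝓞 K) :=
    fun η => (⟨η.1 * (b η).1⁻¹, key _ _ (hb η).symm⟩, J η)
  have hφ : Function.Injective φ := fun η η' h => by
    have a1 : J η = J η' := (Prod.ext_iff.1 h).2
    have a2 : η.1 * (b η).1⁻¹ = η'.1 * (b η').1⁻¹ := congrArg Subtype.val (Prod.ext_iff.1 h).1
    rw [hb' _ _ a1] at a2
    exact Subtype.ext (by simpa using congrArg (· * (b η').1) a2)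
  have hs := hG.comp_injective hφ
  refine ⟨Function.extend Subtype.val (G ∘ φ) 0, fun η => ?_, ?_, ?_, fun η σ hσ1 hσ2 hη => ?_⟩
  · by_cases h : ∃ a : S, a.1 = η
    · obtain ⟨a, rfl⟩ := h
      rw [Subtype.val_injective.extend_apply]
      exact G0 _
    · rw [Function.extend_apply' _ _ _ h]
      exact le_rfl
  · exact (summable_extend_zero Subtype.val_injective).2 hs
  · rw [tsum_extend_zero Subtype.val_injective]
    exact tsum_comp_le_tsum_of_inj hG G0 hφ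
  · have e3 := e2 ⟨η, hη⟩
    rw [N_assoc (associated_unit_mul_left m _ (isUnit_uo η))] at e3
    rw [Subtype.val_injective.extend_apply (G ∘ φ) 0 (⟨η, hη⟩ : S), e3]
    have j1 := hJ1 ⟨η, hη⟩
    change _ ≤ q ^ σ2 * g (J ⟨η, hη⟩)
    simp only [g, if_pos (hJ ⟨η, hη⟩)]
    rw [Real.mul_rpow (inv_pos.2 q0).le (by positivity), Real.inv_rpow q0.le, Real.rpow_neg q0.le, inv_inv]
    exact mul_le_mul (Real.rpow_le_rpow_of_exponent_le q1 hσ2)
      (Real.rpow_le_rpow_of_exponent_le j1 (neg_le_neg hσ1)) (by positivity) (by positivity)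

omit [Setup K] in
/-- `aN n ≥ c` on the support (`aN_ge`, `one_le_N`), `‖ang n‖ ≤ 1`; `ang 0 = 0` -/
theorem Adm.up_dn {e : ℕ} {a : R K → ℂ} (h : Adm e a) :
    Adm e (up a) ∧ Adm e (dn a) ∧ up a 0 = 0 ∧ dn a 0 = 0 := by
  obtain ⟨c, hc, H⟩ := aN_ge (K := K) e
  have h0 : ang (0 : K) = 0 := by
    obtain ⟨v⟩ := (inferInstance : Nonempty (Pl K))
    exact Finset.prod_eq_zero (Finset.mem_univ v) (by rw [emb_zero, zero_div])
  have key : ∀ t : R K → ℂ, t 0 = 0 → (∀ n, n ≠ 0 → ‖t n‖ = 1) →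
      Adm e fun n => a n * t n * ((aN (n : K) ^ (-(1 / 3 : ℝ)) : ℝ) : ℂ) := fun t t0 t1 => by
    have := h.mul_bdd (g := fun n => if SInt ((Loc.Q K : K) ^ e * (n : K)) then
      t n * ((aN (n : K) ^ (-(1 / 3 : ℝ)) : ℝ) : ℂ) else 0) (B := c ^ (-(1 / 3 : ℝ))) fun n => by
      split_ifs with hn
      · by_cases h1 : n = 0
        · rw [h1, t0, zero_mul, norm_zero]; positivity
        · rw [norm_mul, t1 n h1, one_mul, Complex.norm_real,
            Real.norm_of_nonneg (Real.rpow_nonneg (aN_nonneg _) _)]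
          exact Real.rpow_le_rpow_of_nonpos hc ((le_mul_of_one_le_right hc.le (one_le_N h1)).trans (H n h1 hn))
            (by norm_num)
      · rw [norm_zero]; positivity
    convert this using 2 with n
    by_cases h1 : a n = 0
    · rw [h1, zero_mul, zero_mul, zero_mul]
    · rw [if_pos (h.supp n h1), mul_assoc]
  refine ⟨key _ h0 fun n hn => norm_ang (b4_coe_ne_zero hn),
    key (fun n => conj (ang (n : K))) (by rw [Subring.coe_zero, h0, map_zero]) fun n hn => by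
      rw [Complex.norm_conj, norm_ang (b4_coe_ne_zero hn)], ?_, ?_⟩
  · rw [up, Subring.coe_zero, h0, mul_zero, zero_mul]
  · rw [dn, Subring.coe_zero, h0, map_zero, mul_zero, zero_mul]

/-- `(1 + aN n)^j ≤ C' aN n ^ j` on the support; `aN (ηm)^{j-σ} = N m^{j-σ} (aN (ηm)/N m)^{j-σ}`, `sum_UQ`,
`summable_N_rpow`, `summable_prod_of_nonneg`; `σ₀ = j + 2`. -/
theorem summable_LS {M : ℕ} (hM : 0 < M) {e : ℕ} {b : R K → ℂ} (hb : Adm e b) : ∃ σ0 : ℝ, ∀ σ, σ0 ≤ σ →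
    Summable fun p : {m : R K // Prim m} × UQ K M =>
      ‖b (uo p.2 * p.1.1)‖ * aN ((uo p.2 * p.1.1 : R K) : K) ^ (-σ) := by
  obtain ⟨c, hc, H⟩ := aN_ge (K := K) e
  obtain ⟨C, j, hC⟩ := hb.poly
  have C0 : 0 ≤ C := by
    have := (norm_nonneg _).trans (hC 0)
    have h1 : 0 < (1 + aN (((0 : R K)) : K)) ^ j := by have := aN_nonneg (((0 : R K)) : K); positivity
    exact nonneg_of_mul_nonneg_left this h1
  refine ⟨j + 2, fun σ hσ => ?_⟩
  obtain ⟨B, B0, hB⟩ := sum_UQ (K := K) hM e (σ1 := σ - j) (by linarith) (σ - j)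
  choose u u0 us ub hu using fun m : {m : R K // Prim m} => hB m.1 m.2.ne_zero
  have hN : Summable fun m : {m : R K // Prim m} => N m.1 ^ (-(σ - j)) := by
    have := (summable_N_rpow (K := K) (σ := σ - j) (by linarith)).subtype {m | Prim m}
    exact this.congr fun m => if_pos m.2
  have h1 : Summable fun p : {m : R K // Prim m} × UQ K M => N p.1.1 ^ (-(σ - j)) * u p.1 p.2 := by
    refine (summable_prod_of_nonneg fun p => mul_nonneg (Real.rpow_nonneg (N_nonneg _) _) (u0 _ _)).2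
      ⟨fun m => (us m).mul_left (N m.1 ^ (-(σ - j))), ?_⟩
    refine (hN.mul_right B).of_nonneg_of_le
      (fun m => tsum_nonneg fun η => mul_nonneg (Real.rpow_nonneg (N_nonneg _) _) (u0 _ _)) fun m => ?_
    simp only
    rw [tsum_mul_left]
    exact mul_le_mul_of_nonneg_left (ub m) (Real.rpow_nonneg (N_nonneg _) _)
  refine (h1.mul_left (C * (c⁻¹ + 1) ^ j)).of_nonneg_of_le
    (fun p => mul_nonneg (norm_nonneg _) (Real.rpow_nonneg (aN_nonneg _) _)) fun p => ?_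
  have r0 : 0 ≤ N p.1.1 ^ (-(σ - j)) := Real.rpow_nonneg (N_nonneg _) _
  by_cases h0 : b (uo p.2 * p.1.1) = 0
  · rw [h0, norm_zero, zero_mul]
    have := u0 p.1 p.2
    positivity
  · have hs := hb.supp _ h0
    have hn : uo p.2 * p.1.1 ≠ 0 := mul_ne_zero (isUnit_uo _).ne_zero p.1.2.ne_zero
    have h2 := hu p.1 p.2 _ le_rfl le_rfl hs
    have h3 := (le_mul_of_one_le_right hc.le (one_le_N hn)).trans (H _ hn hs)
    have hNp := N_pos p.1.2.ne_zero
    have h4 := hC (uo p.2 * p.1.1)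
    generalize aN ((uo p.2 * p.1.1 : R K) : K) = x at h2 h3 h4 ⊢
    have x0 : 0 < x := hc.trans_le h3
    have h5 : 1 + x ≤ (c⁻¹ + 1) * x := by
      have : 1 ≤ c⁻¹ * x := by rwa [le_inv_mul_iff₀ hc, mul_one]
      linarith
    have h6 : x ^ j * x ^ (-σ) = N p.1.1 ^ (-(σ - j)) * (x / N p.1.1) ^ (-(σ - j)) := by
      rw [← Real.mul_rpow hNp.le (by positivity), mul_div_cancel₀ _ hNp.ne', ← Real.rpow_natCast,
        ← Real.rpow_add x0]
      congr 1
      ring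
    calc _ ≤ C * ((c⁻¹ + 1) * x) ^ j * x ^ (-σ) := by
          gcongr
          exact h4.trans (by gcongr)
      _ = C * (c⁻¹ + 1) ^ j * (x ^ j * x ^ (-σ)) := by rw [mul_pow]; ring
      _ ≤ _ := by rw [h6]; gcongr

omit [Setup K] in
/-- `k = ncard {η | InU n (uo η)}` (finite by `finite_W`, `InU.isW`; contains `1` by `uo_mk`,
`inU_of_mem_Ups`); translate by `mk u₀` (`Equiv.mulRight`, `uo_mul_mk`), `tsum_eq_sum`. -/
theorem tsum_U {n M : ℕ} (hn : 1 ≤ n) (hM0 : 0 < M) (hM : eM K n ∣ M) : ∃ k : ℕ, 0 < k ∧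
    ∀ (x : K) (u0 : (R K)ˣ), InU n (((u0 : R K) : K) * x) → ∀ z : ℂ,
      ∑' η : UQ K M, (if InU n (((uo η : R K) : K) * x) then z else 0) = k * z := by
  have hfin : {η : UQ K M | InU n ((uo η : R K) : K)}.Finite :=
    (finite_W hM0).subset fun η h => InU.isW hn h
  refine ⟨hfin.toFinset.card, Finset.card_pos.2 ⟨QuotientGroup.mk 1, ?_⟩, fun x u0 h z => ?_⟩
  · obtain ⟨u, hu, e⟩ := uo_mk (M := M) (1 : (R K)ˣ)
    rw [Set.Finite.mem_toFinset]
    change InU n _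
    rw [e, Units.val_one, mul_one]
    exact inU_of_mem_Ups hM hu
  · rw [← (Equiv.mulRight (QuotientGroup.mk u0 : UQ K M)).tsum_eq,
      tsum_eq_sum (s := hfin.toFinset) ?_, Finset.sum_congr rfl (g := fun _ => z) ?_, Finset.sum_const,
      nsmul_eq_mul]
    all_goals
      intro η hη
      obtain ⟨u, hu, e⟩ := uo_mul_mk η u0
      have h1 := (inU_of_mem_Ups hM hu).mul h
      have e1 : ((uo (Equiv.mulRight (QuotientGroup.mk u0 : UQ K M) η) : R K) : K) * x =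
          ((uo η : R K) : K) * (((u : R K) : K) * (((u0 : R K) : K) * x)) := by
        rw [Equiv.coe_mulRight, e]
        push_cast
        ring
      rw [Set.Finite.mem_toFinset] at hη
      rw [e1]
    · exact if_pos (InU.mul hη h1)
    · refine if_neg fun h2 => hη ?_
      have := h2.div hn h1
      rwa [mul_div_cancel_right₀ _ (h1.ne_zero hn)] at this

end Crest.Agent.R312.Th
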