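import Crest.Agent.R312.B5C3
import Crest.Agent.R312.B3L_Unf

/-!
# R312 / B5C4 : unfolding: the Mellin transform of `Ph b` over `ℝ^d / lg (Ups M)`
-/

set_option autoImplicit false
set_option linter.unusedSectionVars false

noncomputable section

open scoped Classical ComplexConjugate NumberField Topology
open MeasureTheory Filter
open Crest.Agent.R17.Vor (SL X pt act Vr nn gamL ExpGr voc4_e)

namespace Crest.Agent.R312.Th

variable {K : Type} [Field K] [NumberField K] [Fld K] [Loc K] [Setup K]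

theorem continuous_gV : Continuous gV := by
  unfold gV
  have := R17.Vor.core_continuous_Vr
  fun_prop

theorem gV_pos (x : ℝ) : 0 < gV x := by
  exact mul_pos (Real.exp_pos _) (R17.Vor.core_Vr_pos _)

/-- `R17.Vor.core_mellin_Vr` at `2z + 5/3`, `BL.mellin_eq_exp`, `BL.mellinConvergent_iff_exp`, `x = 2w`
(`Measure.integral_comp_div`, `Integrable.comp_div`) -/
theorem mellin_gV {z : ℂ} (hz : -(5 / 6) < z.re) :
    Integrable (fun x : ℝ => (gV x : ℂ) * Complex.exp (x * z)) ∧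
      ∫ x : ℝ, (gV x : ℂ) * Complex.exp (x * z) = MV z := by
  have hw : 0 < (2 * z + 5 / 3).re := by
    have : (2 * z + 5 / 3).re = 2 * z.re + 5 / 3 := by simp
    rw [this]; linarith
  obtain ⟨hc, hm⟩ := R17.Vor.core_mellin_Vr hw
  rw [BL.mellinConvergent_iff_exp] at hc
  rw [BL.mellin_eq_exp] at hm
  have e : ∀ x : ℝ, (gV x : ℂ) * Complex.exp (x * z) =
      Complex.exp ((2 * z + 5 / 3) * ((x / 2 : ℝ) : ℂ)) * (Vr (Real.exp (x / 2)) : ℂ) := fun x => by
    rw [gV, Complex.ofReal_mul, Complex.ofReal_exp, mul_right_comm, ← Complex.exp_add]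
    congr 2
    push_cast
    ring
  simp only [e]
  refine ⟨hc.comp_div two_ne_zero, ?_⟩
  rw [Measure.integral_comp_div (fun w : ℝ => Complex.exp ((2 * z + 5 / 3) * (w : ℂ)) *
    (Vr (Real.exp w) : ℂ)) 2, hm, MV]
  have h1 : (2 * z + 5 / 3) / 2 = z + 5 / 6 := by ring
  have h2 : z + 5 / 6 + 1 / 3 = z + 7 / 6 := by ring
  rw [h1, h2, abs_of_pos two_pos, Complex.real_smul]
  push_cast
  ring

omit [Loc K] [Setup K] in
/-- `Integrable.fintype_prod`, `integral_fintype_prod_volume_eq_prod` -/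
theorem integral_gP (ξ : Pl K → ℝ) {w : ℂ} (hw : -(5 / 6) < w.re) :
    Integrable (fun η : Pl K → ℝ => (gP η : ℂ) * eX ξ w η) ∧
      ∫ η : Pl K → ℝ, (gP η : ℂ) * eX ξ w η = MG ξ w := by
  have h : ∀ v : Pl K, _ := fun v => mellin_gV (z := w - ξ v * Complex.I) (by simpa using hw)
  have e : ∀ η : Pl K → ℝ, (gP η : ℂ) * eX ξ w η =
      ∏ v, ((gV (η v) : ℂ) * Complex.exp (η v * (w - ξ v * Complex.I))) := fun η => by
    rw [gP, eX, Complex.exp_sum, Complex.ofReal_prod, Finset.prod_mul_distrib]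
  simp only [e]
  constructor
  · exact Integrable.fintype_prod (f := fun (v : Pl K) (x : ℝ) =>
      (gV x : ℂ) * Complex.exp (x * (w - ξ v * Complex.I))) fun v => (h v).1
  · rw [integral_fintype_prod_volume_eq_prod (fun (v : Pl K) (x : ℝ) =>
      (gV x : ℂ) * Complex.exp (x * (w - ξ v * Complex.I)))]
    exact Finset.prod_congr rfl fun v _ => (h v).2

omit [Loc K] [Setup K] in
theorem eX_add (ξ : Pl K → ℝ) (w : ℂ) (η η' : Pl K → ℝ) : eX ξ w (η + η') = eX ξ w η * eX ξ w η' := by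
  simp only [eX, ← Complex.exp_add, ← Finset.sum_add_distrib, Pi.add_apply, Complex.ofReal_add, add_mul]

omit [Loc K] [Setup K] in
theorem eX_neg (ξ : Pl K → ℝ) (w : ℂ) (η : Pl K → ℝ) : eX ξ w (-η) = eX (-ξ) (-w) η := by
  unfold eX
  congr 1
  refine Finset.sum_congr rfl fun i _ => ?_
  simp only [Pi.neg_apply, Complex.ofReal_neg]
  ring

omit [Loc K] [Setup K] in
theorem eX_split (ξ : Pl K → ℝ) (w : ℂ) (η : Pl K → ℝ) :
    eX ξ w η = eX ξ 0 η * Complex.exp (w * ((∑ i, η i : ℝ) : ℂ)) ∧ ‖eX ξ 0 η‖ = 1 := by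
  constructor
  · simp only [eX, ← Complex.exp_add, Complex.ofReal_sum, Finset.mul_sum, ← Finset.sum_add_distrib]
    congr 1
    exact Finset.sum_congr rfl fun i _ => by ring
  · rw [eX, Complex.norm_exp]
    simp

omit [Loc K] [Setup K] in
/-- `sum_lg` -/
theorem eX_neg_lg (ξ : Pl K → ℝ) (w : ℂ) {x : K} (hx : x ≠ 0) :
    eX ξ w (-lg x) = ((aN x : ℝ) : ℂ) ^ (-w) * ch ξ x := by
  have h0 := aN_pos hx
  rw [Complex.cpow_def_of_ne_zero (Complex.ofReal_ne_zero.2 h0.ne'), ← Complex.ofReal_log h0.le,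
    ← sum_lg hx, ch, ← Complex.exp_add, eX]
  congr 1
  simp only [Pi.neg_apply, Complex.ofReal_neg, Complex.ofReal_sum, Complex.ofReal_mul, Finset.sum_mul,
    ← Finset.sum_add_distrib]
  exact Finset.sum_congr rfl fun i _ => by ring

omit [Loc K] [Setup K] in
/-- Abstract unfolding (compare `BL.unfold_sum`): `hasSum_FD` for `G (· + c i)` and for `‖G (· + c i)‖`,
`hasSum_integral_of_summable_integral_norm`, `HasSum.prod_fiberwise`.  Integrability of the sum:
`AEStronglyMeasurable.tsum`, `lintegral_tsum`, `enorm_tsum_le_tsum_enorm`. -/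
theorem unfold_abs {ι : Type} [Countable ι] {F : (Pl K → ℝ) → ℂ} (hF : Integrable F) {b : ι → ℂ}
    (hb : Summable fun i => ‖b i‖) (c : ι → Pl K → ℝ) :
    IntegrableOn (fun η => ∑' p : ι × (UI K → ℤ), b p.1 * F (η + lam p.2 + c p.1)) (FD K) ∧
      ∫ η in FD K, ∑' p : ι × (UI K → ℤ), b p.1 * F (η + lam p.2 + c p.1) =
        (∑' i, b i) * ∫ η, F η := by
  have hFc : ∀ i, Integrable fun η => F (η + c i) := fun i => hF.comp_add_right (c i)
  have hm : ∀ p : ι × (UI K → ℤ), AEStronglyMeasurable (fun η => b p.1 * F (η + lam p.2 + c p.1))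
      (volume.restrict (FD K)) := fun p =>
    (((hFc p.1).comp_add_right (lam p.2)).const_mul (b p.1)).aestronglyMeasurable.restrict
  have hfin : ∑' p : ι × (UI K → ℤ), ∫⁻ η in FD K, ‖b p.1 * F (η + lam p.2 + c p.1)‖ₑ ≠ ⊤ := by
    rw [ENNReal.tsum_prod']
    have : ∀ i, ∑' k : UI K → ℤ, ∫⁻ η in FD K, ‖b i * F (η + lam k + c i)‖ₑ =
        ‖b i‖ₑ * ∫⁻ η, ‖F η‖ₑ := fun i => by
      simp only [enorm_mul]
      simp only [lintegral_const_mul' _ _ (enorm_ne_top (x := b i))]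
      rw [ENNReal.tsum_mul_left, lintegral_FD fun η => ‖F (η + c i)‖ₑ,
        lintegral_add_right_eq_self (fun η => ‖F η‖ₑ)]
    simp only [this]
    rw [ENNReal.tsum_mul_right]
    refine ENNReal.mul_ne_top ?_ hF.2.ne
    simp only [← ofReal_norm]
    rw [← ENNReal.ofReal_tsum_of_nonneg (fun _ => norm_nonneg _) hb]
    exact ENNReal.ofReal_ne_top
  constructor
  · refine ⟨AEStronglyMeasurable.tsum hm, ?_⟩
    refine lt_of_le_of_lt (lintegral_mono fun η => enorm_tsum_le_tsum_enorm) ?_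
    rw [lintegral_tsum fun p => (hm p).enorm]
    exact hfin.lt_top
  · rw [integral_tsum hm hfin]
    have hs : Summable fun p : ι × (UI K → ℤ) => ∫ η in FD K, b p.1 * F (η + lam p.2 + c p.1) :=
      Summable.of_enorm (ne_top_of_le_ne_top hfin
        (ENNReal.tsum_le_tsum fun p => enorm_integral_le_lintegral_enorm _))
    have h1 : ∀ i, HasSum (fun k : UI K → ℤ => ∫ η in FD K, b i * F (η + lam k + c i))
        (b i * ∫ η, F η) := fun i => by
      simp only [integral_const_mul]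
      have := (hasSum_FD (hFc i)).mul_left (b i)
      rwa [integral_add_right_eq_self F] at this
    exact (hs.hasSum.prod_fiberwise h1).unique (hb.of_norm.hasSum.mul_right _)

omit [Loc K] [Setup K] in
theorem c4_continuous_gP : Continuous (gP : (Pl K → ℝ) → ℝ) := by
  unfold gP
  have := continuous_gV
  fun_prop

omit [Loc K] [Setup K] in
theorem c4_continuous_eX (ξ : Pl K → ℝ) (w : ℂ) : Continuous (eX ξ w) := by
  unfold eX
  fun_prop

omit [Loc K] [Setup K] in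
theorem c4_eX_zero (ξ : Pl K → ℝ) (w : ℂ) : eX ξ w 0 = 1 := by
  simp [eX]

omit [Setup K] in
theorem c4_upR_mem (M : ℕ) (k : UI K → ℤ) : upR ((M : ℤ) • k) ∈ Ups K M := ⟨k, rfl⟩

omit [Setup K] in
theorem c4_coe_ne {n : R K} (hn : n ≠ 0) : (n : K) ≠ 0 := fun h => hn (Subtype.ext h)

omit [Setup K] in
theorem c4_eX_lam {M : ℕ} {ξ : Pl K → ℝ} (hch : ∀ u ∈ Ups K M, ch ξ ((u : R K) : K) = 1) (w : ℂ)
    (k : UI K → ℤ) : eX ξ w ((M : ℝ) • lam k) = 1 := by
  have hu := c4_upR_mem (K := K) M (-k)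
  have h1 := lg_upR_mul ((M : ℤ) • (-k)) (one_ne_zero (α := K))
  have h2 : lg (1 : K) = 0 := funext lg_one
  rw [mul_one, h2, add_zero, lam_smul, lam_neg, smul_neg (M : ℝ)] at h1
  have h3 := eX_neg_lg ξ w (c4_coe_ne (upR ((M : ℤ) • (-k)) : (R K)ˣ).ne_zero)
  rw [h1, neg_neg, c5_aN_Ups hu, hch _ hu] at h3
  simpa using h3

omit [Setup K] in
/-- `Measurable.tsum` -/
theorem measurable_Ph (b : R K → ℂ) : Measurable (Ph b) := by
  unfold Ph
  have := c4_continuous_gP (K := K)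
  exact Measurable.tsum fun n => Continuous.measurable (by fun_prop)

omit [Setup K] in
/-- re-index `n ↦ upR (M•k) n` (`Equiv.tsum_eq`; the term `n = 0` vanishes), `eX ξ w (lg u) = 1` -/
theorem Ph_per {M : ℕ} {b : R K → ℂ} (hb0 : b 0 = 0)
    (hinv : ∀ u ∈ Ups K M, ∀ n, b ((u : R K) * n) = b n) {ξ : Pl K → ℝ}
    (hch : ∀ u ∈ Ups K M, ch ξ ((u : R K) : K) = 1) (w : ℂ) (η : Pl K → ℝ) (k : UI K → ℤ) :
    Ph b ((M : ℝ) • (η + lam k)) * eX ξ w ((M : ℝ) • (η + lam k)) =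
      Ph b ((M : ℝ) • η) * eX ξ w ((M : ℝ) • η) := by
  rw [smul_add, eX_add, c4_eX_lam hch, mul_one]
  congr 1
  have hu := c4_upR_mem (K := K) M k
  unfold Ph
  rw [← (Units.mulLeft (upR ((M : ℤ) • k))).tsum_eq
    (fun n : R K => b n * (gP ((M : ℝ) • η + lg (n : K)) : ℂ))]
  refine tsum_congr fun n => ?_
  by_cases hn : n = 0
  · simp [hn, hb0]
  · simp only [Units.mulLeft_apply]
    rw [hinv _ hu, Subring.coe_mul, lg_upR_mul _ (c4_coe_ne hn), lam_smul, add_assoc]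

/-- **Unfolding.**  With `F η = gP (M•η) eX ξ w (M•η)` (`∫ F = M^{-d} MG ξ w`, `Measure.integral_comp_smul`) the
integrand is `∑'_{(p,k)} b(n_p) ch ξ(n_p) aN(n_p)^{-w} F (η + lam k + M⁻¹ • lg n_p)` (`exists_param`,
`tsum_subtype_eq_of_support_subset`, `Equiv.tsum_eq`, `eX_neg_lg`); `unfold_abs`, `Summable.tsum_prod`,
`tsum_subtype`. -/
theorem unfold_Ph {M : ℕ} (hM : 0 < M) {b : R K → ℂ} (hb0 : b 0 = 0)
    (hinv : ∀ u ∈ Ups K M, ∀ n, b ((u : R K) * n) = b n) {ξ : Pl K → ℝ}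
    (hch : ∀ u ∈ Ups K M, ch ξ ((u : R K) : K) = 1) {w : ℂ} (hw : -(5 / 6) < w.re)
    (hs : Summable fun p : {m : R K // Prim m} × UQ K M =>
      ‖b (uo p.2 * p.1.1)‖ * aN ((uo p.2 * p.1.1 : R K) : K) ^ (-w.re)) :
    IntegrableOn (fun η => Ph b ((M : ℝ) • η) * eX ξ w ((M : ℝ) • η)) (FD K) ∧
      Lam M b ξ w = ((M : ℂ) ^ dd K)⁻¹ * MG ξ w * LS M (fun n => b n * ch ξ (n : K)) w := by
  have hM0 : (M : ℝ) ≠ 0 := Nat.cast_ne_zero.2 hM.ne'
  obtain ⟨hG, hGi⟩ := integral_gP ξ hw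
  obtain ⟨e, he⟩ := exists_param (K := K) hM
  have : Countable (R K)ˣ := Units.val_injective.countable
  have : Countable (UQ K M) := Quotient.countable
  have hne : ∀ q : {m : R K // Prim m} × UQ K M, ((uo q.2 * q.1.1 : R K) : K) ≠ 0 := fun q =>
    c4_coe_ne (mul_ne_zero (isUnit_uo q.2).ne_zero q.1.2.ne_zero)
  let B : {m : R K // Prim m} × UQ K M → ℂ := fun q =>
    b (uo q.2 * q.1.1) * ch ξ ((uo q.2 * q.1.1 : R K) : K) *
      ((aN ((uo q.2 * q.1.1 : R K) : K) : ℝ) : ℂ) ^ (-w)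
  let F : (Pl K → ℝ) → ℂ := fun η => (gP ((M : ℝ) • η) : ℂ) * eX ξ w ((M : ℝ) • η)
  let c : {m : R K // Prim m} × UQ K M → Pl K → ℝ := fun q =>
    (M : ℝ)⁻¹ • lg ((uo q.2 * q.1.1 : R K) : K)
  have hF : Integrable F := hG.comp_smul hM0
  have hB : Summable fun q => ‖B q‖ := hs.congr fun q => by
    simp only [B]
    rw [norm_mul, norm_mul, norm_ch, mul_one, Complex.norm_cpow_eq_rpow_re_of_pos (aN_pos (hne q)),
      Complex.neg_re]
  have key : ∀ η, Ph b ((M : ℝ) • η) * eX ξ w ((M : ℝ) • η) =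
      ∑' p : ({m : R K // Prim m} × UQ K M) × (UI K → ℤ), B p.1 * F (η + lam p.2 + c p.1) := fun η => by
    unfold Ph
    rw [← tsum_mul_right, ← tsum_subtype_eq_of_support_subset (s := {n : R K | n ≠ 0})
      (fun n hn h0 => hn (by simp [h0, hb0]))]
    refine (e.tsum_eq (fun x : {n : R K // n ≠ 0} => b x.1 * (gP ((M : ℝ) • η + lg ((x.1 : R K) : K)) : ℂ) *
      eX ξ w ((M : ℝ) • η))).symm.trans (tsum_congr fun p => ?_)
    have hu := c4_upR_mem (K := K) M p.2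
    rw [he p, hinv _ hu, Subring.coe_mul, lg_upR_mul _ (hne p.1), lam_smul]
    simp only [B, F, c]
    rw [smul_add, smul_add, smul_inv_smul₀ hM0, eX_add, eX_add, c4_eX_lam hch, mul_one, add_assoc]
    have h1 := eX_add ξ w (lg ((uo p.1.2 * p.1.1.1 : R K) : K)) (-lg ((uo p.1.2 * p.1.1.1 : R K) : K))
    rw [add_neg_cancel, c4_eX_zero, eX_neg_lg ξ w (hne p.1)] at h1
    linear_combination (b (uo p.1.2 * p.1.1.1) * (gP ((M : ℝ) • η + ((M : ℝ) • lam p.2 +
      lg ((uo p.1.2 * p.1.1.1 : R K) : K))) : ℂ) * eX ξ w ((M : ℝ) • η)) * h1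
  obtain ⟨h1, h2⟩ := unfold_abs hF hB c
  simp only [Lam, key]
  refine ⟨h1, ?_⟩
  rw [h2, mul_comm]
  congr 1
  · simp only [F]
    rw [Measure.integral_comp_smul volume (fun η => (gP η : ℂ) * eX ξ w η) (M : ℝ), hGi,
      Module.finrank_fintype_fun_eq_card, abs_of_nonneg (by positivity), Complex.real_smul, dd]
    push_cast
    rfl
  · rw [hB.of_norm.tsum_prod, LS]
    have := tsum_subtype {m : R K | Prim m} (inn M (fun n => b n * ch ξ (n : K)) w)
    simp only [Set.indicator, Set.mem_ofPred_eq] at this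
    rw [← this]
    rfl

omit [Loc K] [Setup K] in
/-- `∫⁻_FD g(a-η) = ∫⁻ 1_FD(a-η) g(η) = ∑_k ∫⁻_FD 1_FD(a-η-λ_k) g(η) = ∫⁻_FD g` (`lintegral_FD`; exactly one `k` has
`x - λ_k ∈ FD`) -/
theorem integrableOn_FD_sub {g : (Pl K → ℝ) → ℂ} (hm : Measurable g)
    (hper : ∀ η k, g (η + lam k) = g η) (hg : IntegrableOn g (FD K)) (a : Pl K → ℝ) :
    IntegrableOn (fun η => g (a - η)) (FD K) := by
  let lamH : (UI K → ℤ) →+ (Pl K → ℝ) := AddMonoidHom.mk' lam lam_add
  have : Countable lamH.range := (Set.countable_range lamH).to_subtype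
  have key : ∀ {S : Set (Pl K → ℝ)}, MeasurableSet S → (∀ η, ∃! n, η + lam n ∈ S) →
      IsAddFundamentalDomain lamH.range S volume := fun hS h =>
    IsAddFundamentalDomain.mk' hS.nullMeasurableSet fun η => by
      obtain ⟨n, hn, hu⟩ := h η
      refine ⟨⟨_, n, rfl⟩, by rwa [add_comm] at hn, ?_⟩
      rintro ⟨_, n', rfl⟩ h'
      exact Subtype.ext (congrArg lam (hu n' (by beta_reduce; rw [add_comm]; exact h')))
  have hS : ∀ η, ∃! n, η + lam n ∈ (fun η => a - η) ⁻¹' FD K := fun η => by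
    refine ((Equiv.neg _).existsUnique_congr fun n => ?_).2 (existsUnique_mem_FD (a - η))
    simp only [Set.mem_preimage, Equiv.neg_apply, lam_neg, ← sub_eq_add_neg, sub_sub]
  have h1 : IntegrableOn g ((fun η => a - η) ⁻¹' FD K) := by
    refine ((key (measurable_const_sub a measurableSet_FD) hS).integrableOn_iff
      (key measurableSet_FD existsUnique_mem_FD) ?_).2 hg
    rintro ⟨_, n, rfl⟩ η
    exact (congrArg g (add_comm _ _)).trans (hper η n)
  refine ((Measure.measurePreserving_sub_left volume a).integrableOn_comp_preimage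
    (MeasurableEquiv.subLeft a).measurableEmbedding).1 ?_
  simpa only [Function.comp_def, sub_sub_cancel] using h1

omit [Setup K] in
/-- `eX ξ w (M•η) = eX ξ w a · eX (-ξ) (-w) (a - M•η)`, `a - M•η = M•(M⁻¹•a - η)`; `Ph_per`,
`integral_FD_neg`, `integral_FD_add`, `integrableOn_FD_sub`. -/
theorem Lam_inv {M : ℕ} (hM : 0 < M) {b1 b2 : R K → ℂ} {ε : ℂ} {a : Pl K → ℝ}
    (h : ∀ η, Ph b1 η = ε * Ph b2 (a - η)) (hb0 : b2 0 = 0)
    (hinv : ∀ u ∈ Ups K M, ∀ n, b2 ((u : R K) * n) = b2 n) {ξ : Pl K → ℝ}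
    (hch : ∀ u ∈ Ups K M, ch ξ ((u : R K) : K) = 1) {w : ℂ}
    (hi : IntegrableOn (fun η => Ph b2 ((M : ℝ) • η) * eX (-ξ) (-w) ((M : ℝ) • η)) (FD K)) :
    IntegrableOn (fun η => Ph b1 ((M : ℝ) • η) * eX ξ w ((M : ℝ) • η)) (FD K) ∧
      Lam M b1 ξ w = ε * eX ξ w a * Lam M b2 (-ξ) (-w) := by
  have hM0 : (M : ℝ) ≠ 0 := Nat.cast_ne_zero.2 hM.ne'
  let g : (Pl K → ℝ) → ℂ := fun η => Ph b2 ((M : ℝ) • η) * eX (-ξ) (-w) ((M : ℝ) • η)
  have hper : ∀ η k, g (η + lam k) = g η := fun η k =>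
    Ph_per hb0 hinv (fun u hu => by rw [ch_neg, hch u hu, map_one]) (-w) η k
  have hm : Measurable g := ((measurable_Ph b2).comp (measurable_const_smul _)).mul
    ((c4_continuous_eX _ _).measurable.comp (measurable_const_smul _))
  have key : ∀ η, Ph b1 ((M : ℝ) • η) * eX ξ w ((M : ℝ) • η) =
      ε * eX ξ w a * g ((M : ℝ)⁻¹ • a - η) := fun η => by
    simp only [g]
    rw [h, smul_sub, smul_inv_smul₀ hM0, ← eX_neg, neg_sub]
    have h1 := eX_add ξ w a ((M : ℝ) • η - a)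
    rw [add_sub_cancel] at h1
    rw [h1]
    ring
  simp only [Lam, key]
  refine ⟨(integrableOn_FD_sub hm hper hi _).const_mul _, ?_⟩
  rw [integral_const_mul]
  congr 1
  have h1 := integral_FD_neg (g := fun η => g (η + (M : ℝ)⁻¹ • a))
    (fun η n => by rw [add_right_comm, hper])
  rw [integral_FD_add hper] at h1
  simpa only [neg_add_eq_sub] using h1

end Crest.Agent.R312.Th
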