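import Crest.Agent.R312.B5C2
import Crest.Agent.R312.B5C4

/-!
# R312 / B5C5 : the abstract functional equation
-/

set_option autoImplicit false
set_option linter.unusedSectionVars false

noncomputable section

open scoped Classical ComplexConjugate NumberField Topology
open MeasureTheory Filter
open Crest.Agent.R17.Vor (SL X pt act Vr nn gamL ExpGr voc4_e)

namespace Crest.Agent.R312.Th

variable {K : Type} [Field K] [NumberField K] [Fld K] [Loc K] [Setup K]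

/-- Two-sided Laplace transforms.  `e^{σx} ≤ e^{σ₁x} + e^{σ₂x}` for `σ₁ ≤ σ ≤ σ₂` gives integrability for all `σ` and
the bound; differentiability by `hasDerivAt_integral_of_dominated_loc_of_deriv_le` (`|x| ≤ e^x + e^{-x}`). -/
theorem laplace_entire {α : Type} [MeasurableSpace α] {μ : Measure α} {f : α → ℂ} {x : α → ℝ}
    (hx : Measurable x) (σ0 : ℝ)
    (h : ∀ σ : ℝ, σ0 ≤ |σ| → Integrable (fun a => f a * Complex.exp (σ * x a)) μ) :
    Differentiable ℂ (fun w : ℂ => ∫ a, f a * Complex.exp (w * x a) ∂μ) ∧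
      ∀ σ1 σ2 : ℝ, ∃ C : ℝ, ∀ w : ℂ, σ1 ≤ w.re → w.re ≤ σ2 →
        ‖∫ a, f a * Complex.exp (w * x a) ∂μ‖ ≤ C := by
  have hxc : Measurable fun a => (x a : ℂ) := Complex.measurable_ofReal.comp hx
  have hn : ∀ (w : ℂ) a, ‖f a * Complex.exp (w * x a)‖ = ‖f a‖ * Real.exp (w.re * x a) := by
    intro w a
    rw [norm_mul, Complex.norm_exp]
    simp
  have hf : AEStronglyMeasurable f μ := by
    have h1 := (h |σ0| (by rw [abs_abs]; exact le_abs_self _)).aestronglyMeasurable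
    have h2 : AEStronglyMeasurable (fun a => Complex.exp (-((|σ0| : ℝ) * x a : ℂ))) μ :=
      (Complex.measurable_exp.comp (hxc.const_mul _).neg).aestronglyMeasurable
    refine (h1.mul h2).congr (Eventually.of_forall fun a => ?_)
    simp only [Pi.mul_apply]
    rw [mul_assoc, ← Complex.exp_add, add_neg_cancel, Complex.exp_zero, mul_one]
  have hm : ∀ w : ℂ, AEStronglyMeasurable (fun a => f a * Complex.exp (w * x a)) μ := fun w =>
    hf.mul (Complex.measurable_exp.comp (hxc.const_mul _)).aestronglyMeasurable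
  have hR : ∀ r : ℝ, Integrable (fun a => ‖f a‖ * Real.exp (r * |x a|)) μ := by
    intro r
    set S := |σ0| + |r| with hS
    have hS0 : 0 ≤ S := by positivity
    have b1 : σ0 ≤ S := by linarith [le_abs_self σ0, abs_nonneg r]
    have i1 := (h S (by rwa [abs_of_nonneg hS0])).norm
    have i2 := (h (-S) (by rwa [abs_neg, abs_of_nonneg hS0])).norm
    refine (i1.add i2).mono' (hf.norm.mul
      (Real.measurable_exp.comp (hx.abs.const_mul _)).aestronglyMeasurable)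
      (Eventually.of_forall fun a => ?_)
    simp only [Pi.add_apply, hn, Complex.ofReal_re]
    rw [Real.norm_of_nonneg (by positivity), ← mul_add]
    refine mul_le_mul_of_nonneg_left ?_ (norm_nonneg _)
    have b2 : r * |x a| ≤ S * |x a| :=
      mul_le_mul_of_nonneg_right (by linarith [le_abs_self r, abs_nonneg σ0]) (abs_nonneg _)
    refine (Real.exp_le_exp.2 b2).trans ?_
    rcases abs_cases (x a) with h1 | h1
    · rw [h1.1]
      exact le_add_of_nonneg_right (Real.exp_pos _).le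
    · rw [h1.1, mul_neg, ← neg_mul]
      exact le_add_of_nonneg_left (Real.exp_pos _).le
  have hb : ∀ (r : ℝ) (w : ℂ), |w.re| ≤ r → ∀ a,
      ‖f a * Complex.exp (w * x a)‖ ≤ ‖f a‖ * Real.exp (r * |x a|) := by
    intro r w hw a
    rw [hn]
    refine mul_le_mul_of_nonneg_left (Real.exp_le_exp.2 ((le_abs_self _).trans ?_)) (norm_nonneg _)
    rw [abs_mul]
    exact mul_le_mul_of_nonneg_right hw (abs_nonneg _)
  refine ⟨fun w0 => ?_, fun σ1 σ2 => ⟨∫ a, ‖f a‖ * Real.exp ((|σ1| + |σ2|) * |x a|) ∂μ,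
    fun w h1 h2 => norm_integral_le_of_norm_le (hR _) (Eventually.of_forall (hb _ w ?_))⟩⟩
  · refine (hasDerivAt_integral_of_dominated_loc_of_deriv_le (s := Metric.ball w0 1)
      (F := fun w a => f a * Complex.exp (w * x a))
      (F' := fun w a => f a * Complex.exp (w * x a) * x a)
      (bound := fun a => ‖f a‖ * Real.exp ((|w0.re| + 1 + 1) * |x a|))
      (Metric.ball_mem_nhds w0 one_pos) (Eventually.of_forall hm)
      ((hR _).mono' (hm w0) (Eventually.of_forall (hb _ w0 le_rfl)))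
      ((hm w0).mul hxc.aestronglyMeasurable) (Eventually.of_forall fun a w hw => ?_) (hR _)
      (Eventually.of_forall fun a w _ => ?_)).2.differentiableAt
    · have b1 : |w.re| ≤ |w0.re| + 1 := by
        have c1 : ‖w - w0‖ < 1 := by rwa [← dist_eq_norm]
        have c2 := Complex.abs_re_le_norm (w - w0)
        rw [Complex.sub_re] at c2
        have c3 := abs_add_le (w.re - w0.re) w0.re
        rw [sub_add_cancel] at c3
        linarith
      rw [norm_mul, Complex.norm_real, Real.norm_eq_abs, add_mul _ 1, one_mul, Real.exp_add,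
        ← mul_assoc]
      exact mul_le_mul (hb _ w b1 a) (by linarith [Real.add_one_le_exp |x a|]) (abs_nonneg _)
        (by positivity)
    · have := ((hasDerivAt_id w).mul_const (x a : ℂ)).cexp.const_mul (f a)
      simpa [mul_assoc] using this
  · rw [abs_le]
    constructor
    · linarith [neg_abs_le σ1, abs_nonneg σ2]
    · linarith [le_abs_self σ2, abs_nonneg σ1]

theorem c5_of {f : ℂ → ℂ} (h : ∀ σ1 σ2 : ℝ, ∃ A B : ℝ, 0 ≤ A ∧ 0 ≤ B ∧ ∀ s : ℂ, σ1 ≤ s.re →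
    s.re ≤ σ2 → ‖f s‖ ≤ A * Real.exp (B * |s.im|)) : ExpGr f := by
  intro σ1 σ2
  obtain ⟨A, B, hA, hB, h⟩ := h σ1 σ2
  refine ⟨A + B, fun s h1 h2 => (h s h1 h2).trans ?_⟩
  gcongr
  · linarith
  · linarith

theorem c5_to {f : ℂ → ℂ} (h : ExpGr f) (σ1 σ2 : ℝ) : ∃ A : ℝ, 0 ≤ A ∧ ∀ s : ℂ, σ1 ≤ s.re →
    s.re ≤ σ2 → ‖f s‖ ≤ A * Real.exp (A * |s.im|) := by
  obtain ⟨C, hC⟩ := h σ1 σ2
  refine ⟨|C|, abs_nonneg _, fun s h1 h2 => (hC s h1 h2).trans ?_⟩
  exact mul_le_mul (le_abs_self C) (Real.exp_le_exp.2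
    (mul_le_mul_of_nonneg_right (le_abs_self C) (abs_nonneg _))) (Real.exp_pos _).le (abs_nonneg _)

theorem expGr_mul {f g : ℂ → ℂ} (hf : ExpGr f) (hg : ExpGr g) : ExpGr fun s => f s * g s := by
  refine c5_of fun σ1 σ2 => ?_
  obtain ⟨A, hA, h1⟩ := c5_to hf σ1 σ2
  obtain ⟨B, hB, h2⟩ := c5_to hg σ1 σ2
  refine ⟨A * B, A + B, by positivity, by positivity, fun s a1 a2 => ?_⟩
  rw [norm_mul, add_mul, Real.exp_add, mul_mul_mul_comm]
  exact mul_le_mul (h1 s a1 a2) (h2 s a1 a2) (norm_nonneg _) (by positivity)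

theorem expGr_add {f g : ℂ → ℂ} (hf : ExpGr f) (hg : ExpGr g) : ExpGr fun s => f s + g s := by
  refine c5_of fun σ1 σ2 => ?_
  obtain ⟨A, hA, h1⟩ := c5_to hf σ1 σ2
  obtain ⟨B, hB, h2⟩ := c5_to hg σ1 σ2
  refine ⟨A + B, A + B, by positivity, by positivity, fun s a1 a2 => ?_⟩
  refine (norm_add_le _ _).trans ?_
  rw [add_mul A B (Real.exp _)]
  refine add_le_add ((h1 s a1 a2).trans ?_) ((h2 s a1 a2).trans ?_)
  · gcongr
    linarith
  · gcongr
    linarith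

theorem expGr_of_bdd {f : ℂ → ℂ}
    (h : ∀ σ1 σ2 : ℝ, ∃ C : ℝ, ∀ s : ℂ, σ1 ≤ s.re → s.re ≤ σ2 → ‖f s‖ ≤ C) : ExpGr f := by
  refine c5_of fun σ1 σ2 => ?_
  obtain ⟨C, hC⟩ := h σ1 σ2
  refine ⟨|C|, 0, abs_nonneg _, le_rfl, fun s a1 a2 => ?_⟩
  rw [zero_mul, Real.exp_zero, mul_one]
  exact (hC s a1 a2).trans (le_abs_self _)

theorem expGr_exp (z : ℂ) (x : ℝ) : ExpGr fun s => z * Complex.exp (s * x) := by
  refine expGr_of_bdd fun σ1 σ2 => ⟨‖z‖ * Real.exp ((|σ1| + |σ2|) * |x|), fun s h1 h2 => ?_⟩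
  rw [norm_mul, Complex.norm_exp]
  refine mul_le_mul_of_nonneg_left (Real.exp_le_exp.2 ?_) (norm_nonneg _)
  have e : (s * x).re = s.re * x := by simp
  rw [e]
  refine (le_abs_self _).trans ?_
  rw [abs_mul]
  refine mul_le_mul_of_nonneg_right (abs_le.2 ⟨?_, ?_⟩) (abs_nonneg _)
  · linarith [neg_abs_le σ1, abs_nonneg σ2]
  · linarith [le_abs_self σ2, abs_nonneg σ1]

theorem c5_gam (a : ℂ) : ExpGr fun s => (Complex.Gamma (s + a))⁻¹ := by
  refine c5_of fun σ1 σ2 => ?_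
  obtain ⟨C, hC0, hC⟩ := R17.Vor.vogam_den (σ1 + a.re) (σ2 + a.re)
  refine ⟨C * Real.exp (Real.pi * |a.im|), Real.pi, by positivity, Real.pi_pos.le,
    fun s h1 h2 => ?_⟩
  refine (hC (s + a) (by rw [Complex.add_re]; linarith) (by rw [Complex.add_re]; linarith)).trans ?_
  rw [mul_assoc, ← Real.exp_add, ← mul_add, Complex.add_im]
  refine mul_le_mul_of_nonneg_left (Real.exp_le_exp.2
    (mul_le_mul_of_nonneg_left ?_ Real.pi_pos.le)) hC0
  rw [add_comm |a.im|]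
  exact abs_add_le _ _

theorem c5_prod {ι : Type*} (S : Finset ι) {f : ι → ℂ → ℂ} (h : ∀ i, ExpGr (f i)) :
    ExpGr fun s => ∏ i ∈ S, f i s := by
  induction S using Finset.induction_on with
  | empty => exact expGr_of_bdd fun _ _ => ⟨1, fun s _ _ => by simp⟩
  | insert i S hi ih =>
    simp only [Finset.prod_insert hi]
    exact expGr_mul (h i) ih

theorem c5_k_ne : ((Real.pi / Real.Gamma (4 / 3) : ℝ) : ℂ) ≠ 0 :=
  Complex.ofReal_ne_zero.2 (div_pos Real.pi_pos (Real.Gamma_pos_of_pos (by norm_num))).ne'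

theorem c5_c0 : 0 < R17.c0 := by
  unfold R17.c0
  have := Real.pi_pos
  positivity

theorem c5_MV_inv (z : ℂ) : (MV z)⁻¹ = ((Real.pi / Real.Gamma (4 / 3) : ℝ) : ℂ)⁻¹ *
    Complex.exp ((2 * z + 5 / 3) * Real.log R17.c0) * (Complex.Gamma (z + 5 / 6))⁻¹ *
      (Complex.Gamma (z + 7 / 6))⁻¹ := by
  rw [MV, mul_inv, mul_inv, mul_inv, Kn.cpow_eq c5_c0, ← Complex.exp_neg, neg_mul, neg_neg]

omit [Loc K] [Setup K] in
/-- `mul_inv`, `Finset.prod_inv_distrib`, `Complex.differentiable_one_div_Gamma`, `R17.Vor.vogam_den` -/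
theorem MG_inv (ξ : Pl K → ℝ) : Differentiable ℂ (fun s : ℂ => (MG ξ (s - 1 / 2))⁻¹) ∧
    ExpGr (fun s : ℂ => (MG ξ (s - 1 / 2))⁻¹) := by
  have e : (fun s : ℂ => (MG ξ (s - 1 / 2))⁻¹) = fun s : ℂ => ∏ i : Pl K,
      (((Real.pi / Real.Gamma (4 / 3) : ℝ) : ℂ)⁻¹ *
        Complex.exp ((2 / 3 - 2 * ξ i * Complex.I) * Real.log R17.c0) *
        Complex.exp (s * ((2 * Real.log R17.c0 : ℝ) : ℂ)) *
        (Complex.Gamma (s + (1 / 3 - ξ i * Complex.I)))⁻¹ *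
        (Complex.Gamma (s + (2 / 3 - ξ i * Complex.I)))⁻¹) := by
    funext s
    rw [MG, ← Finset.prod_inv_distrib]
    refine Finset.prod_congr rfl fun i _ => ?_
    rw [c5_MV_inv, mul_assoc _ (Complex.exp _) (Complex.exp _), ← Complex.exp_add,
      show s - 1 / 2 - ξ i * Complex.I + 5 / 6 = s + (1 / 3 - ξ i * Complex.I) by ring,
      show s - 1 / 2 - ξ i * Complex.I + 7 / 6 = s + (2 / 3 - ξ i * Complex.I) by ring]
    congr 4
    push_cast
    ring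
  rw [e]
  constructor
  · refine Differentiable.fun_finsetProd fun i _ => ?_
    refine Differentiable.mul (Differentiable.mul (by fun_prop) ?_) ?_
    · exact Complex.differentiable_one_div_Gamma.comp (by fun_prop)
    · exact Complex.differentiable_one_div_Gamma.comp (by fun_prop)
  · exact c5_prod _ fun i => expGr_mul (expGr_mul (expGr_exp _ _) (c5_gam _)) (c5_gam _)

omit [Loc K] [Setup K] in
theorem MG_ne_zero (ξ : Pl K → ℝ) {w : ℂ} (hw : 0 < w.re) : MG ξ w ≠ 0 := by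
  refine Finset.prod_ne_zero_iff.2 fun i _ => ?_
  unfold MV
  refine mul_ne_zero (mul_ne_zero (mul_ne_zero c5_k_ne ?_) ?_) ?_
  · rw [Kn.cpow_eq c5_c0]
    exact Complex.exp_ne_zero _
  · refine Complex.Gamma_ne_zero_of_re_pos ?_
    simp
    linarith
  · refine Complex.Gamma_ne_zero_of_re_pos ?_
    simp
    linarith

theorem c5_MV_ratio (z : ℂ) :
    (MV z)⁻¹ * MV (-z) = Complex.exp (4 * z * Real.log R17.c0) * gamL 1 (z + 1 / 2) := by
  rw [c5_MV_inv, MV, Kn.cpow_eq c5_c0, gamL]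
  simp only [Int.natAbs_one, Nat.cast_one]
  rw [show (5 / 6 + 1 / 2 - (z + 1 / 2) : ℂ) = -z + 5 / 6 by ring,
    show (7 / 6 + 1 / 2 - (z + 1 / 2) : ℂ) = -z + 7 / 6 by ring,
    show (z + 1 / 2 - 1 / 6 + 1 / 2 : ℂ) = z + 5 / 6 by ring,
    show (z + 1 / 2 + 1 / 6 + 1 / 2 : ℂ) = z + 7 / 6 by ring]
  have e : Complex.exp (4 * z * Real.log R17.c0) =
      Complex.exp ((2 * z + 5 / 3) * Real.log R17.c0) *
        Complex.exp (-(2 * -z + 5 / 3) * Real.log R17.c0) := by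
    rw [← Complex.exp_add]
    congr 1
    ring
  have e2 := inv_mul_cancel₀ c5_k_ne
  rw [e]
  linear_combination (Complex.exp ((2 * z + 5 / 3) * Real.log R17.c0) *
    Complex.exp (-(2 * -z + 5 / 3) * Real.log R17.c0) * Complex.Gamma (-z + 5 / 6) *
    Complex.Gamma (-z + 7 / 6) * (Complex.Gamma (z + 5 / 6))⁻¹ * (Complex.Gamma (z + 7 / 6))⁻¹) * e2

omit [Loc K] [Setup K] in
/-- `MV (-z) (MV z)⁻¹ = c0^{4z} gamL 1 (z + 1/2)`; `κ₁ = 4 d log c0`, `ε = ∏ c0^{-4 i ξ_i}` -/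
theorem MG_ratio : ∃ κ1 : ℝ, ∀ ξ : Pl K → ℝ, ∃ ε : ℂ, ‖ε‖ = 1 ∧ ∀ s : ℂ,
    (MG ξ (s - 1 / 2))⁻¹ * MG (-ξ) (-(s - 1 / 2)) =
      ε * Complex.exp ((s - 1 / 2) * κ1) * gamX ξ s := by
  refine ⟨dd K * (4 * Real.log R17.c0), fun ξ =>
    ⟨∏ i, Complex.exp (((-4 * ξ i * Real.log R17.c0 : ℝ) : ℂ) * Complex.I), ?_, fun s => ?_⟩⟩
  · rw [norm_prod]
    exact Finset.prod_eq_one fun i _ => Complex.norm_exp_ofReal_mul_I _
  · have e : Complex.exp ((s - 1 / 2) * ((dd K * (4 * Real.log R17.c0) : ℝ) : ℂ)) =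
        ∏ _i : Pl K, Complex.exp ((s - 1 / 2) * (4 * Real.log R17.c0)) := by
      rw [Finset.prod_const, Finset.card_univ, ← Complex.exp_nat_mul]
      congr 1
      unfold dd
      push_cast
      ring
    rw [e, MG, MG, gamX, ← Finset.prod_inv_distrib, ← Finset.prod_mul_distrib,
      ← Finset.prod_mul_distrib, ← Finset.prod_mul_distrib]
    refine Finset.prod_congr rfl fun i _ => ?_
    have e1 : -(s - 1 / 2) - ((-ξ) i : ℝ) * Complex.I = -(s - 1 / 2 - ξ i * Complex.I) := by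
      simp only [Pi.neg_apply]
      push_cast
      ring
    rw [e1, c5_MV_ratio, ← Complex.exp_add]
    congr 2
    · push_cast
      ring
    · ring

/-- `aN n ^ (-1/3) aN n ^ (-w) = aN n ^ (-(w + 1/3))` termwise -/
theorem LS_up (M : ℕ) (a g : R K → ℂ) (w : ℂ) :
    LS M (fun n => up a n * g n) w = LS M (fun n => a n * ang (n : K) * g n) (w + 1 / 3) ∧
      LS M (fun n => dn a n * g n) w = LS M (fun n => a n * conj (ang (n : K)) * g n) (w + 1 / 3) := by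
  have key : ∀ n : R K, n ≠ 0 → ((aN (n : K) ^ (-(1 / 3 : ℝ)) : ℝ) : ℂ) * ((aN (n : K) : ℝ) : ℂ) ^ (-w) =
      ((aN (n : K) : ℝ) : ℂ) ^ (-(w + 1 / 3)) := by
    intro n hn
    have h0 : 0 < aN (n : K) := aN_pos (by exact_mod_cast hn)
    rw [Complex.ofReal_cpow h0.le, ← Complex.cpow_add _ _ (Complex.ofReal_ne_zero.2 h0.ne')]
    congr 1
    push_cast
    ring
  constructor
  all_goals
    unfold LS
    refine tsum_congr fun m => ?_
    split_ifs with hm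
    · unfold inn
      refine tsum_congr fun η => ?_
      simp only [up, dn]
      rw [← key _ (mul_ne_zero (isUnit_uo η).ne_zero hm.ne_zero)]
      ring
    · rfl

theorem LS_congr {M : ℕ} {a b : R K → ℂ} (h : ∀ n, n ≠ 0 → a n = b n) (w : ℂ) : LS M a w = LS M b w := by
  unfold LS
  refine tsum_congr fun m => ?_
  split_ifs with hm
  · unfold inn
    refine tsum_congr fun η => ?_
    rw [h _ (mul_ne_zero (isUnit_uo η).ne_zero hm.ne_zero)]
  · rfl

theorem LS_smul (M : ℕ) (z : ℂ) (a : R K → ℂ) (w : ℂ) : LS M (fun n => z * a n) w = z * LS M a w := by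
  unfold LS
  rw [← tsum_mul_left]
  refine tsum_congr fun m => ?_
  split_ifs with hm
  · unfold inn
    rw [← tsum_mul_left]
    refine tsum_congr fun η => ?_
    ring
  · simp

/-- **Abstract functional equation.**  `E s = M^d (MG ξ (s-1/2))⁻¹ Lam M (up a₁) ξ (s - 1/2)`.  `Lam` is entire and
bounded in strips by `laplace_entire` (`eX_split`; `f η = Ph (up a₁) (M•η) eX ξ 0 (M•η)`, `x η = ∑ (M•η) i`;
integrable for large real `σ` by `unfold_Ph`, for very negative `σ` by `Ph_inv`, `Lam_inv`, `unfold_Ph` for `dn a₂`,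
`-ξ`; `Adm.up_dn`, `summable_LS`).  On the left use `Lam_inv`, `MG_ratio`, `ch_neg`, and
`eX ξ w (2 ell - 2 lg c) = phase · e^{2 w ∑ ell} aN c^{-2w}` (`eX_split`, `sum_lg`); `κ₀ = κ₁ + 2 ∑ ell`. -/
theorem fe_abstract : ∃ κ0 : ℝ, ∀ {M : ℕ}, 0 < M → ∀ {F1 F2 : XX K → ℂ} {a1 a2 : R K → ℂ} {e : ℕ},
    HasExp F1 a1 → HasExp F2 a2 → Adm e a1 → Adm e a2 → ∀ {c : K} (hc : c ≠ 0),
    (∀ w, F1 w = F2 (actK (Jc c hc) w)) → (∀ u ∈ Ups K M, ∀ n, a1 ((u : R K) * n) = a1 n) →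
    (∀ u ∈ Ups K M, ∀ n, a2 ((u : R K) * n) = a2 n) → (∀ u ∈ Ups K M, ang ((u : R K) : K) = 1) →
    ∀ {ξ : Pl K → ℝ}, (∀ u ∈ Ups K M, ch ξ ((u : R K) : K) = 1) →
    ∃ (ε : ℂ) (E : ℂ → ℂ), ‖ε‖ = 1 ∧ Differentiable ℂ E ∧ ExpGr E ∧
      (∃ σ0 : ℝ, ∀ s : ℂ, σ0 < s.re →
        E s = LS M (fun n => a1 n * ang (n : K) * ch ξ (n : K)) (s - 1 / 6)) ∧
      ∃ σ0 : ℝ, ∀ s : ℂ, s.re < σ0 → E s = ε * Complex.exp ((s - 1 / 2) * κ0) *
        ((aN c : ℝ) : ℂ) ^ (1 - 2 * s) * gamX ξ s *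
          LS M (fun n => a2 n * conj (ang (n : K)) * conj (ch ξ (n : K))) (5 / 6 - s) := by
  obtain ⟨κ1, hκ⟩ := MG_ratio (K := K)
  refine ⟨κ1 + 2 * ∑ i : Pl K, ell i, ?_⟩
  intro M hM F1 F2 a1 a2 e e1 e2 b1 b2 c hc hS hi1 hi2 hang ξ hch
  obtain ⟨ε2, hε2, hrat⟩ := hκ ξ
  obtain ⟨ε1, hε1, hinv⟩ := Ph_inv e1 e2 b1 b2 hc hS
  set A : Pl K → ℝ := (2 : ℝ) • ell - (2 : ℝ) • lg c with hA
  obtain ⟨u1, -, u10, -⟩ := b1.up_dn
  obtain ⟨-, d2, -, d20⟩ := b2.up_dn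
  have hu : ∀ u ∈ Ups K M, ∀ n, up a1 ((u : R K) * n) = up a1 n := by
    intro u hu n
    simp only [up]
    push_cast
    rw [hi1 u hu, ang_mul, hang u hu, aN_mul, c5_aN_Ups hu, one_mul, one_mul]
  have hd : ∀ u ∈ Ups K M, ∀ n, dn a2 ((u : R K) * n) = dn a2 n := by
    intro u hu n
    simp only [dn]
    push_cast
    rw [hi2 u hu, ang_mul, hang u hu, aN_mul, c5_aN_Ups hu, one_mul, one_mul]
  have hch' : ∀ u ∈ Ups K M, ch (-ξ) ((u : R K) : K) = 1 := by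
    intro u hu
    rw [ch_neg, hch u hu, map_one]
  obtain ⟨σ1, hσ1⟩ := summable_LS hM u1
  obtain ⟨σ2, hσ2⟩ := summable_LS hM d2
  set σ0 : ℝ := |σ1| + |σ2| + 1 with hσ0
  have p1 := le_abs_self σ1
  have p2 := le_abs_self σ2
  have q1 := abs_nonneg σ1
  have q2 := abs_nonneg σ2
  have hR := fun (w : ℂ) (hw : σ0 ≤ w.re) =>
    unfold_Ph hM u10 hu hch (w := w) (by linarith) (hσ1 _ (by linarith))
  have hL0 := fun (w : ℂ) (hw : σ0 ≤ (-w).re) =>
    unfold_Ph hM d20 hd hch' (w := -w) (by linarith) (hσ2 _ (by linarith))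
  have hL := fun (w : ℂ) (hw : σ0 ≤ (-w).re) => Lam_inv hM hinv d20 hd hch (hL0 w hw).1
  have hsplit : ∀ w : ℂ, (fun η : Pl K → ℝ => Ph (up a1) ((M : ℝ) • η) * eX ξ w ((M : ℝ) • η)) =
      fun η => Ph (up a1) ((M : ℝ) • η) * eX ξ 0 ((M : ℝ) • η) *
        Complex.exp (w * ((∑ i, ((M : ℝ) • η) i : ℝ) : ℂ)) := by
    intro w
    funext η
    rw [(eX_split ξ w _).1, mul_assoc]
  obtain ⟨hdiff, hbd⟩ := laplace_entire (μ := volume.restrict (FD K))
    (f := fun η : Pl K → ℝ => Ph (up a1) ((M : ℝ) • η) * eX ξ 0 ((M : ℝ) • η))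
    (x := fun η => ∑ i, ((M : ℝ) • η) i) (by fun_prop) σ0 (by
      intro σ hσ
      rw [← hsplit]
      rcases abs_cases σ with h1 | h1
      · exact (hR σ (by rw [Complex.ofReal_re]; linarith)).1
      · exact (hL σ (by rw [Complex.neg_re, Complex.ofReal_re]; linarith)).1)
  have hLam : (fun w : ℂ => ∫ η in FD K, Ph (up a1) ((M : ℝ) • η) * eX ξ 0 ((M : ℝ) • η) *
      Complex.exp (w * ((∑ i, ((M : ℝ) • η) i : ℝ) : ℂ))) = Lam M (up a1) ξ := by
    funext w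
    rw [Lam, hsplit]
  rw [hLam] at hdiff
  have hbd' : ∀ σ1 σ2 : ℝ, ∃ C : ℝ, ∀ w : ℂ, σ1 ≤ w.re → w.re ≤ σ2 → ‖Lam M (up a1) ξ w‖ ≤ C := by
    rw [← hLam]
    exact hbd
  have hM' : ((M : ℂ) ^ dd K) ≠ 0 := pow_ne_zero _ (by exact_mod_cast hM.ne')
  refine ⟨ε1 * ε2 * eX ξ 0 A,
    fun s => (M : ℂ) ^ dd K * ((MG ξ (s - 1 / 2))⁻¹ * Lam M (up a1) ξ (s - 1 / 2)), ?_, ?_, ?_,
    ⟨σ0 + 1 / 2, fun s hs => ?_⟩, ⟨1 / 2 - σ0, fun s hs => ?_⟩⟩
  · rw [norm_mul, norm_mul, hε1, hε2, (eX_split ξ 0 A).2, one_mul, one_mul]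
  · exact ((MG_inv ξ).1.mul (hdiff.comp (by fun_prop))).const_mul _
  · refine expGr_mul (expGr_of_bdd fun _ _ => ⟨_, fun _ _ _ => le_rfl⟩)
      (expGr_mul (MG_inv ξ).2 (expGr_of_bdd fun τ1 τ2 => ?_))
    obtain ⟨C, hC⟩ := hbd' (τ1 - 1 / 2) (τ2 - 1 / 2)
    exact ⟨C, fun s h1 h2 => hC _ (by simp; linarith) (by simp; linarith)⟩
  · have hre : (s - 1 / 2).re = s.re - 1 / 2 := by simp
    have h0 := MG_ne_zero ξ (w := s - 1 / 2) (by rw [hre]; linarith)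
    simp only
    rw [(hR _ (by rw [hre]; linarith)).2, (LS_up M a1 _ _).1,
      show s - 1 / 2 + 1 / 3 = s - 1 / 6 by ring, mul_assoc, mul_left_comm (MG ξ (s - 1 / 2))⁻¹,
      inv_mul_cancel_left₀ h0, mul_inv_cancel_left₀ hM']
  · have hre : (-(s - 1 / 2)).re = 1 / 2 - s.re := by simp
    have hw : σ0 ≤ (-(s - 1 / 2)).re := by rw [hre]; linarith
    simp only
    rw [(hL _ hw).2, (hL0 _ hw).2, (LS_up M a2 _ _).2,
      show -(s - 1 / 2) + 1 / 3 = 5 / 6 - s by ring, (eX_split ξ (s - 1 / 2) A).1]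
    simp only [ch_neg]
    have hsum : ∑ i, A i = 2 * ∑ i : Pl K, ell i - 2 * Real.log (aN c) := by
      simp only [hA, Pi.sub_apply, Pi.smul_apply, smul_eq_mul, Finset.sum_sub_distrib,
        ← Finset.mul_sum, sum_lg hc]
    have e3 : Complex.exp ((s - 1 / 2) * κ1) * Complex.exp ((s - 1 / 2) * ((∑ i, A i : ℝ) : ℂ)) =
        Complex.exp ((s - 1 / 2) * ((κ1 + 2 * ∑ i : Pl K, ell i : ℝ) : ℂ)) *
          ((aN c : ℝ) : ℂ) ^ (1 - 2 * s) := by
      rw [hsum, Kn.cpow_eq (aN_pos hc), ← Complex.exp_add, ← Complex.exp_add]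
      congr 1
      push_cast
      ring
    have e4 := mul_inv_cancel₀ hM'
    have e5 := hrat s
    set L := LS M (fun n => a2 n * conj (ang (n : K)) * conj (ch ξ (n : K))) (5 / 6 - s)
    linear_combination
      ((MG ξ (s - 1 / 2))⁻¹ * MG (-ξ) (-(s - 1 / 2)) * ε1 * eX ξ 0 A *
        Complex.exp ((s - 1 / 2) * ((∑ i, A i : ℝ) : ℂ)) * L) * e4 +
      (ε1 * eX ξ 0 A * Complex.exp ((s - 1 / 2) * ((∑ i, A i : ℝ) : ℂ)) * L) * e5 +
      (ε1 * ε2 * eX ξ 0 A * gamX ξ s * L) * e3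

end Crest.Agent.R312.Th
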