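import Crest.Agent.R312.B5C3
import Crest.Agent.R312.B2Ang

/-!
# R312 / B5C6 : the left side: the Dirichlet series over one class
-/

set_option autoImplicit false
set_option linter.unusedSectionVars false

noncomputable section

open scoped Classical ComplexConjugate NumberField Topology
open MeasureTheory Filter
open Crest.Agent.R17.Vor (SL X pt act Vr nn gamL ExpGr voc4_e)

namespace Crest.Agent.R312.Th

variable {K : Type} [Field K] [NumberField K] [Fld K] [Loc K] [Setup K]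

theorem c6_ne {a b : K} (h : InU (Setup.lev K) (a / b)) : a ≠ 0 ∧ b ≠ 0 :=
  div_ne_zero_iff.1 (h.ne_zero Setup.lev_pos)

theorem c6_neR {a : R K} (h : (a : K) ≠ 0) : a ≠ 0 := fun e => h (by rw [e]; rfl)

/-- `‖Acl n‖ ≤ 1` (`norm_tau_le`, `gen_spec`, `gen_idl_assoc`, `N_assoc`); support: `exists_pow_mul_sInt` -/
theorem A0_adm {n0 : R K} (hn0 : Prim n0) (j : ℕ) : ∃ e, Adm e (Acl n0 j) := by
  obtain ⟨e, he⟩ := exists_pow_mul_sInt ((n0 : K) * (Loc.Q K : K) ^ (6 * j))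
  refine ⟨e, fun n hn => ?_, 1, 0, fun n => ?_⟩
  · have h : InU (Setup.lev K) ((n : K) / ((n0 : K) * (Loc.Q K : K) ^ (6 * j))) := by
      by_contra h
      exact hn (if_neg h)
    have := he.mul h.sInt
    rwa [mul_assoc, mul_div_cancel₀ _ (c6_ne h).2] at this
  · rw [pow_zero, mul_one, Acl]
    split_ifs with h
    · have hn := c6_neR (c6_ne h).1
      have h1 := norm_tau_le (gen_spec (idl_ne_bot hn)).1
      have h2 := N_pos hn
      rw [N_assoc (gen_idl_assoc hn)] at h1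
      rw [norm_mul, Complex.norm_real, Real.norm_of_nonneg (by positivity), Real.rpow_neg h2.le,
        inv_mul_le_iff₀ (by positivity), mul_one]
      exact h1
    · rw [norm_zero]; exact zero_le_one

/-- `InU.mul`, `InU.inv`, `idl_eq_iff`, `N_assoc` -/
theorem A0_inv (n0 : R K) (j : ℕ) {u : (R K)ˣ} (hu : InU (Setup.lev K) ((u : R K) : K)) (n : R K) :
    Acl n0 j ((u : R K) * n) = Acl n0 j n := by
  have ha : Associated ((u : R K) * n) n := associated_unit_mul_left n _ u.isUnit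
  rw [Acl, Acl, N_assoc ha, idl_eq_iff.2 ha, Subring.coe_mul, mul_div_assoc]
  refine if_congr ⟨fun h => ?_, fun h => hu.mul h⟩ rfl rfl
  have := h.div Setup.lev_pos hu
  rwa [mul_div_cancel_left₀ _ (wv_unit_ne u)] at this

/-- `angN_eq_ang`, `angN_unit` -/
theorem ang_unit {u : (R K)ˣ} (hu : InU (Setup.lev K) ((u : R K) : K)) : ang ((u : R K) : K) = 1 := by
  rw [← angN_eq_ang (hu.mono Setup.lev_pos), angN_unit u.isUnit]

/-- `ν.ray`, `ν.unit` -/
theorem ch_unit (ν : Tw K) {u : (R K)ˣ} (hu : InU (Setup.lev K) ((u : R K) : K)) :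
    ch ν.ξ ((u : R K) : K) = 1 := by
  rw [← ν.ray _ hu, ν.unit]

/-- `a/b = x₁/x₂` with `x_i ≡ 1` (`InU.exists_div`, `InU.of_dvd`), `a x₂ = b x₁` in `R`, `angN_mul`,
`angN_eq_ang` -/
theorem angN_div {a b : R K} (hb : b ≠ 0) (h : InU (Setup.lev K) ((a : K) / (b : K))) :
    angN a = angN b * ang ((a : K) / (b : K)) := by
  have ha := c6_neR (c6_ne h).1
  obtain ⟨x1, x2, h1, h2, h3, e⟩ := h.exists_div Setup.lev_pos
  have u1 : InU (Setup.lev K) ((toR x1 : R K) : K) := InU.of_dvd h1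
  have u2 : InU (Setup.lev K) ((toR x2 : R K) : K) := InU.of_dvd h2
  have n2 := u2.ne_zero Setup.lev_pos
  have e1 : a * toR x2 = b * toR x1 := Subtype.ext (by
    rw [Subring.coe_mul, Subring.coe_mul, mul_comm (b : K)]
    exact (div_eq_div_iff (c6_ne h).2 n2).1 e)
  have e2 := congrArg angN e1
  rw [angN_mul ha (c6_neR n2), angN_mul hb (c6_neR (u1.ne_zero Setup.lev_pos)),
    angN_eq_ang (u1.mono Setup.lev_pos), angN_eq_ang (u2.mono Setup.lev_pos)] at e2
  have e3 : ang ((toR x1 : R K) : K) = ang ((a : K) / (b : K)) * ang ((toR x2 : R K) : K) := by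
    rw [← ang_mul, e]
    exact congrArg ang (div_mul_cancel₀ _ n2).symm
  rw [e3, ← mul_assoc] at e2
  exact mul_right_cancel₀ (norm_ne_zero_iff.1 (by rw [norm_ang n2]; exact one_ne_zero)) e2

omit [Setup K] in
/-- `NK_of_isW`, `NK_div`, `aN_div` -/
theorem aN_div_N {n : ℕ} (hn : 1 ≤ n) {a b : R K} (hb : b ≠ 0) (h : InU n ((a : K) / (b : K))) :
    aN (a : K) = aN (b : K) / N b * N a := by
  have h1 := NK_of_isW (h.isW hn)
  rw [NK_div a hb, aN_div, eq_div_iff (aN_pos (b4_coe_ne_zero hb)).ne'] at h1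
  rw [← h1]
  ring

omit [Setup K] in
theorem c6_coe (n0 : R K) (j : ℕ) :
    ((n0 * (Loc.Q K : R K) ^ (6 * j) : R K) : K) = (n0 : K) * (Loc.Q K : K) ^ (6 * j) := by
  push_cast; rfl

/-- `cl u · cl m = cl n₀` (`clN_mul`, `clN_of_inU`, `cl_pow_six`), `bch_uniq` -/
theorem cl_unit_eq_one {n0 m : R K} (hn0 : Prim n0) (hm : Prim m) {u : R K} (hu : IsUnit u) (j : ℕ)
    (h : InU (Setup.lev K) (((u * m : R K) : K) / ((n0 : K) * (Loc.Q K : K) ^ (6 * j)))) : cl u = 1 := by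
  rw [← c6_coe] at h
  have hQ := (isUnit_Q (K := K)).ne_zero
  have h1 := (kub_cl (c6_neR (c6_ne h).2) h).2
  rw [cl_mul hu.ne_zero hm.ne_zero, cl_mul hn0.ne_zero (pow_ne_zero _ hQ), mul_comm 6 j, pow_mul,
    cl_pow_six (pow_ne_zero _ hQ), GG_mul_one] at h1
  have h2 := bch_uniq hm hu hn0 isUnit_one (by rw [h1, cl_one, GG_one_mul])
  rw [h2] at h1
  simpa using congrArg (· * (cl n0)⁻¹) h1

/-- **The left side.**  Put `n₁ = n₀ Q^{6j}` (an element of `R`, associated to `n₀`), `r = aN n₁/N n₀`, `k` from `tsum_U`,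
`ε = ang n₁ · conj (angN n₀) · ch ξ n₁ · conj (ν.v n₀)`.  For `m` primary and `x = η m/n₁ ∈ U`:
`gen (idl (η m)) = m`, `g (η m) = g m` (`cl_unit_eq_one`), `ang (η m) = ang n₁ · ang x`, `angN m = angN n₀ · ang x`
(`angN_div`, `angN_assoc`), `ch ξ (η m) = ch ξ n₁ · ν.f x`, `ν.f x = ν.v m conj (ν.v n₀)` (`Tw.f_div`, `Tw.v_assoc`),
`aN (η m) = r N m` (`aN_div_N`).  So every term of `inn` is `if InU (η x₀) then z else 0`; if `¬ Cls n₀ m` all vanish. -/
theorem LS_A0 {n0 : R K} (hn0 : Prim n0) (j : ℕ) {M : ℕ} (hM0 : 0 < M) (hM : eM K (Setup.lev K) ∣ M) :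
    ∃ (k : ℕ) (r : ℝ), 0 < k ∧ 0 < r ∧ ∀ ν : Tw K, ∃ ε : ℂ, ‖ε‖ = 1 ∧ ∀ g : R K → ℂ,
      (∀ u m : R K, IsUnit u → cl u = 1 → g (u * m) = g m) → ∀ s : ℂ,
        LS M (fun n => Acl n0 j n * g n * ang (n : K) * ch ν.ξ (n : K)) (s - 1 / 6) =
          k * ε * (r : ℂ) ^ (1 / 6 - s) * dser (fun m => if Cls n0 m then tt m * ν.v m * g m else 0) s := by
  obtain ⟨k, hk, H⟩ := tsum_U (K := K) Setup.lev_pos hM0 hM
  obtain ⟨q, hq⟩ := (isUnit_Q (K := K)).pow (6 * j)
  set n1 : R K := n0 * (Loc.Q K : R K) ^ (6 * j) with hn1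
  have as1 : Associated n1 n0 := associated_mul_unit_left n0 _ (isUnit_Q.pow _)
  have n10 : n1 ≠ 0 := as1.ne_zero_iff.2 hn0.ne_zero
  have n1K := b4_coe_ne_zero n10
  have n0K := b4_coe_ne_zero hn0.ne_zero
  have hqK : ((q : R K) : K) = (Loc.Q K : K) ^ (6 * j) := by rw [hq]; push_cast; rfl
  have r0 : 0 < aN (n1 : K) / N n1 := div_pos (aN_pos n1K) (N_pos n10)
  refine ⟨k, aN (n1 : K) / N n1, hk, r0, fun ν =>
    ⟨ang (n1 : K) * conj (angN n0) * ch ν.ξ (n1 : K) * conj (ν.v n0), ?_, fun g hg s => ?_⟩⟩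
  · rw [norm_mul, norm_mul, norm_mul, norm_ang n1K, Complex.norm_conj, Complex.norm_conj, norm_angN, norm_ch,
      ν.norm_v hn0.ne_zero]
    norm_num
  generalize hr : aN (n1 : K) / N n1 = r at r0
  rw [LS, dser, ← tsum_mul_left]
  refine tsum_congr fun m => ?_
  by_cases hm : Prim m
  swap
  · rw [if_neg hm, if_neg hm, mul_zero]
  rw [if_pos hm, if_pos hm, inn]
  have hNm := N_pos hm.ne_zero
  have key : ∀ η : UQ K M, Acl n0 j (uo η * m) * g (uo η * m) * ang ((uo η * m : R K) : K) *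
      ch ν.ξ ((uo η * m : R K) : K) * ((aN ((uo η * m : R K) : K) : ℝ) : ℂ) ^ (-(s - 1 / 6)) =
      if InU (Setup.lev K) (((uo η : R K) : K) * ((m : K) / (n1 : K))) then
        ang (n1 : K) * conj (angN n0) * ch ν.ξ (n1 : K) * conj (ν.v n0) * (r : ℂ) ^ (1 / 6 - s) *
          (tt m * ν.v m * g m * (N m : ℂ) ^ (-s)) else 0 := fun η => by
    rw [Acl, ← c6_coe, ← hn1, ← mul_div_assoc, ← Subring.coe_mul]
    split_ifs with h
    swap
    · simp only [zero_mul]
    have as2 : Associated (uo η * m) m := associated_unit_mul_left m _ (isUnit_uo η)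
    have x0 := h.ne_zero Setup.lev_pos
    have a1 := angN_div n10 h
    rw [angN_assoc as2, angN_assoc as1] at a1
    have a2 := ν.ray _ h
    rw [ν.f_div, ν.v_assoc as2, ν.v_assoc as1] at a2
    have a3 := aN_div_N Setup.lev_pos n10 h
    rw [hr, N_assoc as2] at a3
    have a4 : ((uo η * m : R K) : K) = n1 * (((uo η * m : R K) : K) / n1) := (mul_div_cancel₀ _ n1K).symm
    have a5 : ang ((uo η * m : R K) : K) = ang (n1 : K) * ang (((uo η * m : R K) : K) / n1) := by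
      rw [← ang_mul, ← a4]
    have a6 : ch ν.ξ ((uo η * m : R K) : K) = ch ν.ξ (n1 : K) * ch ν.ξ (((uo η * m : R K) : K) / n1) := by
      rw [← ch_mul _ n1K x0, ← a4]
    have a7 := bc_mul_conj (norm_angN n0)
    have a8 : ((N m ^ (-(1 / 6 : ℝ)) : ℝ) : ℂ) * (N m : ℂ) ^ (1 / 6 - s) = (N m : ℂ) ^ (-s) := by
      rw [Complex.ofReal_cpow hNm.le, ← Complex.cpow_add _ _ (Complex.ofReal_ne_zero.2 hNm.ne')]
      congr 1
      push_cast
      ring
    rw [N_assoc as2, idl_eq_iff.2 as2, gen_idl hm, hg _ _ (isUnit_uo η)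
      (cl_unit_eq_one hn0 hm (isUnit_uo η) j (by rwa [← c6_coe])), a3, a5, a6, ← a2, neg_sub,
      Complex.ofReal_mul, Complex.mul_cpow_ofReal_nonneg r0.le hNm.le, tt, a1, ← a8]
    linear_combination (-(((N m ^ (-(1 / 6 : ℝ)) : ℝ) : ℂ) * tau m * g m * ang (n1 : K) *
      ang (((uo η * m : R K) : K) / n1) * ch ν.ξ (n1 : K) * (ν.v m * conj (ν.v n0)) * (r : ℂ) ^ (1 / 6 - s) *
      (N m : ℂ) ^ (1 / 6 - s))) * a7
  rw [tsum_congr key]
  have hQK : (Loc.Q K : K) ^ (6 * j) ≠ 0 := pow_ne_zero _ loc_Q_ne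
  split_ifs with hc
  · obtain ⟨u, hu⟩ := hc
    rw [H _ (u * q) (by
      convert hu using 1
      rw [hn1, c6_coe, Units.val_mul, Subring.coe_mul, Subring.coe_mul, hqK]
      field_simp)]
    ring
  · rw [zero_mul, mul_zero]
    refine (tsum_congr fun η => if_neg fun h => hc ⟨Quotient.out η * q⁻¹, ?_⟩).trans tsum_zero
    convert h using 1
    rw [hn1, c6_coe, Units.val_mul, Subring.coe_mul, Subring.coe_mul, wv_unit_inv, hqK, uo]
    field_simp

theorem c6_symm {a b : R K} (h : Cls a b) : Cls b a := by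
  obtain ⟨u, hu⟩ := h
  refine ⟨u⁻¹, ?_⟩
  convert hu.inv Setup.lev_pos using 1
  rw [Subring.coe_mul, Subring.coe_mul, wv_unit_inv, inv_div, div_mul_eq_div_div_swap, mul_div_assoc,
    div_eq_inv_mul ((a : K) / (b : K))]

theorem c6_trans {a b c : R K} (h : Cls a b) (h' : Cls b c) : Cls a c := by
  obtain ⟨u, hu⟩ := h
  obtain ⟨v, hv⟩ := h'
  refine ⟨u * v, ?_⟩
  convert hu.mul hv using 1
  have := (c6_ne hu).2
  have := (c6_ne hv).2
  push_cast
  field_simp

/-- `Cls` is an equivalence relation on non-zero elements with finitely many classes (`exists_reps`): for every `y`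
in the finite set of `exists_reps` choose a primary `n₀` with `n₀ ∈ y U R^*` if there is one, and keep one
representative in each class (e.g. the image of `m ↦ choose (∃ n, Prim n ∧ Cls n m)`, which only depends on the
predicate `Cls · m`). -/
theorem exists_classes : ∃ S : Finset (R K), (∀ n0 ∈ S, Prim n0) ∧
    ∀ m, Prim m → ∃ n0 ∈ S, Cls n0 m ∧ ∀ n1 ∈ S, Cls n1 m → n1 = n0 := by
  obtain ⟨S, -, hS⟩ := exists_reps (K := K) (n := Setup.lev K) Setup.lev_pos
  let P : 𝓞 K → R K → Prop := fun y n => Prim n ∧ Cls n (toR y)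
  refine ⟨(S.filter fun y => ∃ n, P y n).image fun y => Classical.epsilon (P y), fun n0 h => ?_, fun m hm => ?_⟩
  · obtain ⟨y, hy, rfl⟩ := Finset.mem_image.1 h
    exact (Classical.epsilon_spec (Finset.mem_filter.1 hy).2).1
  · have mK := b4_coe_ne_zero hm.ne_zero
    obtain ⟨y, hy, u, w, hw, e⟩ := hS (m : K) mK
    have h1 : Cls m (toR y) := ⟨u, by
      convert hw.inv Setup.lev_pos using 1
      rw [Subring.coe_mul, coe_toR, div_eq_iff mK, eq_inv_mul_iff_mul_eq₀ (hw.ne_zero Setup.lev_pos), e]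
      ring⟩
    have h2 : ∃ n, P y n := ⟨m, hm, h1⟩
    refine ⟨_, Finset.mem_image.2 ⟨y, Finset.mem_filter.2 ⟨hy, h2⟩, rfl⟩,
      c6_trans (Classical.epsilon_spec h2).2 (c6_symm h1), fun n1 h h3 => ?_⟩
    obtain ⟨y', hy', rfl⟩ := Finset.mem_image.1 h
    have h4 := c6_trans (c6_symm (Classical.epsilon_spec (Finset.mem_filter.1 hy').2).2) (c6_trans h3 h1)
    have : P y' = P y := funext fun n => propext
      ⟨fun h => ⟨h.1, c6_trans h.2 h4⟩, fun h => ⟨h.1, c6_trans h.2 (c6_symm h4)⟩⟩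
    rw [this]

end Crest.Agent.R312.Th
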