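import Crest.Agent.R312.B5C1
import Crest.Agent.R312.B5C5
import Crest.Agent.R312.B5C6
import Crest.Agent.R312.B5B

/-!
# R312 / B5C7 : the right side; the functional equation for one class
-/

set_option autoImplicit false
set_option linter.unusedSectionVars false

noncomputable section

open scoped Classical ComplexConjugate NumberField Topology
open MeasureTheory Filter
open Crest.Agent.R17.Vor (SL X pt act Vr nn gamL ExpGr voc4_e)

namespace Crest.Agent.R312.Th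

variable {K : Type} [Field K] [NumberField K] [Fld K] [Loc K] [Setup K]

/-- one term of `bet` -/
def c7t (M : ℕ) (a : R K → ℂ) (ξ : Pl K → ℝ) (g : G K) (m : R K) (η : UQ K M) (s : ℂ) : ℂ :=
  if cl (uo η) = g then
    a (uo η * m) * conj (ang ((uo η * m : R K) : K)) * conj (ch ξ ((uo η * m : R K) : K)) *
      ((aN ((uo η * m : R K) : K) / N m : ℝ) : ℂ) ^ (s - 5 / 6) else 0

omit [Setup K] in
theorem c7_ne {M : ℕ} {m : R K} (hm : m ≠ 0) (η : UQ K M) : ((uo η * m : R K) : K) ≠ 0 :=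
  b4_coe_ne_zero (mul_ne_zero (isUnit_uo η).ne_zero hm)

omit [Setup K] in
theorem c7_pos {M : ℕ} {m : R K} (hm : m ≠ 0) (η : UQ K M) :
    0 < aN ((uo η * m : R K) : K) / N m := div_pos (aN_pos (c7_ne hm η)) (N_pos hm)

theorem c7t_diff {M : ℕ} {a : R K → ℂ} {ξ : Pl K → ℝ} {g : G K} {m : R K} (hm : m ≠ 0) (η : UQ K M) :
    Differentiable ℂ (c7t M a ξ g m η) := by
  unfold c7t
  split_ifs
  · exact (Differentiable.const_cpow (by fun_prop)
      (Or.inl (Complex.ofReal_ne_zero.2 (c7_pos hm η).ne'))).const_mul _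
  · exact differentiable_const _

theorem c7_term {M : ℕ} (hM : 0 < M) {e : ℕ} {a : R K → ℂ} (ha : Supp e a) {C : ℝ}
    (hb : ∀ η m : R K, IsUnit η → Prim m → ‖a (η * m)‖ ≤ C * ‖tau m‖ * N m ^ (-(1 / 6 : ℝ)))
    (σ1 : ℝ) : ∃ C' : ℝ, 0 ≤ C' ∧ ∀ m : R K, Prim m → ∃ u : UQ K M → ℝ, Summable u ∧
      ∑' η, u η ≤ C' * ‖tau m‖ * N m ^ (-(1 / 6 : ℝ)) ∧ ∀ ξ g η (s : ℂ), σ1 ≤ s.re → s.re ≤ 4 / 5 →
        ‖c7t M a ξ g m η s‖ ≤ u η := by
  obtain ⟨C', hC', h⟩ := sum_UQ (K := K) hM e (σ1 := 1 / 30) (by norm_num) (5 / 6 - σ1)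
  refine ⟨|C| * C', by positivity, fun m hm => ?_⟩
  obtain ⟨u, hu0, hu, hu', h⟩ := h m hm.ne_zero
  have hN := N_pos hm.ne_zero
  have hA : 0 ≤ |C| * ‖tau m‖ * N m ^ (-(1 / 6 : ℝ)) := by positivity
  refine ⟨fun η => |C| * ‖tau m‖ * N m ^ (-(1 / 6 : ℝ)) * u η, hu.mul_left _, ?_,
    fun ξ g η s h1 h2 => ?_⟩
  · rw [tsum_mul_left]
    refine (mul_le_mul_of_nonneg_left hu' hA).trans (le_of_eq (by ring))
  · have h0 := mul_nonneg hA (hu0 η)
    unfold c7t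
    split_ifs
    swap
    · simpa using h0
    by_cases hz : a (uo η * m) = 0
    · simpa [hz] using h0
    rw [norm_mul, norm_mul, norm_mul, Complex.norm_conj, Complex.norm_conj, norm_ang (c7_ne hm.ne_zero η),
      norm_ch, mul_one, mul_one, Complex.norm_cpow_eq_rpow_re_of_pos (c7_pos hm.ne_zero η)]
    have e1 : (s - 5 / 6).re = -(5 / 6 - s.re) := by simp
    rw [e1]
    refine mul_le_mul ((hb _ _ (isUnit_uo η) hm).trans ?_)
      (h η _ (by linarith) (by linarith) (ha _ hz)) (Real.rpow_nonneg (c7_pos hm.ne_zero η).le _) hA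
    gcongr
    exact le_abs_self C

/-- `sum_UQ` with `σ₁ = 1/30`, `σ₂ = 5/6 - σ₁'`: each term is `≤ C ‖tau m‖ N m^{-1/6} u η` (zero unless
`SInt (Q^e η m)`); `differentiableOn_tsum_of_summable_norm` on `{σ < re s < 4/5}`. -/
theorem bet_fam {M : ℕ} (hM : 0 < M) {e : ℕ} {a : R K → ℂ} (ha : Supp e a) {C : ℝ}
    (hb : ∀ η m : R K, IsUnit η → Prim m → ‖a (η * m)‖ ≤ C * ‖tau m‖ * N m ^ (-(1 / 6 : ℝ))) :
    BFam (fun (ν : Tw K) (g : G K) => bet M a ν.ξ g) := by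
  refine ⟨fun ν g m hm s0 hs0 => ?_, fun σ1 => ?_⟩
  · obtain ⟨C', -, h⟩ := c7_term hM ha hb (s0.re - 1)
    obtain ⟨u, hu, -, h⟩ := h m hm
    have hU : IsOpen {s : ℂ | s0.re - 1 < s.re ∧ s.re < 4 / 5} :=
      (isOpen_lt continuous_const Complex.continuous_re).inter
        (isOpen_lt Complex.continuous_re continuous_const)
    have hd := Complex.differentiableOn_tsum_of_summable_norm (F := fun η s => c7t M a ν.ξ g m η s) hu
      (fun η => (c7t_diff hm.ne_zero η).differentiableOn) hU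
      fun η s hs => h ν.ξ g η s hs.1.le hs.2.le
    exact ((hd.differentiableAt (hU.mem_nhds ⟨by linarith, hs0⟩)).const_mul _).differentiableWithinAt
  · obtain ⟨C', hC', h⟩ := c7_term hM ha hb σ1
    refine ⟨C', hC', fun ν g m s hm h1 h2 => ?_⟩
    obtain ⟨u, hu, hu', h⟩ := h m hm
    have hN := N_pos hm.ne_zero
    have h3 : ‖∑' η, c7t M a ν.ξ g m η s‖ ≤ ∑' η, u η :=
      tsum_of_norm_bounded hu.hasSum fun η => h ν.ξ g η s h1 h2
    change ‖((N m ^ (1 / 6 : ℝ) : ℝ) : ℂ) * ∑' η, c7t M a ν.ξ g m η s‖ ≤ _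
    rw [norm_mul, Complex.norm_real, Real.norm_of_nonneg (Real.rpow_nonneg hN.le _)]
    refine (mul_le_mul_of_nonneg_left (h3.trans hu') (Real.rpow_nonneg hN.le _)).trans (le_of_eq ?_)
    rw [mul_left_comm, ← Real.rpow_add hN]
    simp

theorem BFam.mul_exp {I : Type} {β : Tw K → I → R K → ℂ → ℂ} (h : BFam β) (z : ℂ) (x : ℝ) :
    BFam (fun ν i n s => z * Complex.exp (s * x) * β ν i n s) := by
  refine ⟨fun ν i n hn => DifferentiableOn.mul (by fun_prop) (h.diff ν i n hn), fun σ1 => ?_⟩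
  obtain ⟨C, hC, hb⟩ := h.bd σ1
  refine ⟨‖z‖ * Real.exp ((|σ1| + 1) * |x|) * C, by positivity, fun ν i n s hn h1 h2 => ?_⟩
  rw [norm_mul, norm_mul, Complex.norm_exp, mul_assoc _ C]
  refine mul_le_mul (mul_le_mul_of_nonneg_left (Real.exp_le_exp.2 ?_) (norm_nonneg _))
    (hb ν i n s hn h1 h2) (norm_nonneg _) (by positivity)
  rw [Complex.re_mul_ofReal]
  refine (le_abs_self _).trans ?_
  rw [abs_mul]
  refine mul_le_mul_of_nonneg_right (abs_le.2 ⟨?_, ?_⟩) (abs_nonneg _)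
  · linarith [neg_abs_le σ1]
  · linarith [abs_nonneg σ1]

theorem BFam.sigma {J : Type} [Fintype J] {I : J → Type} {β : ∀ j, Tw K → I j → R K → ℂ → ℂ}
    (h : ∀ j, BFam (β j)) : BFam (fun ν (p : Σ j, I j) => β p.1 ν p.2) := by
  refine ⟨fun ν p n hn => (h p.1).diff ν p.2 n hn, fun σ1 => ?_⟩
  choose C hC hb using fun j => (h j).bd σ1
  refine ⟨∑ j, C j, Finset.sum_nonneg fun j _ => hC j, fun ν p n s hn h1 h2 =>
    (hb p.1 ν p.2 n s hn h1 h2).trans (mul_le_mul_of_nonneg_right ?_ (norm_nonneg _))⟩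
  exact Finset.single_le_sum (fun j _ => hC j) (Finset.mem_univ _)

/-- the bound in `ThFn.exp` makes `a` admissible (`exists_eq_unit_prim`, `norm_tau_le`) -/
theorem adm_of_bound {e : ℕ} {a : R K → ℂ} (ha : Supp e a) {C : ℝ}
    (hb : ∀ η m : R K, IsUnit η → Prim m → ‖a (η * m)‖ ≤ C * ‖tau m‖ * N m ^ (-(1 / 6 : ℝ))) :
    Adm e a := by
  refine ⟨ha, |C| + ‖a 0‖, 0, fun n => ?_⟩
  rw [pow_zero, mul_one]
  by_cases hn : n = 0
  · rw [hn]
    exact le_add_of_nonneg_left (abs_nonneg C)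
  obtain ⟨u, m, hu, hm, rfl⟩ := exists_eq_unit_prim hn
  have hN := N_pos hm.ne_zero
  refine (hb u m hu hm).trans (le_add_of_le_of_nonneg ?_ (norm_nonneg _))
  have h1 : ‖tau m‖ * N m ^ (-(1 / 6 : ℝ)) ≤ 1 := by
    refine (mul_le_mul_of_nonneg_right (norm_tau_le hm) (Real.rpow_nonneg hN.le _)).trans (le_of_eq ?_)
    rw [← Real.rpow_add hN]
    simp
  rw [mul_assoc]
  exact (mul_le_mul_of_nonneg_right (le_abs_self C) (by positivity)).trans
    (mul_le_of_le_one_right (abs_nonneg C) h1)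

/-- **The right side.**  `aN^{s-5/6} = (aN/N m)^{s-5/6} N m^{1/6} N m^{-(1-s)}`; split the sum over `η` by `cl (uo η)`
(`Summable.tsum_finsetSum`, summable by `sum_UQ`), then exchange `∑' m` and `∑ g` (`bet_fam`-type bound,
`norm_tau_le`, `summable_N_rpow`). -/
theorem LS_dual {M : ℕ} (hM : 0 < M) {e : ℕ} {a : R K → ℂ} (ha : Supp e a) {C : ℝ}
    (hb : ∀ η m : R K, IsUnit η → Prim m → ‖a (η * m)‖ ≤ C * ‖tau m‖ * N m ^ (-(1 / 6 : ℝ)))
    {f h : R K → ℂ} {ω : G K → ℂ} (hf : ∀ u m : R K, IsUnit u → f (u * m) = ω (cl u) * h m)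
    {B : ℝ} (hh : ∀ m, ‖h m‖ ≤ B) (ν : Tw K) {s : ℂ} (hs : s.re < -1) :
    LS M (fun n => a n * f n * conj (ang (n : K)) * conj (ch ν.ξ (n : K))) (5 / 6 - s) =
      ∑ g : G K, dser (fun m => ω g * h m * bet M a ν.ξ g m s) (1 - s) := by
  obtain ⟨C', hC', h1⟩ := c7_term hM ha hb s.re
  obtain ⟨C2, hC2, h2⟩ := (bet_fam hM ha hb).bd s.re
  have key : ∀ m : R K, (if Prim m then inn M (fun n => a n * f n * conj (ang (n : K)) *
      conj (ch ν.ξ (n : K))) (5 / 6 - s) m else 0) = ∑ g : G K, if Prim m then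
        ω g * h m * bet M a ν.ξ g m s * (N m : ℂ) ^ (-(1 - s)) else 0 := by
    intro m
    split_ifs with hm
    swap
    · simp
    obtain ⟨u, hu, -, h1⟩ := h1 m hm
    have hN := N_pos hm.ne_zero
    have hsum : ∀ g, Summable fun η => c7t M a ν.ξ g m η s := fun g =>
      Summable.of_norm_bounded hu fun η => h1 ν.ξ g η s le_rfl (by linarith)
    have e1 : ∀ g, ω g * h m * bet M a ν.ξ g m s * (N m : ℂ) ^ (-(1 - s)) =
        ∑' η, ω g * h m * (N m : ℂ) ^ (s - 5 / 6) * c7t M a ν.ξ g m η s := fun g => by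
      rw [tsum_mul_left]
      have e2 : (N m : ℂ) ^ (s - 5 / 6) = ((N m ^ (1 / 6 : ℝ) : ℝ) : ℂ) * (N m : ℂ) ^ (-(1 - s)) := by
        rw [Complex.ofReal_cpow hN.le, ← Complex.cpow_add _ _ (Complex.ofReal_ne_zero.2 hN.ne')]
        congr 1
        push_cast
        ring
      rw [e2]
      change ω g * h m * (((N m ^ (1 / 6 : ℝ) : ℝ) : ℂ) * ∑' η, c7t M a ν.ξ g m η s) * _ = _
      ring
    simp only [e1]
    rw [← Summable.tsum_finsetSum fun g _ => (hsum g).mul_left _, inn]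
    refine tsum_congr fun η => ?_
    rw [Finset.sum_eq_single (cl (uo η)) (fun g _ hg => by rw [c7t, if_neg hg.symm, mul_zero])
      (fun h => absurd (Finset.mem_univ _) h), c7t, if_pos rfl, hf _ _ (isUnit_uo η)]
    have e3 : ((aN ((uo η * m : R K) : K) : ℝ) : ℂ) ^ (-(5 / 6 - s)) = (N m : ℂ) ^ (s - 5 / 6) *
        ((aN ((uo η * m : R K) : K) / N m : ℝ) : ℂ) ^ (s - 5 / 6) := by
      rw [← Complex.mul_cpow_ofReal_nonneg hN.le (c7_pos hm.ne_zero η).le, ← Complex.ofReal_mul,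
        mul_div_cancel₀ _ hN.ne', neg_sub]
    rw [e3]
    ring
  rw [LS]
  simp only [key]
  refine Summable.tsum_finsetSum fun g _ => ?_
  refine Summable.of_norm_bounded ((summable_N_rpow (K := K) (σ := 5 / 6 - s.re) (by linarith)).mul_left
    (‖ω g‖ * B * C2)) fun m => ?_
  split_ifs with hm
  swap
  · simp
  have hN := N_pos hm.ne_zero
  have hB : 0 ≤ B := (norm_nonneg _).trans (hh 0)
  rw [norm_mul, norm_mul, norm_mul, Complex.norm_cpow_eq_rpow_re_of_pos hN]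
  have e1 : N m ^ (-(5 / 6 - s.re)) = N m ^ (1 / 6 : ℝ) * N m ^ (-(1 - s)).re := by
    rw [← Real.rpow_add hN]
    congr 1
    simp
    ring
  rw [e1]
  have h3 := (h2 ν g m s hm le_rfl (by linarith)).trans
    (mul_le_mul_of_nonneg_left (norm_tau_le hm) hC2)
  calc _ ≤ ‖ω g‖ * B * (C2 * N m ^ (1 / 6 : ℝ)) * N m ^ (-(1 - s)).re := by
        have := hh m
        gcongr
    _ = _ := by ring

/-- `dual c ψ` is a character that is trivial on units of class `1` (`chi_unit_of_cl`, `chi_sq`) -/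
theorem dual_char {c : R K} (hc : c ≠ 0) {ψ : R K → ℂ} (hψ : IsChar c ψ)
    (h1 : ∀ u : (R K)ˣ, cl (u : R K) = 1 → ψ u = 1) :
    IsChar c (dual c ψ) ∧ ∀ u : (R K)ˣ, cl (u : R K) = 1 → dual c ψ u = 1 := by
  refine ⟨hψ.conj.mul_char (cub_isChar hc).conj, fun u hu => ?_⟩
  rw [dual, h1 u hu, ← chi_sq hc, chi_unit_of_cl hc u.isUnit hu]
  simp

theorem c7_grp {Γ : Type} [Group Γ] {a b : Γ} (h : a = a * b) : b = 1 := left_eq_mul.1 h

/-- `gs_mul_unit`; `ω g = conj χ (u₀ u_g)` for a unit `u_g` of class `g` (else `0`) -/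
theorem exists_omega {c : R K} (hc : c ≠ 0) {χ : R K → ℂ} (hχ : IsChar c χ)
    (h1 : ∀ u : (R K)ˣ, cl (u : R K) = 1 → χ u = 1) {u0 : R K} (hu0 : IsUnit u0) :
    ∃ ω : G K → ℂ, (∀ g, ‖ω g‖ ≤ 1) ∧
      ∀ u m : R K, IsUnit u → gs c χ (u0 * (u * m)) = ω (cl u) * gs c χ m := by
  refine ⟨fun g => if h : ∃ u : R K, IsUnit u ∧ cl u = g then conj (χ (u0 * h.choose)) else 0,
    fun g => ?_, fun u m hu => ?_⟩
  · beta_reduce
    split_ifs
    · exact hχ.conj.norm_le hc _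
    · simp
  · have h : ∃ v : R K, IsUnit v ∧ cl v = cl u := ⟨u, hu, rfl⟩
    beta_reduce
    rw [dif_pos h, ← mul_assoc, gs_mul_unit hc hχ (prim_unit_coprime (hu0.mul hu) c)]
    obtain ⟨hv, hv'⟩ := h.choose_spec
    generalize h.choose = v at hv hv'
    obtain ⟨v, rfl⟩ := hv
    obtain ⟨u, rfl⟩ := hu
    have e : (u : R K) = v * ((v⁻¹ * u : (R K)ˣ) : R K) := by simp
    have h2 : cl ((v⁻¹ * u : (R K)ˣ) : R K) = 1 := by
      have h3 := cl_mul v.ne_zero (v⁻¹ * u).ne_zero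
      rw [← e, ← hv'] at h3
      exact c7_grp h3
    rw [e, ← mul_assoc, hχ.mul (u0 * v), h1 _ h2, mul_one]

omit [Setup K] in
theorem c7_isChar {c c1 : R K} (h : Associated c c1) {ψ : R K → ℂ} (hψ : IsChar c1 ψ) : IsChar c ψ := by
  obtain ⟨u, rfl⟩ := h
  refine ⟨hψ.one, hψ.mul, fun x t => ?_, fun n => ?_⟩
  · have := hψ.per x ((u⁻¹ : (R K)ˣ) * t)
    rwa [mul_assoc, Units.mul_inv_cancel_left] at this
  · rw [hψ.zero_iff, isCoprime_mul_unit_right_right u.isUnit]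

theorem c7_dser {a b : R K → ℂ} {z : ℂ} (h : ∀ m, a m = z * b m) (s : ℂ) : dser a s = z * dser b s := by
  rw [dser, dser, ← tsum_mul_left]
  refine tsum_congr fun n => ?_
  split_ifs
  · rw [h, mul_assoc]
  · rw [mul_zero]

/-- **One cusp.**  `σ` from `exists_cusp` (level `e`), `(e*, C, a)` from `ThFn.exp σ`, `M = eM lev * eM e*` (`eM_pos`,
`inU_of_mem_Ups`), `(k, r)` from `LS_A0`, `κ₀` from `fe_abstract`, `r* = aN y / N y`;
`β = k⁻¹ r^{s-1/6} e^{(s-1/2)κ₀} r*^{1-2s} bet M a ν.ξ` (`BFam.mul_exp`).  Given `c₁ = u c`: `IsChar c ψ`,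
`dual c ψ = dual c₁ ψ` (`sym_assoc`), `gs c φ k = gs c₁ φ (u k)` (`gs_unit_mul`), `gs c₁ ψ (u m) = conj ψ(u) gs c₁ ψ m`;
`exists_pair`, `fe_abstract` (invariance: `A0_inv`, `gs_mul_unit`, `cl_of_inU`, `dual_char`, `ang_unit`, `ch_unit`;
`Adm.mul_bdd`, `norm_gs_le`, `Adm.mono`), `LS_A0`, `LS_dual` with `exists_omega` (`u₀ = -u`), `aN c = r* N c₁`
(`aN_div_N`).  The entire function is `ψ(u) conj ε₁ k⁻¹ r^{s-1/6} E s` (`expGr_mul`, `expGr_exp`). -/
theorem cusp_fe {n0 : R K} (hn0 : Prim n0) {j : ℕ} {Θ : XX K → ℂ} (hΘ : ThFn Θ) (hA : HasExp Θ (Acl n0 j))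
    {e : ℕ} (he : Setup.lev K ≤ e) (haut : ∀ γ ∈ GamN K e 1, ∀ w, Θ (actR γ w) = conj (kap γ) * Θ w)
    {y : R K} (hy : y ≠ 0) (hy' : SInt (y : K)) :
    ∃ β : Tw K → G K → R K → ℂ → ℂ, BFam β ∧ ∀ (ν : Tw K) (c1 : R K), Prim c1 → ∀ ψ : R K → ℂ,
      IsChar c1 ψ → (∀ u : (R K)ˣ, cl (u : R K) = 1 → ψ u = 1) → ∀ (u : (R K)ˣ) (c : R K),
      c1 = u * c → InU e ((c : K) / (y : K)) → ∃ ω : G K → ℂ, (∀ i, ‖ω i‖ ≤ 1) ∧
        HasFE ν.ξ (fun m => if Cls n0 m then tt m * ν.v m * gs c1 ψ m else 0)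
          (fun i n s => ω i * gs c1 (dual c1 ψ) n * β ν i n s) (N c1 ^ 2) := by
  obtain ⟨σ, rfl, hσa, h3, h4⟩ := exists_cusp hy e
  obtain ⟨e2, C, a, hE, ha, hb, hinv⟩ := hΘ.exp σ
  obtain ⟨e1, hA1⟩ := A0_adm hn0 j
  have hM0 : 0 < eM K (Setup.lev K) * eM K e2 := mul_pos (eM_pos _) (eM_pos _)
  have hU : ∀ v ∈ Ups K (eM K (Setup.lev K) * eM K e2), InU (Setup.lev K) ((v : R K) : K) :=
    fun v hv => inU_of_mem_Ups (dvd_mul_right _ _) hv
  have hU2 : ∀ v ∈ Ups K (eM K (Setup.lev K) * eM K e2), InU e2 ((v : R K) : K) :=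
    fun v hv => inU_of_mem_Ups (dvd_mul_left _ _) hv
  obtain ⟨k, r, hk, hr, hL⟩ := LS_A0 hn0 j hM0 (dvd_mul_right _ _)
  generalize eM K (Setup.lev K) * eM K e2 = M at hM0 hU hU2 hL
  obtain ⟨κ0, hF⟩ := fe_abstract (K := K)
  have hr' : 0 < aN (σ.c : K) / N σ.c := div_pos (aN_pos (b4_coe_ne_zero hy)) (N_pos hy)
  refine ⟨_, (bet_fam hM0 ha hb).mul_exp ((k : ℂ)⁻¹ * Complex.exp
      (-(Real.log r : ℂ) / 6 - κ0 / 2 + Real.log (aN (σ.c : K) / N σ.c)))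
    (Real.log r + κ0 - 2 * Real.log (aN (σ.c : K) / N σ.c)),
    fun ν c1 hc1 ψ hψ hψ1 u c hc hcc => ?_⟩
  have hc10 := hc1.ne_zero
  have hc0 : c ≠ 0 := right_ne_zero_of_mul (hc ▸ hc10)
  have has : Associated c c1 := ⟨u, by rw [hc, mul_comm]⟩
  obtain ⟨ε, F1, F2, hε, x1, x2, hS⟩ := exists_pair he haut hA hA1.supp hy hy' hσa h3 h4 hE ha
    (b4_coe_ne_zero hc0) hcc (c7_isChar has hψ)
  obtain ⟨hd, hd1⟩ := dual_char hc10 hψ hψ1
  have hdc : dual c ψ = dual c1 ψ := funext fun x => by rw [dual, dual, cub, cub, sym_assoc 3 has]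
  rw [hdc] at x2
  have g1 : ∀ φ : R K → ℂ, IsChar c1 φ → ∀ n, gs c φ n = gs c1 φ (u * n) := fun φ hφ n => by
    rw [hc, gs_unit_mul hc0 (c7_isChar has hφ).per u.isUnit]
  have g2 : ∀ φ : R K → ℂ, IsChar c1 φ → (∀ v : (R K)ˣ, cl (v : R K) = 1 → φ v = 1) →
      ∀ v n : R K, IsUnit v → cl v = 1 → gs c φ (v * n) = gs c φ n := by
    rintro φ hφ h1 _ n ⟨v, rfl⟩ hv
    rw [gs_mul_unit hc0 (c7_isChar has hφ) (prim_unit_coprime v.isUnit c), h1 v hv, map_one, one_mul]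
  obtain ⟨ω, hω, hω'⟩ := exists_omega hc10 hd hd1 u.isUnit.neg
  obtain ⟨ε1, hε1, hL⟩ := hL ν
  obtain ⟨ε2, E, hε2, hEd, hEg, ⟨σ1, hE1⟩, σ2, hE2⟩ := hF hM0 x1 x2
    ((hA1.mul_bdd (norm_gs_le hc0 ((c7_isChar has hψ).norm_le hc0))).mono (Nat.le_add_right e1 e2))
    (((adm_of_bound ha hb).mul_bdd (B := N c) fun n => by
      rw [norm_mul, hε, one_mul]
      exact norm_gs_le hc0 ((c7_isChar has hd).norm_le hc0) _).mono (Nat.le_add_left e2 e1))
    (b4_coe_ne_zero hc0) hS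
    (fun v hv n => by rw [A0_inv n0 j (hU v hv), g2 ψ hψ hψ1 _ _ v.isUnit (cl_of_inU (hU v hv))])
    (fun v hv n => by
      rw [hinv v (hU2 v hv), ← mul_neg, g2 _ hd hd1 _ _ v.isUnit (cl_of_inU (hU v hv))])
    (fun v hv => ang_unit (hU v hv)) (fun v hv => ch_unit ν (hU v hv))
  have hψu : ‖ψ u‖ = 1 := hψ.norm_eq_one hc10 (prim_unit_coprime u.isUnit c1)
  have hk0 : (k : ℂ) ≠ 0 := Nat.cast_ne_zero.2 hk.ne'
  refine ⟨fun g => ψ u * conj ε1 * ε2 * ε * ω g, fun g => ?_,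
    fun s => ψ u * conj ε1 * (k : ℂ)⁻¹ * Complex.exp (-(Real.log r : ℂ) / 6) *
      Complex.exp (s * Real.log r) * E s, by fun_prop, expGr_mul (expGr_exp _ _) hEg,
    ⟨σ1, fun s hs => ?_⟩, min σ2 (-1), fun s hs => ?_⟩
  · simp only [norm_mul, Complex.norm_conj, hψu, hε, hε1, hε2, one_mul]
    exact hω g
  · have h5 : dser (fun m => if Cls n0 m then tt m * ν.v m * gs c ψ m else 0) s =
        conj (ψ u) * dser (fun m => if Cls n0 m then tt m * ν.v m * gs c1 ψ m else 0) s :=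
      c7_dser (fun m => by
        rw [g1 ψ hψ, gs_mul_unit hc10 hψ (prim_unit_coprime u.isUnit c1)]
        split_ifs <;> ring) s
    have h6 : Complex.exp (-(Real.log r : ℂ) / 6) * Complex.exp (s * Real.log r) *
        (r : ℂ) ^ (1 / 6 - s) = 1 := by
      rw [Kn.cpow_eq hr, ← Complex.exp_add, ← Complex.exp_add]
      exact (congrArg Complex.exp (by ring)).trans Complex.exp_zero
    beta_reduce
    rw [hE1 s hs, hL (gs c ψ) (g2 ψ hψ hψ1), h5]
    generalize dser (fun m => if Cls n0 m then tt m * ν.v m * gs c1 ψ m else 0) s = D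
    calc _ = ψ u * conj (ψ u) * (ε1 * conj ε1) * ((k : ℂ)⁻¹ * k) *
          (Complex.exp (-(Real.log r : ℂ) / 6) * Complex.exp (s * Real.log r) *
            (r : ℂ) ^ (1 / 6 - s)) * D := by ring
      _ = D := by rw [bc_mul_conj hψu, bc_mul_conj hε1, inv_mul_cancel₀ hk0, h6]; ring
  · rw [lt_min_iff] at hs
    have h5 := LS_dual hM0 ha hb (f := fun n => ε * gs c (dual c1 ψ) (-n)) (h := gs c1 (dual c1 ψ))
      (ω := fun g => ε * ω g) (fun v m hv => by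
        rw [g1 _ hd, mul_neg, ← neg_mul, hω' v m hv, mul_assoc])
      (norm_gs_le hc10 (hd.norm_le hc10)) ν hs.2
    have hN := N_pos hc10
    have h6 : aN (c : K) = aN (σ.c : K) / N σ.c * N c1 := by
      rw [aN_div_N (Setup.lev_pos.trans he) hy hcc, N_assoc has]
    have h7 : Complex.exp (-(Real.log r : ℂ) / 6) * Complex.exp (s * Real.log r) *
        Complex.exp ((s - 1 / 2) * κ0) * ((aN (c : K) : ℝ) : ℂ) ^ (1 - 2 * s) =
        ((N c1 ^ 2 : ℝ) : ℂ) ^ (1 / 2 - s) * (Complex.exp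
          (-(Real.log r : ℂ) / 6 - κ0 / 2 + Real.log (aN (σ.c : K) / N σ.c)) * Complex.exp
            (s * ((Real.log r + κ0 - 2 * Real.log (aN (σ.c : K) / N σ.c) : ℝ) : ℂ))) := by
      rw [h6, Kn.cpow_eq (mul_pos hr' hN), Kn.cpow_eq (pow_pos hN 2), Real.log_mul hr'.ne' hN.ne',
        Real.log_pow]
      simp only [← Complex.exp_add]
      congr 1
      push_cast
      ring
    beta_reduce
    rw [hE2 s hs.1, h5, Finset.mul_sum, Finset.mul_sum, Finset.mul_sum]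
    refine Finset.sum_congr rfl fun g _ => ?_
    rw [c7_dser (z := ψ u * conj ε1 * ε2 * (k : ℂ)⁻¹ * (Complex.exp
          (-(Real.log r : ℂ) / 6 - κ0 / 2 + Real.log (aN (σ.c : K) / N σ.c)) * Complex.exp
            (s * ((Real.log r + κ0 - 2 * Real.log (aN (σ.c : K) / N σ.c) : ℝ) : ℂ))))
      (a := fun n => ψ u * conj ε1 * ε2 * ε * ω g * gs c1 (dual c1 ψ) n * _)
      (b := fun m => ε * ω g * gs c1 (dual c1 ψ) m * bet M a ν.ξ g m s) (fun m => by ring)]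
    linear_combination (ψ u * conj ε1 * ε2 * (k : ℂ)⁻¹ * gamX ν.ξ s *
      dser (fun m => ε * ω g * gs c1 (dual c1 ψ) m * bet M a ν.ξ g m s) (1 - s)) * h7

/-- **One class.**  `exists_Theta`, `exists_reps` at the level `e` of `ThFn.aut`; `I = Σ y : S, G K`
(`BFam.sigma`), `ω (y', g) = if y' = y then ω g else 0` (`Fintype.sum_sigma`, `Finset.sum_eq_single`). -/
theorem class_fe {n0 : R K} (hn0 : Prim n0) : ∃ (I : Type) (_ : Fintype I)
    (β : Tw K → I → R K → ℂ → ℂ), BFam β ∧ VorFE β (Cls n0) := by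
  obtain ⟨j, Θ, hΘ, hA⟩ := exists_Theta hn0
  obtain ⟨e, he, haut⟩ := hΘ.aut
  obtain ⟨S, hS0, hS⟩ := exists_reps (K := K) (Setup.lev_pos.trans he)
  have h1 := fun y : S => cusp_fe hn0 hΘ hA he haut (y := toR y.1)
    (fun h => hS0 y.1 y.2 (toR_injective (h.trans (map_zero _).symm))) (SInt.coe y.1)
  choose β hβ h1 using h1
  refine ⟨Σ _ : S, G K, inferInstance, _, BFam.sigma hβ, fun ν c1 hc1 ψ hψ hψ1 => ?_⟩
  obtain ⟨y, hy, u, w, hw, e1⟩ := hS c1 (b4_coe_ne_zero hc1.ne_zero)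
  have hy0 : ((y : 𝓞 K) : K) ≠ 0 := NumberField.RingOfIntegers.coe_ne_zero_iff.2 (hS0 y hy)
  obtain ⟨ω, hω, E, hE, hg, h2, σ0, h3⟩ := h1 ⟨y, hy⟩ ν c1 hc1 ψ hψ hψ1 u ((u⁻¹ : (R K)ˣ) * c1)
    (by simp) (by
      have e2 : (((u⁻¹ : (R K)ˣ) : R K) : K) * ((u : R K) : K) = 1 := by
        rw [← Subring.coe_mul, Units.inv_mul, Subring.coe_one]
      have e3 : ((((u⁻¹ : (R K)ˣ) : R K) * c1 : R K) : K) / ((toR y : R K) : K) = w := by
        rw [Subring.coe_mul, e1, div_eq_iff (show ((toR y : R K) : K) ≠ 0 from hy0)]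
        change _ = w * ((y : 𝓞 K) : K)
        linear_combination (((y : 𝓞 K) : K) * w) * e2
      rw [e3]
      exact hw)
  refine ⟨fun p => if p.1 = ⟨y, hy⟩ then ω p.2 else 0, fun p => ?_, E, hE, hg, h2, σ0, fun s hs => ?_⟩
  · beta_reduce
    split_ifs
    · exact hω _
    · simp
  · rw [h3 s hs, Fintype.sum_sigma, Finset.sum_eq_single (⟨y, hy⟩ : S)]
    · simp
    · intro y' _ hy'
      simp [hy', dser]
    · exact fun h => absurd (Finset.mem_univ _) h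

end Crest.Agent.R312.Th
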