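import Crest.Agent.R312.B5C0

/-!
# R312 / B5C8 : the gamma factor, kernels, and the kernel lemma with `s`-dependent dual coefficients
-/

set_option autoImplicit false
set_option linter.unusedSectionVars false

noncomputable section

open scoped Classical ComplexConjugate NumberField Topology
open MeasureTheory Filter
open Crest.Agent.R17.Vor (SL X pt act Vr nn gamL ExpGr voc4_e)

namespace Crest.Agent.R312.Th

variable {K : Type} [Field K] [NumberField K] [Fld K] [Loc K] [Setup K]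

omit [Loc K] [Setup K] in
/-- `R17.Vor.gamL_diff 1` -/
theorem gamX_diff (ξ : Pl K → ℝ) : DifferentiableOn ℂ (gamX ξ) {s | s.re < 4 / 3} := by
  unfold gamX
  refine DifferentiableOn.fun_finsetProd fun i _ => ?_
  refine (R17.Vor.gamL_diff 1).comp (by fun_prop) fun s hs => ?_
  have hs' : s.re < 4 / 3 := hs
  simp only [Set.mem_ofPred_eq, Complex.sub_re, Complex.mul_re, Complex.ofReal_re, Complex.I_re,
    Complex.ofReal_im, Complex.I_im, Int.natAbs_one, Nat.cast_one]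
  linarith

omit [Loc K] [Setup K] in
/-- `R17.Vor.gamL_growth 1` -/
theorem gamX_growth (ξ : Pl K → ℝ) (σ1 : ℝ) {σ2 : ℝ} (h : σ2 < 4 / 3) : ∃ C : ℝ, 0 ≤ C ∧ ∀ s : ℂ,
    σ1 ≤ s.re → s.re ≤ σ2 → ‖gamX ξ s‖ ≤ C * Real.exp (C * |s.im|) := by
  obtain ⟨C, hC⟩ := R17.Vor.gamL_growth 1 σ1 σ2 (by simp; linarith)
  set D : ℝ := |C| * Real.exp (|C| * ‖ξ‖) with hD
  have hD0 : 0 ≤ D := by positivity
  refine ⟨D ^ dd K + dd K * |C|, by positivity, fun s h1 h2 => ?_⟩
  have hi : ∀ i : Pl K, ‖gamL 1 (s - ξ i * Complex.I)‖ ≤ D * Real.exp (|C| * |s.im|) := by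
    intro i
    have h3 := hC (s - ξ i * Complex.I) (by simpa using h1) (by simpa using h2)
    have e : (s - ξ i * Complex.I).im = s.im - ξ i := by simp
    rw [e] at h3
    have h4 : |s.im - ξ i| ≤ ‖ξ‖ + |s.im| := by
      have a1 := abs_sub s.im (ξ i)
      have a2 : |ξ i| ≤ ‖ξ‖ := by simpa using norm_le_pi_norm ξ i
      linarith
    refine h3.trans ?_
    rw [hD, mul_assoc, ← Real.exp_add, ← mul_add]
    exact mul_le_mul (le_abs_self C) (Real.exp_le_exp.2
      (mul_le_mul (le_abs_self C) h4 (abs_nonneg _) (abs_nonneg _))) (Real.exp_pos _).le (abs_nonneg _)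
  unfold gamX
  rw [norm_prod]
  refine (Finset.prod_le_prod (fun i _ => norm_nonneg _) fun i _ => hi i).trans ?_
  rw [Finset.prod_const, Finset.card_univ, mul_pow, ← Real.exp_nat_mul]
  change D ^ dd K * Real.exp (dd K * (|C| * |s.im|)) ≤ _
  refine mul_le_mul (le_add_of_nonneg_right (by positivity)) (Real.exp_le_exp.2 ?_)
    (Real.exp_pos _).le (by positivity)
  rw [← mul_assoc]
  exact mul_le_mul_of_nonneg_right (le_add_of_nonneg_left (by positivity)) (abs_nonneg _)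

theorem c8_ratio {a : ℝ} (ha : 0 < a) : ∃ C : ℝ, 0 ≤ C ∧ ∀ z w : ℂ, z.re = a → conj w = z →
    ‖Complex.Gamma w‖ * ‖(Complex.Gamma (z + 1 / 2))⁻¹‖ ≤ C := by
  set B : ℝ := ∫ x : ℝ in (0 : ℝ)..1, ‖(x : ℂ) ^ ((a : ℂ) - 1) * (1 - (x : ℂ)) ^ ((1 / 2 : ℂ) - 1)‖
    with hB
  have hG : Complex.Gamma (1 / 2) ≠ 0 := Complex.Gamma_ne_zero_of_re_pos (by norm_num)
  refine ⟨|B| * ‖(Complex.Gamma (1 / 2))⁻¹‖, by positivity, fun z w hz hw => ?_⟩
  have h1 := Complex.Gamma_mul_Gamma_eq_betaIntegral (s := z) (t := 1 / 2) (by rw [hz]; exact ha)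
    (by norm_num)
  have h2 : ‖Complex.Gamma w‖ = ‖Complex.Gamma z‖ := by
    rw [← hw, Complex.Gamma_conj, Complex.norm_conj]
  have hG2 : Complex.Gamma (z + 1 / 2) ≠ 0 :=
    Complex.Gamma_ne_zero_of_re_pos (by simp [hz]; linarith)
  have h3 : Complex.Gamma z * (Complex.Gamma (z + 1 / 2))⁻¹ =
      Complex.betaIntegral z (1 / 2) * (Complex.Gamma (1 / 2))⁻¹ := by
    rw [← div_eq_mul_inv, ← div_eq_mul_inv, div_eq_div_iff hG2 hG, h1, mul_comm]
  rw [h2, ← norm_mul, h3, norm_mul]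
  refine mul_le_mul_of_nonneg_right (le_trans ?_ (le_abs_self B)) (norm_nonneg _)
  unfold Complex.betaIntegral
  refine (intervalIntegral.norm_integral_le_integral_norm zero_le_one).trans (le_of_eq ?_)
  refine intervalIntegral.integral_congr_ae (Eventually.of_forall fun x hx => ?_)
  rw [Set.uIoc_of_le zero_le_one] at hx
  rw [norm_mul, norm_mul, Complex.norm_cpow_eq_rpow_re_of_pos hx.1,
    Complex.norm_cpow_eq_rpow_re_of_pos hx.1]
  simp [hz]

/-- Either `PhragmenLindelof.vertical_strip` between `Re s = 1/2` (`norm_gamL_left 1 0`) and `Re s = 1`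
(`norm_gamL_one`) with `gamL_growth`, or `‖Γ(z)/Γ(z+1/2)‖ ≤ B(Re z, 1/2)/Γ(1/2)`
(`Complex.Gamma_mul_Gamma_eq_betaIntegral`, `Complex.Gamma_conj`). -/
theorem norm_gamL_34 : ∃ C : ℝ, 0 ≤ C ∧ ∀ s : ℂ, s.re = 3 / 4 → ‖gamL 1 s‖ ≤ C := by
  obtain ⟨C1, hC1, h1⟩ := c8_ratio (a := 7 / 12) (by norm_num)
  obtain ⟨C2, hC2, h2⟩ := c8_ratio (a := 11 / 12) (by norm_num)
  refine ⟨C1 * C2, by positivity, fun s hs => ?_⟩
  have a1 := h1 (s - 1 / 6) (4 / 3 - s) (by simp [hs]; norm_num) (by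
    apply Complex.ext
    · rw [Complex.conj_re]
      simp [hs]
      norm_num
    · rw [Complex.conj_im]
      simp)
  have a2 := h2 (s + 1 / 6) (5 / 3 - s) (by simp [hs]; norm_num) (by
    apply Complex.ext
    · rw [Complex.conj_re]
      simp [hs]
      norm_num
    · rw [Complex.conj_im]
      simp)
  have e : gamL 1 s = (Complex.Gamma (4 / 3 - s) * (Complex.Gamma (s - 1 / 6 + 1 / 2))⁻¹) *
      (Complex.Gamma (5 / 3 - s) * (Complex.Gamma (s + 1 / 6 + 1 / 2))⁻¹) := by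
    unfold gamL
    simp only [Int.natAbs_one, Nat.cast_one]
    rw [show (5 / 6 + 1 / 2 - s : ℂ) = 4 / 3 - s by ring,
      show (7 / 6 + 1 / 2 - s : ℂ) = 5 / 3 - s by ring]
    ring
  rw [e, norm_mul, norm_mul, norm_mul]
  exact mul_le_mul a1 a2 (by positivity) hC1

omit [Loc K] [Setup K] in
theorem norm_gamX_34 : ∃ C : ℝ, 0 ≤ C ∧ ∀ (ξ : Pl K → ℝ) (s : ℂ), s.re = 3 / 4 → ‖gamX ξ s‖ ≤ C := by
  obtain ⟨C, hC, h⟩ := norm_gamL_34
  refine ⟨C ^ dd K, by positivity, fun ξ s hs => ?_⟩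
  unfold gamX
  rw [norm_prod]
  refine (Finset.prod_le_prod (fun i _ => norm_nonneg _)
    fun i _ => h _ (by simpa using hs)).trans (le_of_eq ?_)
  rw [Finset.prod_const, Finset.card_univ]
  rfl

omit [Loc K] [Setup K] in
/-- `norm_gamL_left 1 j`, `|ξ i| ≤ ‖ξ‖`; `B = 4 j d` -/
theorem norm_gamX_left (j : ℕ) : ∃ (C : ℝ) (B : ℕ), 0 ≤ C ∧ ∀ (ξ : Pl K → ℝ) (s : ℂ),
    s.re = 1 / 2 - j → ‖gamX ξ s‖ ≤ C * (1 + |s.im| + ‖ξ‖) ^ B := by
  refine ⟨(2 * j + 2 : ℝ) ^ (4 * j * dd K), 4 * j * dd K, by positivity, fun ξ s hs => ?_⟩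
  have hi : ∀ i : Pl K, ‖gamL 1 (s - ξ i * Complex.I)‖ ≤
      ((2 * j + 2 : ℝ) * (1 + |s.im| + ‖ξ‖)) ^ (4 * j) := by
    intro i
    have h3 := R17.Vor.norm_gamL_left 1 j (s := s - ξ i * Complex.I) (by simpa using hs)
    have e : (s - ξ i * Complex.I).im = s.im - ξ i := by simp
    rw [e] at h3
    refine h3.trans (pow_le_pow_left₀ (by positivity) ?_ _)
    have a1 := abs_sub s.im (ξ i)
    have a2 : |ξ i| ≤ ‖ξ‖ := by simpa using norm_le_pi_norm ξ i
    have a3 := abs_nonneg s.im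
    have a4 := norm_nonneg ξ
    have a5 : (0 : ℝ) ≤ j := Nat.cast_nonneg j
    simp only [Int.natAbs_one, Nat.cast_one]
    nlinarith [mul_nonneg a5 a3, mul_nonneg a5 a4]
  unfold gamX
  rw [norm_prod]
  refine (Finset.prod_le_prod (fun i _ => norm_nonneg _) fun i _ => hi i).trans (le_of_eq ?_)
  rw [Finset.prod_const, Finset.card_univ, ← pow_mul, mul_pow]
  rfl

omit [Loc K] [Setup K] in
/-- `Kn.shift` from `1/4` to `-j`, then `norm_gamX_left`, `1 + |t+τ| + ‖ξ‖ ≤ (1+|t|+‖ξ‖)(1+|τ|)` and the Gaussian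
integral (see `R17.Vor.kern_gamL_le`). -/
theorem kern_le (j : ℕ) : ∃ (C : ℝ) (B : ℕ), 0 ≤ C ∧ ∀ (ξ : Pl K → ℝ) (β : ℂ → ℂ) (A : ℝ),
    DifferentiableOn ℂ β {s | s.re < 4 / 5} →
    (∀ s : ℂ, 1 / 2 - j ≤ s.re → s.re ≤ 4 / 5 → ‖β s‖ ≤ A) → ∀ t u : ℝ,
      ‖kern (fun s => gamX ξ s * β s) (1 / 4) t u‖ ≤
        C * A * (1 + |t| + ‖ξ‖) ^ B * Real.exp (-(j * u)) := by
  obtain ⟨C0, B, hC0, hB⟩ := norm_gamX_left (K := K) j
  have hgi : Integrable (fun τ : ℝ => Real.exp (-(1 / 8) * τ ^ 2)) :=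
    integrable_exp_neg_mul_sq (by norm_num)
  set D : ℝ := C0 * Real.sqrt Real.pi * Real.exp ((j : ℝ) ^ 2 / 4 + 2 * (B : ℝ) ^ 2) with hD
  have hI : 0 ≤ ∫ τ : ℝ, Real.exp (-(1 / 8) * τ ^ 2) := integral_nonneg fun _ => (Real.exp_pos _).le
  refine ⟨‖(1 / (2 * Real.pi) : ℂ)‖ * (D * ∫ τ : ℝ, Real.exp (-(1 / 8) * τ ^ 2)), B, by positivity,
    fun ξ β A hβ hA t u => ?_⟩
  have hj : (0 : ℝ) ≤ j := Nat.cast_nonneg j
  have hA0 : 0 ≤ A := (norm_nonneg _).trans (hA (1 / 2) (by simp) (by norm_num))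
  obtain ⟨Cg, hCg0, hCg⟩ := gamX_growth ξ (1 / 2 + -j) (σ2 := 1 / 2 + 1 / 4) (by norm_num)
  have h1 : kern (fun s => gamX ξ s * β s) (-j : ℝ) t u =
      kern (fun s => gamX ξ s * β s) (1 / 4) t u := by
    refine Kn.shift (C := Cg * (A + 1)) (by linarith) t u ?_ fun s h1 h2 => ?_
    · refine ((gamX_diff ξ).mono fun s hs => ?_).mul (hβ.mono fun s hs => ?_)
      · exact lt_of_le_of_lt hs.2 (by norm_num)
      · exact lt_of_le_of_lt hs.2 (by norm_num)
    · rw [norm_mul]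
      have a1 := hCg s h1 h2
      have a2 := hA s (by linarith) (by linarith)
      calc _ ≤ Cg * Real.exp (Cg * |s.im|) * (A + 1) :=
            mul_le_mul a1 (by linarith) (norm_nonneg _) (by positivity)
        _ = Cg * (A + 1) * Real.exp (Cg * |s.im|) := by ring
        _ ≤ _ := by
            gcongr
            exact le_mul_of_one_le_right hCg0 (by linarith)
  rw [← h1, kern, norm_mul, mul_assoc, mul_assoc, mul_assoc]
  refine mul_le_mul_of_nonneg_left ?_ (norm_nonneg _)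
  refine le_trans (norm_integral_le_of_norm_le
    (hgi.const_mul (D * (A * ((1 + |t| + ‖ξ‖) ^ B * Real.exp (-(j * u))))))
    (Eventually.of_forall fun τ => ?_)) (le_of_eq ?_)
  · have e1 : (1 / 2 + t * Complex.I + (((-j : ℝ) : ℂ) + τ * Complex.I)).im = t + τ := by simp
    have e2 : (1 / 2 + t * Complex.I + (((-j : ℝ) : ℂ) + τ * Complex.I)).re = 1 / 2 - j := by
      simp; ring
    have h2 := hB ξ _ e2
    have h2' := hA _ e2.ge (by rw [e2]; linarith)
    rw [e1] at h2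
    have ht := abs_nonneg t
    have hτ := abs_nonneg τ
    have hξ := norm_nonneg ξ
    have h3 : 1 + |t + τ| + ‖ξ‖ ≤ (1 + |t| + ‖ξ‖) * Real.exp |τ| := by
      have b1 := abs_add_le t τ
      have b2 := Real.add_one_le_exp |τ|
      calc _ ≤ (1 + |t| + ‖ξ‖) * (|τ| + 1) := by
            nlinarith [mul_nonneg ht hτ, mul_nonneg hξ hτ]
        _ ≤ _ := by gcongr
    have h4 := le_trans h2 (mul_le_mul_of_nonneg_left (pow_le_pow_left₀ (by positivity) h3 _) hC0)
    rw [mul_pow, ← Real.exp_nat_mul] at h4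
    rw [norm_mul, norm_mul, norm_mul, Complex.norm_exp, R17.Vor.vogam_re, Complex.norm_real,
      Real.norm_of_nonneg (Real.sqrt_nonneg _)]
    refine le_trans (mul_le_mul_of_nonneg_right
      (mul_le_mul h4 h2' (norm_nonneg _) (by positivity)) (by positivity)) ?_
    have h5 : Real.exp ((B : ℝ) * |τ|) * Real.exp ((-j : ℝ) ^ 2 / 4 + -j * u - τ ^ 2 / 4) ≤
        Real.exp ((j : ℝ) ^ 2 / 4 + 2 * (B : ℝ) ^ 2) * Real.exp (-(j * u)) *
          Real.exp (-(1 / 8) * τ ^ 2) := by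
      simp only [← Real.exp_add]
      refine Real.exp_le_exp.mpr ?_
      rw [← sq_abs τ]
      nlinarith [sq_nonneg (|τ| - 4 * B)]
    calc _ = C0 * A * (1 + |t| + ‖ξ‖) ^ B * Real.sqrt Real.pi *
          (Real.exp ((B : ℝ) * |τ|) * Real.exp ((-j : ℝ) ^ 2 / 4 + -j * u - τ ^ 2 / 4)) := by ring
      _ ≤ C0 * A * (1 + |t| + ‖ξ‖) ^ B * Real.sqrt Real.pi *
          (Real.exp ((j : ℝ) ^ 2 / 4 + 2 * (B : ℝ) ^ 2) * Real.exp (-(j * u)) *
            Real.exp (-(1 / 8) * τ ^ 2)) := by gcongr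
      _ = _ := by
          rw [hD]
          ring
  · rw [integral_const_mul]
    ring

/-- **Kernel lemma** (copy the proof of `kernel_lemma` in `B0Kernel`): `blks_mellin` on `Re w = j`, `Kn.shift` to
`Re w = -j`, the functional equation, `integral_finset_sum` and `hasSum_integral_of_summable_integral_norm` for each
`i` (`‖b i n s‖ ≤ C N n`, `summable_N_rpow`, `Kn.bound` for `gamX ξ`), and `Kn.shift` for each term. -/
theorem kernel_lemma' {I : Type} [Fintype I] {ξ : Pl K → ℝ} {a : R K → ℂ} {b : I → R K → ℂ → ℂ} {ρ : ℝ}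
    (hρ : 0 < ρ) (ha : PolyBd a) (hb1 : ∀ i n, Prim n → DifferentiableOn ℂ (b i n) {s | s.re < 4 / 5})
    (hb2 : ∀ σ1 : ℝ, ∃ C : ℝ, ∀ i n (s : ℂ), Prim n → σ1 ≤ s.re → s.re ≤ 4 / 5 → ‖b i n s‖ ≤ C * N n)
    (h : HasFE ξ a b ρ) (y t : ℝ) :
    pb a y t = (ρ : ℂ) ^ (-(t * Complex.I)) * ∑ i, ∑' n : R K, if Prim n then
      (N n : ℂ) ^ (-(1 / 2 : ℂ) + t * Complex.I) *
        kern (fun s => gamX ξ s * b i n s) (1 / 4) t (Real.log (N n) + y - Real.log ρ) else 0 := by
  obtain ⟨D, hD, hgD, ⟨σa, hσa⟩, σb, hσb⟩ := h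
  obtain ⟨xa, hxa⟩ := polySummable ha
  set j : ℝ := |xa| + |σa| + |σb| + 3 with hj
  have p1 := le_abs_self xa
  have p3 := le_abs_self σa
  have p4 := neg_abs_le σb
  have q1 := abs_nonneg xa
  have q3 := abs_nonneg σa
  have q4 := abs_nonneg σb
  -- right line
  have h1 : pb a y t = kern D j t y := by
    rw [pb, blks_mellin y j _ (hxa _ (by simp; linarith)), kern]
    congr 1
    refine integral_congr_ae (Filter.Eventually.of_forall fun τ => ?_)
    simp only
    rw [hσa _ (by simp; linarith)]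
  obtain ⟨CD, hCD⟩ := hgD (1 / 2 + -j) (1 / 2 + j)
  have h2 : kern D (-j) t y = kern D j t y :=
    Kn.shift (by linarith) t y hD.differentiableOn hCD
  obtain ⟨Cγ, hCγ0, hCγ⟩ := gamX_growth ξ (1 / 2 + -j) (σ2 := 1 / 2 + 1 / 4) (by norm_num)
  obtain ⟨Cb, hCb⟩ := hb2 (1 / 2 + -j)
  have hG : ∀ i n, Prim n → DifferentiableOn ℂ (fun s => gamX ξ s * b i n s)
      {s | 1 / 2 + -j ≤ s.re ∧ s.re ≤ 1 / 2 + 1 / 4} := by
    intro i n hn
    refine ((gamX_diff ξ).mono fun s hs => ?_).mul ((hb1 i n hn).mono fun s hs => ?_)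
    · exact lt_of_le_of_lt hs.2 (by norm_num)
    · exact lt_of_le_of_lt hs.2 (by norm_num)
  have h3 : ∀ i n, Prim n → ∀ u, kern (fun s => gamX ξ s * b i n s) (-j) t u =
      kern (fun s => gamX ξ s * b i n s) (1 / 4) t u := by
    intro i n hn u
    have hN := N_pos hn.ne_zero
    refine Kn.shift (C := Cγ * (|Cb| * N n + 1)) (by linarith) t u (hG i n hn) fun s h1 h2 => ?_
    rw [norm_mul]
    have a1 := hCγ s h1 h2
    have a2 := (hCb i n s hn h1 (by linarith)).trans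
      (mul_le_mul_of_nonneg_right (le_abs_self Cb) hN.le)
    have a3 : 0 ≤ |Cb| * N n := by positivity
    calc _ ≤ Cγ * Real.exp (Cγ * |s.im|) * (|Cb| * N n + 1) :=
          mul_le_mul a1 (by linarith) (norm_nonneg _) (by positivity)
      _ = Cγ * (|Cb| * N n + 1) * Real.exp (Cγ * |s.im|) := by ring
      _ ≤ _ := by
          gcongr
          exact le_mul_of_one_le_right hCγ0 (by linarith)
  obtain ⟨A, hA, hbd⟩ := Kn.bound t hCγ
  let F : I → R K → ℝ → ℂ := fun i n τ => if Prim n then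
    (N n : ℂ) ^ (-(1 / 2 : ℂ) + t * Complex.I) *
      Kn.ki (fun s => gamX ξ s * b i n s) t (Real.log (N n) + y - Real.log ρ)
        ((-j : ℝ) + τ * Complex.I) else 0
  set B := |Cb| * A * Real.exp ((-j) ^ 2 / 4 + -j * (y - Real.log ρ)) with hB
  have hFb : ∀ i n τ, ‖F i n τ‖ ≤
      (if Prim n then N n ^ (-(j - 1 / 2)) else 0) * B * Real.exp (-(1 / 8) * τ ^ 2) := by
    intro i n τ
    simp only [F]
    split_ifs with hn
    swap
    · simp
    · have hN := N_pos hn.ne_zero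
      have a1 := hbd (-j) τ (Real.log (N n) + y - Real.log ρ) le_rfl (by linarith)
      have a2 := (hCb i n (1 / 2 + t * Complex.I + ((-j : ℝ) + τ * Complex.I)) hn (by simp)
        (by simp; linarith)).trans (mul_le_mul_of_nonneg_right (le_abs_self Cb) hN.le)
      have e0 : Kn.ki (fun s => gamX ξ s * b i n s) t (Real.log (N n) + y - Real.log ρ)
          ((-j : ℝ) + τ * Complex.I) =
          b i n (1 / 2 + t * Complex.I + ((-j : ℝ) + τ * Complex.I)) *
            Kn.ki (gamX ξ) t (Real.log (N n) + y - Real.log ρ) ((-j : ℝ) + τ * Complex.I) := by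
        simp only [Kn.ki]
        ring
      rw [e0, norm_mul, norm_mul, Complex.norm_cpow_eq_rpow_re_of_pos hN]
      refine (mul_le_mul_of_nonneg_left (mul_le_mul a2 a1 (norm_nonneg _) (by positivity))
        (by positivity)).trans (le_of_eq ?_)
      have e1 : (-(1 / 2 : ℂ) + t * Complex.I).re = -(1 / 2) := by simp
      have e2 : N n ^ (-(1 / 2) : ℝ) * N n *
          Real.exp ((-j) ^ 2 / 4 + -j * (Real.log (N n) + y - Real.log ρ)) =
          N n ^ (-(j - 1 / 2)) * Real.exp ((-j) ^ 2 / 4 + -j * (y - Real.log ρ)) := by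
        rw [← Real.rpow_add_one hN.ne', Real.rpow_def_of_pos hN, Real.rpow_def_of_pos hN,
          ← Real.exp_add, ← Real.exp_add]
        congr 1
        ring
      rw [e1, hB]
      linear_combination (|Cb| * A * Real.exp (-(1 / 8) * τ ^ 2)) * e2
  have hgi : Integrable (fun τ : ℝ => Real.exp (-(1 / 8) * τ ^ 2)) :=
    integrable_exp_neg_mul_sq (by norm_num)
  have hsN := summable_N_rpow (K := K) (σ := j - 1 / 2) (by linarith)
  have hFi : ∀ i n, Integrable (F i n) := by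
    intro i n
    refine Integrable.mono' (hgi.const_mul _) (Continuous.aestronglyMeasurable ?_)
      (Filter.Eventually.of_forall (hFb i n))
    simp only [F]
    split_ifs with hn
    swap
    · exact continuous_const
    · refine continuous_const.mul ?_
      refine (Kn.ki_diff t _ (hG i n hn)).continuousOn.comp_continuous (by fun_prop) fun τ => ?_
      simp
      linarith
  have hFs : ∀ i, Summable (fun n => ∫ τ, ‖F i n τ‖) := by
    intro i
    refine Summable.of_nonneg_of_le (fun n => integral_nonneg fun τ => norm_nonneg _) (fun n => ?_)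
      ((hsN.mul_right B).mul_right (∫ τ : ℝ, Real.exp (-(1 / 8) * τ ^ 2)))
    rw [← integral_const_mul]
    exact integral_mono (hFi i n).norm (hgi.const_mul _) (hFb i n)
  have hFp : ∀ i τ, Summable (fun n => F i n τ) := fun i τ =>
    Summable.of_norm_bounded ((hsN.mul_right B).mul_right _) fun n => hFb i n τ
  have hFq : ∀ i, Summable (fun n => ∫ τ, F i n τ) := fun i =>
    Summable.of_norm_bounded (hFs i) fun n => norm_integral_le_integral_norm _
  have hHi : ∀ n, Integrable (fun τ => ∑ i, F i n τ) := fun n =>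
    integrable_finsetSum _ fun i _ => hFi i n
  have hHs : Summable (fun n => ∫ τ, ‖∑ i, F i n τ‖) := by
    refine Summable.of_nonneg_of_le (fun n => integral_nonneg fun τ => norm_nonneg _) (fun n => ?_)
      (summable_sum (s := Finset.univ) fun i _ => hFs i)
    rw [← integral_finsetSum _ fun i _ => (hFi i n).norm]
    exact integral_mono (hHi n).norm (integrable_finsetSum _ fun i _ => (hFi i n).norm)
      fun τ => norm_sum_le _ _
  have hsum := hasSum_integral_of_summable_integral_norm hHi hHs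
  have hterm : ∀ i (n : R K), (if Prim n then (N n : ℂ) ^ (-(1 / 2 : ℂ) + t * Complex.I) *
      kern (fun s => gamX ξ s * b i n s) (1 / 4) t (Real.log (N n) + y - Real.log ρ) else 0) =
      (1 / (2 * Real.pi) : ℂ) * ∫ τ, F i n τ := by
    intro i n
    simp only [F]
    split_ifs with hn
    swap
    · simp
    · rw [← h3 i n hn, Kn.kern_eq, integral_const_mul]
      ring
  simp only [hterm, tsum_mul_left]
  have hsw : ∑ i, ∑' n, ∫ τ, F i n τ = ∫ τ, ∑ i, ∑' n, F i n τ := by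
    rw [← Summable.tsum_finsetSum fun i _ => hFq i]
    simp only [← fun n => integral_finsetSum Finset.univ fun i _ => hFi i n]
    rw [hsum.tsum_eq]
    refine integral_congr_ae (Filter.Eventually.of_forall fun τ => ?_)
    exact Summable.tsum_finsetSum fun i _ => hFp i τ
  rw [← Finset.mul_sum, hsw, h1, ← h2, Kn.kern_eq, mul_left_comm,
    ← integral_const_mul ((ρ : ℂ) ^ (-(t * Complex.I)))]
  congr 1
  refine integral_congr_ae (Filter.Eventually.of_forall fun τ => ?_)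
  simp only
  rw [Kn.ki, hσb _ (by simp; linarith), Finset.mul_sum, Finset.mul_sum, Finset.sum_mul]
  refine Finset.sum_congr rfl fun i _ => ?_
  rw [dser, ← tsum_mul_left, ← tsum_mul_left, ← tsum_mul_right]
  refine tsum_congr fun n => ?_
  simp only [F]
  split_ifs with hn
  swap
  · simp
  · have hN := N_pos hn.ne_zero
    rw [Kn.ki, Kn.cpow_eq hρ, Kn.cpow_eq hρ, Kn.cpow_eq hN, Kn.cpow_eq hN]
    set w : ℂ := (-j : ℝ) + τ * Complex.I
    have e : Complex.exp ((1 / 2 - (1 / 2 + t * Complex.I + w)) * Real.log ρ) *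
        Complex.exp (-(1 - (1 / 2 + t * Complex.I + w)) * Real.log (N n)) *
          Complex.exp (w ^ 2 / 4 + w * y) =
        Complex.exp (-(t * Complex.I) * Real.log ρ) *
          Complex.exp ((-(1 / 2 : ℂ) + t * Complex.I) * Real.log (N n)) *
          Complex.exp (w ^ 2 / 4 + w * ((Real.log (N n) + y - Real.log ρ : ℝ) : ℂ)) := by
      simp only [← Complex.exp_add]
      congr 1
      push_cast
      ring
    linear_combination (gamX ξ (1 / 2 + t * Complex.I + w) * b i n (1 / 2 + t * Complex.I + w) *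
      (Real.sqrt Real.pi : ℂ)) * e

end Crest.Agent.R312.Th
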