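import Crest.Agent.R312.B5C7
import Crest.Agent.R312.B5C8

/-!
# R312 / B5C9 : summation over the classes and the final package
-/

set_option autoImplicit false
set_option linter.unusedSectionVars false

noncomputable section

open scoped Classical ComplexConjugate NumberField Topology
open MeasureTheory Filter
open Crest.Agent.R17.Vor (SL X pt act Vr nn gamL ExpGr voc4_e)

namespace Crest.Agent.R312.Th

variable {K : Type} [Field K] [NumberField K] [Fld K] [Loc K] [Setup K]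

theorem HasFE.congr {I : Type} [Fintype I] {ξ : Pl K → ℝ} {a a' : R K → ℂ} {b : I → R K → ℂ → ℂ} {ρ : ℝ}
    (h : HasFE ξ a b ρ) (ha : ∀ n, Prim n → a n = a' n) : HasFE ξ a' b ρ := by
  obtain ⟨E, h1, h2, ⟨σ0, h3⟩, h4⟩ := h
  exact ⟨E, h1, h2, ⟨σ0, fun s hs => (h3 s hs).trans (dser_congr ha s)⟩, h4⟩

theorem b5c9_expGr {J : Type} (T : Finset J) {E : J → ℂ → ℂ} (h : ∀ j ∈ T, ExpGr (E j)) :
    ExpGr fun s => ∑ j ∈ T, E j s := by
  induction T using Finset.induction_on with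
  | empty => exact expGr_of_bdd fun _ _ => ⟨0, fun s _ _ => by simp⟩
  | insert j T hj ih =>
    simp only [Finset.sum_insert hj]
    exact expGr_add (h j (Finset.mem_insert_self _ _)) (ih fun i hi => h i (Finset.mem_insert_of_mem hi))

theorem b5c9_tau {n : R K} (hn : Prim n) : ‖tau n‖ ≤ N n := by
  refine (norm_tau_le hn).trans ?_
  conv_rhs => rw [← Real.rpow_one (N n)]
  exact Real.rpow_le_rpow_of_exponent_le (one_le_N hn.ne_zero) (by norm_num)

/-- `E = ∑ E_j` (`expGr_add`), `dser` is additive far to the right (`polySummable`,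
`Summable.tsum_finsetSum`), `Fintype.sum_sigma` -/
theorem HasFE.sigma {J : Type} [Fintype J] {I : J → Type} [∀ j, Fintype (I j)] {ξ : Pl K → ℝ}
    {a : J → R K → ℂ} {b : ∀ j, I j → R K → ℂ → ℂ} {ρ : ℝ} (ha : ∀ j, PolyBd (a j))
    (h : ∀ j, HasFE ξ (a j) (b j) ρ) :
    HasFE ξ (fun n => ∑ j, a j n) (fun p : Σ j, I j => b p.1 p.2) ρ := by
  choose E h1 h2 h3 h4 using h
  choose σ h3 using h3
  choose σ' h4 using h4
  choose x hx using fun j => polySummable (ha j)
  have hle : ∀ (f : J → ℝ) (j : J), |f j| ≤ ∑ i, |f i| := fun f j =>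
    Finset.single_le_sum (f := fun i => |f i|) (fun _ _ => abs_nonneg _) (Finset.mem_univ j)
  have hnn : ∀ f : J → ℝ, 0 ≤ ∑ i, |f i| := fun f => Finset.sum_nonneg fun _ _ => abs_nonneg _
  refine ⟨fun s => ∑ j, E j s, Differentiable.fun_sum fun j _ => h1 j, b5c9_expGr _ fun j _ => h2 j,
    ⟨∑ j, |σ j| + ∑ j, |x j|, fun s hs => ?_⟩, -∑ j, |σ' j|, fun s hs => ?_⟩
  · have hs1 : ∀ j, σ j < s.re := fun j => by linarith [le_abs_self (σ j), hle σ j, hnn x]
    have hs2 : ∀ j, x j ≤ s.re := fun j => by linarith [le_abs_self (x j), hle x j, hnn σ]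
    simp only [fun j => h3 j s (hs1 j), dser]
    rw [← Summable.tsum_finsetSum fun j _ => ?_]
    · refine tsum_congr fun n => ?_
      split_ifs
      · rw [Finset.sum_mul]
      · exact Finset.sum_const_zero
    · refine Summable.of_norm ((hx j _ (hs2 j)).congr fun n => ?_)
      split_ifs with hn
      · rw [norm_mul, Complex.norm_cpow_eq_rpow_re_of_pos (N_pos hn.ne_zero), Complex.neg_re]
      · exact norm_zero.symm
  · have hs1 : ∀ j, s.re < σ' j := fun j => by linarith [neg_abs_le (σ' j), hle σ' j]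
    simp only [fun j => h4 j s (hs1 j)]
    rw [← Finset.mul_sum, Fintype.sum_sigma]

theorem polyBd_cls (P : R K → Prop) (ν : Tw K) {c1 : R K} (hc : Prim c1) {ψ : R K → ℂ} (hψ : IsChar c1 ψ) :
    PolyBd (fun m => if P m then tt m * ν.v m * gs c1 ψ m else 0) := by
  refine ⟨N c1, 1, fun n hn => ?_⟩
  have h0 := N_nonneg n
  have h1 := N_nonneg c1
  beta_reduce
  split_ifs
  · rw [norm_mul, norm_mul, norm_tt, pow_one]
    have e1 := b5c9_tau hn
    have e2 := ν.norm_v_le n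
    have e3 := norm_gs_le hc.ne_zero (hψ.norm_le hc.ne_zero) n
    calc _ ≤ N n * 1 * N c1 := by gcongr
      _ = _ := by ring
  · rw [norm_zero]
    positivity

/-- `exists_classes`, `class_fe`, `BFam.sigma`, `HasFE.sigma`, `HasFE.congr` -/
theorem total_fe : ∃ (I : Type) (_ : Fintype I) (β : Tw K → I → R K → ℂ → ℂ),
    BFam β ∧ VorFE β (fun _ => True) := by
  obtain ⟨S, hS, hS'⟩ := exists_classes (K := K)
  choose I hI β hβ hV using fun j : S => class_fe (hS j j.2)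
  refine ⟨Σ j, I j, inferInstance, fun ν p => β p.1 ν p.2, BFam.sigma hβ, fun ν c1 hc ψ hψ h1 => ?_⟩
  choose ω hω hF using fun j => hV j ν c1 hc ψ hψ h1
  refine ⟨fun p => ω p.1 p.2, fun p => hω _ _,
    (HasFE.sigma (fun j : S => polyBd_cls (Cls (j : R K)) ν hc hψ) hF).congr fun n hn => ?_⟩
  obtain ⟨n0, h2, h3, h4⟩ := hS' n hn
  rw [if_pos trivial, Finset.sum_eq_single (⟨n0, h2⟩ : S), if_pos h3]
  · exact fun j _ hj => if_neg fun h => hj (Subtype.ext (h4 j j.2 h))
  · exact fun h => absurd (Finset.mem_univ _) h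

theorem b5c9_kern (g β : ℂ → ℂ) (c : ℂ) (σ t u : ℝ) :
    kern (fun s => g s * (c * β s)) σ t u = c * kern (fun s => g s * β s) σ t u := by
  rw [kern, kern, mul_left_comm, ← integral_const_mul c]
  congr 2
  funext τ
  ring

/-- **Package.**  `C₀` from `BFam.bd (1/2)`; `κ τ = (C₀+1)/(2π) · gamX ξ (1/2 + t i + (1/4 + τ i)) √π exp ((1/4 + τ i)²/4)`
(`norm_gamX_34`; `B = 0`), `b i n τ = if Prim n then N n^{t i} β ν i n (1/2 + t i + (1/4 + τ i))/(C₀+1) else 0`, and `𝒦` is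
defined by the formula; for primary `n`, `𝒦 i n u = N n^{t i} kern (gamX ξ · β ν i n) (1/4) t u`, bounded by `kern_le`.
`kernel_lemma'` with `ρ = N c₁²`; the new `ω i` is `ρ^{-it} ω i`; `kern` is homogeneous (`integral_const_mul`). -/
theorem package {I : Type} [Fintype I] {β : Tw K → I → R K → ℂ → ℂ} (hβ : BFam β)
    (h : VorFE β (fun _ => True)) : ∃ (C : ℝ) (B : ℕ) (Cj : ℕ → ℝ) (Bj : ℕ → ℕ),
    ∀ (ν : Tw K) (t : ℝ), ∃ (κ : ℝ → ℂ) (b : I → R K → ℝ → ℂ) (𝒦 : I → R K → ℝ → ℂ),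
      Integrable κ ∧ (∫ τ, ‖κ τ‖) ≤ C * (1 + |t| + ν.sz) ^ B ∧
      (∀ i n, Continuous (b i n)) ∧ (∀ i n τ, ‖b i n τ‖ ≤ ‖tau n‖) ∧
      (∀ i n u, 𝒦 i n u =
        Real.exp (u / 4) * ∫ τ : ℝ, κ τ * b i n τ * Complex.exp (τ * u * Complex.I)) ∧
      (∀ (j : ℕ) i n u, ‖𝒦 i n u‖ ≤
        Cj j * (1 + |t| + ν.sz) ^ Bj j * ‖tau n‖ * Real.exp (-(j * u))) ∧
      ∀ c1 : R K, Prim c1 → ∀ ψ : R K → ℂ, IsChar c1 ψ →
        (∀ u : (R K)ˣ, cl (u : R K) = 1 → ψ u = 1) →
        ∃ ω : I → ℂ, (∀ i, ‖ω i‖ ≤ 1) ∧ ∀ y : ℝ,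
          pb (fun m => tt m * ν.v m * gs c1 ψ m) y t =
            ∑ i, ω i * ∑' n : R K, if Prim n then
              gs c1 (dual c1 ψ) n * (N n : ℂ) ^ (-(1 / 2 : ℂ)) *
                𝒦 i n (Real.log (N n) + y - 2 * Real.log (N c1)) else 0 := by
  obtain ⟨C0, hC0, hb0⟩ := hβ.bd (1 / 2)
  obtain ⟨Cg, hCg, hg⟩ := norm_gamX_34 (K := K)
  choose Ck Bk hCk hk using kern_le (K := K)
  choose A hA hbA using fun j : ℕ => hβ.bd (1 / 2 - j)
  have hC1 : (0 : ℝ) < C0 + 1 := by linarith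
  have hC1' : ((C0 + 1 : ℝ) : ℂ) ≠ 0 := Complex.ofReal_ne_zero.2 hC1.ne'
  have hg0 : Integrable fun τ : ℝ => (C0 + 1) / (2 * Real.pi) * Cg *
      (Real.sqrt Real.pi * Real.exp (1 / 64)) * Real.exp (-(1 / 4) * τ ^ 2) :=
    (integrable_exp_neg_mul_sq (by norm_num)).const_mul _
  refine ⟨∫ τ : ℝ, (C0 + 1) / (2 * Real.pi) * Cg * (Real.sqrt Real.pi * Real.exp (1 / 64)) *
    Real.exp (-(1 / 4) * τ ^ 2), 0, fun j => Ck j * A j, Bk, fun ν t => ?_⟩
  set w : ℝ → ℂ := fun τ => 1 / 2 + t * Complex.I + (((1 / 4 : ℝ) : ℂ) + τ * Complex.I) with hw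
  have hwc : Continuous w := by fun_prop
  have hwr : ∀ τ, (w τ).re = 3 / 4 := fun τ => by
    simp [hw]
    norm_num
  set κ : ℝ → ℂ := fun τ => ((C0 + 1 : ℝ) : ℂ) * (1 / (2 * Real.pi)) * gamX ν.ξ (w τ) *
    (Real.sqrt Real.pi * Complex.exp ((((1 / 4 : ℝ) : ℂ) + τ * Complex.I) ^ 2 / 4)) with hκ
  set b : I → R K → ℝ → ℂ := fun i n τ => if Prim n then
    (N n : ℂ) ^ (t * Complex.I) * β ν i n (w τ) / ((C0 + 1 : ℝ) : ℂ) else 0 with hb
  have hκc : Continuous κ := by
    have : Continuous fun τ => gamX ν.ξ (w τ) :=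
      (gamX_diff ν.ξ).continuousOn.comp_continuous hwc fun τ => by
        change (w τ).re < _
        rw [hwr]
        norm_num
    fun_prop
  have hκb : ∀ τ, ‖κ τ‖ ≤ (C0 + 1) / (2 * Real.pi) * Cg *
      (Real.sqrt Real.pi * Real.exp (1 / 64)) * Real.exp (-(1 / 4) * τ ^ 2) := fun τ => by
    have e1 : ((((1 / 4 : ℝ) : ℂ) + τ * Complex.I) ^ 2 / 4).re = 1 / 64 + -(1 / 4) * τ ^ 2 := by
      simp [pow_two, Complex.div_ofNat_re]
      ring
    have e2 : ‖(1 / (2 * Real.pi) : ℂ)‖ = 1 / (2 * Real.pi) := by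
      simp [abs_of_pos Real.pi_pos]
    have e3 := hg ν.ξ _ (hwr τ)
    have := Real.pi_pos
    simp only [hκ, norm_mul, Complex.norm_exp, e1, e2, Complex.norm_real, Real.exp_add,
      Real.norm_of_nonneg hC1.le, Real.norm_of_nonneg (Real.sqrt_nonneg _)]
    calc _ ≤ (C0 + 1) * (1 / (2 * Real.pi)) * Cg *
          (Real.sqrt Real.pi * (Real.exp (1 / 64) * Real.exp (-(1 / 4) * τ ^ 2))) := by gcongr
      _ = _ := by ring
  have hκi : Integrable κ := hg0.mono' hκc.aestronglyMeasurable (Eventually.of_forall hκb)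
  have hN : ∀ n : R K, Prim n → ‖(N n : ℂ) ^ (t * Complex.I)‖ = 1 := fun n hn => by
    rw [Complex.norm_cpow_eq_rpow_re_of_pos (N_pos hn.ne_zero)]
    simp
  have hK : ∀ i n (u : ℝ), Prim n →
      Real.exp (u / 4) * ∫ τ : ℝ, κ τ * b i n τ * Complex.exp (τ * u * Complex.I) =
        (N n : ℂ) ^ (t * Complex.I) * kern (fun s => gamX ν.ξ s * β ν i n s) (1 / 4) t u := by
    intro i n u hn
    rw [kern, ← integral_const_mul, ← integral_const_mul, ← integral_const_mul]
    refine integral_congr_ae (Eventually.of_forall fun τ => ?_)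
    have e : Complex.exp ((((1 / 4 : ℝ) : ℂ) + τ * Complex.I) ^ 2 / 4 +
        (((1 / 4 : ℝ) : ℂ) + τ * Complex.I) * u) =
        Complex.exp ((((1 / 4 : ℝ) : ℂ) + τ * Complex.I) ^ 2 / 4) *
          ((Real.exp (u / 4) : ℂ) * Complex.exp (τ * u * Complex.I)) := by
      rw [Complex.ofReal_exp, ← Complex.exp_add, ← Complex.exp_add]
      congr 1
      push_cast
      ring
    simp only [hκ, hb, hw, if_pos hn, e]
    field_simp
  refine ⟨κ, b, fun i n u =>
    Real.exp (u / 4) * ∫ τ : ℝ, κ τ * b i n τ * Complex.exp (τ * u * Complex.I), hκi, ?_,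
    fun i n => ?_, fun i n τ => ?_, fun _ _ _ => rfl, fun j i n u => ?_, fun c1 hc ψ hψ h1 => ?_⟩
  · rw [pow_zero, mul_one]
    exact integral_mono hκi.norm hg0 hκb
  · simp only [hb]
    split_ifs with hn
    · have : Continuous fun τ => β ν i n (w τ) :=
        (hβ.diff ν i n hn).continuousOn.comp_continuous hwc fun τ => by
          change (w τ).re < _
          rw [hwr]
          norm_num
      exact (this.const_mul _).div_const _
    · exact continuous_const
  · simp only [hb]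
    split_ifs with hn
    · rw [norm_div, norm_mul, hN n hn, one_mul, Complex.norm_real, Real.norm_of_nonneg hC1.le,
        div_le_iff₀ hC1]
      have := hb0 ν i n (w τ) hn (by rw [hwr]; norm_num) (by rw [hwr]; norm_num)
      nlinarith [norm_nonneg (tau n)]
    · simp
  · beta_reduce
    by_cases hn : Prim n
    · rw [hK i n u hn, norm_mul, hN n hn, one_mul]
      refine (hk j ν.ξ _ _ (hβ.diff ν i n hn) (fun s h1 h2 => hbA j ν i n s hn h1 h2) t u).trans_eq ?_
      rw [Tw.sz]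
      ring
    · have := ν.sz_nonneg
      have := hCk j
      have := hA j
      simp only [hb, if_neg hn, mul_zero, zero_mul, integral_zero, norm_zero]
      positivity
  · obtain ⟨ω, hω, hF⟩ := h ν c1 hc ψ hψ h1
    have hc0 := N_pos hc.ne_zero
    have hρ : 0 < N c1 ^ 2 := by positivity
    have hpoly : PolyBd (fun m => tt m * ν.v m * gs c1 ψ m) := by
      simpa using polyBd_cls (fun _ => True) ν hc hψ
    have hgs : ∀ n, ‖gs c1 (dual c1 ψ) n‖ ≤ N c1 :=
      norm_gs_le hc.ne_zero ((dual_char hc.ne_zero hψ h1).1.norm_le hc.ne_zero)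
    refine ⟨fun i => ((N c1 ^ 2 : ℝ) : ℂ) ^ (-(t * Complex.I)) * ω i, fun i => ?_, fun y => ?_⟩
    · rw [norm_mul, Complex.norm_cpow_eq_rpow_re_of_pos hρ]
      simpa using hω i
    rw [kernel_lemma' hρ hpoly (fun i n hn => (hβ.diff ν i n hn).const_mul _) (fun σ1 => ?_)
      (hF.congr fun n _ => if_pos trivial) y t, Finset.mul_sum]
    · refine Finset.sum_congr rfl fun i _ => ?_
      rw [mul_assoc, ← tsum_mul_left (a := ω i)]
      congr 1
      refine tsum_congr fun n => ?_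
      split_ifs with hn
      · beta_reduce
        rw [hK i n _ hn, Real.log_pow, Complex.cpow_add _ _
          (Complex.ofReal_ne_zero.2 (N_pos hn.ne_zero).ne'), b5c9_kern]
        push_cast
        ring
      · rw [mul_zero]
    · obtain ⟨C, hC, hC'⟩ := hβ.bd σ1
      refine ⟨N c1 * C, fun i n s hn h2 h3 => ?_⟩
      have e1 := hω i
      have e2 := hgs n
      have e3 := (hC' ν i n s hn h2 h3).trans (mul_le_mul_of_nonneg_left (b5c9_tau hn) hC)
      rw [norm_mul, norm_mul]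
      calc _ ≤ 1 * N c1 * (C * N n) := by gcongr
        _ = _ := by ring

end Crest.Agent.R312.Th
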