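import Crest.Agent.R312.B0Api
import Crest.Agent.R312.B3Unit
import Crest.Agent.R312.B3Pois
import Crest.Agent.R17.VoDefs

/-!
# R312 / B5Defs : definitions for the cubic theta function over `K` (owner helper53).  DO NOT EDIT.

Paper proof: `ReadB5.lean`.  One-place objects (`SL, X, act, hr, uu, kk, Tt, hh, pw, hi, lo, mid, W, Vr`) are
those of `Crest.Agent.R17.Vor`.  Instead of `Υ = R^* ∩ U` rows are taken modulo the free group
`Ups M = {∏ ε_i^{M k_i}}` (`M = M0 K`), whose logarithms have the fundamental domain `FDM M`.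
Interfaces: `B5A.lean` (analysis), `B5B.lean` (arithmetic), `B5Main.lean` (Voronoi).
-/

set_option autoImplicit false

noncomputable section

open scoped Classical ComplexConjugate NumberField Topology
open MeasureTheory Filter
open Crest.Agent.R17.Vor (SL X vc zc pt o hr act uu kk hh Tt pw W Vr nn SS)

namespace Crest.Agent.R312.Th

/-! ## The space -/

section arch
variable (K : Type) [Field K] [NumberField K] [Fld K]

/-- the product of hyperbolic 3-spaces -/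
abbrev XX : Type := Pl K → X

/-- the region of continuation -/
def Omg : Set ℂ := {s | 1 < s.re ∧ 0 < s.im ∧ s.im < 1 / (dd K : ℝ)}

/-- `F` (on `Re s > 2`) continues holomorphically to `Omg`, and `iε F(4/3 + iε) → r` -/
def HasRes (F : ℂ → ℂ) (r : ℂ) : Prop :=
  ∃ G : ℂ → ℂ, DifferentiableOn ℂ G (Omg K) ∧ (∀ s ∈ Omg K, 2 < s.re → G s = F s) ∧
    Tendsto (fun ε : ℝ => (ε * Complex.I) * G (4 / 3 + ε * Complex.I)) (𝓝[>] 0) (𝓝 r)

/-- the residue (unique by the identity theorem) -/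
def res43 (F : ℂ → ℂ) : ℂ := if h : ∃ r, HasRes K F r then h.choose else 0

/-- fundamental domain for `M · lg (units)` -/
def FDM (M : ℕ) : Set (Pl K → ℝ) := {η | ∀ i, (uco K η).2 i ∈ Set.Ico (0 : ℝ) M}

variable {K}

/-- the action of `∏_v SL₂(ℂ)` -/
def actP (g : Pl K → SL ℂ) (w : XX K) : XX K := fun v => act (g v) (w v)
/-- the action of `SL₂(K)` -/
def actK (g : SL K) (w : XX K) : XX K := actP (fun v => SL.map v.1 g) w
/-- the point with coordinates `(z, v)` -/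
def ptK (z : Pl K → ℂ) (v : Pl K → ℝ) : XX K := fun i => pt (z i) (v i)
/-- the base point -/
def oK : XX K := fun _ => o
/-- the total height -/
def ht (w : XX K) : ℝ := ∏ v, vc (w v)
/-- the total height attached to a row -/
def Ht (w : XX K) (c d : K) : ℝ := ∏ v, hr (w v) (emb v c) (emb v d)
/-- the point-pair kernel -/
def kP (w w' : XX K) : ℝ := ∏ v, kk (uu (w v) (w' v))
/-- a summable positive weight -/
def wa (w : XX K) : ℝ := ∏ v, (uu (w v) o)⁻¹ ^ 5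
/-- convolution with the point-pair kernel -/
def TX (f : XX K → ℂ) (w : XX K) : ℂ := ∫ w', (kP w w' : ℂ) * f w'

/-- `eI z = ∏_v R17.ee (lm v * z v)` -/
def lm (v : Pl K) : ℂ := (Real.sqrt 3 : ℂ) * Complex.I / dlt v

/-- the Whittaker function at `s = 4/3` -/
def BB (n : K) (v : Pl K → ℝ) : ℝ := ∏ i, v i ^ (2 / 3 : ℝ) * Vr (‖lm i * emb i n‖ * v i)

/-- a fundamental parallelotope of the ideal `I` in `K_∞` -/
def cellI (I : Ideal (𝓞 K)) : Set (Pl K → ℂ) :=
  if h : I ≠ ⊥ then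
    letI := (exists_ideal_basis h).choose_spec.choose
    ZSpan.fundamentalDomain (exists_ideal_basis h).choose_spec.choose_spec.choose
  else ∅

/-- the inverse of its volume -/
def ivol (I : Ideal (𝓞 K)) : ℝ := (∏ v : Pl K, 2 / dl v) / (Ideal.absNorm I : ℝ)

/-- unnormalised Fourier coefficient at the heights `v` -/
def coef (I : Ideal (𝓞 K)) (n : K) (v : Pl K → ℝ) (F : XX K → ℂ) : ℂ :=
  ∫ z in cellI I, F (ptK z v) * eI (-(embv n * z))

end arch

/-! ## Groups -/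

section loc
variable {K : Type} [Field K] [NumberField K] [Loc K]

/-- `x ≡ 0 mod Q^n` at all primes above `Q` -/
def InJ (n : ℕ) (x : K) : Prop := ∃ s : K, SInt s ∧ x = (Loc.Q K : K) ^ n * s

theorem InJ.zero (n : ℕ) : InJ n (0 : K) := ⟨0, SInt.zero, by simp⟩
theorem InJ.sInt {n : ℕ} {x : K} (h : InJ n x) : SInt x := by
  obtain ⟨s, hs, rfl⟩ := h
  exact ((SInt.natCast _).pow n).mul hs
theorem InJ.add {n : ℕ} {x y : K} (hx : InJ n x) (hy : InJ n y) : InJ n (x + y) := by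
  obtain ⟨s, hs, rfl⟩ := hx
  obtain ⟨t, ht, rfl⟩ := hy
  exact ⟨s + t, hs.add ht, by ring⟩
theorem InJ.neg {n : ℕ} {x : K} (hx : InJ n x) : InJ n (-x) := by
  obtain ⟨s, hs, rfl⟩ := hx
  exact ⟨-s, hs.neg, by ring⟩
theorem InJ.mul_right {n : ℕ} {x y : K} (hx : InJ n x) (hy : SInt y) : InJ n (x * y) := by
  obtain ⟨s, hs, rfl⟩ := hx
  exact ⟨s * y, hs.mul hy, by ring⟩
theorem InJ.mul_left {n : ℕ} {x y : K} (hx : SInt x) (hy : InJ n y) : InJ n (x * y) := by
  rw [mul_comm]; exact hy.mul_right hx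
theorem inU_add {n : ℕ} {x y : K} (hx : InU n x) (hy : InJ n y) : InU n (x + y) := by
  obtain ⟨s, hs, rfl⟩ := hx
  obtain ⟨t, ht, rfl⟩ := hy
  exact ⟨s + t, hs.add ht, by ring⟩

variable (K) in
/-- `{γ ∈ SL₂(𝓞) : γ ≡ 1 mod Q^n, p ∣ b in R}` -/
def GamN (n : ℕ) (p : R K) : Subgroup (SL (R K)) where
  carrier := {g | InU n (g.a : K) ∧ InJ n (g.b : K) ∧ InJ n (g.c : K) ∧ InU n (g.d : K) ∧ p ∣ g.b}
  one_mem' := ⟨by simpa using InU.one n, by simpa using InJ.zero n, by simpa using InJ.zero n,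
    by simpa using InU.one n, by simp⟩
  mul_mem' := by
    rintro g h ⟨h1, h2, h3, h4, h5⟩ ⟨k1, k2, k3, k4, k5⟩
    refine ⟨?_, ?_, ?_, ?_, ?_⟩
    · simpa using inU_add (h1.mul k1) (h2.mul_right k3.sInt)
    · simpa using (InJ.mul_left h1.sInt k2).add (h2.mul_right k4.sInt)
    · simpa using (h3.mul_right k1.sInt).add (InJ.mul_left h4.sInt k3)
    · simpa [add_comm] using inU_add (h4.mul k4) (h3.mul_right k2.sInt)
    · exact dvd_add (k5.mul_left _) (h5.mul_right _)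
  inv_mem' := by
    rintro g ⟨h1, h2, h3, h4, h5⟩
    exact ⟨h4, by simpa using h2.neg, by simpa using h3.neg, h1, (dvd_neg).2 h5⟩

theorem mem_GamN {n : ℕ} {p : R K} {g : SL (R K)} : g ∈ GamN K n p ↔
    InU n (g.a : K) ∧ InJ n (g.b : K) ∧ InJ n (g.c : K) ∧ InU n (g.d : K) ∧ p ∣ g.b := Iff.rfl

/-- `SL₂(R) → SL₂(K)` -/
def ιR : SL (R K) →* SL K := SL.map (RR K (Loc.Q K)).subtype

/-- `diag (u, u⁻¹)` -/
def dgR (u : (R K)ˣ) : SL (R K) := ⟨u, 0, 0, (u⁻¹ : (R K)ˣ), by simp⟩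

/-- `∏ ε_i ^ k_i` as a unit of `R` -/
def upR (k : UI K → ℤ) : (R K)ˣ := Units.map (toR (K := K)).toMonoidHom (upow k)

theorem upR_add (k l : UI K → ℤ) : upR (k + l) = upR k * upR l := by
  simp only [upR, upow, Pi.add_apply, zpow_add, Finset.prod_mul_distrib, map_mul]

theorem upR_zero : upR (0 : UI K → ℤ) = 1 := by simp [upR, upow]

variable (K) in
/-- the free group generated by the `M`-th powers of the fundamental units -/
def Ups (M : ℕ) : Subgroup (R K)ˣ where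
  carrier := {u | ∃ k : UI K → ℤ, u = upR ((M : ℤ) • k)}
  one_mem' := ⟨0, by rw [smul_zero, upR_zero]⟩
  mul_mem' := by
    rintro _ _ ⟨k, rfl⟩ ⟨l, rfl⟩
    exact ⟨k + l, by rw [smul_add, upR_add]⟩
  inv_mem' := by
    rintro _ ⟨k, rfl⟩
    refine ⟨-k, ?_⟩
    rw [inv_eq_iff_mul_eq_one, ← upR_add, ← smul_add, add_neg_cancel, smul_zero, upR_zero]

variable (K) in
/-- an exponent with `Ups K (eM K n) ⊆ U_n` -/
def eM (n : ℕ) : ℕ := Nat.card (𝓞 K ⧸ Ideal.span {((Loc.Q K : ℕ) : 𝓞 K) ^ n})ˣ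

/-- the lattice `C · I ⊆ R` -/
def latI (C : R K) (I : Ideal (𝓞 K)) : AddSubgroup (R K) :=
  I.toAddSubgroup.map ((AddMonoidHom.mulLeft C).comp (toR (K := K)).toAddMonoidHom)

/-- `a` is supported on `Q^{-e} 𝓞` -/
def Supp (e : ℕ) (a : R K → ℂ) : Prop := ∀ n, a n ≠ 0 → SInt ((Loc.Q K : K) ^ e * (n : K))

/-- `tr σ κ (C, D) = κ ((C, D) σ⁻¹)` -/
def tr (σ : SL (R K)) (κ : R K → R K → ℂ) (C D : R K) : ℂ :=
  κ (C * σ.d - D * σ.c) (-(C * σ.b) + D * σ.a)

/-- periodicity in `D` modulo `C · I` -/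
def Per3 (I : Ideal (𝓞 K)) (κ : R K → R K → ℂ) : Prop :=
  ∀ (C D : R K) (t : 𝓞 K), t ∈ I → κ C (D + C * toR t) = κ C D

variable (K) in
/-- the ideal `Q^e 𝓞` -/
def QI (e : ℕ) : Ideal (𝓞 K) := Ideal.span {((Loc.Q K : ℕ) : 𝓞 K) ^ e}

variable [Fld K]

/-- the action of `SL₂(R)` -/
def actR (g : SL (R K)) (w : XX K) : XX K := actK (ιR g) w

/-- Kubota's character -/
def kap (g : SL (R K)) : ℂ := cub g.d g.c

/-- `F(z,v) = ∑_n a(n) BB(n,v) eI(n z)` -/
def HasExp (F : XX K → ℂ) (a : R K → ℂ) : Prop :=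
  ∀ (z : Pl K → ℂ) (v : Pl K → ℝ), (∀ i, 0 < v i) → HasSum (fun n : R K =>
    a n * (BB (n : K) v : ℂ) * eI (embv (n : K) * z)) (F (ptK z v))

/-- the Kloosterman-type sum `∑_{D mod C I} κ(C,D) eT(n D / C)` -/
def KS (I : Ideal (𝓞 K)) (κ : R K → R K → ℂ) (C : R K) (n : K) : ℂ :=
  ∑' D : R K ⧸ latI C I, κ C D.out * eT (n * ((D.out : R K) : K) / (C : K))

end loc

section setup
variable {K : Type} [Field K] [NumberField K] [Fld K] [Loc K] [Setup K]

variable (K) in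
/-- the exponent used for rows -/
def M0 : ℕ := eM K (Setup.lev K)

variable (K) in
/-- `Γ(p)` -/
abbrev Gam (p : R K) : Subgroup (SL (R K)) := GamN K (Setup.lev K) p

variable (K) in
/-- rows modulo `Ups K (M0 K)` -/
abbrev RowQ : Type := MulAction.orbitRel.Quotient (Ups K (M0 K)) (R K × R K)

variable (K) in
/-- elements modulo `Ups K M` -/
abbrev EltQ (M : ℕ) : Type := MulAction.orbitRel.Quotient (Ups K M) (R K)

/-- automorphy under `Gam p` -/
def Aut (p : R K) (f : XX K → ℂ) : Prop :=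
  ∀ γ ∈ Gam K p, ∀ w, f (actR γ w) = conj (kap γ) * f w

/-- the partition of unity `∑_γ rho (γ w) = 1` -/
def rho (p : R K) (w : XX K) : ℝ := wa w / ∑' γ : Gam K p, wa (actR γ w)
/-- the (σ-finite) measure replacing a fundamental domain -/
def nu (p : R K) : Measure (XX K) := volume.withDensity (fun w => ENNReal.ofReal (rho p w))

/-- the automorphic kernel -/
def Ker (p : R K) (w w' : XX K) : ℂ := ∑' γ : Gam K p, conj (kap (γ : SL (R K))) * (kP w (actR (γ : SL (R K)) w') : ℂ)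
/-- the operator on `L²(nu p)` -/
def TK (p : R K) (f : XX K → ℂ) (w : XX K) : ℂ := ∫ w', Ker p w w' * f w' ∂(nu p)

/-- continuous automorphic `L²` eigenfunctions of `TX` with eigenvalue `hh (4/3) ^ d` -/
structure Eig (p : R K) (D : XX K → ℂ) : Prop where
  cont : Continuous D
  aut : Aut p D
  mem : MemLp D 2 (nu p)
  eig : ∀ w, TX D w = hh (4 / 3) ^ dd K * D w

/-- `∑_{(c,d)/Ups} κ c d · φ(Ht w c d)` -/
def Eis (κ : R K → R K → ℂ) (φ : ℝ → ℂ) (w : XX K) : ℂ :=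
  ∑' r : RowQ K, κ r.out.1 r.out.2 * φ (Ht w (r.out.1 : K) (r.out.2 : K))

/-- bounded by one, supported on coprime rows in a lattice, invariant under `Ups` -/
structure RowBd (κ : R K → R K → ℂ) : Prop where
  le : ∀ c d, ‖κ c d‖ ≤ 1
  cop : ∀ c d, κ c d ≠ 0 → IsCoprime c d
  lat : ∃ e : ℕ, ∀ c d, κ c d ≠ 0 →
    SInt ((Loc.Q K : K) ^ e * (c : K)) ∧ SInt ((Loc.Q K : K) ^ e * (d : K))
  inv : ∀ u ∈ Ups K (M0 K), ∀ c d, κ (u * c) (u * d) = κ c d

/-- `κ ((c,d) γ) = κ (c,d) kap γ` -/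
def Equi (p : R K) (κ : R K → R K → ℂ) : Prop :=
  ∀ γ ∈ Gam K p, ∀ c d, κ (c * γ.a + d * γ.c) (c * γ.b + d * γ.d) = κ c d * kap γ

/-- the support of `κ` lies in the orbit of the bottom row of `δ`, and the cusp has width `I` -/
structure Cusp (p : R K) (κ : R K → R K → ℂ) (δ : SL (R K)) (I : Ideal (𝓞 K)) : Prop where
  bd : RowBd κ
  equi : Equi p κ
  mem : δ ∈ Gam K 1
  ne : I ≠ ⊥
  supp : ∀ c d, κ c d ≠ 0 → ∃ γ ∈ Gam K p, (δ * γ).c = c ∧ (δ * γ).d = d
  stab : ∀ x : R K, δ⁻¹ * nn x * δ ∈ Gam K p ↔ ∃ y ∈ I, x = toR y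
  diag : ∀ u ∈ Ups K (M0 K), δ⁻¹ * dgR u * δ ∈ Gam K p

/-- the residue of the Eisenstein series with row function `κ` -/
def thK (κ : R K → R K → ℂ) (w : XX K) : ℂ := res43 K (fun s => Eis κ (pw s) w)

/-- the Dirichlet series in the Fourier coefficients of `Eis κ (pw s)` -/
def DS (I : Ideal (𝓞 K)) (κ : R K → R K → ℂ) (n : K) (s : ℂ) : ℂ :=
  ∑' C : EltQ K (M0 K), if C.out = 0 then 0 else
    ((aN ((C.out : R K) : K) : ℝ) : ℂ) ^ (-s) * KS I κ C.out n

/-- the rows of `Gam 1` with a condition on `d` -/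
def kp (π : R K → Prop) (c d : R K) : ℂ :=
  if InJ (Setup.lev K) (c : K) ∧ InU (Setup.lev K) (d : K) ∧ π d then cub d c else 0

variable (K) in
/-- all rows of `Gam 1` -/
def k0 : R K → R K → ℂ := kp (fun _ => True)

variable (K) in
/-- **the cubic theta function** -/
def theta : XX K → ℂ := thK (k0 K)

/-- what the Voronoi formula needs to know about a linear combination of translates of `theta` -/
structure ThFn (Θ : XX K → ℂ) : Prop where
  aut : ∃ e : ℕ, Setup.lev K ≤ e ∧ ∀ γ ∈ GamN K e 1, ∀ w, Θ (actR γ w) = conj (kap γ) * Θ w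
  exp : ∀ β : SL (R K), ∃ (e : ℕ) (C : ℝ) (a : R K → ℂ), HasExp (fun w => Θ (actR β w)) a ∧ Supp e a ∧
    (∀ η m : R K, IsUnit η → Prim m → ‖a (η * m)‖ ≤ C * ‖tau m‖ * N m ^ (-(1 / 6 : ℝ))) ∧
    ∀ u : (R K)ˣ, InU e ((u : R K) : K) → ∀ n, a (u * n) = a n

end setup

end Crest.Agent.R312.Th
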