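import Crest.Agent.R312.B6Main
import Crest.Agent.R312.B7Euler
import Crest.Agent.R312.B7Cx

/-!
# R312 / B7Main : the least degree-one prime with `ψ ≠ 1` (head module of part B7)
-/

set_option autoImplicit false

noncomputable section

open scoped Classical ComplexConjugate NumberField
open MeasureTheory Metric Filter Topology

namespace Crest.Agent.R312

/-- the weight `m^{-5/4}` -/
def b7w (m : ℕ) : ℝ := (m : ℝ) ^ (-(5 / 4) : ℝ)

/-- `ζ(5/4)` -/
def b7Z : ℝ := ∑' m, b7w m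

theorem b7w_nonneg (m : ℕ) : 0 ≤ b7w m := Real.rpow_nonneg (Nat.cast_nonneg _) _

theorem b7w_summable : Summable b7w := Real.summable_nat_rpow.2 (by norm_num)

theorem b7Z_nonneg : 0 ≤ b7Z := tsum_nonneg b7w_nonneg

section
variable {K : Type} [Field K] [NumberField K]

theorem b7w_lp_le (P : PI K) : b7w (lp P) ≤ 1 / 2 := by
  have h2 : (2 : ℝ) ≤ lp P := by exact_mod_cast (lp_spec P).1.two_le
  calc b7w (lp P) ≤ (2 : ℝ) ^ (-(5 / 4) : ℝ) :=
        Real.rpow_le_rpow_of_nonpos (by norm_num) h2 (by norm_num)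
    _ ≤ (2 : ℝ) ^ (-1 : ℝ) := Real.rpow_le_rpow_of_exponent_le (by norm_num) (by norm_num)
    _ = 1 / 2 := by norm_num

theorem b7_one_le (P : PI K) : (1 : ℝ) ≤ Ideal.absNorm P.asIdeal := by
  have := b7_two_le P
  exact_mod_cast (by omega : 1 ≤ Ideal.absNorm P.asIdeal)

theorem b7_lp_pos (P : PI K) : (0 : ℝ) < lp P := by exact_mod_cast (lp_spec P).1.pos

theorem b7_bdA (P : PI K) {σ : ℝ} (hσ : 5 / 4 ≤ σ) :
    (Ideal.absNorm P.asIdeal : ℝ) ^ (-σ) ≤ b7w (lp P) :=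
  (Real.rpow_le_rpow_of_exponent_le (b7_one_le P) (by linarith)).trans
    (Real.rpow_le_rpow_of_nonpos (b7_lp_pos P) (by exact_mod_cast lp_le P) (by norm_num))

theorem b7_bdB {P : PI K} (h : ¬ (Ideal.absNorm P.asIdeal).Prime) {σ : ℝ} (hσ : 5 / 8 ≤ σ) :
    (Ideal.absNorm P.asIdeal : ℝ) ^ (-σ) ≤ b7w (lp P) := by
  have h1 := b7_lp_pos P
  calc (Ideal.absNorm P.asIdeal : ℝ) ^ (-σ) ≤ (Ideal.absNorm P.asIdeal : ℝ) ^ (-(5 / 8) : ℝ) :=
        Real.rpow_le_rpow_of_exponent_le (b7_one_le P) (by linarith)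
    _ ≤ ((lp P : ℝ) ^ (2 : ℝ)) ^ (-(5 / 8) : ℝ) := by
        refine Real.rpow_le_rpow_of_nonpos (by positivity) ?_ (by norm_num)
        rw [Real.rpow_two]
        exact_mod_cast lp_sq_le h
    _ = b7w (lp P) := by rw [← Real.rpow_mul h1.le, b7w]; norm_num

theorem b7_bdC {P : PI K} {Y : ℝ} (hY : 0 < Y) (h : Y ^ 4 < Ideal.absNorm P.asIdeal) {σ : ℝ}
    (hσ : 3 / 2 ≤ σ) : (Ideal.absNorm P.asIdeal : ℝ) ^ (-σ) ≤ Y⁻¹ * b7w (lp P) := by
  have h1 := b7_one_le P
  rw [show -σ = -(1 / 4) + -(σ - 1 / 4) by ring, Real.rpow_add (by linarith)]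
  refine mul_le_mul ?_ (b7_bdA P (by linarith)) (by positivity) (by positivity)
  calc (Ideal.absNorm P.asIdeal : ℝ) ^ (-(1 / 4) : ℝ) ≤ (Y ^ (4 : ℝ)) ^ (-(1 / 4) : ℝ) := by
        refine Real.rpow_le_rpow_of_nonpos (by positivity) ?_ (by norm_num)
        rw [show (4 : ℝ) = (4 : ℕ) by norm_num, Real.rpow_natCast]
        exact h.le
    _ = Y⁻¹ := by rw [← Real.rpow_mul hY.le, ← Real.rpow_neg_one]; norm_num

/-- the term of the Dirichlet series -/
def b7a (ψ : Ideal (𝓞 K) → ℂ) (s : ℂ) (I : Ideal (𝓞 K)) : ℂ := ψ I * (Ideal.absNorm I : ℂ) ^ (-s)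

/-- the logarithm of the Euler factor -/
def b7l (ψ : Ideal (𝓞 K) → ℂ) (P : PI K) (s : ℂ) : ℂ := Complex.log (1 - b7a ψ s P.asIdeal)

theorem b7a_norm {ψ : Ideal (𝓞 K) → ℂ} (hψ : ∀ I, ‖ψ I‖ ≤ 1) (s : ℂ) (P : PI K) :
    ‖b7a ψ s P.asIdeal‖ ≤ (Ideal.absNorm P.asIdeal : ℝ) ^ (-s.re) := by
  rw [b7a, norm_mul, Complex.norm_natCast_cpow_of_pos (by have := b7_two_le P; omega),
    Complex.neg_re]
  exact mul_le_of_le_one_left (by positivity) (hψ _)

theorem b7l_norm {ψ : Ideal (𝓞 K) → ℂ} (hψ : ∀ I, ‖ψ I‖ ≤ 1) {s : ℂ} {P : PI K} {x : ℝ}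
    (h1 : (Ideal.absNorm P.asIdeal : ℝ) ^ (-s.re) ≤ x)
    (h2 : (Ideal.absNorm P.asIdeal : ℝ) ^ (-s.re) ≤ b7w (lp P)) : ‖b7l ψ P s‖ ≤ 3 / 2 * x := by
  have h3 := b7a_norm hψ s P
  have := b7_norm_log ((h3.trans h2).trans (b7w_lp_le P))
  rw [b7l]
  linarith

theorem b7l_diff {ψ : Ideal (𝓞 K) → ℂ} (hψ : ∀ I, ‖ψ I‖ ≤ 1) {s : ℂ} {P : PI K}
    (h2 : (Ideal.absNorm P.asIdeal : ℝ) ^ (-s.re) ≤ b7w (lp P)) :
    DifferentiableAt ℂ (b7l ψ P) s := by
  have hne : (Ideal.absNorm P.asIdeal : ℂ) ≠ 0 := by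
    have := b7_two_le P
    exact_mod_cast (by omega : Ideal.absNorm P.asIdeal ≠ 0)
  refine DifferentiableAt.clog (f := fun s => 1 - b7a ψ s P.asIdeal) ?_
    (b7_slit (((b7a_norm hψ s P).trans h2).trans (b7w_lp_le P)))
  exact (differentiableAt_const _).sub ((differentiableAt_const _).mul
    (differentiableAt_id.neg.const_cpow (Or.inl hne)))

variable [Fld K] {f : ℕ} {ξ : Pl K → ℝ} {ψ : Ideal (𝓞 K) → ℂ}

theorem HChar.norm_le (h : HChar f ξ ψ) (I : Ideal (𝓞 K)) : ‖ψ I‖ ≤ 1 := by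
  by_cases hI : IsCoprime I (Ideal.span {(f : 𝓞 K)})
  · exact (h.norm I hI).le
  · rw [h.zero I hI, norm_zero]; exact zero_le_one

theorem HChar.cmul (h : HChar f ξ ψ) {s : ℂ} (hs : s ≠ 0) : CMul (b7a ψ s) := by
  refine ⟨?_, ?_, fun I J => ?_⟩
  · rw [b7a, h.one, map_one]; simp
  · rw [b7a, map_zero, Nat.cast_zero, Complex.zero_cpow (neg_ne_zero.2 hs), mul_zero]
  · rw [b7a, b7a, b7a, h.mul, map_mul, Nat.cast_mul, Complex.natCast_mul_natCast_cpow]; ring

theorem HChar.summable_l (h : HChar f ξ ψ) {s : ℂ} (hs : 5 / 4 ≤ s.re) :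
    Summable fun P : PI K => ‖b7l ψ P s‖ :=
  Summable.of_nonneg_of_le (fun _ => norm_nonneg _)
    (fun P => b7l_norm h.norm_le (b7_bdA P hs) (b7_bdA P hs))
    ((summable_lp b7w_nonneg b7w_summable).mul_left _)

theorem HChar.euler (h : HChar f ξ ψ) {s : ℂ} (hs : 5 / 4 ≤ s.re) :
    Complex.exp (∑' P : PI K, b7l ψ P s) * Lser ψ s = 1 := by
  have hb : ∀ P : PI K, ‖b7a ψ s P.asIdeal‖ ≤ b7w (lp P) := fun P =>
    (b7a_norm h.norm_le s P).trans (b7_bdA P hs)
  refine euler_exp (h.cmul ?_) (fun P => (hb P).trans (b7w_lp_le P))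
    (Summable.of_nonneg_of_le (fun _ => norm_nonneg _) hb (summable_lp b7w_nonneg b7w_summable))
  rintro rfl
  norm_num at hs

omit [Fld K] in
theorem b7_tsum_le {F : PI K → ℂ} {c : ℝ} (hc : 0 ≤ c) (hF : ∀ P, ‖F P‖ ≤ c * b7w (lp P)) :
    ‖∑' P, F P‖ ≤ c * (Module.finrank ℚ K * b7Z) := by
  refine (tsum_of_norm_bounded ((summable_lp b7w_nonneg b7w_summable).mul_left c).hasSum hF).trans ?_
  rw [tsum_mul_left]
  exact mul_le_mul_of_nonneg_left (tsum_lp_le b7w_nonneg b7w_summable) hc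

theorem HChar.lower (h : HChar f ξ ψ) {s : ℂ} (hs : 5 / 4 ≤ s.re) :
    1 ≤ ‖Lser ψ s‖ * Real.exp (3 / 2 * (Module.finrank ℚ K * b7Z)) := by
  have h1 := congrArg (‖·‖) (h.euler hs)
  simp only [norm_mul, norm_one] at h1
  rw [← h1, mul_comm]
  refine mul_le_mul_of_nonneg_left ((Complex.norm_exp_le_exp_norm _).trans
    (Real.exp_le_exp.2 ?_)) (norm_nonneg _)
  exact b7_tsum_le (by norm_num) fun P => b7l_norm h.norm_le (b7_bdA P hs) (b7_bdA P hs)

omit [Fld K] in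
theorem Lf_mul {s : ℂ} (hs : s ≠ 1) : (s - 1) * Lf ψ s = Ef ψ s := by
  have : s - 1 ≠ 0 := sub_ne_zero.2 hs
  rw [Lf, dslope_of_ne _ hs, slope_def_field]
  field_simp
  ring

theorem HChar.Lf_eq (h : HChar f ξ ψ) {s : ℂ} (hs : 1 < s.re) : Lf ψ s = Lser ψ s := by
  have h1 : s ≠ 1 := by rintro rfl; simp at hs
  exact mul_left_cancel₀ (sub_ne_zero.2 h1) ((Lf_mul h1).trans (Ef_eq h hs))

theorem HChar.Lf_differentiable (h : HChar f ξ ψ) (hne : ψ ≠ one0 f) :
    Differentiable ℂ (Lf ψ) := by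
  have : Lf ψ = dslope (Ef ψ) 1 := by
    funext s; rw [Lf, Ef_one_eq_zero h hne, zero_div, add_zero]
  rw [this, ← differentiableOn_univ, Complex.differentiableOn_dslope univ_mem]
  exact (Ef_differentiable h).differentiableOn

theorem b7_re {z : ℂ} {r : ℝ} (h : ‖z - 2‖ ≤ r) : 2 - r ≤ z.re := by
  have := (neg_le_abs _).trans ((Complex.abs_re_le_norm (z - 2)).trans h)
  simp only [Complex.sub_re, Complex.re_ofNat] at this
  linarith

theorem b7_re' {z : ℂ} {r : ℝ} (h : z ∈ Metric.ball (2 : ℂ) r) : 2 - r < z.re := by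
  have := b7_re (le_refl ‖z - 2‖)
  rw [Metric.mem_ball, dist_eq_norm] at h
  linarith

theorem b7_core (h : HChar f 0 ψ) (hne : ψ ≠ one0 f) {G Y : ℝ} (hG : 1 ≤ G) (hY : 0 < Y)
    (hG0 : ∀ s : ℂ, ‖s - 2‖ ≤ 2 → ‖Ef (one0 (K := K) f) s‖ ≤ G)
    (hG1 : ∀ s : ℂ, ‖s - 2‖ ≤ 2 → ‖Ef ψ s‖ ≤ G)
    (H : ∀ P : PI K, (Ideal.absNorm P.asIdeal).Prime → (Ideal.absNorm P.asIdeal : ℝ) ≤ Y ^ 4 →
      ψ P.asIdeal = one0 f P.asIdeal) :
    Y ≤ 120 * (Module.finrank ℚ K * b7Z) *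
      (30000 * (Real.log G + 2 * (Module.finrank ℚ K * b7Z) + 1)) ^ 34 := by
  have h0 : HChar (K := K) f 0 (one0 f) := one0_hChar h.two_le
  set A : ℝ := Module.finrank ℚ K * b7Z with hA
  have hA0 : 0 ≤ A := mul_nonneg (Nat.cast_nonneg _) b7Z_nonneg
  have hlG : 0 ≤ Real.log G := Real.log_nonneg hG
  set E := Ef (one0 (K := K) f) with hE
  set L := Lf ψ with hL
  have hEd : Differentiable ℂ E := Ef_differentiable h0
  have hLd : Differentiable ℂ L := h.Lf_differentiable hne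
  have hE0 : ∀ s ∈ Metric.ball (2 : ℂ) (13 / 12), E s ≠ 0 := by
    intro s hs
    by_cases h1 : s = 1
    · obtain ⟨ρ, hρ, h2⟩ := Ef_one_one0 (K := K) h.two_le
      rw [h1, hE, h2]
      exact_mod_cast hρ.ne'
    · rw [hE, ← Lf_mul h1]
      exact mul_ne_zero (sub_ne_zero.2 h1) (zf h0 (by linarith [b7_re' hs]) (Or.inl h1))
  have hL0 : ∀ s ∈ Metric.ball (2 : ℂ) (13 / 12), L s ≠ 0 := fun s hs =>
    zf h (by linarith [b7_re' hs]) (Or.inr hne)
  have hLG : ∀ s ∈ Metric.ball (2 : ℂ) (13 / 12), ‖L s‖ ≤ G := by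
    intro s hs
    refine Complex.norm_le_of_forall_mem_frontier_norm_le (U := Metric.ball 2 2) isBounded_ball
      hLd.diffContOnCl (fun z hz => ?_) (subset_closure (ball_subset_ball (by norm_num) hs))
    rw [frontier_ball _ two_ne_zero, mem_sphere, dist_eq_norm] at hz
    have h1 : 1 ≤ ‖z - 1‖ := by
      have := norm_sub_le (z - 1) 1
      rw [norm_one, show z - 1 - 1 = z - 2 by ring] at this
      linarith
    have h2 := hG1 z hz.le
    rw [← Lf_mul (by rintro rfl; simp at h1; linarith), norm_mul] at h2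
    exact (le_mul_of_one_le_left (norm_nonneg _) h1).trans h2
  set M : ℝ := Real.log G + 3 / 2 * A + 1 with hM
  have hM0 : 0 < M := by positivity
  have hexp : ∀ x : ℝ, 1 ≤ x * Real.exp (3 / 2 * A) → G ≤ x * Real.exp M := by
    intro x hx
    have e : x * Real.exp M = G * (x * Real.exp (3 / 2 * A)) * Real.exp 1 := by
      rw [hM, Real.exp_add, Real.exp_add, Real.exp_log (by linarith)]; ring
    have h1 : 1 ≤ Real.exp 1 := Real.one_le_exp zero_le_one
    rw [e]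
    calc G = G * 1 * 1 := by ring
      _ ≤ _ := by gcongr
  have hre2 : (5 / 4 : ℝ) ≤ (2 : ℂ).re := by norm_num
  have hdE : ∀ z : ℂ, ‖z - 2‖ ≤ 25 / 24 → ‖logDeriv E z‖ ≤ 4992 * M := by
    intro z hz
    refine (norm_logDeriv_le hEd.differentiableOn hE0 hM0 (fun s hs => ?_) (by norm_num) hz).trans
      (le_of_eq (by norm_num))
    refine (hG0 s ?_).trans (hexp _ ?_)
    · rw [Metric.mem_ball, dist_eq_norm] at hs; linarith
    · rw [hE, Ef_eq h0 (by norm_num), show (2 : ℂ) - 1 = 1 by norm_num, one_mul]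
      exact h0.lower hre2
  have hdL : ∀ z : ℂ, ‖z - 2‖ ≤ 25 / 24 → ‖logDeriv L z‖ ≤ 4992 * M := by
    intro z hz
    refine (norm_logDeriv_le hLd.differentiableOn hL0 hM0 (fun s hs => ?_) (by norm_num) hz).trans
      (le_of_eq (by norm_num))
    refine (hLG s hs).trans (hexp _ ?_)
    rw [hL, h.Lf_eq (by norm_num)]
    exact h.lower hre2
  set t1 : PI K → ℂ → ℂ := fun P s =>
    if (Ideal.absNorm P.asIdeal).Prime then b7l ψ P s - b7l (one0 f) P s else 0 with ht1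
  set t2 : PI K → ℂ → ℂ := fun P s =>
    if (Ideal.absNorm P.asIdeal).Prime then 0 else b7l ψ P s - b7l (one0 f) P s with ht2
  have hw0 : ∀ P : PI K, 0 ≤ b7w (lp P) := fun P => b7w_nonneg _
  have hb1 : ∀ P, ∀ s ∈ Metric.ball (2 : ℂ) (1 / 2), ‖t1 P s‖ ≤ 3 * Y⁻¹ * b7w (lp P) := by
    intro P s hs
    have hs' := b7_re' hs
    have := hw0 P
    simp only [ht1]
    split_ifs with hP
    · by_cases hy : (Ideal.absNorm P.asIdeal : ℝ) ≤ Y ^ 4
      · rw [b7l, b7l, b7a, b7a, H P hP hy, sub_self, norm_zero]; positivity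
      · have e1 := b7_bdC (σ := s.re) hY (not_le.1 hy) (by linarith)
        have e2 := b7_bdA P (σ := s.re) (by linarith)
        have := norm_sub_le (b7l ψ P s) (b7l (one0 f) P s)
        linarith [b7l_norm h.norm_le e1 e2, b7l_norm h0.norm_le e1 e2]
    · rw [norm_zero]; positivity
  have hb2 : ∀ P, ∀ s ∈ Metric.ball (2 : ℂ) (13 / 12), ‖t2 P s‖ ≤ 3 * b7w (lp P) := by
    intro P s hs
    have hs' := b7_re' hs
    have := hw0 P
    simp only [ht2]
    split_ifs with hP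
    · rw [norm_zero]; positivity
    · have e1 := b7_bdB hP (σ := s.re) (by linarith)
      have := norm_sub_le (b7l ψ P s) (b7l (one0 f) P s)
      linarith [b7l_norm h.norm_le e1 e1, b7l_norm h0.norm_le e1 e1]
  have hsw := summable_lp (K := K) b7w_nonneg b7w_summable
  set D1 : ℂ → ℂ := fun s => ∑' P, t1 P s with hD1
  set D2 : ℂ → ℂ := fun s => ∑' P, t2 P s with hD2
  have hd1 : DifferentiableOn ℂ D1 (Metric.ball 2 (1 / 2)) := by
    refine Complex.differentiableOn_tsum_of_summable_norm (hsw.mul_left _) (fun P s hs => ?_)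
      isOpen_ball hb1
    have e2 := b7_bdA P (σ := s.re) (by linarith [b7_re' hs])
    simp only [ht1]
    split_ifs with hP
    · exact ((b7l_diff h.norm_le e2).sub (b7l_diff h0.norm_le e2)).differentiableWithinAt
    · exact differentiableWithinAt_const _
  have hd2 : DifferentiableOn ℂ D2 (Metric.ball 2 (13 / 12)) := by
    refine Complex.differentiableOn_tsum_of_summable_norm (hsw.mul_left _) (fun P s hs => ?_)
      isOpen_ball hb2
    simp only [ht2]
    split_ifs with hP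
    · exact differentiableWithinAt_const _
    · have e2 := b7_bdB hP (σ := s.re) (by linarith [b7_re' hs])
      exact ((b7l_diff h.norm_le e2).sub (b7l_diff h0.norm_le e2)).differentiableWithinAt
  have hid : ∀ s ∈ Metric.ball (2 : ℂ) (1 / 2), E s = (s - 1) * L s * Complex.exp (D1 s + D2 s) := by
    intro s hs
    have hs' := b7_re' hs
    have e1 : D1 s + D2 s = ∑' P : PI K, b7l ψ P s - ∑' P : PI K, b7l (one0 f) P s := by
      rw [← (h.summable_l (by linarith)).of_norm.tsum_sub (h0.summable_l (by linarith)).of_norm,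
        hD1, hD2, ← Summable.tsum_add
          (Summable.of_norm_bounded (hsw.mul_left _) fun P => hb1 P s hs)
          (Summable.of_norm_bounded (hsw.mul_left _) fun P =>
            hb2 P s (ball_subset_ball (by norm_num) hs))]
      refine tsum_congr fun P => ?_
      simp only [ht1, ht2]
      split_ifs <;> simp
    have e2 := h.euler (s := s) (by linarith)
    have e3 := h0.euler (s := s) (by linarith)
    rw [e1, hE, hL, Ef_eq h0 (by linarith), h.Lf_eq (by linarith), Complex.exp_sub]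
    have e4 := Complex.exp_ne_zero (∑' P : PI K, b7l (one0 f) P s)
    field_simp
    linear_combination (s - 1) * (e3 - e2)
  set W : ℂ → ℂ := fun s => (s - 1) * (logDeriv E s - logDeriv L s - deriv D2 s) - 1 with hW
  have hWd : DifferentiableOn ℂ W (Metric.ball 2 (13 / 12)) :=
    ((differentiableOn_id.sub (differentiableOn_const _)).mul
      (((differentiableOn_logDeriv isOpen_ball hEd.differentiableOn hE0).sub
        (differentiableOn_logDeriv isOpen_ball hLd.differentiableOn hL0)).sub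
          (hd2.deriv isOpen_ball))).sub (differentiableOn_const _)
  have hW1 : ∀ s ∈ Metric.ball (2 : ℂ) (1 / 2), W s = (s - 1) * deriv D1 s := by
    intro s hs
    have hs2 : s ∈ Metric.ball (2 : ℂ) (13 / 12) := ball_subset_ball (by norm_num) hs
    have hs1 : s - 1 ≠ 0 := by
      rw [sub_ne_zero]; rintro rfl
      have := b7_re' hs
      norm_num at this
    have e1 : E =ᶠ[𝓝 s] fun s => (s - 1) * L s * Complex.exp (D1 s + D2 s) := by
      filter_upwards [isOpen_ball.mem_nhds hs] with z hz using hid z hz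
    have e2 := ((((hasDerivAt_id s).sub_const 1).mul (hLd s).hasDerivAt).mul
      (((hd1.differentiableAt (isOpen_ball.mem_nhds hs)).hasDerivAt.add
        (hd2.differentiableAt (isOpen_ball.mem_nhds hs2)).hasDerivAt).cexp))
    have e3 : deriv E s = (1 * L s + (s - 1) * deriv L s) * Complex.exp (D1 s + D2 s) +
        (s - 1) * L s * (Complex.exp (D1 s + D2 s) * (deriv D1 s + deriv D2 s)) :=
      e1.deriv_eq.trans e2.deriv
    have e4 := hL0 s hs2
    have e5 := Complex.exp_ne_zero (D1 s + D2 s)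
    simp only [hW, logDeriv_apply]
    rw [e3, hid s hs]
    field_simp
    ring
  have hn1 : ∀ z : ℂ, ‖z - 1‖ ≤ ‖z - 2‖ + 1 := fun z => by
    have := norm_add_le (z - 2) 1
    rwa [norm_one, show z - 2 + 1 = z - 1 by ring] at this
  have key := three_circ (a := 30 * Y⁻¹ * A) (b := 30000 * (Real.log G + 2 * A + 1)) hWd
    (fun z hz => ?_) (fun z hz => ?_) (by simp [hW]) (by linarith)
  · generalize (30000 * (Real.log G + 2 * A + 1)) ^ 34 = B at key ⊢
    calc Y = Y * 1 := (mul_one Y).symm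
      _ ≤ Y * (4 * (30 * Y⁻¹ * A) * B) := mul_le_mul_of_nonneg_left key hY.le
      _ = (Y * Y⁻¹) * (120 * A * B) := by ring
      _ = _ := by rw [mul_inv_cancel₀ hY.ne', one_mul]
  · have e1 : ‖deriv D1 z‖ ≤ 3 * Y⁻¹ * A / (1 / 8) :=
      norm_deriv_le_of_ball (r := 1 / 4) hd1 (by norm_num) (by norm_num) hz.le fun w hw =>
        b7_tsum_le (by positivity) fun P => hb1 P w (by rw [Metric.mem_ball, dist_eq_norm]; linarith)
    rw [hW1 z (by rw [Metric.mem_ball, dist_eq_norm]; linarith), norm_mul]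
    calc ‖z - 1‖ * ‖deriv D1 z‖ ≤ (5 / 4) * (3 * Y⁻¹ * A / (1 / 8)) :=
          mul_le_mul (by linarith [hn1 z]) e1 (norm_nonneg _) (by norm_num)
      _ = _ := by ring
  · have e1 : ‖deriv D2 z‖ ≤ 3 * A / (1 / 48) :=
      norm_deriv_le_of_ball (r := 25 / 24) hd2 (by norm_num) (by norm_num) hz.le fun w hw =>
        b7_tsum_le (by positivity) fun P => hb2 P w (by rw [Metric.mem_ball, dist_eq_norm]; linarith)
    have e2 : ‖logDeriv E z - logDeriv L z - deriv D2 z‖ ≤ 2 * (4992 * M) + 144 * A := by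
      have := norm_sub_le (logDeriv E z - logDeriv L z) (deriv D2 z)
      have := norm_sub_le (logDeriv E z) (logDeriv L z)
      linarith [hdE z hz.le, hdL z hz.le]
    have e3 : ‖(z - 1) * (logDeriv E z - logDeriv L z - deriv D2 z)‖ ≤
        3 * (2 * (4992 * M) + 144 * A) := by
      rw [norm_mul]
      exact mul_le_mul (by linarith [hn1 z]) e2 (norm_nonneg _) (by norm_num)
    have e4 := norm_sub_le ((z - 1) * (logDeriv E z - logDeriv L z - deriv D2 z)) 1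
    rw [norm_one] at e4
    simp only [hW]
    linarith

end

theorem b7_arith1 {C c Z d lf lD n X C1 : ℝ} (hC : 0 ≤ C) (hc : 0 ≤ c) (hZ : 0 ≤ Z)
    (hd : 0 ≤ d) (hf : 0 ≤ lf) (hD : 0 ≤ lD) (hX : X = d + lD + lf + 2)
    (hn : n ≤ 2 * X) (hC1 : C1 = 30000 * (C * (c + 2) + 4 * Z + 1)) :
    30000 * (C * (d * (c + lf) + lD) + 2 * (n * Z) + 1) ≤ C1 * X ^ 2 := by
  have hX2 : 2 ≤ X := by linarith
  have hXX : X ≤ X ^ 2 := by nlinarith
  have e0 : c ≤ c * X := le_mul_of_one_le_right hc (by linarith)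
  have e1 : d * (c + lf) ≤ X * (c * X + X) :=
    mul_le_mul (by linarith) (by linarith) (by positivity) (by linarith)
  have hlG : C * (d * (c + lf) + lD) ≤ C * (c + 2) * X ^ 2 :=
    calc C * (d * (c + lf) + lD) ≤ C * (X * (c * X + X) + X ^ 2) :=
          mul_le_mul_of_nonneg_left (by linarith) hC
      _ = _ := by ring
  have hA : n * Z ≤ 2 * X * Z := mul_le_mul_of_nonneg_right hn hZ
  have e2 : X * Z ≤ X ^ 2 * Z := mul_le_mul_of_nonneg_right hXX hZ
  have : C1 * X ^ 2 = 30000 * (C * (c + 2) * X ^ 2 + 4 * (X ^ 2 * Z) + X ^ 2) := by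
    rw [hC1]; ring
  rw [this]
  linarith

theorem b7_arith {Z A X C1 b : ℝ} {j : ℕ} (hZ : 0 ≤ Z) (hX : 2 ≤ X) (hA : A ≤ 2 * X * Z)
    (hb0 : 0 ≤ b) (hb : b ≤ C1 * X ^ 2) (hj : 240 * Z * C1 ^ 34 < 2 ^ j) :
    120 * A * b ^ 34 < X ^ (69 + j) := by
  have hX0 : 0 < X := two_pos.trans_le hX
  calc 120 * A * b ^ 34 ≤ 120 * (2 * X * Z) * (C1 * X ^ 2) ^ 34 :=
        mul_le_mul (mul_le_mul_of_nonneg_left hA (by norm_num)) (pow_le_pow_left₀ hb0 hb 34)
          (pow_nonneg hb0 _) (by positivity)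
    _ = 240 * Z * C1 ^ 34 * X ^ 69 := by ring
    _ < X ^ j * X ^ 69 := mul_lt_mul_of_pos_right
        (hj.trans_le (pow_le_pow_left₀ zero_le_two hX j)) (pow_pos hX0 _)
    _ = _ := by rw [pow_add, mul_comm]

theorem least_prime : ∃ C : ℕ, ∀ (K : Type) [Field K] [NumberField K] [Fld K]
    (f : ℕ) (ψ : Ideal (𝓞 K) → ℂ), HChar f 0 ψ → ψ ≠ one0 f →
    ∃ P : Ideal (𝓞 K), P.IsPrime ∧ (Ideal.absNorm P).Prime ∧
      IsCoprime P (Ideal.span {(f : 𝓞 K)}) ∧ ψ P ≠ 1 ∧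
      (Ideal.absNorm P : ℝ) ≤ (dd K + Real.log (∏ v : Pl K, dl v) + Real.log f + 2) ^ C := by
  obtain ⟨C, hC⟩ := Ef_growth 0 4
  have hZ := b7Z_nonneg
  obtain ⟨c, hc⟩ : ∃ c : ℝ, c = Real.log (3 * (C + 1)) := ⟨_, rfl⟩
  have hC0 : (0 : ℝ) ≤ C := Nat.cast_nonneg _
  have hc0 : 0 ≤ c := hc ▸ Real.log_nonneg (by linarith)
  obtain ⟨C1, hC1⟩ : ∃ C1 : ℝ, C1 = 30000 * (C * (c + 2) + 4 * b7Z + 1) := ⟨_, rfl⟩
  obtain ⟨j, hj⟩ := pow_unbounded_of_one_lt (240 * b7Z * C1 ^ 34) (one_lt_two (α := ℝ))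
  refine ⟨(69 + j) * 4, fun K _ _ _ f ψ h hne => ?_⟩
  by_contra hcon
  push Not at hcon
  have h0 : HChar (K := K) f 0 (one0 f) := one0_hChar h.two_le
  set Δ : ℝ := ∏ v : Pl K, dl v with hΔ
  have hΔ1 : 1 ≤ Δ := one_le_prod_dl K
  have hf1 : (1 : ℝ) ≤ f := by have := h.two_le; exact_mod_cast (by omega : 1 ≤ f)
  have hlΔ := Real.log_nonneg hΔ1
  have hlf := Real.log_nonneg hf1
  have hd0 : (0 : ℝ) ≤ dd K := Nat.cast_nonneg _
  set X : ℝ := dd K + Real.log Δ + Real.log f + 2 with hX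
  have hX2 : 2 ≤ X := by linarith
  have hbase : (1 : ℝ) ≤ 3 * (C + 1) * f := by nlinarith
  obtain ⟨G, hG⟩ : ∃ G : ℝ, G = (3 * (C + 1) * f) ^ (C * dd K) * Δ ^ C := ⟨_, rfl⟩
  have hG1 : 1 ≤ G := by
    rw [hG]
    exact (one_le_pow₀ hbase).trans (le_mul_of_one_le_right (by positivity) (one_le_pow₀ hΔ1))
  have hgr : ∀ φ : Ideal (𝓞 K) → ℂ, HChar f 0 φ → ∀ s : ℂ, ‖s - 2‖ ≤ 2 → ‖Ef φ s‖ ≤ G := by
    intro φ hφ s hs
    have e1 := (Complex.abs_re_le_norm (s - 2)).trans hs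
    have e2 := (Complex.abs_im_le_norm (s - 2)).trans hs
    simp only [Complex.sub_re, Complex.re_ofNat, Complex.sub_im, Complex.im_ofNat, sub_zero] at e1 e2
    rw [abs_le] at e1
    refine (hC K f 0 φ hφ s (by linarith) (by linarith)).trans ?_
    rw [hG]
    refine mul_le_mul_of_nonneg_right (pow_le_pow_left₀ (by positivity) ?_ _) (by positivity)
    rw [norm_zero, add_zero]
    have : (C : ℝ) * f * (1 + |s.im|) ≤ (C + 1) * f * 3 := by gcongr <;> linarith
    linarith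
  have key := b7_core h hne (Y := X ^ (69 + j)) hG1 (by positivity) (hgr _ h0) (hgr _ h) ?_
  · have hn : (Module.finrank ℚ K : ℝ) ≤ 2 * X := by
      rw [← two_mul_dd K]; push_cast; linarith
    have hlG : Real.log G = C * (dd K * (c + Real.log f) + Real.log Δ) := by
      rw [hG, Real.log_mul (by positivity) (by positivity), Real.log_pow, Real.log_pow,
        Real.log_mul (by positivity) (by positivity), ← hc]
      push_cast
      ring
    have hlG0 := Real.log_nonneg hG1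
    refine absurd key (not_le.2 (b7_arith hZ hX2 (mul_le_mul_of_nonneg_right hn hZ)
      (by positivity) ?_ hj))
    rw [hlG]
    exact b7_arith1 hC0 hc0 hZ hd0 hlf hlΔ hX hn hC1
  · intro P hP hy
    rw [← pow_mul] at hy
    by_cases hcop : IsCoprime P.asIdeal (Ideal.span {(f : 𝓞 K)})
    · rw [one0, if_pos hcop]
      by_contra h1
      exact absurd hy (not_le.2 (hcon _ P.isPrime hP hcop h1))
    · rw [one0, if_neg hcop, h.zero _ hcop]

end Crest.Agent.R312
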