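import Crest.Agent.R312.B8J

/-!
# R312 / B8G : the Stickelberger map `x ↦ x^θ` on `ℚ(ζ_m)` and normalised generators (helper58)
-/

set_option autoImplicit false
set_option linter.unusedSectionVars false

noncomputable section

open Finset NumberField IsCyclotomicExtension.Rat
open scoped Pointwise ComplexConjugate

namespace Crest.Agent.R312.B8

variable (m r : ℕ) [NeZero m] {K : Type} [Field K] [NumberField K] [IsCyclotomicExtension {m} ℚ K]

/-- `σ ζ = ζ ^ aa σ` -/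
def aa (σ : Gal(K/ℚ)) : ℕ := (galEquivZMod m K σ).val.val

/-- the weights -/
def ww (σ : Gal(K/ℚ)) : ℕ := aa m σ % r

variable (K) in
/-- complex conjugation -/
def cc : Gal(K/ℚ) := (galEquivZMod m K).symm (-1)

/-- `x^θ` -/
def thE (x : 𝓞 K) : 𝓞 K := ∏ σ : Gal(K/ℚ), (σ⁻¹ • x) ^ ww m r σ

/-- `I^θ` -/
def thI (I : Ideal (𝓞 K)) : Ideal (𝓞 K) := ∏ σ : Gal(K/ℚ), (σ⁻¹ • I) ^ ww m r σ

/-- `β` generates `I^θ` and `β β̄` is rational -/
def Good (I : Ideal (𝓞 K)) (β : 𝓞 K) : Prop :=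
  Ideal.span {β} = thI m r I ∧ ∃ q : ℚ, (β : K) * cc m K β = q

omit [NeZero m] [IsCyclotomicExtension {m} ℚ K] in
theorem coe_smul (σ : Gal(K/ℚ)) (x : 𝓞 K) : ((σ • x : 𝓞 K) : K) = σ x := rfl

variable {m r}

theorem smul_root (σ : Gal(K/ℚ)) {x : 𝓞 K} (hx : x ^ m = 1) : σ • x = x ^ aa m σ :=
  galEquivZMod_smul_of_pow_eq m K σ hx

theorem aa_cop (σ : Gal(K/ℚ)) : (aa m σ).Coprime m := ZMod.val_coe_unit_coprime _

theorem aa_lt (σ : Gal(K/ℚ)) : aa m σ < m := ZMod.val_lt _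

theorem gal_cc : galEquivZMod m K (cc m K) = -1 := MulEquiv.apply_symm_apply _ _

theorem aa_mul_cc (σ : Gal(K/ℚ)) : m ∣ aa m (σ * cc m K) + aa m σ := by
  rw [← ZMod.natCast_eq_zero_iff, aa, aa, map_mul, gal_cc, Nat.cast_add, ZMod.natCast_zmod_val,
    ZMod.natCast_zmod_val]
  simp

theorem aa_cc : m ∣ aa m (cc m K) + 1 := by
  rw [← ZMod.natCast_eq_zero_iff, aa, gal_cc, Nat.cast_add, ZMod.natCast_zmod_val]
  simp

theorem not_dvd_aa (hr : r.Prime) (hm : r ∣ m) (σ : Gal(K/ℚ)) : ¬ r ∣ aa m σ := fun h =>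
  hr.one_lt.ne' (Nat.eq_one_of_dvd_coprimes (aa_cop σ) h hm)

theorem aa_ne (hr : r.Prime) (hm : r ∣ m) (σ : Gal(K/ℚ)) : aa m σ ≠ 0 := fun h =>
  not_dvd_aa hr hm σ (h ▸ dvd_zero r)

theorem ww_pos (hr : r.Prime) (hm : r ∣ m) (σ : Gal(K/ℚ)) : 0 < ww m r σ :=
  Nat.pos_of_ne_zero fun h => not_dvd_aa hr hm σ (Nat.dvd_of_mod_eq_zero h)

theorem ww_lt (hr : r.Prime) (σ : Gal(K/ℚ)) : ww m r σ < r := Nat.mod_lt _ hr.pos

theorem mod_add_mod {r u v : ℕ} (hr : 0 < r) (h : r ∣ u + v) (hv : ¬ r ∣ v) :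
    u % r + v % r = r := by
  have h1 : r ∣ u % r + v % r := by
    rw [Nat.dvd_iff_mod_eq_zero, ← Nat.add_mod]; exact Nat.mod_eq_zero_of_dvd h
  have h2 : u % r < r := Nat.mod_lt _ hr
  have h3 : v % r < r := Nat.mod_lt _ hr
  have h4 : v % r ≠ 0 := fun h => hv (Nat.dvd_of_mod_eq_zero h)
  obtain ⟨c, hc⟩ := h1
  have : c = 1 := by
    rcases c with _ | _ | c
    · omega
    · rfl
    · nlinarith
  rw [hc, this, mul_one]

theorem ww_add (hr : r.Prime) (hm : r ∣ m) (σ : Gal(K/ℚ)) :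
    ww m r (σ * cc m K) + ww m r σ = r :=
  mod_add_mod hr.pos (hm.trans (aa_mul_cc σ)) (not_dvd_aa hr hm σ)

theorem eq_one_of_aa {σ : Gal(K/ℚ)} (h : aa m σ ≡ 1 [MOD m]) : σ = 1 := by
  apply (galEquivZMod m K).injective
  rw [map_one]
  ext
  have := (ZMod.natCast_eq_natCast_iff _ _ _).2 h
  simpa [aa] using this

include m in
theorem gal_comm (σ τ : Gal(K/ℚ)) : σ * τ = τ * σ := by
  apply (galEquivZMod m K).injective
  rw [map_mul, map_mul, mul_comm]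

theorem cc_mul_cc : cc m K * cc m K = 1 := by
  apply (galEquivZMod m K).injective
  rw [map_mul, gal_cc, map_one]
  simp

theorem emb_cc (φ : K →+* ℂ) (x : K) : φ (cc m K x) = conj (φ x) := by
  have hζ := IsCyclotomicExtension.zeta_spec m ℚ K
  set ζ := IsCyclotomicExtension.zeta m ℚ K
  have h : (φ.toRatAlgHom).comp (cc m K : K →ₐ[ℚ] K) =
      ((starRingEnd ℂ).comp φ).toRatAlgHom := by
    refine AlgHom.ext_of_adjoin_eq_top
      (IsCyclotomicExtension.adjoin_primitive_root_eq_top hζ) ?_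
    rintro _ rfl
    have h1 : φ ζ ^ m = 1 := by rw [← map_pow, hζ.pow_eq_one, map_one]
    have h2 : ‖φ ζ‖ = 1 := Complex.norm_eq_one_of_pow_eq_one h1 (NeZero.ne m)
    have h3 : cc m K ζ * ζ = 1 := by
      rw [galEquivZMod_apply_of_pow_eq m K _ hζ.pow_eq_one, ← pow_succ, hζ.pow_eq_one_iff_dvd]
      exact aa_cc
    change φ (cc m K ζ) = conj (φ ζ)
    rw [← Complex.inv_eq_conj h2]
    exact eq_inv_of_mul_eq_one_left (by rw [← map_mul, h3, map_one])
  exact AlgHom.congr_fun h x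

omit [NeZero m] [IsCyclotomicExtension {m} ℚ K] in
theorem smul_span (σ : Gal(K/ℚ)) (x : 𝓞 K) :
    σ • Ideal.span {x} = Ideal.span {σ • x} := by
  rw [Ideal.smul_closure, Set.smul_set_singleton]

omit [NeZero m] [IsCyclotomicExtension {m} ℚ K] in
theorem absNorm_smul (σ : Gal(K/ℚ)) (I : Ideal (𝓞 K)) :
    Ideal.absNorm (σ • I) = Ideal.absNorm I := by
  rw [Ideal.absNorm_apply, Ideal.absNorm_apply, Submodule.cardQuot_apply, Submodule.cardQuot_apply]
  exact (Nat.card_congr (Ideal.quotientEquiv I (σ • I)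
    (MulSemiringAction.toRingEquiv Gal(K/ℚ) (𝓞 K) σ) rfl).toEquiv).symm

omit [NeZero m] [IsCyclotomicExtension {m} ℚ K] in
theorem smul_nat (σ : Gal(K/ℚ)) (n : ℕ) : σ • (n : 𝓞 K) = n :=
  map_natCast (MulSemiringAction.toRingHom Gal(K/ℚ) (𝓞 K) σ) n

theorem thE_mul (x y : 𝓞 K) : thE m r (x * y) = thE m r x * thE m r y := by
  simp only [thE, smul_mul', mul_pow, prod_mul_distrib]

theorem thI_mul (I J : Ideal (𝓞 K)) : thI m r (I * J) = thI m r I * thI m r J := by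
  simp only [thI, smul_mul', mul_pow, prod_mul_distrib]

theorem thI_span (x : 𝓞 K) : thI m r (Ideal.span {x}) = Ideal.span {thE m r x} := by
  simp only [thI, thE, smul_span, Ideal.span_singleton_pow, Ideal.prod_span_singleton]

theorem thI_ne {I : Ideal (𝓞 K)} (h : I ≠ 0) : thI m r I ≠ 0 :=
  prod_ne_zero_iff.2 fun σ _ => pow_ne_zero _ ((smul_ne_zero_iff_ne σ⁻¹).2 h)

theorem thI_cop {I : Ideal (𝓞 K)} {f : ℕ} (h : IsCoprime I (Ideal.span {(f : 𝓞 K)})) :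
    IsCoprime (thI m r I) (Ideal.span {(f : 𝓞 K)}) := by
  refine IsCoprime.prod_left fun σ _ => IsCoprime.pow_left ?_
  have := h.map (MulSemiringAction.toRingHom Gal(K/ℚ) (Ideal (𝓞 K)) σ⁻¹)
  simpa only [MulSemiringAction.toRingHom_apply, smul_span, smul_nat] using this

theorem Good.ne {I : Ideal (𝓞 K)} {β : 𝓞 K} (h : Good m r I β) (hI : I ≠ 0) : β ≠ 0 := by
  rintro rfl
  exact thI_ne hI (h.1.symm.trans (by simp))

theorem Good.mul {I J : Ideal (𝓞 K)} {β γ : 𝓞 K} (h : Good m r I β) (h' : Good m r J γ) :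
    Good m r (I * J) (β * γ) := by
  obtain ⟨h1, q, hq⟩ := h
  obtain ⟨h2, q', hq'⟩ := h'
  refine ⟨by rw [thI_mul, ← h1, ← h2, Ideal.span_singleton_mul_span_singleton], q * q', ?_⟩
  push_cast
  rw [← hq, ← hq', map_mul]; ring

theorem good_span (hr : r.Prime) (hm : r ∣ m) (x : 𝓞 K) :
    Good m r (Ideal.span {x}) (thE m r x) := by
  have := IsCyclotomicExtension.isGalois {m} ℚ K
  refine ⟨(thI_span x).symm, Algebra.norm ℚ (x : K) ^ r, ?_⟩
  have e1 : ((thE m r x : 𝓞 K) : K) = ∏ σ : Gal(K/ℚ), (σ⁻¹ (x : K)) ^ ww m r σ := by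
    simp only [thE, map_prod, map_pow, coe_smul]
  have e2 : cc m K ((thE m r x : 𝓞 K) : K) =
      ∏ σ : Gal(K/ℚ), (σ⁻¹ (x : K)) ^ ww m r (σ * cc m K) := by
    rw [e1, map_prod, ← Equiv.prod_comp (Equiv.mulRight (cc m K))]
    refine prod_congr rfl fun σ _ => ?_
    rw [map_pow, ← AlgEquiv.mul_apply]
    simp
  have e3 : ((Algebra.norm ℚ (x : K) : ℚ) : K) = ∏ σ : Gal(K/ℚ), σ⁻¹ (x : K) := by
    rw [← eq_ratCast (algebraMap ℚ K), Algebra.norm_eq_prod_automorphisms,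
      ← Equiv.prod_comp (Equiv.inv Gal(K/ℚ))]
    rfl
  rw [e2, e1, Rat.cast_pow, e3, ← prod_pow, ← prod_mul_distrib]
  refine prod_congr rfl fun σ _ => ?_
  rw [← pow_add, add_comm, ww_add hr hm]

theorem good_one (hr : r.Prime) (hm : r ∣ m) : Good m r (1 : Ideal (𝓞 K)) 1 := by
  have := good_span hr hm (1 : 𝓞 K)
  simpa [thE] using this

theorem Good.cancel {I J : Ideal (𝓞 K)} {γ β : 𝓞 K} (h : Good m r (I * J) γ) (h' : Good m r J β)
    (hJ : J ≠ 0) : ∃ α, Good m r I α ∧ γ = α * β := by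
  have hβ := h'.ne hJ
  obtain ⟨h1, q, hq⟩ := h
  obtain ⟨h2, q', hq'⟩ := h'
  rw [thI_mul, ← h2] at h1
  obtain ⟨α, hα⟩ : β ∣ γ := by
    rw [← Ideal.mem_span_singleton, ← Ideal.span_singleton_le_iff_mem, h1]
    exact Ideal.mul_le_right
  refine ⟨α, ⟨?_, q / q', ?_⟩, by rw [hα, mul_comm]⟩
  · rw [hα, mul_comm, ← Ideal.span_singleton_mul_span_singleton] at h1
    exact mul_right_cancel₀ (by simpa using hβ) h1
  · have hβ' : (β : K) ≠ 0 := by simpa using hβ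
    have hc : cc m K β ≠ 0 := by simpa using hβ'
    push_cast
    rw [← hq, ← hq', hα]
    push_cast
    rw [map_mul]
    field_simp

theorem Good.uniq (hr : r.Prime) (hm : r ∣ m) (hodd : Odd m) {I : Ideal (𝓞 K)} {β γ : 𝓞 K}
    (h : Good m r I β) (h' : Good m r I γ) (hI : I ≠ 0) : ∃ u, u ^ (2 * m) = 1 ∧ γ = u * β := by
  obtain ⟨u, ⟨h1, q, hq⟩, hu⟩ := Good.cancel (I := 1) (by rwa [one_mul]) h hI (γ := γ)
  refine ⟨u, ?_, hu⟩
  have hun : IsUnit u := by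
    rw [← Ideal.span_singleton_eq_top, h1, ← (good_one hr hm).1]; simp
  have hint : IsIntegral ℤ q := by
    have : IsIntegral ℤ (algebraMap ℚ K q) := by
      rw [eq_ratCast, ← hq]; exact (u * cc m K • u).isIntegral_coe
    exact (isIntegral_algebraMap_iff (algebraMap ℚ K).injective).1 this
  obtain ⟨z, hz⟩ := IsIntegrallyClosed.isIntegral_iff.1 hint
  have hz' : u * cc m K • u = (z : 𝓞 K) := by
    apply RingOfIntegers.coe_injective
    rw [map_mul, map_intCast]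
    exact hq.trans (by rw [← hz]; simp)
  have hzu : IsUnit (z : 𝓞 K) :=
    hz' ▸ hun.mul (hun.map (MulSemiringAction.toRingHom Gal(K/ℚ) (𝓞 K) (cc m K)))
  have hz1 : z.natAbs = 1 := by
    have h2 := hzu.map (Algebra.norm ℤ)
    rw [← eq_intCast (algebraMap ℤ (𝓞 K)), Algebra.norm_algebraMap,
      isUnit_pow_iff Module.finrank_pos.ne'] at h2
    exact Int.isUnit_iff_natAbs_eq.1 h2
  have hn : ∀ φ : K →+* ℂ, ‖φ u‖ = 1 := by
    intro φ
    have e := congrArg (fun y => ‖φ y‖) hq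
    simp only [map_mul, emb_cc, norm_mul, Complex.norm_conj, map_ratCast] at e
    rw [← hz, eq_intCast, Rat.cast_intCast, Complex.norm_intCast, ← Int.cast_abs,
      ← Int.natCast_natAbs, hz1] at e
    have := norm_nonneg (φ u)
    push_cast at e
    nlinarith
  obtain ⟨n, hn0, hn⟩ := Embeddings.pow_eq_one_of_norm_eq_one K ℂ u.isIntegral_coe hn
  have hζ := IsCyclotomicExtension.zeta_spec m ℚ K
  obtain ⟨j, -, hj⟩ := hζ.exists_pow_or_neg_mul_pow_of_isOfFinOrder hodd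
    (isOfFinOrder_iff_pow_eq_one.2 ⟨n, hn0, hn⟩)
  apply RingOfIntegers.coe_injective
  rw [map_pow, map_one, pow_mul]
  have : ((algebraMap (𝓞 K) K) u) ^ 2 = (IsCyclotomicExtension.zeta m ℚ K ^ j) ^ 2 := by
    rcases hj with hj | hj
    · exact congrArg (· ^ 2) hj
    · rw [← neg_sq]; congr 1; rw [← neg_eq_iff_eq_neg] at hj; exact hj
  rw [this, ← pow_mul, ← pow_mul, hζ.pow_eq_one_iff_dvd]
  exact Dvd.intro_left (j * 2) (by ring)

end Crest.Agent.R312.B8
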