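import Mathlib

/-!
# R312 / B8J : characters of prime order on finite fields, Jacobi sums and Gauss sums (helper58)
-/

set_option autoImplicit false
set_option linter.unusedSectionVars false

open Finset

namespace Crest.Agent.R312.B8

section fin
variable {F : Type} [Field F] [Fintype F]

theorem pow_eq_of_mod {k r : ℕ} (hk : Fintype.card F - 1 = k * r) (x : F) {u v : ℕ}
    (hu : 0 < u) (hv : 0 < v) (h : u ≡ v [MOD r]) : x ^ (k * u) = x ^ (k * v) := by
  have h1 : 1 < Fintype.card F := Fintype.one_lt_card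
  have hk0 : 0 < k := Nat.pos_of_ne_zero (by rintro rfl; omega)
  rcases eq_or_ne x 0 with rfl | hx
  · rw [zero_pow (by positivity), zero_pow (by positivity)]
  · have h2 : x ^ (k * r) = 1 := by rw [← hk]; exact FiniteField.pow_card_sub_one_eq_one x hx
    rw [← Nat.div_add_mod u r, ← Nat.div_add_mod v r, h, mul_add, mul_add, pow_add, pow_add,
      ← mul_assoc, ← mul_assoc, pow_mul x (k * r), pow_mul x (k * r), h2, one_pow, one_pow]

theorem sum_vanish {s t : ℕ} (h : s + t < Fintype.card F - 1) :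
    ∑ x : F, x ^ s * (1 - x) ^ t = 0 := by
  have e : ∀ x : F, x ^ s * (1 - x) ^ t =
      ∑ j ∈ range (t + 1), ((-1) ^ j * (t.choose j : F)) * x ^ (s + j) := by
    intro x
    rw [sub_eq_neg_add, add_pow, mul_sum]
    refine sum_congr rfl fun j _ => ?_
    rw [neg_pow, pow_add]; ring
  simp_rw [e]
  rw [sum_comm]
  refine sum_eq_zero fun j hj => ?_
  rw [← mul_sum, FiniteField.sum_pow_lt_card_sub_one F _ (by have := mem_range.1 hj; omega),
    mul_zero]

variable {R : Type} [CommRing R] [IsDomain R]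

/-- the inverse of the power residue symbol -/
theorem exists_chi {k r : ℕ} (hr : r.Prime) (hk : Fintype.card F - 1 = k * r) (π : R →+* F)
    {ζ : R} (hζ : IsPrimitiveRoot ζ r) (hπ : IsPrimitiveRoot (π ζ) r) :
    ∃ χ : MulChar F R, χ ^ r = 1 ∧ χ ≠ 1 ∧ ∀ x, π (χ x) = x ^ (k * (r - 1)) := by
  classical
  have h1 : 1 < Fintype.card F := Fintype.one_lt_card
  have hk0 : 0 < k := Nat.pos_of_ne_zero (by rintro rfl; omega)
  have hr2 := hr.two_le
  have : NeZero r := ⟨hr.ne_zero⟩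
  obtain ⟨g, hg⟩ := IsCyclic.exists_generator (α := Fˣ)
  have hog : orderOf g = k * r := by
    rw [orderOf_eq_card_of_forall_mem_zpowers hg, Nat.card_eq_fintype_card, Fintype.card_units, hk]
  have hgr : ((g : F) ^ (k * (r - 1))) ^ r = 1 := by
    rw [← pow_mul, show k * (r - 1) * r = (k * r) * (r - 1) by ring, pow_mul, ← hog,
      ← Units.val_pow_eq_pow_val, pow_orderOf_eq_one, Units.val_one, one_pow]
  obtain ⟨j, -, hj⟩ := hπ.eq_pow_of_pow_eq_one hgr
  have hu : IsUnit ζ := hζ.isUnit hr.ne_zero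
  have hmem : hu.unit ^ j ∈ rootsOfUnity (Fintype.card Fˣ) R := by
    rw [mem_rootsOfUnity, Fintype.card_units, hk, Units.ext_iff]
    simp only [Units.val_pow_eq_pow_val, IsUnit.unit_spec, Units.val_one]
    rw [← pow_mul, show j * (k * r) = r * (j * k) by ring, pow_mul, hζ.pow_eq_one, one_pow]
  have hs : MulChar.ofRootOfUnity hmem hg g = ζ ^ j := by
    rw [MulChar.ofRootOfUnity_spec]; simp
  refine ⟨MulChar.ofRootOfUnity hmem hg, ?_, ?_, ?_⟩
  · rw [MulChar.eq_iff hg, MulChar.pow_apply' _ hr.ne_zero, hs, MulChar.one_apply_coe, ← pow_mul,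
      mul_comm, pow_mul, hζ.pow_eq_one, one_pow]
  · intro h
    rw [h, MulChar.one_apply_coe] at hs
    have h2 : (g : F) ^ (k * (r - 1)) = 1 := by rw [← hj, ← map_pow, ← hs, map_one]
    have h3 : g ^ (k * (r - 1)) = 1 := by ext; simpa using h2
    have h4 := Nat.le_of_dvd (Nat.mul_pos hk0 (by omega)) (hog ▸ orderOf_dvd_of_pow_eq_one h3)
    have h5 := Nat.le_of_mul_le_mul_left h4 hk0
    omega
  · intro x
    rcases eq_or_ne x 0 with rfl | hx
    · rw [MulChar.map_zero, map_zero, zero_pow (Nat.mul_pos hk0 (by omega)).ne']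
    · obtain ⟨i, hi⟩ := (Submonoid.mem_powers_iff _ _).1
        (mem_powers_iff_mem_zpowers.2 (hg (Units.mk0 x hx)))
      have hx' : x = (g : F) ^ i := by rw [← Units.val_pow_eq_pow_val, hi]; rfl
      rw [hx', map_pow, hs, map_pow, map_pow, hj, ← pow_mul, ← pow_mul, mul_comm]

/-- a ring homomorphism that keeps `ζ` primitive detects the values of `χ` -/
theorem chi_eq_one {r : ℕ} (hr : r.Prime) {χ : MulChar F R} (hχ : χ ^ r = 1) {ζ : R}
    (hζ : IsPrimitiveRoot ζ r) {E : Type} [CommRing E] [IsDomain E] (π : R →+* E)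
    (hπ : IsPrimitiveRoot (π ζ) r) {x : F} (h : π (χ x) = 1) : χ x = 1 := by
  have : NeZero r := ⟨hr.ne_zero⟩
  rcases eq_or_ne x 0 with rfl | hx
  · rw [MulChar.map_zero, map_zero] at h; exact absurd h zero_ne_one
  obtain ⟨j, hj, e⟩ := MulChar.exists_apply_eq_pow hχ hζ hx
  rw [e, map_pow, hπ.pow_eq_one_iff_dvd] at h
  rw [e, Nat.eq_zero_of_dvd_of_lt h hj, pow_zero]

theorem comp_ne_one {r : ℕ} (hr : r.Prime) {χ : MulChar F R} (hχ : χ ^ r = 1) (h1 : χ ≠ 1) {ζ : R}
    (hζ : IsPrimitiveRoot ζ r) {E : Type} [CommRing E] [IsDomain E] (π : R →+* E)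
    (hπ : IsPrimitiveRoot (π ζ) r) : χ.ringHomComp π ≠ 1 := by
  intro h
  apply h1
  ext x
  rw [MulChar.one_apply_coe]
  refine chi_eq_one hr hχ hζ π hπ ?_
  have := congrArg (fun c : MulChar F E => c x) h
  simpa using this

theorem orderOf_comp {r : ℕ} (hr : r.Prime) {χ : MulChar F R} (hχ : χ ^ r = 1) (h1 : χ ≠ 1) {ζ : R}
    (hζ : IsPrimitiveRoot ζ r) {E : Type} [CommRing E] [IsDomain E] (π : R →+* E)
    (hπ : IsPrimitiveRoot (π ζ) r) : orderOf (χ.ringHomComp π) = r := by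
  have := Fact.mk hr
  refine orderOf_eq_prime ?_ (comp_ne_one hr hχ h1 hζ π hπ)
  rw [MulChar.ringHomComp_pow, hχ, MulChar.ringHomComp_one]

/-- an endomorphism with `ζ ↦ ζ^A` raises the values of `χ` to the power `A` -/
theorem map_chi {r : ℕ} (hr : r.Prime) {χ : MulChar F R} (hχ : χ ^ r = 1) {ζ : R}
    (hζ : IsPrimitiveRoot ζ r) (s : R →+* R) {A : ℕ} (hA : A ≠ 0) (hs : s ζ = ζ ^ A) (x : F) :
    s (χ x) = χ x ^ A := by
  have : NeZero r := ⟨hr.ne_zero⟩
  rcases eq_or_ne x 0 with rfl | hx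
  · rw [MulChar.map_zero, map_zero, zero_pow hA]
  obtain ⟨j, -, e⟩ := MulChar.exists_apply_eq_pow hχ hζ hx
  rw [e, map_pow, hs, ← pow_mul, ← pow_mul, mul_comm]

theorem modeq_aux {r A : ℕ} (hr : 0 < r) : (r - 1) * A ≡ r - A % r [MOD r] := by
  have h1 : A % r < r := Nat.mod_lt _ hr
  refine Nat.ModEq.add_right_cancel (Nat.mod_modEq A r).symm ?_
  rw [Nat.sub_add_cancel h1.le, show (r - 1) * A + A = r * A by
    conv_rhs => rw [← Nat.sub_add_cancel (show 1 ≤ r from hr)]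
    ring]
  exact (Nat.modEq_zero_iff_dvd.2 (dvd_mul_right _ _)).trans
    (Nat.modEq_zero_iff_dvd.2 dvd_rfl).symm

/-- the reduction of a conjugate of a Jacobi sum vanishes -/
theorem jac_vanish {k r : ℕ} (hr : r.Prime) (hk : Fintype.card F - 1 = k * r) (π : R →+* F)
    {χ : MulChar F R} (hχ : χ ^ r = 1) (hv : ∀ x, π (χ x) = x ^ (k * (r - 1))) {ζ : R}
    (hζ : IsPrimitiveRoot ζ r) (s : R →+* R) {A : ℕ} (hA : A ≠ 0) (hs : s ζ = ζ ^ A) {i : ℕ}
    (hi : i ≠ 0) (h : r < A % r + (A * i) % r) : π (s (jacobiSum χ (χ ^ i))) = 0 := by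
  have h1 : 1 < Fintype.card F := Fintype.one_lt_card
  have hk0 : 0 < k := Nat.pos_of_ne_zero (by rintro rfl; omega)
  have hr2 := hr.two_le
  have a1 : A % r < r := Nat.mod_lt _ hr.pos
  have a2 : (A * i) % r < r := Nat.mod_lt _ hr.pos
  rw [← sum_vanish (F := F) (s := k * (r - A % r)) (t := k * (r - (A * i) % r))
    (by rw [hk, ← mul_add]; exact Nat.mul_lt_mul_of_pos_left (by omega) hk0)]
  rw [jacobiSum, map_sum, map_sum]
  refine sum_congr rfl fun x _ => ?_
  have hA0 := Nat.pos_of_ne_zero hA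
  have hi0 := Nat.pos_of_ne_zero hi
  rw [map_mul, map_mul, MulChar.pow_apply' _ hi, map_pow, map_chi hr hχ hζ s hA hs,
    map_chi hr hχ hζ s hA hs, ← pow_mul, map_pow, map_pow, hv, hv, ← pow_mul, ← pow_mul,
    mul_assoc, mul_assoc,
    pow_eq_of_mod hk x (Nat.mul_pos (by omega) hA0) (by omega) (modeq_aux hr.pos),
    pow_eq_of_mod hk (1 - x) (Nat.mul_pos (by omega) (Nat.mul_pos hA0 hi0)) (by omega)
      (modeq_aux hr.pos)]

/-- `J · c(J) = #F` -/
theorem jac_mul_conj {r : ℕ} (hr : r.Prime) {χ : MulChar F R} (hχ : χ ^ r = 1) (h1 : χ ≠ 1) {ζ : R}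
    (hζ : IsPrimitiveRoot ζ r) (s : R →+* R) {A : ℕ} (hA : r ∣ A + 1) (hs : s ζ = ζ ^ A)
    {K : Type} [Field K] [CharZero K] (ι : R →+* K) (hι : Function.Injective ι) {i : ℕ}
    (hi : 1 ≤ i) (hi2 : i + 1 < r) :
    jacobiSum χ (χ ^ i) * s (jacobiSum χ (χ ^ i)) = Fintype.card F := by
  have hr2 := hr.two_le
  have hA0 : A ≠ 0 := by
    rintro rfl
    have := Nat.le_of_dvd (by omega) hA
    omega
  have ho := orderOf_comp hr hχ h1 hζ ι (hζ.map_of_injective hι)
  set χ' := χ.ringHomComp ι with hχ'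
  have hne : ∀ j, 0 < j → j < r → χ' ^ j ≠ 1 := fun j h0 hj h =>
    absurd (Nat.le_of_dvd h0 (ho ▸ orderOf_dvd_of_pow_eq_one h)) (by omega)
  have hinv : (χ.ringHomComp s).ringHomComp ι = χ'⁻¹ := by
    refine eq_inv_of_mul_eq_one_left ?_
    obtain ⟨c, hc⟩ := hA
    have e : (χ.ringHomComp s).ringHomComp ι = χ' ^ A := by
      ext x
      rw [MulChar.pow_apply' _ hA0]
      simp only [MulChar.ringHomComp_apply, hχ']
      rw [map_chi hr hχ hζ s hA0 hs, map_pow]
    rw [e, ← pow_succ, hc, pow_mul, ← ho, pow_orderOf_eq_one, one_pow]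
  apply hι
  have hc : ringChar K ≠ ringChar F := by
    rw [ringChar.eq_zero]
    exact (CharP.char_is_prime F (ringChar F)).ne_zero.symm
  have key := jacobiSum_mul_jacobiSum_inv hc (χ := χ') (φ := χ' ^ i)
    (by simpa using hne 1 (by omega) (by omega)) (hne i (by omega) (by omega))
    (by rw [← pow_succ']; exact hne _ (by omega) hi2)
  rw [map_mul, map_natCast, ← key, ← jacobiSum_ringHomComp, ← jacobiSum_ringHomComp,
    ← jacobiSum_ringHomComp, ← MulChar.ringHomComp_pow, ← MulChar.ringHomComp_pow,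
    ← MulChar.ringHomComp_pow, hinv, inv_pow]

end fin

/-- the Gauss sum computation: `Φ^{(q-1)/r} = χ(q)⁻¹` -/
theorem recip {F E : Type} [Field F] [Fintype F] [Field E] [Fintype E] {r : ℕ} (hr : r.Prime)
    (hr2 : r ≠ 2) (hc : ringChar E ≠ ringChar F) {χ : MulChar F E} (ho : orderOf χ = r)
    {n : ℕ} (hn : Fintype.card E - 1 = r * n) (hp : χ (ringChar E) = 1) :
    ((Fintype.card F : E) * ∏ i ∈ Ico 1 (r - 1), jacobiSum χ (χ ^ i)) ^ n = 1 := by
  obtain ⟨e, hpp, hcard⟩ := FiniteField.card E (ringChar E)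
  set p := ringChar E with hpdef
  have := Fact.mk hpp
  let ψ := AddChar.FiniteField.primitiveChar F E hc
  let E' := CyclotomicField ψ.n E
  let ι : E →+* E' := algebraMap E E'
  have hι : Function.Injective ι := ι.injective
  have : CharP E' p := charP_of_injective_ringHom hι p
  set χ' := χ.ringHomComp ι with hχ'
  have ho' : orderOf χ' = r := by
    rw [← ho]
    exact orderOf_injective (MulChar.ringHomCompHom ι) (MulChar.injective_ringHomComp hι) χ
  have h2 := hr.two_le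
  have hne : χ' ≠ 1 := by
    intro h; rw [h, orderOf_one] at ho'; omega
  have hF : (Fintype.card F : E') ≠ 0 := by
    obtain ⟨e', hl, hcard'⟩ := FiniteField.card F (ringChar F)
    rw [hcard', Nat.cast_pow]
    refine pow_ne_zero _ ?_
    rw [Ne, CharP.cast_eq_zero_iff E' p, Nat.prime_dvd_prime_iff_eq hpp hl]
    exact hc
  have hg0 := gaussSum_ne_zero_of_nontrivial hF hne ψ.prim
  have hgr := gaussSum_pow_eq_prod_jacobiSum (χ := χ') (by omega) ψ.prim
  have hm1 : χ' (-1) = 1 := by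
    have a : χ' (-1) ^ r = 1 := by
      rw [← MulChar.pow_apply' _ hr.ne_zero, ← ho', pow_orderOf_eq_one, ← Units.coe_neg_one,
        MulChar.one_apply_coe]
    have b : χ' (-1) ^ 2 = 1 := by rw [← map_pow]; simp
    obtain ⟨c, hc⟩ := hr.odd_of_ne_two hr2
    rwa [hc, pow_succ, pow_mul, b, one_pow, one_mul] at a
  rw [ho', hm1, one_mul] at hgr
  have hfrob : ∀ j : ℕ, gaussSum χ' ψ.char ^ p ^ j = gaussSum (χ' ^ p ^ j) (ψ.char ^ p ^ j) := by
    intro j
    induction j with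
    | zero => simp
    | succ j ih => rw [pow_succ, pow_mul, ih, gaussSum_frob p, ← pow_mul, ← pow_mul]
  have h1 : 1 < Fintype.card E := Fintype.one_lt_card
  have hq : p ^ (e : ℕ) = r * n + 1 := by omega
  have hpu : IsUnit ((p ^ (e : ℕ) : ℕ) : F) := by
    rw [Nat.cast_pow]
    refine IsUnit.pow _ ?_
    by_contra h
    rw [MulChar.map_nonunit _ h] at hp
    exact zero_ne_one hp
  have hq1 : χ' ((p ^ (e : ℕ) : ℕ) : F) = 1 := by
    rw [Nat.cast_pow, map_pow, hχ', MulChar.ringHomComp_apply, hp, map_one, one_pow]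
  have hfe := hfrob e
  have e1 : χ' ^ p ^ (e : ℕ) = χ' := by
    rw [hq, pow_succ, pow_mul, ← ho', pow_orderOf_eq_one, one_pow, one_mul]
  have e2 := gaussSum_mulShift χ' ψ.char hpu.unit
  rw [hpu.unit_spec, hq1, one_mul] at e2
  rw [e1, AddChar.pow_mulShift, e2, hq, pow_succ, pow_mul, hgr] at hfe
  apply hι
  rw [map_one, map_pow, map_mul, map_natCast, map_prod]
  simp_rw [← jacobiSum_ringHomComp, ← MulChar.ringHomComp_pow]
  exact mul_right_cancel₀ hg0 (by rw [one_mul]; exact hfe)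

/-- the multiplicities in the Stickelberger relation -/
theorem count_aux {r a : ℕ} (ha : 0 < a) (har : a < r) (n : ℕ) :
    ∑ i ∈ Ico 1 (n + 1), (if r ≤ a + (a * i) % r then 1 else 0) = a * (n + 1) / r := by
  induction n with
  | zero => simp [Nat.div_eq_of_lt har]
  | succ n ih =>
    rw [sum_Ico_succ_top (by omega), ih, show a * (n + 1 + 1) = a * (n + 1) + a by ring,
      Nat.add_div (by omega), Nat.div_eq_of_lt har, Nat.mod_eq_of_lt har, add_zero,
      add_comm (a * (n + 1) % r)]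

theorem count_eq {r a : ℕ} (hr : 2 ≤ r) (ha : 0 < a) (har : a < r) :
    1 + ∑ i ∈ Ico 1 (r - 1), (if r ≤ a + (a * i) % r then 1 else 0) = a := by
  have h := count_aux ha har (r - 2)
  rw [show r - 2 + 1 = r - 1 by omega] at h
  rw [h]
  have : a * (r - 1) / r = a - 1 := by
    rw [Nat.div_eq_iff (by omega)]
    obtain ⟨b, rfl⟩ := Nat.exists_eq_add_of_lt ha
    obtain ⟨c, rfl⟩ := Nat.exists_eq_add_of_lt har
    simp only [zero_add, Nat.add_sub_cancel]
    constructor
    · nlinarith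
    · have : (b + 1) * (b + 1 + c) < b * (b + 1 + c + 1) + (b + 1 + c + 1) := by nlinarith
      omega
  omega

/-- `r² ∣ q - 1` -/
theorem sq_dvd {p r d e : ℕ} (hr : r.Prime) (hd : 1 ≤ d) (hdr : d < r) (h : p ^ d % r ^ 2 = 1)
    (he : r ∣ p ^ e - 1) (hp : 0 < p) : r ^ 2 ∣ p ^ e - 1 := by
  obtain ⟨c, hc⟩ := he
  have h0 : 1 ≤ p ^ e := Nat.one_le_pow _ _ hp
  have hq : p ^ e = 1 + r * c := by omega
  have h1 : ∀ j : ℕ, (1 + r * c) ^ j ≡ 1 + j * (r * c) [MOD r ^ 2] := by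
    intro j
    induction j with
    | zero => simp [Nat.ModEq]
    | succ j ih =>
      rw [pow_succ]
      refine (ih.mul_right _).trans ?_
      rw [show (1 + j * (r * c)) * (1 + r * c) = 1 + (j + 1) * (r * c) + r ^ 2 * (j * c ^ 2) by ring]
      exact (Nat.modEq_iff_dvd' (Nat.le_add_right _ _)).2 (by simp) |>.symm
  have h2 : p ^ d ≡ 1 [MOD r ^ 2] := by
    have : 1 < r ^ 2 := Nat.one_lt_pow (by norm_num) hr.one_lt
    rw [Nat.ModEq, h, Nat.mod_eq_of_lt this]
  have h3 : (1 + r * c) ^ d ≡ 1 [MOD r ^ 2] := by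
    rw [← hq, ← pow_mul, mul_comm, pow_mul]
    simpa using h2.pow e
  have h4 : r ^ 2 ∣ d * (r * c) := by
    have := (Nat.modEq_iff_dvd' (Nat.le_add_right 1 _)).1 (h3.symm.trans (h1 d))
    simpa using this
  rw [show d * (r * c) = r * (d * c) by ring, sq, Nat.mul_dvd_mul_iff_left hr.pos] at h4
  rcases (Nat.Prime.dvd_mul hr).1 h4 with h5 | h5
  · exact absurd (Nat.le_of_dvd hd h5) (by omega)
  · rw [hc, sq]; exact Nat.mul_dvd_mul_left _ h5

end Crest.Agent.R312.B8
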