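import Crest.Agent.R312.B8C

/-!
# R312 / B8Q : the quadratic character `I ↦ (N I / p)` on `ℚ(ζ₃)` (helper58)
-/

set_option autoImplicit false
set_option linter.unusedSectionVars false

noncomputable section

open Finset NumberField IsCyclotomicExtension.Rat
open scoped Pointwise Classical

namespace Crest.Agent.R312.B8

variable {K : Type} [Field K] [NumberField K]

theorem not_dvd_norm {p : ℕ} (hp : p.Prime) {I : Ideal (𝓞 K)}
    (h : IsCoprime I (Ideal.span {(p : 𝓞 K)})) : ¬ p ∣ Ideal.absNorm I := by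
  have := Fact.mk hp
  have : Finite (𝓞 K ⧸ I) := Ideal.finiteQuotientOfFreeOfNeBot I (cop_ne hp.two_le h)
  let _ := Fintype.ofFinite (𝓞 K ⧸ I)
  rw [← card_quot]
  intro hd
  refine not_isUnit_prime_of_dvd_card hd ?_
  obtain ⟨a, ha, b, hb, hab⟩ := Ideal.isCoprime_iff_exists.1 h
  obtain ⟨c, rfl⟩ := Ideal.mem_span_singleton'.1 hb
  have := congrArg (Ideal.Quotient.mk I) hab
  rw [map_add, Ideal.Quotient.eq_zero_iff_mem.2 ha, zero_add, map_mul, map_natCast, map_one] at this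
  exact IsUnit.of_mul_eq_one_right _ this

theorem int_dvd {p : ℕ} (hp : p.Prime) {z : ℤ} (h : (p : 𝓞 K) ∣ (z : 𝓞 K)) : (p : ℤ) ∣ z := by
  have h1 := map_dvd (Algebra.norm ℤ) h
  rw [← Int.cast_natCast, ← eq_intCast (algebraMap ℤ (𝓞 K)), ← eq_intCast (algebraMap ℤ (𝓞 K)),
    Algebra.norm_algebraMap, Algebra.norm_algebraMap] at h1
  exact (Nat.prime_iff_prime_int.1 hp).dvd_of_dvd_pow
    ((dvd_pow_self _ Module.finrank_pos.ne').trans h1)

variable [IsCyclotomicExtension {3} ℚ K]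

theorem norm_three (x : 𝓞 K) :
    ((Ideal.absNorm (Ideal.span {x}) : ℕ) : 𝓞 K) = x * cc 3 K • x := by
  have := IsCyclotomicExtension.isGalois {3} ℚ K
  have h1 : ((Algebra.norm ℤ x : ℤ) : K) = x * cc 3 K x := by
    rw [← Rat.cast_intCast, Algebra.coe_norm_int, ← eq_ratCast (algebraMap ℚ K),
      Algebra.norm_eq_prod_automorphisms, Fintype.prod_eq_mul 1 (cc 3 K)]
    · rfl
    · intro h
      have := congrArg (galEquivZMod 3 K) h
      rw [map_one, gal_cc] at this
      revert this; decide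
    · rintro σ ⟨h1, h2⟩
      have : ∀ u : (ZMod 3)ˣ, u = 1 ∨ u = -1 := by decide
      rcases this (galEquivZMod 3 K σ) with h | h
      · exact absurd ((galEquivZMod 3 K).injective (h.trans (map_one _).symm)) h1
      · exact absurd ((galEquivZMod 3 K).injective (h.trans gal_cc.symm)) h2
  have h2 : 0 ≤ Algebra.norm ℤ x := by
    obtain ⟨φ⟩ : Nonempty (K →+* ℂ) := inferInstance
    have h3 := congrArg φ h1
    rw [map_mul, emb_cc, Complex.mul_conj, map_intCast, ← Complex.ofReal_intCast,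
      Complex.ofReal_inj] at h3
    exact_mod_cast h3 ▸ Complex.normSq_nonneg (φ x)
  apply RingOfIntegers.coe_injective
  rw [Ideal.absNorm_span_singleton, map_natCast, map_mul, ← Int.cast_natCast,
    Int.natAbs_of_nonneg h2]
  exact h1

theorem exists_norm (u v : ℕ) :
    ∃ x : 𝓞 K, Ideal.absNorm (Ideal.span {x}) = u ^ 2 + 3 * v ^ 2 := by
  obtain ⟨ζ, hζ⟩ := exists_root (m := 3) K (dvd_refl 3)
  have h1 : ζ ^ 2 + ζ + 1 = 0 := by
    have := hζ.geom_sum_eq_zero (by norm_num)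
    simp only [sum_range_succ, range_zero, sum_empty] at this
    linear_combination this
  have h2 : cc 3 K • ζ * ζ = 1 := by
    rw [smul_root (m := 3) _ hζ.pow_eq_one, ← pow_succ, hζ.pow_eq_one_iff_dvd]
    exact aa_cc
  have h3 : cc 3 K • ζ = -1 - ζ := by
    linear_combination (cc 3 K • ζ) * h1 - (ζ + 1) * h2 - h1 + h1
  refine ⟨u + v * (1 + ζ + ζ), Nat.cast_injective (R := 𝓞 K) ?_⟩
  rw [norm_three]
  simp only [smul_add, smul_mul', smul_nat, smul_one, h3]
  push_cast
  linear_combination (-4 * (v : 𝓞 K) ^ 2) * h1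

theorem nr2_core [Fld K] {p : ℕ} (hp : p.Prime) (hp3 : 3 < p) {X : ℝ} (h : LP K p X) :
    ∃ a : ℕ, (a : ℝ) ≤ X ∧ a ^ ((p - 1) / 2) % p = p - 1 := by
  have := Fact.mk hp
  have hodd : p % 2 = 1 := hp.eq_two_or_odd.resolve_left (by omega)
  have hch : ringChar (ZMod p) ≠ 2 := by rw [ZMod.ringChar_zmod_n]; omega
  have hnz : ∀ {I : Ideal (𝓞 K)}, IsCoprime I (Ideal.span {(p : 𝓞 K)}) →
      ((Ideal.absNorm I : ℕ) : ZMod p) ≠ 0 := fun h e =>
    not_dvd_norm hp h ((ZMod.natCast_eq_zero_iff _ _).1 e)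
  obtain ⟨t, ht⟩ := quadraticChar_exists_neg_one hch
  have h3 : (3 : ZMod p) ≠ 0 := fun e =>
    absurd (Nat.le_of_dvd (by norm_num) ((ZMod.natCast_eq_zero_iff 3 p).1 e)) (by omega)
  obtain ⟨u, v, huv⟩ := FiniteField.exists_root_sum_quadratic (R := ZMod p)
    (f := Polynomial.X ^ 2 - Polynomial.C t) (g := Polynomial.C 3 * Polynomial.X ^ 2)
    (Polynomial.degree_X_pow_sub_C (by norm_num) _) (Polynomial.degree_C_mul_X_pow 2 h3)
    (by rw [ZMod.card, hodd])
  obtain ⟨x, hx⟩ := exists_norm (K := K) u.val v.val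
  have hxt : ((Ideal.absNorm (Ideal.span {x}) : ℕ) : ZMod p) = t := by
    rw [hx]
    push_cast
    simp only [Polynomial.eval_sub, Polynomial.eval_pow, Polynomial.eval_X, Polynomial.eval_C,
      Polynomial.eval_mul] at huv
    rw [ZMod.natCast_zmod_val, ZMod.natCast_zmod_val]
    linear_combination huv
  have hxc : IsCoprime (Ideal.span {x}) (Ideal.span {(p : 𝓞 K)}) := by
    rw [Ideal.isCoprime_span_singleton_iff]
    have h1 : (Ideal.absNorm (Ideal.span {x})).Coprime p := by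
      rw [Nat.coprime_comm, hp.coprime_iff_not_dvd, ← ZMod.natCast_eq_zero_iff, hxt]
      rintro rfl
      simp at ht
    have h2 := Nat.Coprime.cast (R := 𝓞 K) h1
    rw [norm_three] at h2
    exact h2.of_mul_left_left
  obtain ⟨P, -, hP1, hP2, hP3⟩ := h.app hp.two_le
    (fun I => ((quadraticChar (ZMod p) (Ideal.absNorm I : ℕ) : ℤ) : ℂ))
    (fun I J _ _ => by rw [map_mul, Nat.cast_mul, map_mul, Int.cast_mul])
    (N := 2) two_ne_zero
    (fun I hI => by rw [← Int.cast_pow, quadraticChar_sq_one (hnz hI), Int.cast_one])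
    (fun y hy => by
      have h1 : (p : 𝓞 K) ∣ (((Ideal.absNorm (Ideal.span {y}) : ℕ) - 1 : ℤ) : 𝓞 K) := by
        obtain ⟨c, hc⟩ := hy
        have h2 : cc 3 K • y - 1 = p * cc 3 K • c := by
          rw [← smul_one (cc 3 K), ← smul_sub, hc, smul_mul', smul_nat]
        refine ⟨y * cc 3 K • c + c, ?_⟩
        push_cast
        rw [norm_three]
        linear_combination y * h2 + hc
      have h2 := (ZMod.intCast_zmod_eq_zero_iff_dvd _ _).2 (int_dvd hp h1)
      push_cast at h2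
      rw [sub_eq_zero.1 h2, map_one, Int.cast_one])
    hxc (by rw [hxt, ht]; norm_num)
  refine ⟨_, hP3, ?_⟩
  have h1 : quadraticChar (ZMod p) (Ideal.absNorm P : ℕ) = -1 :=
    (quadraticChar_dichotomy (hnz hP1)).resolve_left fun e => hP2 (by rw [e, Int.cast_one])
  have h2 := quadraticChar_eq_pow_of_char_ne_two' hch ((Ideal.absNorm P : ℕ) : ZMod p)
  rw [h1, ZMod.card] at h2
  rw [show (p - 1) / 2 = p / 2 by omega, ← Nat.mod_eq_of_lt (show p - 1 < p by omega),
    ← ZMod.natCast_eq_natCast_iff', Nat.cast_pow, ← h2, Nat.cast_sub hp.one_le]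
  simp

end Crest.Agent.R312.B8
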