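import Crest.Statements.S0484
import Mathlib

/-!
# R312 / Iface : the interfaces between the parts of rid 312 (S0484; owner helper53)

* Part A (algorithm, files `R312/A*`, paper proof in `R312/ReadA.lean`): `algo : NR → NR2 → Goal`.
* Part B (analytic number theory over `K = ℚ(ζ_m)`, `3 ∣ m`, files `R312/B*`, paper proof in
  `R312/ReadB.lean`): `nr : NR` and `nr2 : NR2`.
-/

set_option autoImplicit false

namespace Crest.Agent.R312

/-- the statement of S0484 -/
def Goal : Prop :=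
  ∃ F : List Bool → List Bool, Crest.Complexity.PolyTime F ∧
    ∀ (p : ℕ) [Fact p.Prime] (f : Polynomial (ZMod p)), f ≠ 0 →
      (∀ g ∈ Crest.PolyFactor.factorOutput p (F (Crest.PolyFactor.encodeInst p f)),
          g.Monic ∧ Irreducible g) ∧
        Polynomial.C f.leadingCoeff *
            (Crest.PolyFactor.factorOutput p (F (Crest.PolyFactor.encodeInst p f))).prod = f

/-- For odd primes `r ≠ p` (in the hard case `r² ∣ p^d - 1`, `1 ≤ d < r`) there is a small prime
`ℓ ≡ 1 mod r` modulo which `p` is not an `r`-th power. -/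
def NR : Prop :=
  ∃ C : ℕ, ∀ p r : ℕ, p.Prime → r.Prime → r ≠ 2 → r < p →
    (∃ d : ℕ, 1 ≤ d ∧ d < r ∧ p ^ d % r ^ 2 = 1) →
    ∃ l : ℕ, l.Prime ∧ l ≤ (r * Nat.size p) ^ C ∧ l ≠ p ∧ l % r = 1 ∧
      p ^ ((l - 1) / r) % l ≠ 1

/-- small quadratic non-residues -/
def NR2 : Prop :=
  ∃ C : ℕ, ∀ p : ℕ, p.Prime → 3 < p →
    ∃ a : ℕ, a ≤ (Nat.size p) ^ C ∧ a ^ ((p - 1) / 2) % p = p - 1

end Crest.Agent.R312
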