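import Crest.Agent.R312.B7Main
import Crest.Agent.R312.Iface
import Crest.Agent.R312.B8N
import Crest.Agent.R312.B8Q

/-!
# R312 / B8Main : small non-residues (head module of part B8)

`K = ℚ(ζ_m)`, `m = 3r` (or `3` for `r = 3`).  Files: `B8J` (Jacobi and Gauss sums), `B8G` (the map
`I ↦ I^θ`, normalised generators), `B8P` (Stickelberger for primes of degree one), `B8C` (these
primes generate the class group), `B8N` (the Hecke character and `ℓ`), `B8Q` (quadratic case).
-/

set_option autoImplicit false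

noncomputable section

open scoped Classical ComplexConjugate NumberField
open MeasureTheory

namespace Crest.Agent.R312

/-- `least_prime` in `ℚ(ζ_m)` with an explicit bound -/
theorem B8.lp_cyc : ∃ C : ℕ, ∀ (m : ℕ) [NeZero m], 3 ∣ m → ∀ (K : Type) [Field K] [NumberField K]
    [IsCyclotomicExtension {m} ℚ K], ∃ _ : Fld K, ∀ (f : ℕ) (Y : ℝ),
      (m : ℝ) + (m : ℝ) ^ 2 + Real.log f + 2 ≤ Y → B8.LP K f (Y ^ C) := by
  obtain ⟨C, hC⟩ := least_prime
  refine ⟨C, fun m _ h3 K _ _ _ => ?_⟩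
  obtain ⟨inst, hdl⟩ := exists_fld m h3 K
  refine ⟨inst, fun f Y hY ψ h1 h2 => ?_⟩
  obtain ⟨P, a1, a2, a3, a4, a5⟩ := hC K f ψ h1 h2
  refine ⟨P, a1, a2, a3, a4, a5.trans (pow_le_pow_left₀ ?_ (le_trans ?_ hY) _)⟩
  · have := Real.log_nonneg (one_le_prod_dl K)
    have := Real.log_natCast_nonneg f
    positivity
  · have hn : Module.finrank ℚ K ≤ m := by
      rw [IsCyclotomicExtension.finrank K (Polynomial.cyclotomic.irreducible_rat (NeZero.pos m))]
      exact Nat.totient_le m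
    have hd := two_mul_dd K
    have hd' : (dd K : ℝ) ≤ m := by exact_mod_cast (by omega : dd K ≤ m)
    have hn' : (Module.finrank ℚ K : ℝ) ≤ m := by exact_mod_cast hn
    have h1 : ∏ v : Pl K, dl v ≤ (2 ^ Module.finrank ℚ K) ^ dd K := by
      rw [dd, ← Finset.card_univ, ← Finset.prod_const]
      exact Finset.prod_le_prod (fun v _ => norm_nonneg _) fun v _ => hdl v
    have h2 := Real.log_le_log (zero_lt_one.trans_le (one_le_prod_dl K)) h1
    rw [Real.log_pow, Real.log_pow] at h2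
    have h3 : Real.log 2 ≤ 1 := by have := Real.log_two_lt_d9; linarith
    have h4 : 0 ≤ Real.log 2 := Real.log_nonneg (by norm_num)
    have h5 : (Module.finrank ℚ K : ℝ) * Real.log 2 ≤ m * 1 := by gcongr
    have h6 : (dd K : ℝ) * (Module.finrank ℚ K * Real.log 2) ≤ m * (m * 1) := by gcongr
    linarith

theorem B8.isCyc (m : ℕ) [NeZero m] :
    @IsCyclotomicExtension {m} ℚ (CyclotomicField m ℚ) _ _ DivisionRing.toRatAlgebra := by
  convert CyclotomicField.isCyclotomicExtension m ℚ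
  · rfl
  · exact Subsingleton.elim _ _

theorem B8.log_le_size (p : ℕ) (hp : 0 < p) : Real.log p ≤ Nat.size p := by
  have h1 : (p : ℝ) ≤ 2 ^ Nat.size p := by exact_mod_cast (Nat.lt_size_self p).le
  have h2 := Real.log_le_log (by exact_mod_cast hp) h1
  rw [Real.log_pow] at h2
  have h3 : Real.log 2 ≤ 1 := by have := Real.log_two_lt_d9; linarith
  have h5 : (Nat.size p : ℝ) * Real.log 2 ≤ Nat.size p * 1 := by gcongr
  linarith

theorem B8.three_le_size {p : ℕ} (hp : 3 < p) : (3 : ℝ) ≤ Nat.size p := by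
  exact_mod_cast (Nat.lt_size.2 (show 2 ^ 2 ≤ p by omega) : 2 < Nat.size p)

theorem nr : NR := by
  obtain ⟨C, hC⟩ := B8.lp_cyc
  refine ⟨3 * C, fun p r hp hr hr2 hrp hd => ?_⟩
  have hr3 : 3 ≤ r := by have := hr.two_le; omega
  have hro := hr.odd_of_ne_two hr2
  have hpr : p.Coprime r := (Nat.coprime_primes hp hr).2 (by omega)
  have hp3 : p.Coprime 3 := (Nat.coprime_primes hp Nat.prime_three).2 (by omega)
  obtain ⟨m', h3, hle, hodd, hm', hφ, hpm⟩ : ∃ m' : ℕ, 3 ∣ r * m' ∧ m' ≤ 3 ∧ Odd (r * m') ∧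
      ¬ r ∣ 2 * m' ∧ ¬ r ∣ (r * m').totient ∧ p.Coprime (r * m') := by
    by_cases h : r = 3
    · subst h
      exact ⟨1, by norm_num, by norm_num, by decide, by norm_num, by decide, hp3⟩
    · have h2 : ¬ r ∣ 2 := fun e => by have := Nat.le_of_dvd (by norm_num) e; omega
      have h3 : ¬ r ∣ 3 := fun e => by have := Nat.le_of_dvd (by norm_num) e; omega
      refine ⟨3, dvd_mul_left _ _, le_rfl, hro.mul (by decide),
        fun e => ((Nat.Prime.dvd_mul hr).1 e).elim h2 h3, fun e => ?_, hpr.mul_right hp3⟩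
      rw [Nat.totient_mul ((hr.coprime_iff_not_dvd).2 h3), Nat.totient_prime hr,
        Nat.totient_prime Nat.prime_three] at e
      refine ((Nat.Prime.dvd_mul hr).1 e).elim (fun e => ?_) h2
      have := Nat.le_of_dvd (by omega) e
      omega
  have hm0 : 0 < r * m' := hodd.pos
  have : NeZero (r * m') := ⟨hm0.ne'⟩
  have := B8.isCyc (r * m')
  obtain ⟨inst, hLP⟩ := hC (r * m') h3 (CyclotomicField (r * m') ℚ)
  obtain ⟨l, h1, h2, h4⟩ := B8.nr_core hr hr2 rfl hodd hm' hφ hp hpm hd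
    (hLP (p * (r * m')) (((r : ℝ) * Nat.size p) ^ 3) (by
      have a1 := B8.log_le_size p hp.pos
      have a2 := B8.three_le_size (show 3 < p by omega)
      have a3 : (3 : ℝ) ≤ r := by exact_mod_cast hr3
      have a4 : ((r * m' : ℕ) : ℝ) ≤ 3 * r := by
        exact_mod_cast (by nlinarith : r * m' ≤ 3 * r)
      have a5 : (0 : ℝ) < (r * m' : ℕ) := by exact_mod_cast hm0
      have a6 := Real.log_le_sub_one_of_pos a5
      rw [Nat.cast_mul p, Real.log_mul (by exact_mod_cast hp.ne_zero) a5.ne']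
      set s : ℝ := (Nat.size p : ℝ)
      set t : ℝ := ((r * m' : ℕ) : ℝ)
      have b1 : t ^ 2 ≤ (3 * r) ^ 2 := by gcongr
      have b2 : (3 * r) ^ 2 ≤ ((r : ℝ) * s) ^ 2 := by rw [mul_comm]; gcongr
      have b3 : 3 * (r : ℝ) ≤ r * s := by rw [mul_comm]; gcongr
      have b4 : 3 * s ≤ r * s := by gcongr
      generalize (r : ℝ) * s = y at *
      nlinarith))
  refine ⟨l, h1, ?_, h4⟩
  rw [← pow_mul] at h2
  exact_mod_cast h2

theorem nr2 : NR2 := by
  obtain ⟨C, hC⟩ := B8.lp_cyc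
  refine ⟨3 * C, fun p hp hp3 => ?_⟩
  have := B8.isCyc 3
  obtain ⟨inst, hLP⟩ := hC 3 dvd_rfl (CyclotomicField 3 ℚ)
  obtain ⟨a, h1, h2⟩ := B8.nr2_core hp hp3 (hLP p ((Nat.size p : ℝ) ^ 3) (by
    have a1 := B8.log_le_size p hp.pos
    have a2 := B8.three_le_size hp3
    set s : ℝ := (Nat.size p : ℝ)
    have b1 : 9 ≤ s ^ 2 := by nlinarith
    push_cast
    nlinarith))
  refine ⟨a, ?_, h2⟩
  rw [← pow_mul] at h1
  exact_mod_cast h1

end Crest.Agent.R312
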