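import Crest.Agent.R312.B8G

/-!
# R312 / B8P : the Stickelberger relation for primes of degree one (helper58)
-/

set_option autoImplicit false
set_option linter.unusedSectionVars false

noncomputable section

open Finset NumberField IsCyclotomicExtension.Rat
open scoped Pointwise ComplexConjugate

namespace Crest.Agent.R312.B8

variable {m r : ℕ} [NeZero m] {K : Type} [Field K] [NumberField K] [IsCyclotomicExtension {m} ℚ K]

variable (K) in
theorem exists_root (hm : r ∣ m) : ∃ ζ : 𝓞 K, IsPrimitiveRoot ζ r := by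
  obtain ⟨c, hc⟩ := hm
  exact ⟨_, (IsCyclotomicExtension.zeta_spec m ℚ K).toInteger_isPrimitiveRoot.pow (NeZero.pos m)
    (hc.trans (mul_comm _ _))⟩

omit [NeZero m] [IsCyclotomicExtension {m} ℚ K] in
theorem card_quot (Q : Ideal (𝓞 K)) [Fintype (𝓞 K ⧸ Q)] :
    Fintype.card (𝓞 K ⧸ Q) = Ideal.absNorm Q := by
  rw [Ideal.absNorm_apply, Submodule.cardQuot_apply, Nat.card_eq_fintype_card]

omit [NeZero m] [IsCyclotomicExtension {m} ℚ K] in
theorem max_of_norm {Q : Ideal (𝓞 K)} (hQ : (Ideal.absNorm Q).Prime) : Q.IsMaximal :=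
  (Ideal.isPrime_of_irreducible_absNorm ((Nat.irreducible_iff_nat_prime _).2 hQ)).isMaximal
    fun h => hQ.ne_zero (by rw [h, Ideal.absNorm_bot])

theorem conj_inj {Q : Ideal (𝓞 K)} (hQ : (Ideal.absNorm Q).Prime)
    (hc : (Ideal.absNorm Q).Coprime m) {σ τ : Gal(K/ℚ)} (h : σ • Q = τ • Q) : σ = τ := by
  have hmax := max_of_norm hQ
  let _ := Ideal.Quotient.field Q
  let _ := Fintype.ofFinite (𝓞 K ⧸ Q)
  have h1 : (τ⁻¹ * σ) • Q = Q := by rw [mul_smul, h, inv_smul_smul]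
  suffices τ⁻¹ * σ = 1 by rw [← mul_one τ, ← this, mul_inv_cancel_left]
  set ρ := τ⁻¹ * σ
  obtain ⟨ζ, hζ⟩ := exists_root K (dvd_refl m)
  have hπ := hζ.idealQuotient_mk hQ.one_lt.ne' hc
  obtain ⟨n, hn⟩ : ∃ n : ℕ, Ideal.Quotient.mk Q ζ = n := by
    have := Fact.mk hQ
    let e := ZMod.ringEquivOfPrime (𝓞 K ⧸ Q) hQ (card_quot Q)
    refine ⟨(e.symm (Ideal.Quotient.mk Q ζ)).val, ?_⟩
    rw [← map_natCast e, ZMod.natCast_zmod_val, RingEquiv.apply_symm_apply]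
  have h2 : ζ - n ∈ Q := by rw [← Ideal.Quotient.eq, hn, map_natCast]
  have h3 : ρ • (ζ - n) ∈ Q := by
    have := Ideal.smul_mem_pointwise_smul ρ _ _ h2
    rwa [h1] at this
  rw [smul_sub, smul_nat, smul_root ρ hζ.pow_eq_one, ← Ideal.Quotient.eq, map_natCast, ← hn,
    map_pow] at h3
  refine eq_one_of_aa (m := m) ?_
  have h4 := ((hπ.isOfFinOrder (NeZero.ne m)).pow_inj_mod (n := aa m ρ) (m := 1)).1
    (by rw [h3, pow_one])
  rwa [← hπ.eq_orderOf] at h4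

theorem conj_cop {Q : Ideal (𝓞 K)} (hQ : (Ideal.absNorm Q).Prime)
    (hc : (Ideal.absNorm Q).Coprime m) :
    Pairwise (Function.onFun IsCoprime fun σ : Gal(K/ℚ) => σ⁻¹ • Q) := by
  intro σ τ h
  have h1 := max_of_norm (Q := σ⁻¹ • Q) (by rwa [absNorm_smul])
  have h2 := max_of_norm (Q := τ⁻¹ • Q) (by rwa [absNorm_smul])
  exact Ideal.isCoprime_iff_sup_eq.2
    (h1.coprime_of_ne h2 fun e => h (inv_injective (conj_inj hQ hc e)))

theorem span_norm {Q : Ideal (𝓞 K)} (hQ : (Ideal.absNorm Q).Prime)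
    (hc : (Ideal.absNorm Q).Coprime m) :
    Ideal.span {(Ideal.absNorm Q : 𝓞 K)} = ∏ σ : Gal(K/ℚ), σ⁻¹ • Q := by
  have := IsCyclotomicExtension.isGalois {m} ℚ K
  obtain ⟨X, hX⟩ : (∏ σ : Gal(K/ℚ), σ⁻¹ • Q) ∣ Ideal.span {(Ideal.absNorm Q : 𝓞 K)} := by
    refine Fintype.prod_dvd_of_coprime (conj_cop hQ hc) fun σ => ?_
    rw [Ideal.dvd_span_singleton, ← absNorm_smul σ⁻¹ Q]
    exact Ideal.absNorm_mem _
  have h := congrArg Ideal.absNorm hX
  rw [Ideal.absNorm_span_natCast, map_mul, map_prod] at h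
  simp only [absNorm_smul, prod_const, card_univ] at h
  rw [← Nat.card_eq_fintype_card, IsGalois.card_aut_eq_finrank, RingOfIntegers.rank] at h
  have h1 : Ideal.absNorm X = 1 :=
    (Nat.mul_right_inj (pow_ne_zero _ hQ.ne_zero)).1 (h.symm.trans (mul_one _).symm)
  rw [hX, Ideal.absNorm_eq_one_iff.1 h1, Ideal.mul_top]

theorem factor_of {Q : Ideal (𝓞 K)} (hQ : (Ideal.absNorm Q).Prime)
    (hc : (Ideal.absNorm Q).Coprime m) {x y : 𝓞 K} (hxy : x * y = Ideal.absNorm Q)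
    (p : Gal(K/ℚ) → Prop) [DecidablePred p] (hx : ∀ σ, p σ → σ • x ∈ Q)
    (hy : ∀ σ, ¬ p σ → σ • y ∈ Q) :
    Ideal.span {x} = ∏ σ : Gal(K/ℚ), (σ⁻¹ • Q) ^ (if p σ then 1 else 0) := by
  have e : ∏ σ : Gal(K/ℚ), (σ⁻¹ • Q) ^ (if p σ then 1 else 0) =
      ∏ σ ∈ univ.filter p, σ⁻¹ • Q := by
    rw [prod_filter]
    refine prod_congr rfl fun σ _ => ?_
    split_ifs <;> simp
  obtain ⟨X, hX⟩ : (∏ σ ∈ univ.filter p, σ⁻¹ • Q) ∣ Ideal.span {x} := by
    refine prod_dvd_of_coprime ((conj_cop hQ hc).set_pairwise _) fun σ hσ => ?_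
    rw [Ideal.dvd_span_singleton, Ideal.mem_inv_pointwise_smul_iff]
    exact hx σ (mem_filter.1 hσ).2
  obtain ⟨Y, hY⟩ : (∏ σ ∈ univ.filter (fun σ => ¬ p σ), σ⁻¹ • Q) ∣ Ideal.span {y} := by
    refine prod_dvd_of_coprime ((conj_cop hQ hc).set_pairwise _) fun σ hσ => ?_
    rw [Ideal.dvd_span_singleton, Ideal.mem_inv_pointwise_smul_iff]
    exact hy σ (mem_filter.1 hσ).2
  have h := span_norm hQ hc
  have h0 : Ideal.span {(Ideal.absNorm Q : 𝓞 K)} ≠ 0 := by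
    simpa using hQ.ne_zero
  have h1 : Ideal.span {(Ideal.absNorm Q : 𝓞 K)} * (X * Y) =
      Ideal.span {(Ideal.absNorm Q : 𝓞 K)} * 1 := by
    rw [mul_one]
    conv_rhs => rw [← hxy, ← Ideal.span_singleton_mul_span_singleton, hX, hY]
    rw [h, ← prod_filter_mul_prod_filter_not univ p]
    ring
  have h2 : X = ⊤ := Ideal.isUnit_iff.1 (IsUnit.of_mul_eq_one Y (mul_left_cancel₀ h0 h1))
  rw [e, hX, h2, Ideal.mul_top]

/-- Stickelberger's relation for a prime of degree one, and the reciprocity law -/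
theorem good_prime (hr : r.Prime) (hr2 : r ≠ 2) (hm : r ∣ m) {ζ : 𝓞 K} (hζ : IsPrimitiveRoot ζ r)
    {Q : Ideal (𝓞 K)} (hQ : (Ideal.absNorm Q).Prime) (hc : (Ideal.absNorm Q).Coprime m) :
    r ∣ Ideal.absNorm Q - 1 ∧ ∃ Φ, Good m r Q Φ ∧
      ∀ (E : Type) [Field E] [Fintype E] (π : 𝓞 K →+* E) (n : ℕ), IsPrimitiveRoot (π ζ) r →
        Fintype.card E - 1 = r * n → ringChar E ≠ Ideal.absNorm Q →
        ringChar E ^ ((Ideal.absNorm Q - 1) / r) % Ideal.absNorm Q = 1 → π Φ ^ n = 1 := by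
  have hmax := max_of_norm hQ
  let _ := Ideal.Quotient.field Q
  let _ := Fintype.ofFinite (𝓞 K ⧸ Q)
  have : NeZero r := ⟨hr.ne_zero⟩
  have hcard := card_quot Q
  have hπ := hζ.idealQuotient_mk hQ.one_lt.ne' (hc.of_dvd_right hm)
  have hdvd : r ∣ Ideal.absNorm Q - 1 := by
    rw [← hπ.pow_eq_one_iff_dvd, ← hcard]
    exact FiniteField.pow_card_sub_one_eq_one _ (hπ.ne_zero hr.ne_zero)
  refine ⟨hdvd, ?_⟩
  obtain ⟨k, hk⟩ := hdvd
  have hk' : Fintype.card (𝓞 K ⧸ Q) - 1 = k * r := by rw [hcard, hk, mul_comm]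
  obtain ⟨χ, hχ, hχ1, hv⟩ := exists_chi hr hk' (Ideal.Quotient.mk Q) hζ hπ
  have hζm : ζ ^ m = 1 := (hζ.pow_eq_one_iff_dvd m).2 hm
  have hJ : ∀ i ∈ Ico 1 (r - 1),
      jacobiSum χ (χ ^ i) * cc m K • jacobiSum χ (χ ^ i) = Ideal.absNorm Q := by
    intro i hi
    obtain ⟨h1, h2⟩ := mem_Ico.1 hi
    rw [← hcard]
    exact jac_mul_conj hr hχ hχ1 hζ (MulSemiringAction.toRingHom Gal(K/ℚ) (𝓞 K) (cc m K))
      (hm.trans aa_cc) (smul_root _ hζm) (algebraMap (𝓞 K) K) RingOfIntegers.coe_injective h1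
      (by omega)
  have hvan : ∀ (σ : Gal(K/ℚ)) (i : ℕ), i ≠ 0 → r < aa m σ % r + (aa m σ * i) % r →
      σ • jacobiSum χ (χ ^ i) ∈ Q := by
    intro σ i hi h
    rw [← Ideal.Quotient.eq_zero_iff_mem]
    exact jac_vanish hr hk' (Ideal.Quotient.mk Q) hχ hv hζ
      (MulSemiringAction.toRingHom Gal(K/ℚ) (𝓞 K) σ) (aa_ne hr hm σ) (smul_root _ hζm) hi h
  have hF : ∀ i ∈ Ico 1 (r - 1), Ideal.span {jacobiSum χ (χ ^ i)} =
      ∏ σ : Gal(K/ℚ), (σ⁻¹ • Q) ^ (if r ≤ ww m r σ + (ww m r σ * i) % r then 1 else 0) := by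
    intro i hi
    obtain ⟨h1, h2⟩ := mem_Ico.1 hi
    have hnd : ∀ (σ : Gal(K/ℚ)) (j : ℕ), 0 < j → j < r → ¬ r ∣ aa m σ * j := fun σ j h0 hj h =>
      ((Nat.Prime.dvd_mul hr).1 h).elim (not_dvd_aa hr hm σ)
        fun h => absurd (Nat.le_of_dvd h0 h) (by omega)
    refine factor_of hQ hc (hJ i hi) _ (fun σ h => hvan σ i (by omega) ?_) fun σ h => ?_
    · rw [ww, Nat.mod_mul_mod] at h
      refine lt_of_le_of_ne h fun e => hnd σ (1 + i) (by omega) (by omega) ?_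
      rw [mul_add, mul_one, Nat.dvd_iff_mod_eq_zero, Nat.add_mod, ← e, Nat.mod_self]
    · rw [← mul_smul]
      refine hvan _ i (by omega) ?_
      rw [ww, Nat.mod_mul_mod] at h
      have e1 : aa m (σ * cc m K) % r + aa m σ % r = r := ww_add hr hm σ
      have e2 : (aa m (σ * cc m K) * i) % r + (aa m σ * i) % r = r :=
        mod_add_mod hr.pos (by rw [← add_mul]; exact (hm.trans (aa_mul_cc σ)).mul_right _)
          (hnd σ i (by omega) (by omega))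
      omega
  refine ⟨Ideal.absNorm Q * ∏ i ∈ Ico 1 (r - 1), jacobiSum χ (χ ^ i), ⟨?_, ?_⟩, ?_⟩
  · rw [← Ideal.span_singleton_mul_span_singleton, ← Ideal.prod_span_singleton, span_norm hQ hc,
      prod_congr rfl hF, prod_comm, ← prod_mul_distrib, thI]
    refine prod_congr rfl fun σ _ => ?_
    rw [prod_pow_eq_pow_sum, ← pow_succ', add_comm,
      count_eq hr.two_le (ww_pos hr hm σ) (ww_lt hr σ)]
  · refine ⟨Ideal.absNorm Q ^ 2 * ∏ i ∈ Ico 1 (r - 1), (Ideal.absNorm Q : ℚ), ?_⟩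
    have e : ((Ideal.absNorm Q : 𝓞 K) * ∏ i ∈ Ico 1 (r - 1), jacobiSum χ (χ ^ i)) *
        cc m K • ((Ideal.absNorm Q : 𝓞 K) * ∏ i ∈ Ico 1 (r - 1), jacobiSum χ (χ ^ i)) =
        Ideal.absNorm Q ^ 2 * ∏ i ∈ Ico 1 (r - 1), (Ideal.absNorm Q : 𝓞 K) := by
      rw [smul_mul', smul_nat, smul_prod', ← prod_congr rfl hJ, prod_mul_distrib]
      ring
    have e' := congrArg (algebraMap (𝓞 K) K) e
    rw [map_mul] at e'
    refine e'.trans ?_
    simp
  · intro E _ _ π n hπ' hn hne hp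
    have hl : ringChar (𝓞 K ⧸ Q) = Ideal.absNorm Q := by
      have := charP_of_card_eq_prime (R := 𝓞 K ⧸ Q) (p := Ideal.absNorm Q) (hp := ⟨hQ⟩) hcard
      exact ringChar.eq _ _
    have h1 : χ (ringChar E) = 1 := by
      refine chi_eq_one hr hχ hζ (Ideal.Quotient.mk Q) hπ ?_
      have h2 : ((ringChar E : ℕ) : 𝓞 K ⧸ Q) ^ k = 1 := by
        rw [hk, Nat.mul_div_cancel_left _ hr.pos] at hp
        rw [← Nat.cast_pow, ← Nat.div_add_mod (ringChar E ^ k) (Ideal.absNorm Q), hp,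
          Nat.cast_add, Nat.cast_mul, ← hcard, FiniteField.cast_card_eq_zero]
        simp
      rw [hv, pow_mul, h2, one_pow]
    have key := recip hr hr2 (by rwa [hl]) (orderOf_comp hr hχ hχ1 hζ π hπ') hn
      (by rw [MulChar.ringHomComp_apply, h1, map_one])
    rw [map_mul, map_natCast, map_prod, ← hcard]
    simp_rw [← jacobiSum_ringHomComp, ← MulChar.ringHomComp_pow]
    exact key

end Crest.Agent.R312.B8
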