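/-!
# R312 / ReadA : paper proof of part A  (`algo : NR → NR2 → Goal`)

Notation: `p` prime, `n = deg f`.  "Split" = output a monic proper non-trivial factor of `f`.
Everything is `F_p`-linear algebra plus ring arithmetic in finite `F_p`-algebras.  An algebra
`A = F[x]/f` with `f` a product of distinct linear factors `x - a` (`a ∈ S ⊂ F_p`) is `∏_{a ∈ S} F`;
a computation over `A` is the same computation at all roots `a` at once.  All invariants are stated
"for every root `a`, the evaluation at `a` satisfies ...".  Integer (control) data are common to all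
roots.

## A0. Library (programs + PT + specifications)
Vectors mod `p`; `ker` (a spanning list / basis of the kernel of an `F_p`-linear map given on a basis),
`basisOf` (reduce a spanning list to at most `dim` vectors); finite commutative `F_p`-algebras (suggested:
structure constants, so that every element has type `List ℕ` and PT / size bounds are proved once;
`adjoin Alg m` for a monic `m` models `AdjoinRoot m`), powers with binary exponent, polynomials over an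
algebra (lists), `divMod` by a monic polynomial, trace of `A[X]/g` over `A`.
* `unitOrSplit c` (`c ∈ A = F[x]/f`, `F = F_p[z]/h` a field with `q` elements, `c ≠ 0`): `e = c^(q-1)`
  has values `0/1`; if `e = 1` then `c⁻¹ = c^(q-2)`; else `e ∈ F_p[x]/f` and `gcd(f, e)` splits `f`.
  `gcd(f,e)` = the monic element of least degree of the ideal `e · F_p[x]/f`  (`minMonic` over `F_p`).
* `minMonic V` (`V ⊂ A[X]_{<D}` an `A`-submodule given by an `F_p`-spanning list, `V ≠ 0`): least `e` with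
  `V ∩ {deg ≤ e} ≠ 0` (kernel), take `v ≠ 0` there, its coefficient `c` of `X^e` is `≠ 0`; `unitOrSplit c`;
  return `c⁻¹ v`.  Then at every root `a` the result is a monic element of least degree of `V_a`.
* `r`-adic digits without branching.  `B` a product of copies of `F`, `ζ ∈ F` of order `r`,
  `q - 1 = r^e t`, `γ` a generator of the `r`-Sylow subgroup of `F^*` (`γ = γ₀^t`, `γ₀` a non-`r`-th
  power; renormalise `ζ := γ^(r^(e-1))`).  For `u ∈ B` with `u^r = 1` the elements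
  `e_c(u) = r⁻¹ ∑_k ζ^(-ck) u^k` are the indicator functions of `{u = ζ^c}`.  For a unit `v`, put
  `v₀ = v^t`, `u_i = v_i^(r^(e-1-i))`, `v_{i+1} = v_i ∑_c e_c(u_i) γ^(-c r^i)`; then `v_e = 1`, and
  `v₀ = ∏_i ∑_c e_c(u_i) γ^(c r^i)`.  Consequences: (`digits`) if all `e_c(u_i)` are `0` or `1` then `v^t`
  is constant; (`root`) if every value of `v` is an `r`-th power then `e_0(u_0) = 1`,
  `s = ∏_{i ≥ 1} ∑_c e_c(u_i) γ^(c r^(i-1))` has `s^r = v^t`, and with `t t' = 1 + r k`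
  (`0 < t' < r`), `w = s^{t'} v^{-k}` has `w^r = v`.

## A1. Outer algorithm
1. Parse, make monic.  `factor`: keep a list of monic polynomials, replace a member by two factors while
   `findFactor` succeeds (at most `n` rounds).
2. `findFactor f` (monic, degree `≥ 1`), in `B = F_p[x]/f`: (a) `Nil = ker (u ↦ u^(p^n))` (linear); if
   `Nil ≠ 0` its `minMonic` is a proper non-trivial factor (the radical).  (b) `Ber = ker (u ↦ u^p - u)`;
   if all its members are constants, `f` is irreducible.  Else take a non-constant `u ∈ Ber`, its minimal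
   polynomial `μ` (`minMonic` of `{P ∈ F_p[T]_{≤ n} : P(u) = 0}`) is squarefree, split, `2 ≤ deg ≤ n`;
   `splitS μ = μ₁` and `gcd(f, μ₁(u))` is a proper non-trivial factor.
3. `splitS f` (`f` monic, squarefree, split, degree `n ≥ 2`): if `p ≤ n₀` (`n₀ ≥ max(n,3)` the degree bound
   of the run) try all roots.  If `n` is even: tournament.  Else `r = minFac n`, `splitOdd` (A3) with the
   table entry of `r`.
4. Tournament: `γ₀` from `NR2` (search `a ≤ (size p)^C`), `A = F_p[x]/f`, `B = A[X]/(f(X)/(X-x))`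
   (functions of pairs of distinct roots), `v = x - X`, `r = 2`; the last digit `s = e_1(u_{e-1})`
   satisfies `s(a,b) + s(b,a) = 1` (`t` odd, `-1 = γ^(2^(e-1))`).  `o = Tr_{B/A} s` is the out-degree,
   `∑_a o(a) = n(n-1)/2` in `ℕ`, so `o` is not constant (`n` even), `0 ≤ o < n < p`; some `o - c`
   (`c < n`) is a non-zero non-unit.
5. Table: for the odd primes `r ≤ n₀ < p` in increasing order: `h_r` = an irreducible factor of
   `Φ_r = 1 + z + … + z^(r-1)` (`factor` only needs the entries of primes `< r`), `F = F_p[z]/h_r`,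
   `q = p^d`, `1 ≤ d < r`, `z` has order `r` (`r ≠ p`), `r ∣ q - 1`.  `γ₀` = the first candidate with
   `γ₀ ≠ 0`, `γ₀^((q-1)/r) ≠ 1` among `z` and `γ_l`, `l ≤ (r size p)^C`.  If `z` fails, `r² ∣ q - 1` and `NR`
   gives `l`.  `γ_l = l ∏_{i=1}^{r-2} J(χ, χ^i)`, `χ(a) = z^c` if `a^((l-1)/r) = b^c mod l` (`b ≠ 1`,
   `b^r = 1 mod l`, found by search), `χ(-1) = 1`.  In an extension field with a primitive `l`-th root
   of unity, `γ_l = G^r` (`gaussSum_pow_eq_prod_jacobiSum`), `G ≠ 0`, `G^q = χ(q)⁻¹ G`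
   (`gaussSum_frob` iterated, or directly), so `γ_l^((q-1)/r) = χ(p)^(-d) ≠ 1`.

## A2. The curve (pure mathematics over one field)
`F` finite, `r` odd prime, `ζ ∈ F` of order `r`, `g ∈ F[X]` with `m` distinct roots `α_j ∈ F` (`j ∈ J`),
`deg g = m`, `r ∣ m + 1`.  `R = F[X][Y]/(Y^r - g)`, `L = Frac R`, `σ Y = ζ Y`, `u = ∑_{b<r} u^(b) Y^b`.
* `‖u‖ = max_b (r deg u^(b) + m b)` (the `r` numbers are distinct mod `r`); `‖uv‖ = ‖u‖ + ‖v‖` (so `R` is a
  domain), ultrametric, `σ`-invariant; extends to `L^*` (values in `ℤ`).  `N u = ∏ σ^k u ∈ F[X]`,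
  `deg N u = ‖u‖`; units of `R` are constants.  `dim {‖u‖ ≤ B} ≥ B + 1 - g₀`, `g₀ = (r-1)(m-1)/2`
  (exact count: the residues of `B - mb` run over all classes mod `r`).
* `R` is Dedekind (a maximal ideal over `π ∤ g`: `R/π` is reduced, so `π` generates locally; over
  `X - α_j`: `W_j = (X - α_j, Y)` is generated by `Y` locally).  `v_j(u) = min_b (r ord_{α_j} u^(b) + b)`
  is the valuation of `W_j`, `= ord_{α_j} N u`.
* A `σ`-stable ideal is graded; if it is coprime to `g` it is `p₀ R` (`Y` is invertible mod it).  So for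
  `I ≠ 0` coprime to `g` there is a unique monic `ν = ν(I)` with `I σI ⋯ σ^(r-1) I = ν R`; `ν` is
  multiplicative, `ν` generates `(I σI ⋯) ∩ F[X]`, `dim R/I = deg ν` (`dim R/IJ = dim R/I + dim R/J`).
* `drop`: `J ≠ 0`, `0 ≠ μ ∈ J ∩ F[X]`, `μ♭` = `μ` with all prime factors of `g` removed:
  `J♭ = J + μ♭ R` is coprime to `g` and `J = J♭ ∏ W_j^{k_j}`.
* `G = Cl(R)`, `φ = 1 - σ`.  `|G| ≤ q^(poly)` (every class contains an ideal of codimension `≤ g₀`: take
  `0 ≠ u ∈ I` with `‖u‖ ≤ dim R/I + g₀`; such an ideal contains a monic polynomial of degree `≤ g₀`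
  and has two generators).  `1 + σ + … + σ^(r-1) = 0` on `G`, hence `r = φ ρ(φ)`, `φ^(r-1) = r · (…)`.
  `∑ c_j W_j = 0` in `G` iff `c` is constant mod `r` (`u` with divisor on the `W_j`: `σu/u` is a unit,
  so a constant, so `u = Y^b k(X)`).
* **Division theorem.**  `I` coprime to `g`, `ν = ν(I)`, `κ ∈ F^*`, `w ∈ F[X]` with `w^r ≡ κ ν mod g`,
  `ω ν ≡ w mod g`, `I_k = I σI ⋯ σ^(k-1) I`.  `V_B` = tuples `(c'_k)_{k<r}` in `R` with
  (i) `c'_k I_k ⊆ ν^k R`, (ii) `∑_k ζ^(-kb) ω^k c'_k^(s) ≡ 0 mod g` for all `s < b < r`,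
  (iii) `c'_k = 0` or `‖c'_k‖ ≤ B + (r-1) k deg ν`.  Then `V_B ≠ 0` for `B = (r-1)(m+1)`, and if `0 ≠ c' ∈ V_B`
  and `V_{B'} = 0` for all naturals `B' < B`, then `c'_0 ≠ 0` and `J* = ∑_k ν^(-k) c'_k I_k` (an ideal of `R`
  containing `c'_0`) satisfies `φ [J*] = [I]`.
  Proof. Put `c_k = c'_k/ν^k ∈ I_k⁻¹`, `a = κν`.  (1) Count: `dim V_B ≥ r(B+1-g₀) - m r(r-1)/2`.
  (2) `a` is a norm.  `M(c)_{ij} = σ^i c_{j-i}` (`i ≤ j`), `a σ^i c_{r+j-i}` (`j < i`); the entry lies in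
  `I_i I_j⁻¹` with `‖·‖ ≤ B - (j-i) deg ν`, so `D(c) = det M(c) ∈ R`, `‖D‖ ≤ rB`; `D` is `σ`-fixed (`σM` is
  `M` conjugated by the cyclic shift twisted by `a`), so `D ∈ F[X]`, `deg ≤ B`.  `g^(r-1) ∣ D`: lift `w` to
  `w^r ≡ a mod g²`; with `c̃_k = w^k c_k`, `M = diag(w^i) (M̃ + O(Y^{2r})) diag(w^{-j})`,
  `M̃_{ij} = σ^i c̃_{j-i mod r}`; multiply on the right by `(ζ^{-jb} Y^{-b})_{j,b}` and on the left by
  `(ζ^{-is})_{s,i}`: the entry `(s,b)` is `r` times the `Y^s`-component of `∑_k c̃_k σ^k Y^{-b}` (integral at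
  `W_j` by (ii)) plus `O(Y^{2r-b})`, so has `v_j ≥ s`; hence `v_j(D) ≥ ∑ s + ∑ b = r(r-1)`.  So `D(c) = 0`
  iff the coefficients of `X^e`, `m(r-1) ≤ e ≤ B`, vanish; each is a form of degree `r` in coordinates of
  `V_B`; `dim V_B - r(B - m(r-1) + 1) ≥ r(r-1)/2 > 0`, so Chevalley–Warning
  (`char_dvd_card_solutions_of_sum_lt`) gives `c ≠ 0` with `D(c) = 0` (take `B = (r-1)(m+1)`).
  `ker M(c) ⊂ L^r` has dimension `0 < ρ < r` and is stable under the `σ`-semilinear map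
  `Θ(x)_0 = a⁻¹ σ x_{r-1}`, `Θ(x)_j = σ x_{j-1}` (check: `MΘ = ΘM`; this also shows `σ D = D`),
  `Θ^r = a⁻¹`; the determinant `δ` of `Θ` in a basis has `N δ = a^(-ρ)`; `ρρ' = 1 + rs` gives `N h = a`
  for `h = δ^(-ρ') a^(-s)`.
  (3) `h` is a unit at every `W_j`, `h(W_j) = ζ^{s_j} w(α_j)`.  Replace `h` by `h σβ/β` to get
  `h ≡ w mod Y^(r-1)` at all `W_j` (first `β = ∑_j e_j(X) Y^{-s_j mod r}`, `e_j` the Lagrange basis; then
  `β = 1 + ε(X) Y^s`, `s = 1, …, r-2`, `ζ^s ≠ 1`).  `𝔞 = h I⁻¹` has `∏ σ^k 𝔞 = 1`; `J₁ = ∑_{k<r} 𝔞 σ𝔞 ⋯ σ^(k-1)𝔞`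
  has `h σJ₁ = I J₁` and is a unit at the `W_j`.  `h_k = h σh ⋯ σ^(k-1) h`, `‖h_k‖ = k deg ν`.
  (4) For `c` with (i), (ii) the operator `T = ∑ c_k h_k σ^k` maps `Y^(1-r) J₁` into `J₁`.  Let `β_1..β_r` be a
  reduced basis of `J₁⁻¹` over `F[X]` (`β_i` of least `‖·‖` in its class mod `r`), `‖β_1‖` least; its
  trace-dual basis lies in `Y^(1-r) J₁` (`R^∨ = Y^(1-r) R`), so `T = ∑ γ_i Tr(β_i ·)`, `γ_i ∈ J₁`, and
  `c_k h_k = ∑_i γ_i σ^k β_i` (independence of the `σ^k`).  `max_k ‖c_k h_k‖ = max_i (‖γ_i‖ + ‖β_i‖)`: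
  with `t = Y X^{-(m+1)/r}`, `‖t‖ = -1`, `β = ∑ β^[b] t^b`, one has `∑_k ζ^{-kb} c_k h_k = r t^b ∑ γ_i β_i^[b]`;
  take for `b` the leading index of a maximising `i`.  Conversely `α σ^k β_1 / h_k` satisfies (i), (ii) for
  `α ∈ J₁`.  Taking `α` of least norm, minimality of `B` forces `γ_i = 0` for `i > 1`; so
  `c_k h_k = γ σ^k β_1`, `J* = γ J₁⁻¹ ∑_k σ^k(β_1 J₁)` with the last factor `σ`-stable.  ∎
* **Descent lemma** (abstract: `G` finite abelian with `σ`, `∑σ^k = 0`).  Keep `t_l ∈ G`, heights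
  `e_l ≥ 1`, socles `s_l = φ^(e_l - 1) t_l` with `φ s_l = 0`, `(s_l)` independent over `F_r`.  Then
  `r^(∑ e_l) ≤ |G|`.  If `φ t' = ∑ c_l t_l`, `0 ≤ c_l < r` not all zero, `l₀` of maximal height among
  `c_l ≠ 0`: replacing `t_{l₀}` by `t'` (height `+1`, socle `∑_{e_l = e_{l₀}} c_l s_l`) keeps this.  If
  `D_i + ∑_l c_{i,l} t_l = φ D_{i+1}` (`i < Λ`, `|G| < r^Λ`), `i_l` = first `i` with `c_{i,l} ≠ 0`,
  `H = max_l (e_l - i_l)⁺`, then for every `e` prime to `r` killing the prime-to-`r` part of `G`: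
  `H = 0 ⇒ e D₀ = 0`; `H ≥ 1 ⇒ φ^(H-1) e D₀ = -e ∑_{e_l - i_l = H} c_{i_l,l} s_l ≠ 0`.
* **Cross-chart theorem.**  `f = ∏_{a ∈ S} (x - a)`, `|S| = n ≥ 3`, `r ∣ n`.  Chart `a`:
  `g_a(X) = ∏_{b ≠ a} (1 + (a-b) X)` (roots `1/(b-a)`), `R_a`, `P_a = (X, Y - 1)`.  All `R_a` embed in one
  field (`X = 1/(x-a)`, `Y = y/(x-a)^(n/r)`, `y^r = f`), `R_a[1/g_a]` is the same ring, and the ideals
  `σ^k P_a` extend to the same ideals.  Let `e` be prime to `r`.  (α) `e P_a = 0` in `Cl(R_a)` cannot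
  hold for all `a`.  (β) If `φ^(H-1) e P_a = ∑_{b ≠ a} c_a(b) W_b` in `Cl(R_a)` for all `a` (same `H`), there
  are `c* : S → ℤ/r` and `λ : S → ℤ/r` with `c_a(b) = c*(b) + λ(a)`.
  Proof: the relation gives `z_a ∈ L^*` generating a fixed fractional ideal of `R_S = R_a[1/g_a]`, with
  `v_b(z_a) = -c_a(b)`, where `v_b(z) = ord_{x=b} N z` does not depend on the chart; `u = z_a/z_{a'}` is a unit
  of `R_S`, `σu/u` is a unit of `R_a`, so `v_b(u)` is constant mod `r` on all of `S` (`u = y^b k(x)`).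
  In (α), `v_b(z_a) = 0` (`b ≠ a`), `v_a(z_a) = -‖z_a‖ = -e`, impossible for two different `a` as `n ≥ 3`.

## A3. `splitOdd` (`n` odd, `r ∣ n`, `F, ζ, γ₀` from the table)
Work over `A = F[x]/f`, `g = g_x ∈ A[X]` (`= X^(n-1) f₁(x + 1/X)`, `f₁(T) = f(T)/(T - x)`; leading
coefficient `f'(x)`, a unit).  An *ideal datum* is `(ν, U)`, `ν ∈ A[X]` monic, `U` an `F_p`-spanning list
of the `A`-module `⊕_a I_a/ν_a R_a ⊂ A[X,Y]/(ν, Y^r - g)`, with `ν_a = ν(I_a)`.  Product: modulus `νν'`,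
span of all products of (members of `U`, `ν ·` basis) with (members of `U'`, `ν' ·` basis), then `basisOf`.
`σ` acts coefficientwise.  `mkIdeal(μ, generators)`: `μ` monic in the ideal; `μ♭ = μ / gcd(μ, g^(deg μ))`
(`minMonic`), span mod `μ♭`, `ν` = `minMonic` of `(∏ σ^k I) ∩ A[X]` modulo `μ♭^r` (`= μ♭^r` if that is `0`),
re-span mod `ν`.  State: a factorisation `g = lc · ∏_{l ≤ d} g_l` into monic non-constant `g_l`.
* `ob(ν)`: for each `l`, `u = ν^((q-1)/r) mod g_l`; if `u = ζ^c` for some `c < r` set `ob_l = c`; otherwise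
  some `e_c(u)` is neither `0` nor `1` and `minMonic` of the ideal it generates in `A[X]/g_l` splits `f` or
  refines `g_l` (then restart; at most `n` times).
* `divide(I)` when `ob(ν(I))` is a constant `c`: `κ = γ₀^{c'}` with `κν` an `r`-th power at all roots of `g`,
  `w = root(κν)` in `A[X]/g`; least `B` with `V_B ≠ 0` (one kernel over `F_p` for all roots), `c' ≠ 0` in
  it; if `c'` vanishes at some root, split (`unitOrSplit` on the leading coefficient of `N c'_0`, or split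
  if that is `0`: at a root where `c'_a ≠ 0` the theorem gives `c'_{0,a} ≠ 0`); `μ = N c'_0` made monic;
  `mkIdeal`.  `deg ν ≤ r deg μ ≤ r²(m+1)`, so all sizes stay bounded.
* Saturate: `t_l = mkIdeal(N(Y + g_l), Y + g_l)`, `l < d` (class `-∑_{j ∈ l} W_j`, height 1, socle vector
  `-δ_l ∈ (ℤ/r)^d`; independent mod constants).  While `∑ c_l ob(t_l)` is constant for some `c ≠ 0`
  (kernel mod `r`): `t' = divide(∏ t_l^{c_l})`, update as in the descent lemma (at most `Λ` rounds).  At the end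
  `ob(t_l)`, `1` are a basis of `(ℤ/r)^d`.
* Expand: `D₀ = P`, `Λ` rounds `D_{i+1} = divide(D_i ∏ t_l^{c_{i,l}})`.  By (α) `H ≥ 1`; get
  `c ∈ (ℤ/r)^d` non-constant with `c_{l(a,b)} = c*(b) + λ(a)` (rescale by `-e⁻¹`).  With `k_l = deg g_l`
  and `c̃_l = c_l + ∑_l k_l c_l` one gets `c̃_{l(a,b)} = c*(b) - c*(a) + s`, `s = ∑_S c*`; `c*` is not
  constant.  For `s' < r`, `k < n`: `ρ = ζ^{s'} x^k + ∑_l ζ^{c̃_l} Tr_{A[X]/g_l / A} (x + X⁻¹)^k`.  For `s' = s`
  its value at `a` is `ζ^{s - c*(a)} Θ_k`, `Θ_k = ∑_b ζ^{c*(b)} b^k ≠ 0` for some `k` (Vandermonde).  Then `ρ^t` is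
  not constant, so one of the digit idempotents of `ρ` is a non-zero non-unit.  Try all candidates.
-/
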