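/-!
# R312 / ReadB : part B — small non-residues from a zero-free half plane (owner helper53)

GOAL: `nr : NR`, `nr2 : NR2` (`Iface.lean`).  All definitions: `BDefs.lean` (frozen).  Head modules
(statements frozen, one sub-lead each): `B0Setup B1Main B2Ang B3LS B3W B3L B4Q B4T B4F B5Main B6Main
B7Main B8Main`.  Long paper proofs of B1 and B5: `ReadB1.lean`, `ReadB5.lean`.

The chain is the `J = 0` (no marks) part of `Crest/Agent/R17` with `O = ℤ[ω]` replaced by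
`R = R K = 𝓞_K[1/Q]`:
  voronoi (B5) + qls (B4Q) ⟹ thetaNorm (B4T) ⟹ fMoment (B4F; TLS, PStep, Back) ⟹ zf (B6, `Re s > 11/12`)
  ⟹ least_prime (B7, uniform) ⟹ nr, nr2 (B8, Stickelberger/Eisenstein-type reciprocity).
Nothing in B0–B6 is uniform in `K` (constants depend on `K, Q, Setup`); the only uniform inputs are the
exponent `11/12` and `Ef_growth`.

DICTIONARY R17 → R312.  `K ∋ ω` number field, `d = dd K = [K:ℚ]/2` complex places `v : Pl K`.
`S` = primes above `Q`, `6 ∣ Q`, `R` PID, units `R^*` of rank `d - 1 + |S|`.  `N x = #(R/x)`.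
`SInt` = semi-local ring `𝓞_{(S)}`, `K = R + SInt`, `R ∩ SInt = 𝓞`.  `U_n = InU n`, `U = U_lev`.
`G = K^*/U K^{*6}` finite of exponent 6, `cl : R → G`.  Every non-zero ideal of `R` has exactly one
`Prim` generator, `Prim` is closed under products and exact quotients; there is NO level `Q : Lev` any
more (`P0 Q n` becomes `Prim n`, all primes of `R` are good), rows are `0` and the `Prim` elements.
`ee` is trivial exactly on `R` in the sense of duality (`ee (x y) = 1 ∀ y ∈ R ⟹ x ∈ R`).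
Hecke characters `ν : O → ℂ` together with the twist `N^{it}` become `ν : Tw K` (countable group),
`ν.v n`; the weight `Om (N d / D)` becomes `wt d 1 D`, the dual weight `Om (T N d / N q)` becomes
`wt d q T⁻¹`, and `e^{-c0 x} = ∫ Γ(s) (c0 x)^{-s}` becomes `mellin_Om` (`∑' ν, ∫ τ`).
`(1+|t|)^B` becomes `(1+|t|+ν.sz)^B`.

## B0. Basic API (port of R17 Basic1-4, Sym1-3, Block1-2, LocalSup, Kernel, Chars*, RecKey, RecSex)
(a) `R`: localisation of `𝓞 K` away from `Q` (`IsLocalization.Away`); `R/x` finite, `N` multiplicative,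
`N x = 1 ↔ unit`, `N p ≡ 1 mod 6` for primes; for `x ∈ 𝓞` coprime to `Q`, `nm x = absNorm (x)`; in general
product formula `N x = ∏_v |x_v|² · ∏_{v∈S} |x|_v`.  Ideals of `R` ↔ ideals of `𝓞` coprime to `Q`
(`gen`, bijection onto `Prim`, `nm (gen I) = absNorm I`), so `ball` is finite, `#ball X ≤ C X`
(Mathlib `NumberField.Ideal.tendsto_norm_le_div_atTop`), divisor bounds, `∑ N^{-σ} < ∞` (`σ > 1`),
`dser ν.v = Lser ν.toH`, `HChar (Q^lev) ν.ξ ν.toH`; conversely an `HChar f 0 ψ` with `f ∣ Q` gives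
`ν : Tw` with `ν.v (gen I) = ψ I`.
(b) `ee` is well defined (`K = R + SInt`, `eT = 1` on `𝓞`), additive, `|ee| = 1`, duality; `res`,
orthogonality, Gauss sums, CRT exactly as in R17.
(c) symbols as in R17 Sym1-3 (`R/p` finite field containing the 6 distinct sixth roots of unity).
KEY IDENTITY `mu m * gt m = f1 m * tt m` for squarefree `Prim m`: for a prime Hasse–Davenport
`gt = conj χ(4) · gam · g3²`, `tt p = -g3²`; twisted multiplicativity `gt(ab) = χ_a(b)χ_b(a)…`,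
`gam(ab) = qua_a(b) qua_b(a)…`, `g3(ab) = cub_a(b)cub_b(a)…` and `χ = qua · conj cub`. No reciprocity.
(d) classes. `G` finite: `K^*/U_n` is an extension of `ℤ^S` by `(SInt/Q^n)^*`.  Every class, and every
pair of classes, is represented by coprime elements of `R` avoiding any given `q` (approximation: for
`x ∈ K^*`, `q ≠ 0`, `a` coprime to `q` there is `r ∈ R`, `r ≡ a mod q`, `r/x ∈ U_n`).
For coprime `a, b ≠ 0` put `ρ(a,b) = chi a b · conj (chi b a)`; bimultiplicative; `ρ(a,b) = 1` if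
`a ∈ U`: cubic part `rec3`; quadratic part `qua_a(b) qua_b(a) = gam(ab) conj gam(a) conj gam(b)` (true for
all coprime `a,b`: `gam(n u²)=gam n`, CRT; for non-squarefree reduce with `gam (n p²) = gam n`), and
`gam_cls` gives `gam(ab) = gam b`, `gam a = gam 1 = 1`.  If `cl a = cl a'` then `a z₁⁶ = a' x z₂⁶`
(`x ∈ U`); write `x = x₁/x₂` with `x₁, x₂ ∈ R ∩ U` coprime to `b` after moving: choose `r ∈ R` coprime to
`a a' b` with `cl r = (cl a)⁻¹`, then `s ∈ R` coprime to `b` with `a r s⁶ ∈ U`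
(approximation for `z`), so `ρ(a r, b) = 1 = ρ(a' r, b)`.  Hence `chi a b = sg a b * chi b a`, `HH` is a
bicharacter of `G` with `HH g h · HH h g = 1`, values `±1`·(cube roots of unity); for a unit `u`,
`chi a u = sg a u`, so it depends only on `cl a` and `cl u`, `= 1` if `cl u = 1`.  `gam`, `chi · 4`, `f1`
are functions of `cl`.
(e) `hchars` = characters of `G / cl(R^*)` (finite).  By `prim_cl` the subgroup `cl(Prim)` of `G` meets
`cl(R^*)` trivially, so every function `φ : G → ℂ` satisfies `φ (cl n) = ∑_{θ ∈ hchars} c_θ θ.v n` for all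
`Prim n`, `|c_θ| ≤ sup |φ|` (`expand_class`); a character of `G` restricted to `Prim` is `θ.v` for some
`θ ∈ hchars` (`exists_hchar`, e.g. `n ↦ sg n k`, `n ↦ chi n u`).
(f) `exists_setup`: `lev = max` of the two levels (both properties are monotone).  `G` is a
`ℤ/6`-module, `cl(R^*)` a submodule.  It need NOT have a complement, so define `prim` as follows: let
`A = cl(R^*)`, `π : G → G/A`.  `ℤ/6 = 𝔽₂ × 𝔽₃`, so `G = G₂ × G₃` are vector spaces, and `A = A₂ × A₃`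
HAS a complement `𝒟`.  For each prime ideal choose a generator `ι(P)` with class in `𝒟`; `prim a` iff
`a` is a product of such.  `exists_loc`: `Q = 6 f ∏ (norms of integral representatives of Cl)`.
`exists_fld`: `K = ℚ(ζ_m)`, `𝓞 = ℤ[ζ]`, `δ = Φ_m'(ζ)`, `|δ_v| = ∏_{ζ'≠ζ} |ζ - ζ'| ≤ 2^{n}`.

## B2. `angN x = ang x` on `U_1`
For a prime `p` of `R`, `q = N p`: `g3(p)³ = J/√q`, `J = J(cub,cub) ∈ ℤ[ω]`, `|J|² = q`, `J ≡ -1 mod 3`
(R17 RecKub/RecCub/RecKey have the case `K = ℚ(ω)`).  Let `𝔭 = pR ∩ 𝓞`, `𝔭 ∩ ℤ[ω] = (π)`, `f` the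
relative degree, `q = N(π)^f`.  If `π` has degree one (`N π = ℓ ≡ 1 mod 3`): mod `p`,
`J ≡ ∑ x^{(q-1)/3}(1-x)^{(q-1)/3} ≡ 0` and `conj J ≡ -(-1)^{k}·binom(2k,k)`, `k = (q-1)/3`, (coefficient
of `x^{q-1}` in `x^{2k}(1-x)^{2k}`), non-zero mod `ℓ` by Lucas (all base-`ℓ` digits of `k` are
`(ℓ-1)/3`).  So `π ∤ conj J`, `J conj J = (π conj π)^f` gives `J ~ π^f`.  If `π = ℓ ≡ 2 mod 3` is inert,
`J ~ ℓ^f` directly.  So `-J` is THE primary (`≡ 1 mod 3`) generator of `N_{K/F} 𝔭` (alternatively use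
Hasse–Davenport lifting).  For `x ∈ R ∩ U_1`: `x` is a unit at `S`, integral outside, so `x ∈ 𝓞`,
`n = ∏_v x_v = N_{K/F}(x) ∈ ℤ[ω]` is `≡ 1 mod 3` and generates `∏ N_{K/F} 𝔭`; so `n = ∏ (-J_p)`.

## B3. Theta functions
Common tool: Poisson summation for Gaussians on `K_∞ = ℂ^d ⊇ 𝓞` (self-dual for `eT`): for a fractional
ideal / full lattice `L` with dual `L'`, `a ∈ K_∞`, `t_v ∈ ℂ`, `Re t_v > 0`, and (LS only) a quadratic
phase.  Use `Mathlib` `mFourier`/`ZLattice` or R17 `PoissonAux` (basis of `𝓞`, multi-dim Gaussian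
`fourier_gaussian_innerProductSpace`, `integral_cexp_neg_sum…`).
### B3LS (`exists_gamCls`).
Elementary: `gam (n u²) = gam n` (`u` unit), `gam (n p²) = gam n` (`p` prime, odd).  So `gam` extends to
`K^*/K^{*2}`; every class mod squares has a representative `n ∈ 𝓞` with `0 ≤ v(n) < 2h` at `v ∈ S`
(`ϖ_v ∈ 𝓞` generating `v^h`, units of `R`).  For such `n` and `j ≥ j₀` (uniform):
`√N(n) gam n = ∑_{x ∈ R/n} ee(Q^{2j}x²/n) = c·∑_{x ∈ 𝓞/n} eT(Q^{2j} x²/n)` (the summand only depends on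
`x mod` the prime-to-`S` part of `n`).  Landsberg–Schaar: compare `θ(ε) = ∑_{x∈𝓞} eT(a x²/n) e^{-ε|x|²}`
as `ε → 0` directly and after Poisson (the form `Tr_{ℂ/ℝ}(c x²)` on `ℂ` has signature `(1,1)`, so the
archimedean factor is positive real): `gam n = c(j, v_S(n)) · mean_{y ∈ 𝓞/4Q^{2j}δ-ish} eT(-n y²/(4Q^{2j}))`
up to the harmless `δ²` (`eT(x) = e(Tr(x/δ))`, dual variable `y`: `x²a/(nδ) + xy/δ`, completing the square
gives `-n y²/(4aδ)`), which depends only on `n mod 4Q^{2j}` and on the `S`-valuations of `n`.  With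
`|gam n| = 1` one gets `gam n = phase of the mean`.  If `a = b x z²`, `x ∈ U_lev`, `lev ≥ 2j+2+2h`:
normalise `b` to `n ∈ 𝓞` as above, write `x = x₁ x₂/x₂²`, `x_i ∈ 𝓞 ∩ U`, `n x₁ x₂ ≡ n mod 4Q^{2j}`.
### B3W.
`Om y T` = sum over the `S`-integral elements of the orbit `y R^*`.  `Om_le/Om_ge/summable_wt/tsum_wt_le`
by lattice point counts (Dirichlet unit theorem for `𝓞^*`: every ideal class of generators has a
representative with all `|x_v|² ≍ N^{1/d}`; the orbit is `⋃_{𝔰 S-ideal} {generators of (y)𝔰}`,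
`∑_𝔰 N𝔰^{-σ} < ∞` for `σ > 0`).  `poisson_per`: `∑_k φ(k) wt k 1 T = ∑_{x ∈ 𝓞} φ(x) gau(x,T)` (unit
invariance; `R^*`-orbit of `k` ∩ `SInt` = orbit ∩ `𝓞`); `φ` is periodic mod `𝔮 = qR ∩ 𝓞`, `𝓞/𝔮 = R/q`;
Poisson over `𝔮⁻¹ = {h ∈ q⁻¹R, SInt}`, `h = h'/q`, `∑_{x mod 𝔮} φ(x) eT(hx) = gs q φ h'`, and
`gs q φ (u h') = gs q φ h'`.  `mellin_Om`: `y ↦ Om y T` is a function on `K^*/R^*`, invariant under
nothing else; put `ℓ̄(y) = lg y - ∑_{v∈S} v(y) h⁻¹ lg ϖ_v ∈ ℝ^d`, `∑_v ℓ̄_v = log N(y)`.  `Om y T` depends on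
`y` only through `(v(y) mod h)_{v∈S}` and `ℓ̄(y) mod Λ`, `Λ = lg 𝓞^*`… more precisely through the image of
`y` in the group `𝒜 = K^*/R^* → (ℤ^S × ℝ^d)/image(R^*)`, which is (compact group) × ℝ.  Fourier
expansion on that group: its characters trivial on the `ℝ` factor are the twists `ν` that are trivial on
all `S`-units `≡ 1`, i.e. `ν(y) = ch ξ y · ∏_{v∈S} z_v^{v(y)}`, `|z_v| = 1`, trivial on `R^*`; `ξ` runs over a
finite union of translates of the dual lattice of `Λ`, with boundedly many `z` each.  Unfolding gives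
`Γ ν τ = c · ∏_v Γ(σ+i(τ+ξ_v)) (2π/dl v)^{-…} · ∏_{v ∈ S}(1 - z_v N v^{-σ-iτ})⁻¹` (and `0` for the other
`ν`); decay `e^{-c(|τ|+‖ξ‖)}` since `∑ξ = 0`.  A hands-on proof: expand `(w,η) ↦ ∑_{λ∈Λ} ∏_v exp(-c_v
e^{η_v+λ_v})` in a Fourier series on the torus `{∑η=w}/Λ` and Mellin in `w`; treat `𝔰` by finite
characters of `ℤ^S/…`.  `sqsum`: insert `mellin_Om` with `σ > 1/2`: the `a`-sum is
`dser (ν²) (2s) · PP ν q s = Lser (ν²).toH (2s) · PP`; shift to `Re s = σ < 1/2` (`B3L`); a pole occurs only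
for `ν² = 1`, forcing `ξ = 0` (`ch (2ξ) = 1` on `U`, dense in `K_∞`; or via `HChar` uniqueness), so
`ν ∈ hchars`, `ν(b) conj ν(q0)` is a function of `cl b / cl q0` invariant under squares and `PP ν q = PP 1 q`.
### B3L.
`HChar f ξ ψ`.  Split ideals by the class group; for the class of `𝔞⁻¹` (`𝔞` coprime to `f`):
`∑_{x ∈ 𝔞/𝓞^*} φ(x) conj-free ch ξ x · N(x)^{-s}` with `φ(x) = ψ((x)) conj (ch ξ x)` periodic mod `f𝔞`
on `𝔞` (from `ray`), `φ · ch ξ` unit invariant.  Hecke: integrate `θ(t) = ∑_{x∈𝔞} φ(x) exp(-2π∑ t_v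
|x_v|²/dl v)` against `∏ t_v^{s - iξ_v}` over `ℝ_{>0}^d / lg(𝓞^* ∩ U)`; Poisson gives the functional
equation `Λ(s,φ,ξ) = Λ(1-s, φ̂, -ξ)` for arbitrary periodic `φ`, with poles only at `0,1` and only if
`ξ = 0`, residue `∝ ∑ φ`.  `Ef ψ 1 = 0` unless `ψ = one0 f` (standard: `Ef ψ 1 = ψ(𝔟) Ef ψ 1` for ray
class characters as all classes have the same residue).  UNIFORM growth: work with the entire function
`E(s) = (s-1)L(s)`.  On `Re s = σ₀ ≥ 2`: `|L| ≤ ζ_K(2) ≤ ζ(2)^{2d}`.  On `Re s = 1-σ₀`: functional equation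
per class is not uniform (class number), so use it in ideal form: `∑_{classes}` of the dual series is
`∑_{𝔟} c(𝔟) N𝔟^{-(1-s)}` with `|c(𝔟)| ≤ sup|φ̂| ≤ 1`·normalisation: each integral ideal `𝔟` occurs once,
so `|L(s)| ≤ (f^{2d} ∏dl²)^{σ₀} ∏_v |Γ(1-s+iξ_v)/Γ(s-iξ_v)| (2π)^{…} ζ_K(2)`; for integer `σ₀` the ratio of
Gammas is bounded by a polynomial (`|Γ(σ₀+it)/Γ(1-σ₀-it)| = ∏|…| ≤ (σ₀+|t|)^{2σ₀-1}`).  In between:
Phragmén–Lindelöf with an a-priori (non uniform) bound `e^{A|t|}`; to be uniform apply it to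
`E(s) / ∏_v (s + σ₀+1 + iξ_v)^{2σ₀}·(…)` or use R17 `PL_poly`/Mathlib `PhragmenLindelof.vertical_strip`.

## B4. Second moments (port; read the R17 files, the proofs go through verbatim except as noted)
Rows are `0` and `Prim` with weight `wt`; `Om_ge` replaces `1 ≲ Om(x)` for `x ≤ 1`.  Before Poisson split
`α` into the `|G|` classes (`OneCl`): then `d ↦ χ_{m1}(d) conj χ_{m2}(d)` is unit invariant, so
`poisson_per` applies.  `sg`, `f1`, `chi m u` are expanded in `hchars` (finite sum); `mellin_Om` separates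
variables with a countable sum `∑' ν' ∫ τ`, so every statement is proved for all `ν : Tw K` with
`(1+|t|+ν.sz)^B`, `sz (νν') ≤ sz ν + sz ν'`.  Coprimality to `g` and the factor `χ_m(e r²)` are absorbed in
the row: `conj χ_m(k r⁴ g⁶…)`.  The zero row / square rows in `qls` use `sqsum`.  Cube removal as in R17
(`tt(m₀c³) = tt(m₀) angN(c)³ √N(c)`; NOTE `angN c ^ 3` is multiplicative of modulus one, as is `χ_c(k)³`; R17
handles `ang(c)³` the same way).  `thetaNorm`: write the row `k = k' r`, `k'` squarefree, `r` powerful,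
coprime; `conj χ_m(k) = (class fn) · conj χ_k(m)`, `χ_k = χ_{k'} χ_r`, `χ_r = (primitive part mod ρ | rad r)
× 1_{(m, r₀)=1}`; expand `1_{(m,r₀)=1}` by Ramanujan sums/Möbius as in R17 `ThetaNorm_Exp`, i.e. write
`m ↦ conj χ_k(m)` as a combination of `gs c1 ψ m`, `c1 = k' ρ'`; apply `voronoi`; the dual character at a
prime of `k'` is `conj(conj χ)·conj cub = χ^{-1}`… as in R17 (`dual`), giving the quadratic symbol after
combining with `τ`; `qls` finishes.  `voronoi` has the kernel `e^{u/4}∫κ b e^{iτu}` (line `Re s = 3/4`).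

## B6. `zf`
Choose `Loc` with `f ∣ Q`, `Setup`, `ν : Tw` with `ν.v(gen I) = ψ I` (`I` coprime to `Q`), `ξ = 0`.  Let
`M(y) = pb(μν) y 0`.  For `Prim a`, row `d = a⁶`: `Mb ν (a⁶) y 0 = ∑_{(n,a)=1} …`, and
`M(y) = ∑_{e ∣ a} μν(e) N(e)^{-1/2} Mb ν (a⁶) (y - log N e) 0` (`n` squarefree, `n = e n'`).  Take
`D = e^y`, `a ∈ ball (D^{1/6})` (at least `c D^{1/6}` elements: residue of `ζ`, or powers are not enough —
use Mathlib's ideal asymptotics, or B3L): Cauchy–Schwarz and `fMoment` (for each `e`, rows `a⁶ ∈ ball D`)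
give `D^{1/6}|M(y)|² ≲ Z^ε D`; (sum over `e` first: `∑_a |M|² ≤ ∑_a τ(a) ∑_{e|a} N e^{-1}|Mb|² ≤ Z^ε ∑_e
N e^{-1} ∑_d |Mb(d, y - log N e)|²`).  So `|M(y)| ≲ e^{(5/12+ε)y}`; the two-sided Laplace transform of `M`
is `ĝw · 1/L(1/2+w)` (R17 `SigMellin`, `Step`), so `1/L` continues to `Re s > 11/12`: `Lf ν.toH ≠ 0` there.
Finally `Lf ψ = Lf ν.toH · ∏_{P ∣ Q, P ∤ f}(1 - ψ(P)NP^{-s})⁻¹` (identity theorem), and `ψ = one0 f` iff
`ν.toH = one0`  (⇐ : `ψ` is a ray class character mod `f`, every ray class has ideals coprime to `Q`).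

## B7. `least_prime`
`n = 2d`, `E₀ = Ef (one0 f)`, `L = Lf ψ` entire; both have no zero on `Re s > 11/12`, so on the disc
`|s-2| < 1.08` there are holomorphic logarithms; `g = log E₀ - log L`.  `Re log ≤ log(growth) =: M`,
`M ≤ C(d log(Cf) + log∏dl)`, `|log| ≤ Cd` at `s = 2` — for BOTH functions; Borel–Carathéodory
(`Complex.borelCaratheodory`) gives `|g| ≤ C M` on `|s-2| ≤ ρ = 1.05`, so `|g^{(k)}(2)/k!| ≤ C M ρ^{-k}`.
On `Re s > 1`: `g(s) = log(s-1) + ∑_{P,j} (1-ψ(P)^j) NP^{-js}/j`, so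
`(-1)^k g^{(k)}(2)/k! = -1/k + ∑ (1-ψ(P)^j) j⁻¹ (log NP^j)^k NP^{-2j}/k!`; the real part of the sum is
`≥ 0` termwise.  [So `∑ = 1/k + O(Mρ^{-k})`.]  If `ψ(P) = 1` for all degree-one `P` with `NP ≤ y`:
(i) degree-one `P`, `j = 1`, `NP > y`: `(log x)^k/k! ≤ a^{-k} x^{a}`, with `a = 1/2`: total
`≤ 2 n 2^k ∑_{x>y} x^{-3/2} ≤ 4 n 2^k y^{-1/2}`;  (ii) `NP^j = ℓ^i`, `i ≥ 2`: the series converges on
`Re s > 1/2`, take `a = 1.4`: `≤ C n 1.4^{-k}`.  With `k ≈ C log(M+n)` and `y = (M+n)^{C'}`: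
`1/k ≤ CMρ^{-k} + Cn1.4^{-k} + 4n2^k y^{-1/2}` is false.  It is easier to work with `g' = E₀'/E₀ - L'/L`
or directly with logarithmic derivatives and von Mangoldt coefficients; either is fine.

## B8. `nr`, `nr2`
`NR2`: `K = ℚ(ζ₃)`, `ψ(𝔞) = (N𝔞 / p)` (Legendre), `HChar p 0 ψ` (`x ≡ 1 mod p ⟹ N x ≡ 1`), and
`ψ ≠ one0 p`: if `(N𝔞/p) = 1` always then all `x² - xy + y²` prime to `p` are squares mod `p`, but the norm
form represents every residue mod `p > 3`.  `least_prime` gives a prime `ℓ = NP` with `(ℓ/p) = -1`.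
`NR`: `m = 3r` (`r ≥ 5`), `m = 3` if `r = 3`; `K = CyclotomicField m ℚ`, `n = φ(m) ≤ 2r`.  If `p = 3`… (`r < p`,
so `p ∤ m` always as `p > r ≥ 3`).  Fix a prime `𝔭 ∣ p`, `q = N𝔭 = p^e`, `e = ord_m(p)` divides `φ(m)`, so
`r ∤ e`; hypothesis `p^d ≡ 1 mod r²` with `d < r` gives `r² ∣ q - 1` (order of `p` mod `r²` divides `d`,
is prime to `r`, hence equals the order mod `r`).  `χ_𝔭 = (·/𝔭)_r` is trivial on `μ_{2m}` [`μ_r` as
`r² ∣ q-1`; orders prime to `r` automatically; for `r = 3`, `μ_6`].  `θ = ∑_{a ∈ (ℤ/m)^*} (a mod r) σ_a⁻¹`.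
`Good(𝔞,β)`: `β ∈ K^*`, `(β) = 𝔞^θ`, `|σβ|² = N𝔞^r` for all embeddings (`θ(1+c) = r·Norm`).  Good is
multiplicative; `β` is unique up to roots of unity (Kronecker); `Good((x), x^θ)`.  For a degree-one prime
`𝔮` over `ℓ ∤ m` (`ℓ ≡ 1 mod m`): `χ = (·/𝔮)_r^{-1}` on `𝔽_ℓ`, `g = ∑χ(x)ζ_ℓ^x`,
`Φ = g^r = ℓ ∏_{i=1}^{r-2} J(χ,χ^i) ∈ ℤ[ζ_r]`; for `σ_a⁻¹𝔮`: `σ_a J(χ,χ^i) = J(χ^a,χ^{ai}) ≡` a binomial
coefficient mod `𝔮` (`χ^a(x) ≡ x^{-(ℓ-1)a/r}`), `≢ 0` iff `⟨a⟩+⟨ai⟩ < r`… and `J conj J = ℓ` unramified,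
so valuations are `0/1` and sum to `v(Φ) = ⟨a⟩` (choose the sign convention so that it fits):
`Good(𝔮, Φ)`.  The classes of degree-one primes coprime to `pm` generate `Cl(K)`: otherwise a non-trivial
class group character trivial on them is an `HChar (pm) 0` contradicting `least_prime`.  So every `𝔞`
coprime to `p` has a `Good β` (a unit at primes above `p`), `ψ'(𝔞) := χ_𝔭(β)` (`0` if not coprime to
`f = p m`) is a well defined `HChar f 0`: `x ≡ 1 mod p ⟹ x^θ ≡ 1`.  Non-trivial: choose `x ≡ g₀ mod 𝔭`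
(generator), `x ≡ 1` mod the other primes above `p` and mod `m`: `χ_𝔭(x^θ) = ∏_{a ∈ D} χ_𝔭(σ_a⁻¹x)^{⟨a⟩}`,
`D = ⟨p⟩`, for `a = p^j`: `σ_a⁻¹ x ≡ x^{p^{-j}}`, so each factor is `χ_𝔭(x)^{p^{-j}·p^{j}}`, total
`χ_𝔭(x)^e ≠ 1`.  `least_prime` gives a degree-one `𝔮` over `ℓ ≤ (r log p)^C`, `ℓ ∤ pm`, so `ℓ ≡ 1 mod r`,
with `χ_𝔭(Φ) ≠ 1`.  In `𝓞[ζ_ℓ]` modulo a prime above `𝔭`: `g^q ≡ ∑χ(x)^q ζ^{qx} = conj χ(q) g`
(`χ^q = χ`), so `Φ^{(q-1)/r} = g^{q-1} ≡ conj χ(p)^e`; thus `χ(p) ≠ 1`, i.e. `p^{(ℓ-1)/r} ≢ 1 mod ℓ`.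
(Work with Mathlib `gaussSum`, `jacobiSum`, `gaussSum_frob`, `MulChar.ofPowerResidue`-like constructions.)
-/
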