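/-!
# R312 / ReadB1 : cubic reciprocity over `K` (paper proof of `exists_rec3`, head module `B1Main`)

Idea (Kubota, Hill; Matsumoto/Milnor §9): a central extension `G~` of `GL_N(F)`, `F = ℚ(ω)`, by `μ₃` whose
commutator on multiplication operators of `K` is `cub a b / cub b a`; it splits over an `S`-adic congruence
subgroup because cubic reciprocity holds in `F` (R17 `cub_rec`, `cub_congr`, supplements in `RecCub/RecKub`).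

NOTATION. `O = ℤ[ω]` (R17.O, Euclidean), `R₀ = O[1/Q]` (PID), `A₀ = O_{(S)}` = elements of `F` with denominator
an integer coprime to `Q`.  `𝓞 K` is a free `O`-module of rank `d`; an `O`-basis of it is an `R₀`-basis of
`R = R K`, an `A₀`-basis of `SInt` and an `F`-basis of `K`.  `N = d + 2`, `Λ = R₀^N`, `M = M_N(R₀) ∩ GL_N(F)`.
For `a ∈ K`, `m(a) ∈ M_d(F)` is the matrix of multiplication by `a`, `det m(a) = N_{K/F} a =: Na`.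
Write `μ₃` additively as `ZMod 3` if convenient.

## 1. Gauss lemma (`det3`)
Let `A` be a finite `R₀`-module.  `1-ω` is a unit of `R₀`, so `ω` acts freely on `A∖0`, `#A ≡ 1 mod 3`.
A *gauge* on an `ω`-stable finite set `X ⊆ A∖0` is `f : X → ZMod 3`, `f(ωx) = f(x)+1`.  For two gauges
`δ_X(f,f') = ∑_{orbits}(f' - f) = ∑_{x : f x = 0} f'(x)`; `δ(f,f')+δ(f',f'') = δ(f,f'')`, additive over disjoint
unions, invariant under equivariant bijections.  If `π : A → A''` is onto with kernel `A'` then for gauges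
`f,f'` on `A''∖0`: `δ_{A∖A'}(f∘π, f'∘π) = #A' · δ(f,f') = δ(f,f')`.
For an automorphism `φ` of `A`: `det3(φ|A) = δ(f, f∘φ)` (independent of `f`, a homomorphism).  If `φ`
preserves `A'`: `det3(φ|A) = det3(φ|A') + det3(φ|A'')`.  If `A = R/p` (`p` prime) and `φ` = mult. by `b`:
`ω^{det3} = cub p b` up to a fixed sign convention (multiply `b·s = ω^{j(s)} s'` over `{s : f s = 0}`).  By
induction on the prime factors (`pR/paR ≅ R/a`): `ω^{± det3(b | R/a)} = cub a b` for coprime `a,b`.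
The same over `R₀`.

## 2. The extension
For `g ∈ M` fix a gauge `f_g` on `(Λ/gΛ)∖0`.  For `g,h ∈ M` the *composite gauge* `f_g * f_h` on `(Λ/ghΛ)∖0` is
`f_g ∘ proj` outside `gΛ/ghΛ` and `gx ↦ f_h(x)` on `gΛ/ghΛ ≅ Λ/hΛ`.  `*` is associative, and
`δ(f*f', f₁*f₁') = δ(f,f₁) + δ(f',f₁')` by §1.  Hence `σ(g,h) = δ(f_{gh}, f_g * f_h)` is a 2-cocycle on the
monoid `M`; `M~ = M × ZMod 3` with `(g,s)(h,t) = (gh, s+t+σ(g,h))` is a cancellative monoid (`σ(1,·)=0=σ(·,1)`).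
If `g,h` commute, `g~h~ = ⟨g,h⟩ h~g~`, `⟨g,h⟩ = σ(g,h)-σ(h,g)`.  For integers `n ≥ 1` let `z(n) = (n·1,0)³`:
central (`x y = c y x ⟹ x³ y = y x³`) and `z(n)z(m) = z(nm)` (`x³y³ = (xy)³` when `xy = c yx`, `c³=1`).
Every `g ∈ G = GL_N(F)` has `n³g ∈ M` for some `n`.  `G~ = M~[z⁻¹]` (pairs modulo `(x,n) ~ (y,m) ⟺
x z(m) = y z(n)`; or define the cocycle on `G` by `(n_g³g)~ (n_h³h)~ z(n_{gh}) = σ'(g,h) (n_{gh}³gh)~ z(n_g n_h)`).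
RESULT: a group `G~`, `π : G~ → G` onto, kernel = central `μ₃`, and for commuting `g,h ∈ M` the commutator of
lifts is `⟨g,h⟩`.  On any commutative subgroup of `G` the commutator `⟨·,·⟩` is bimultiplicative, alternating.
(E1) If `g,h ∈ M` commute and `gΛ + hΛ = Λ` then `⟨g,h⟩ = ±(det3(h|Λ/gΛ) - det3(g|Λ/hΛ))`.  Proof:
`Λ/ghΛ = A ⊕ B`, `A = hΛ/ghΛ ≅ Λ/gΛ`, `B = gΛ/ghΛ ≅ Λ/hΛ` (projections; bijective by counting).  Compare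
`f_g*f_h` and `f_h*f_g` on `B∖0` (gives `det3(g|Λ/hΛ)`), on `A∖0` (gives `-det3(h|Λ/gΛ)`), and on
`{(a,b) : a,b ≠ 0}` where the gauges are `f_A(a)` and `f_B(b)`: `∑_{f_A(a)=0} ∑_{b≠0} f_B(b) = 0` as each orbit
contributes `0+1+2 = 0`.
Consequences: block diagonal `g = diag(g₁,1)`, `h = diag(1,h₂)` have `⟨g,h⟩ = 0` (first in `M`, then for all by
bimultiplicativity, `g₁ = g₁'/n`); for coprime `a,b ∈ R∖0`, `⟨diag(m a,1,1), diag(m b,1,1)⟩ = 0 ⟺ cub a b = cub b a`.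

## 3. The symbol over `F`
`c_i(x,y) = ⟨D_i(x), D_i(y)⟩`, `D_i(x) = diag(1,…,x,…,1)`, `x,y ∈ F^*`.  Let `U^F = 1 + Q²A₀` (`9 ∣ Q²`).
CLAIM `c_i(u,y) = 0` for `u ∈ U^F`, `y ∈ F^*`.  (a) `u, y ∈ R₀` coprime: `u ∈ O`, `u ≡ 1 mod Q²`; by (E1) it is
`(y/u)₃ = (u/y)₃` with `(u/y)` over the primes outside `S`; write `y = ±ω^a λ^b ∏_{π∈S}π^{e} y'`, use
`(ω/u) = (λ/u) = 1` (`u ≡ 1 mod 9`), `(π/u) = (u/π) = 1`, `(y'/u) = (u/y')`.  (b) `u ∈ U^F`, `y ∈ R₀` with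
`u = a/b`, `ab` coprime to `y`: multiply by `s` coprime to `y` with `bs ∈ U^F`.  (c) `y = π` prime of `R₀`,
`u = π^k x'`: pick `t ∈ R₀` coprime to `π` with `πt ∈ U^F`; `u = (πt)^k u'` with `u'` as in (b), so it suffices
to show `c(π,t) = 0`.  For two such `t,t'` coprime to each other, (a) gives `c(πt,t') = 0 = c(πt',t)`, adding:
`c(π,t)+c(π,t') = 0`.  With three pairwise coprime `t,t',t''`: `2c(π,t) = 0`, so `c(π,t) = 0`.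

## 4. Canonical lifts and Steinberg relations (pure group theory for ANY central extension of `GL_N(F)` by a
group of exponent 3, `N ≥ 3`)
For `X² = 0`: `L(X) = (any lift of 1+X/3)³`, a lift of `1+X`.  `g~ L(X) g~⁻¹ = L(gXg⁻¹)`;
`L(X)L(Y) = L(X+Y)` if `X²=Y²=XY=YX=0`.  `x_ij(t) = L(tE_ij)`, `w_ij(u) = x_ij(u)x_ji(-u⁻¹)x_ij(u)`,
`h_ij(u) = w_ij(u)w_ij(1)⁻¹` (`w_ij(u)⁻¹ = w_ij(-u)`), `π h_ij(u) = D_i(u)D_j(u⁻¹)`.  All conjugation formulas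
come from matrices: for a lift `g~` of a monomial matrix, `g~ x_ij(t) g~⁻¹ = x_{i'j'}(εt)`, so
`g~ w_ij(u) g~⁻¹ = w_{i'j'}(εu)`; `x_ij(s)x_jk(t)x_ij(s)⁻¹ = x_jk(t)x_ik(st)`.
(W1) `w_ij(t) = w_ji(-1/t)` (conjugate `w` by itself).
(W2) `h_ik(u) h_ij(v) h_ik(u)⁻¹ = w_ij(uv)w_ij(u)⁻¹ = h_ij(uv)h_ij(u)⁻¹`; the left side is `⟨…⟩ h_ij(v)` with
`⟨D_i(u)D_k(u⁻¹), D_i(v)D_j(v⁻¹)⟩ = c_i(u,v)`.  So `h_ij(uv) = h_ij(v)h_ij(u) = h_ij(u)h_ij(v)` if `u` or `v ∈ U^F`.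
(W3) `h_ik(u) = h_jk(u) h_ij(u)`: with `a_u = w_ij(u)`, `b = w_jk(1)`: `a_u b a_u⁻¹ = w_ik(u)`,
`b a_u b⁻¹ = w_ik(u)⁻¹`; so `h_ik(u) = a_u b a_u⁻¹ a_1 b⁻¹ a_1⁻¹ = a_u h_ik(u) a_1⁻¹ = (a_u h_ik(u) a_u⁻¹) h_ij(u)`
and `a_u h_ik(u) a_u⁻¹ = w_jk(-1) w_jk(u⁻¹) = w_jk(-1) h_jk(u⁻¹) w_jk(1) = h_jk(u)` by (W1).
(W4) if `u = 1+ts ∈ U^F`: `x_ij(t)x_ji(s) = x_ji(s/u) h_ij(u) x_ij(t/u)`.  (`t = 0` trivial.  Else by (W1)
`x_ij(t) = x_ji(1/t) w_ij(t) x_ji(1/t)`, and with `t' = t/u`: `x_ji(1/t') = w_ij(t')⁻¹ x_ji(-1/t') x_ij(t')`,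
`w(t)w(t')⁻¹ = h(ut')h(t')⁻¹ = h(u)`, `h(u) x_ji(r) = x_ji(u⁻²r) h(u)`.)

## 5. Splitting
`J = Q^m A₀`, `m ≥ 2` (`1+J` is a group).  `H_k(J) = ⟨x_ij(J), h_ij(1+J) : i≠j ≤ k⟩`.  CLAIM: `H_k ∩ μ₃ = 1` and
`π H_k = {γ ∈ SL_k(A₀), γ ≡ 1 mod J}`.  Induction: `L_k = H_k · h_{1,k+1}(1+J)` is a group containing all
`h_{i,k+1}(1+J)` (W2, W3; `h_{1,k+1}(u)` normalises `H_k`), `V⁻ = ∏_j x_{k+1,j}(J)`, `V⁺ = ∏_i x_{i,k+1}(J)`
(commutative groups `≅ J^k`, normalised by `L_k`).  `V⁻L_kV⁺` is stable under left multiplication by all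
generators: clear for `V⁻, L_k`; for `x_{i,k+1}(t)` move it to the right through `x_{k+1,j}(s_j)`, `j ≠ i`
(creates `x_ij(ts_j) ∈ L_k`), then apply (W4) to `x_{i,k+1}(t)x_{k+1,i}(s)`.  So `H_{k+1} = V⁻L_kV⁺`; if
`π(v⁻ l v⁺) = 1` then reading the last row/column all parameters vanish and `l ∈ H_k ∩ μ₃ = 1`.
Surjectivity: Gaussian elimination (the pivot is `≡ 1 mod J`).  (One can avoid the double induction by
proving directly: every element of `H_N` is `∏_k v⁻_k · ∏ h · ∏ v⁺_k`.)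

## 6. Conclusion
`H = H_N(Q²A₀)`.  If `X² = 0`, `X ∈ Q³M_N(A₀)` then `1+X/3 ∈ πH`, so `L(X) ∈ H` (cube of a lift in `H`).
Let `g ∈ G` with `g, g⁻¹ ∈ Q^{-e}M_N(A₀)`, `J' = Q^{2e+3}A₀`, `E = ⟨x_ij(J')⟩`: `g~ E g~⁻¹ ⊆ H`, `E ⊆ H`, and
`H_N(J'²) ⊆ E` ((W4): `h(1+ts) ∈ E`).  If `γ ≡ 1 mod J'²`, `det γ = 1`, commutes with `g`, take its lift
`s ∈ H_N(J'²)`: `g~ s g~⁻¹ ∈ H` lies over `γ`, so equals `s`: `⟨g,γ⟩ = 0`.
For `b ∈ K^*` there is `z` with `b z³ ∈ SInt` and `Q^{e₀}/(bz³) ∈ SInt`, `e₀` independent of `b`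
(`ϖ_v ∈ 𝓞` generating `v^h`, `v ∈ S`; or `K^*/(SInt^* K^{*3})` finite); `⟨·, z³⟩ = 0`.  Take
`g = diag(m b, 1, 1/Nb)`, `γ = diag(m a, 1/Na, 1)`, `a ∈ U_n`, `n = 2(2e+3)`, `e = d e₀`:
`0 = ⟨γ,g⟩ = ⟨diag(m a,1,1), diag(m b,1,1)⟩` (other terms are in different blocks).  For coprime
`a, b ∈ R` this is `cub a b = cub b a`; otherwise both sides are `0`.
-/
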