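/-!
# R312 / ReadB5 : the cubic theta function over `K` and `voronoi` (paper proof; port of `R17/Vo*`)

`O = 𝓞 K`, `R = R K`, `A = SInt`, `U = U_lev`, `q₀ = Q^lev`, `Υ = R^* ∩ U = O^* ∩ U` (torsion free, finite index
in `O^*`), `d = dd K`.  `eT x = ee x · eS x`, `eS x := eT x · conj (ee x)` is trivial on `A`, `ee` on `R`.
On `K_∞ = (Pl K → ℂ)`: `eI z = ∏_v R17.ee (λ_v z_v)`, `λ_v = √3 i/δ_v`, `eI (emb x) = eT x`.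
`|x|_∞ = ∏_v |x_v|²`, `sS x = ∏_{v∈S} Nv^{v(x)}` (`= #(A/xA)` for `x ∈ A`), `|x|_∞ = N x · sS x` on `R∖0`.
`H3 : G × G → μ₃` the alternating bicharacter with `cub a b = H3 (cl a) (cl b) · cub b a` (coprime `a,b`;
`H3 = HH²`, since `chi² = cub`).

## A. Analysis (files `B5A*`)
`XX = Pl K → Vor.X`, product measure, `SL K` acts through `emb v`; `Ht w c d = ∏_v hr (w v) c_v d_v`;
kernel `kP w w' = ∏_v kk (uu (w v) (w' v))`.  `Γ(p) = {γ ∈ SL₂(O) : γ ≡ 1 mod q₀, p ∣ b in R}` (`p = 1`, or a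
prime of `R`), `κ γ = cub d c`.  Rows `(c,d) ∈ R²` modulo `Υ`; `Eis κ φ w = ∑_{rows/Υ} κ c d φ(Ht w c d)`.
`T (φ∘Ht) = (Tt^[d] φ)∘Ht`, eigenvalue `h(s) = hh(s)^d`.  `arg hh(1+a+ib) ∈ (0, 1.32 b)` (`tan arg ≤ max tan(bx)`,
`|x| ≤ arcosh 2`), so `Im h > 0` on `Ω = {Re s > 1, 0 < Im s < 1/d}`; `h'(4/3) > 0`.  `phs = (Tt^[d] - h) hi` is
supported in `[10·5^{-d}, 10·5^d]`.  NO reduction theory / finite covolume: `ν` is σ-finite, the Schur test only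
needs `∫|Ker(w,·)| dν ≤ ∫ kP`; evaluation functionals: `∫|Ker|² ≤ sup|Ker| ∫|Ker|`.
(L2) if `|φ(t)| ≤ t^σ 1_{t ≤ B}`, `σ > 2`, then `‖Eis κ φ‖_{L²(ν)} ≤ C(σ,B)`: for `E = Eis 1 |φ|` (all rows of
`Γ(1)`; the index `[Γ(1):Γ(p)]` is finite, or unfold directly for each cusp) `∫_{Γ\X} E² = ∫_{Γ_∞\X} |φ|(Ht) E`,
the constant term of `E` is `≤ |φ|(t) + C t^{2-σ'} ∑_{c/Υ} |c|_∞^{1-σ'}` for `2 < σ' < σ` (`|φ| ≤ C x^{σ'}`), and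
`∫_0^B t^σ t^{2-σ'} t^{-2} dt/t < ∞`.  Holomorphy of `s ↦ Eis κ (phs s)` in `L²`: Taylor remainder
`≤ C|h|² 1_{[a,b]}` and (L2).  `Γ_∞ = {(u b; 0 u⁻¹) : u ∈ Υ}` has the fundamental domain
`{x ∈ P, z ∈ cell}`, `P` a fundamental domain of `lg Υ` in `ℝ^d` (`x_v = log v_v`).  Absolute convergence for
`σ > 2`: choose `c` in its `Υ`-orbit with all `|c_v|² ≍ |c|_∞^{1/d}`; `∑_d ≤ C∫`.  Then exactly R17 VoTheta1/2,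
VoUnf, VoHecke1, VoCoef, VoExp: `thK κ = Res_{4/3} Eis κ` is continuous, automorphic, in `Eig p`;
orthogonal to every `D ∈ Eig p` whose constant terms at the cusp of `κ` vanish; Fourier coefficients of
`Eis κ (pw s) ∘ σ` are `DS · ∏_v v^{2-s} W(s, λ_v n_v v_v)`, and residues of `DS` give the expansion
`θ(σ w) = ∑_{n ∈ ℓ⁻¹O} a(n) ∏_v v^{2/3} Vr(|λ_v n_v| v_v) eI(n z)`.

## B. Arithmetic (files `B5B*`)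
(B1) Kubota: `κ` is a character of `Γ(1)` (port `RecKub.kubota`; `rec3` contains all supplements:
`cub d c = cub c d` for `d ∈ U`, `c ≠ 0`).
(K) `σ = (a b; c₀ d₀) ∈ SL₂(R)`, `a ≠ 0`, `(c,d)` coprime with `d ∈ U`, `(C,D) = (c,d)σ`, `C ≠ 0`, and
`c ∈ q₀A`.  Then `cub C D = cub d c · e_σ · H3(a, C)`, `|e_σ| = 1`, `e_σ = cub a b`.
 Proof if `(a,C) = 1`: `aD = bC + d`, so `cub C a · cub C D = cub C d = cub d C = cub d c · cub d a`,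
 `cub d a = cub a d = cub a b · cub a C`.  General: replace `σ` by `n(x)σ`, `(c,d)` by `(c, d - cx)`, `x ∈ q₀O`
 `S`-adically tiny (`cl a' = cl a`, `a' = a + x c₀`) with `(a',C) = 1`; `cub (d-cx) c = cub d c` by `rec3`; and
 `cub a' b' = cub c₀ d₀ · H3(-c₀, a') = cub a b` (coprime case for the row `(-x,1)` and `Sσ`; `c₀ = 0` trivial).
(Conj) for `τ ∈ SL₂(R)` there is `N'` with `κ(τγτ⁻¹) = κ(γ)` for `γ ≡ 1 mod Q^{N'}`.  Put `s(g) = cub g.c g.d`,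
 `g' = (d b; c a)` (anti-automorphism), `s(g') = conj s(g)`, `κ(γ') = conj κ(γ)`.  (K) for `γ'τ'` gives
 `s(τγ) = κ(γ) s(τ)` (`cl` of the lower left entry is unchanged), (K) for `(τγτ⁻¹)τ` gives the claim when
 `a,c,d ≠ 0`; any `τ` is a product of two such.
(DS) `κ_σ(C,D) = 1_σ(C,D) · conj e_σ · conj H3(a,C) · cub C D`, `1_σ = [(C,D)σ⁻¹ ∈ q₀A × U]`.  With `σ, σ⁻¹` in
 `Q^{-e}M₂(A)`, `ℓ = Q^{lev+2e}`: period `ℓ C O` in `D`; CRT `Q^{-e}O/ℓCO = R/C × Q^{-e}A/ℓCA` gives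
 `∑_D κ_σ(C,D) eT(nD/C) = conj e_σ conj H3(a,C) · gs C (cub C) n · L_σ(C,n)`,
 `L_σ(C,n) = ∑_{D ∈ Q^{-e}A/ℓCA} 1_σ(C,D) eS(nD/C)`, `L_σ(xC,n) = L_σ(C,n)` for `x ∈ U` (`D ↦ xD`),
 `|L_σ| ≤ c · sS C`, `L_σ(C,un) = L_σ(C,n)` for `u ∈ U_{lev+2e}`, `L_σ = 0` unless `C ∈ Q^{-e}A`.
 For a class `𝔠 ∈ K^*/U`: `ψ₀(n;𝔠,s) = ∑_{C ∈ (R∩𝔠)/Υ} gs C (cub C) n N(C)^{-s}`; invariant under
 `𝔠 ↦ η³𝔠`, `n ↦ η³n` (`η ∈ R^*`), `ψ₀(ηn;𝔠) = conj H3(𝔠,η) ψ₀(n;𝔠)`; `K^*/(U R^{*3})` is finite.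
 `DS_σ(n,s) = conj e_σ ∑_𝔠 conj H3(a,𝔠) L_σ(𝔠,n) (sS 𝔠)^{-s} ψ₀(n;𝔠,s)`, coefficients holomorphic on `Re s > 1`
 (`∑_{𝔠 ⊆ Q^{-e}A} (sS 𝔠)^{-ε} < ∞`).  For `σ = (Q^k 0; c₀ Q^{-k})`, `Q^k/c₀ ∈ A`, only `𝔠 = c₀U` occurs and
 `L_σ(C,n) = #·eS(n/(Q^k c₀))` if `n q₀/c₀² ∈ A`, else `0`.  With `n ↦ nQ^{3j}` this continues every `ψ₀`;
 `ρ₀(n;𝔠) = Res`.  Same with the restriction `p ∤ C` (`ψ_p`, `ρ_p`).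
(Z) `gs C (cub C) 0 = φ(C)` if `(C)` is a cube, else `0`; expanding in characters `χ` of the finite group
 `Cl = K^*/(U R^*)` (they are twists with `ξ = 0`): `ψ₀(0;𝔠,s) = |Cl|⁻¹∑_χ conj χ(𝔠) L(3s-3,χ³)/L(3s-2,χ³)`; by
 `B3L` `ρ₀(0;𝔠) = r₀·1[𝔠 ∈ Cl³]`, `r₀ > 0`, `ρ_p(0;𝔠) = q/(q+1) ρ₀(0;𝔠)` (`q = N p`).  So the constant term of
 `θ` at `∞` is `c_∞ t^{2/3}`, `c_∞ > 0` (all terms `≥ 0`, `𝔠 = Q^{3 lev}U` positive).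
(He) For `x ∈ ℙ¹(R/p)` let `θ^x` be the residue of the rows `≡ x`; `θ^x(γw) = conj κ(γ) θ^{xγ}(w)`, `Γ(1)` is
 transitive on `ℙ¹`.  `Γ(p)` fixes `x₀ = (1:0)`; its rows split in two orbits (`p ∣ d`: cusp `δ`, width `q₀O`;
 `p ∤ d`: cusp `∞`, width `𝔭q₀`).  `D = θ^{x₀} - θ/(q+1)` has zero constant terms at both (at `∞`:
 `q⁻¹·(p∤c part)`; at `δ`: the `p ∣ c` part; both `1/(q+1)` of the total by (Z)), so `D ⟂ θ^{x₀}, θ`, `D = 0`.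
 Hence `θ^x = θ/(q+1)` for all `x`, and `ρ_p(n;𝔠) = q/(q+1) ρ₀(n;𝔠)`.  With
 `g(p^kC';n) = H3(p,C')^k g(p^k;n) g(C';np^k)`, for `p ∤ n`:
 (a) `ψ₀(n;𝔠) = ψ_p(n;𝔠) + q^{-s} g(p;n) H3(p,𝔠) ψ_p(np;𝔠/p)`,
 (a') `ψ₀(np;𝔠) = ψ_p(np;𝔠) + q^{1-2s} conj g(p;n) H3(p,𝔠)² ψ_p(n;𝔠/p²)`,
 (b) `ψ₀(np²;𝔠) = ψ_p(np²;𝔠) - q^{2-3s}ψ_p(np²;𝔠/p³)`, (c) `ψ_p(np³;𝔠) = ψ_p(n;𝔠)` (all `n`).  So
 `ρ₀(np;𝔠) = q^{-2/3} conj g(p;n) conj H3(p,𝔠) ρ₀(n;𝔠p)`, `ρ₀(n;𝔠p³) = ρ₀(n;𝔠)` ((a) vs (a')), `ρ₀(np²;·) = 0`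
 (`ρ(𝔠) = -q⁻¹ρ(𝔠/p³)`, finitely many values), `ρ₀(np³;𝔠) = ρ₀(n;𝔠)`.  With `r(g) = ρ₀(1;𝔠)`, `g = cl 𝔠`:
 **(H)** `ρ₀(ηm;𝔠) = N(m)^{-1/6} tau m · conj H3(𝔠,η) · H3(𝔠,m) · r(cl 𝔠 · cl m)` (`m` Prim, `η ∈ R^*`).
 `r ≢ 0`: otherwise `θ = c_∞ Ht^{2/3}`, contradicting `|θ(γw)| = |θ(w)|` for `γ = (1 0; q₀ 1)`, `w = o`.

## C. Voronoi (files `B5C*`)
Fix `g*` with `r(g*) ≠ 0`.  For a Prim `n₀` (representatives of `Cl`) take `c₀` with `cl c₀ = g*/cl n₀`,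
`n₀' = n₀Q^{6j} ∈ c₀²q₀⁻¹A`, `σ` as above; the function `1[n ∈ n₀'U] conj eS(n/(Q^kc₀))` on `c₀²q₀⁻¹A` is a finite
combination of `eS(n x') = eT(nx')`, `x' ∈ R`; so `Θ = ∑ coef · θ(σ n(x') ·)` has coefficients
`1[n ∈ R ∩ n₀'U] N(n)^{-1/6} tau(m_n)` (`n = ηm_n`; `cl η = 1`, `cl m_n = cl n₀` by `prim_cl`).  On this set
`gs c ψ n = gs c ψ m_n`, `ν(m_n) = ν(n₀') ch ξ(n/n₀')`, `angN m_n = angN n₀ · ang(n/n₀')` (`B2Ang`).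
Given `c₁`, choose `u ∈ R^*` with `c = u c₁ ∈ c* U_{N'}`, `c*` in a fixed finite set.  For `x` mod `c` coprime take
`x, d ∈ R`, `xd ≡ 1 mod c`, both in `Q^{N'}A`, `β = (x b; c d)`; `β*` the same for `c*`.  `γ₀ = ββ*⁻¹ ≡ 1` to high
level, `κ(γ₀) = ε(c*) cub c d` by (K), so by (Conj) `Θ(βw) = conj ε conj(cub c d) Θ*(w)`, `Θ* = Θ∘β*` with
coefficients `a*(n) = N(m_n)^{-1/6} tau(m_n) b*(n)`, `|b*| ≤ C`, `n ∈ ℓ⁻¹O`, `b*(un) = b*(n)` on `Υ' = Υ ∩ U_{N'}`.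
`n(x/c) = β n(-d/c) J_c`, `J_c = (0, 1/c; -c, 0)`.  Summing against `ψ(x)`: `F₁ = conj ε · F₂ ∘ J_c`, `F₁` with
coefficients `A(n) = 1[..] N^{-1/6} tau · gs c ψ n`, `F₂` with `a*(n) gs c (dual) (-n)`.  Angular harmonic at
every place (`z_v = α v_v ζ_v`, average over `ζ ∈ μ₃^d` with `avg_ee`, divide by `α^d`, `α → 0`):
`Φ₁(v) := ∑ A(n) ∏(λn)_v v_v^{5/3} Vr(|λn|v) = ± conj ε ∑ a*gs ∏ conj((λn)_v/c_v²) v_v⁻¹ v'^{2/3}Vr(|λn|v')`,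
`v' = 1/(|c|²v)`; `n = 0` drops out.  Both sides are `lg Υ'`-invariant termwise (`∏_v u_v = ang u = angN u = 1`).
Integrate against `∏ v_v^{2s-1-2iξ_v}` over `ℝ^d/lg Υ'` (`ch ξ u = 1`): an entire function of `s`, bounded in
strips, `= D₁(s)∏Γ(s+1/3-iξ_v)Γ(s+2/3-iξ_v)·k^s` for `Re s ≫ 0` and
`= D₂(s)|c|_∞^{1-2s}∏Γ(4/3-s+iξ_v)Γ(5/3-s+iξ_v)·k^{-s}·phase` for `Re s ≪ 0`, where
`D₂(s) = ∑_{m Prim} tau m N m^{-(1-s)} ∑_{e ∈ cl R^*} gs c dual (-η_e m) β_{e,m}(s)`,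
`β_{e,m}(s) = ∑_{η ∈ R^*/Υ', cl η = e, ηm ∈ ℓ⁻¹O} b*(ηm) conj(ang·ch ξ)(ηm) sS(ηm)^{1/6-(1-s)}`, holomorphic and
uniformly bounded on `Re s ≤ 3/4`.  `kernel_lemma` (Gaussian `ĝw` beats `e^{A|t|}`): shift to `Re s ≪ 0`, expand,
shift each term to `Re s = 3/4` (resp. `1/2 - j`).  `N n^{-(1-s)} e^{(s-1/2-it)y} N c^{1-2s} =
N n^{-1/2} e^{(s-1/2-it)u} N n^{it} N c^{-2it}`, `u = log N n + y - 2 log N c`.  Index `i = (n₀, c*, e)`;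
`ω i` = indicator of `c*` times all unimodular factors depending on `c₁, ψ`; `b i n τ = tau n · N n^{it} β k_i^{iτ}/C`.
-/
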